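import Vale.Agent.P028.MathlibUsed
attribute [-instance] ProperSMul.toContinuousSMul IsTopologicalTorsor.toContinuousSMul IdemSemiring.toCanonicallyOrderedAdd IdemSemiring.toMulLeftMono IdemSemiring.toMulRightMono AddQuantale.instAddLeftMono AddQuantale.instAddRightMono Quantale.instMulLeftMono Quantale.instMulRightMono FiniteDimensional.rclike_to_real IsScalarTower.complexToReal FiniteDimensional.complexToReal

/-!
# Overlap of the sets `A_q = {y : ‖q y - γ‖ < ψ(q)}` on the circle
-/

namespace Vale.P028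

open MeasureTheory Set

/-- The set of points `y` of the circle with `‖q y - a‖ < α`. -/
def arcSet (q : ℕ) (a α : ℝ) : Set UnitAddCircle :=
  {y | ‖q • y - (a : UnitAddCircle)‖ < α}

theorem exists_lift (z : UnitAddCircle) : ∃ P : ℝ, (P : UnitAddCircle) = z ∧ |P| = ‖z‖ := by
  induction z using QuotientAddGroup.induction_on with
  | H x =>
    refine ⟨x - round x, ?_, ?_⟩
    · rw [AddCircle.coe_sub]
      have : ((round x : ℝ) : UnitAddCircle) = 0 := by
        rw [AddCircle.coe_eq_zero_iff]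
        exact ⟨round x, by simp⟩
      rw [this, sub_zero]
    · exact (UnitAddCircle.norm_eq).symm

theorem norm_coe_le (x : ℝ) : ‖(x : UnitAddCircle)‖ ≤ |x| := by
  rw [UnitAddCircle.norm_eq]
  have := round_le x 0
  simpa using this

theorem measurableSet_arcSet (q : ℕ) (a α : ℝ) : MeasurableSet (arcSet q a α) := by
  apply IsOpen.measurableSet
  exact isOpen_lt (by fun_prop) continuous_const

/-- Points of the intersection lie in one of few small arcs. -/
theorem arcSet_inter_subset (u v : ℕ) (hu : 0 < u) (huv : Nat.Coprime u v)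
    (a b α β : ℝ) :
    ∃ c : ℤ → ℝ, arcSet u a α ∩ arcSet v b β ⊆
      ⋃ m ∈ {m : ℤ | |(m : ℝ) - (v * a - u * b)| < v * α + u * β},
        Metric.ball ((c m : ℝ) : UnitAddCircle) (α / u) := by
  obtain ⟨s, t, hst⟩ : IsCoprime (u : ℤ) (v : ℤ) := Nat.isCoprime_iff_coprime.mpr huv
  have hstR : (s : ℝ) * u + t * v = 1 := by exact_mod_cast hst
  have huR : (0 : ℝ) < u := by exact_mod_cast hu
  refine ⟨fun m => -t * (m - (v * a - u * b)) / u + s * a + t * b, ?_⟩
  rintro y ⟨hy1, hy2⟩
  obtain ⟨P, hP, hP'⟩ := exists_lift (u • y - (a : UnitAddCircle))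
  obtain ⟨Q, hQ, hQ'⟩ := exists_lift (v • y - (b : UnitAddCircle))
  have hPα : |P| < α := by rw [hP']; exact hy1
  have hQβ : |Q| < β := by rw [hQ']; exact hy2
  have h1 : ((v * P - u * Q + (v * a - u * b) : ℝ) : UnitAddCircle) = 0 := by
    have e : ((v * P - u * Q + (v * a - u * b) : ℝ) : UnitAddCircle)
        = v • ((P : UnitAddCircle) + (a : UnitAddCircle))
          - u • ((Q : UnitAddCircle) + (b : UnitAddCircle)) := by
      rw [← AddCircle.coe_add, ← AddCircle.coe_add, ← AddCircle.coe_nsmul, ← AddCircle.coe_nsmul,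
        ← AddCircle.coe_sub]
      congr 1
      simp only [nsmul_eq_mul]
      ring
    rw [e, hP, hQ, sub_add_cancel, sub_add_cancel, ← mul_nsmul, ← mul_nsmul, Nat.mul_comm, sub_self]
  rw [AddCircle.coe_eq_zero_iff] at h1
  obtain ⟨m, hm⟩ := h1
  have hm' : (m : ℝ) = v * P - u * Q + (v * a - u * b) := by
    rw [← hm]; simp
  simp only [mem_iUnion]
  refine ⟨m, ?_, ?_⟩
  · change |(m : ℝ) - (v * a - u * b)| < v * α + u * β
    have e : (m : ℝ) - (v * a - u * b) = v * P - u * Q := by rw [hm']; ring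
    rw [e]
    rcases Nat.eq_zero_or_pos v with hv | hv
    · subst hv
      have : (u : ℝ) * |Q| < u * β := by gcongr
      simp only [CharP.cast_eq_zero, zero_mul, zero_sub, abs_neg, abs_mul, zero_add]
      rw [abs_of_pos huR]
      exact this
    · have hvR : (0 : ℝ) < v := by exact_mod_cast hv
      calc |v * P - u * Q| ≤ |v * P| + |u * Q| := abs_sub _ _
        _ = v * |P| + u * |Q| := by rw [abs_mul, abs_mul, abs_of_pos hvR, abs_of_pos huR]
        _ < v * α + u * β := by gcongr
  · rw [mem_ball_iff_norm]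
    have e1 : y = ((P / u + (-t * (m - (v * a - u * b)) / u + s * a + t * b) : ℝ) :
        UnitAddCircle) := by
      have : y = s • (u • y) + t • (v • y) := by
        have h2 : s • (u • y) + t • (v • y) = (s * u + t * v) • y := by
          rw [add_smul, mul_smul, mul_smul, natCast_zsmul, natCast_zsmul]
        rw [h2, hst, one_smul]
      rw [this]
      have h3 : u • y = ((P + a : ℝ) : UnitAddCircle) := by
        rw [AddCircle.coe_add, hP, sub_add_cancel]
      have h4 : v • y = ((Q + b : ℝ) : UnitAddCircle) := by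
        rw [AddCircle.coe_add, hQ, sub_add_cancel]
      rw [h3, h4, ← AddCircle.coe_zsmul, ← AddCircle.coe_zsmul, ← AddCircle.coe_add]
      congr 1
      simp only [zsmul_eq_mul]
      rw [hm']
      field_simp
      linear_combination (P) * hstR
    have e2 : y - ((-t * (m - (v * a - u * b)) / u + s * a + t * b : ℝ) : UnitAddCircle)
        = ((P / u : ℝ) : UnitAddCircle) := by
      rw [e1, AddCircle.coe_add, add_sub_cancel_right]
    rw [e2]
    refine lt_of_le_of_lt (norm_coe_le _) ?_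
    rw [abs_div, abs_of_pos huR]
    gcongr

/-- Integers in an open interval. -/
theorem int_set_card (κ R : ℝ) (hR : 0 ≤ R) :
    ∃ M : Finset ℤ, (∀ m : ℤ, |(m : ℝ) - κ| < R → m ∈ M) ∧ (∀ m ∈ M, |(m : ℝ) - κ| ≤ R) ∧
      (M.card : ℝ) ≤ 2 * R + 1 := by
  refine ⟨Finset.Icc ⌈κ - R⌉ ⌊κ + R⌋, ?_, ?_, ?_⟩
  · intro m hm
    rw [abs_lt] at hm
    rw [Finset.mem_Icc]
    exact ⟨Int.ceil_le.mpr (by linarith), Int.le_floor.mpr (by linarith)⟩
  · intro m hm
    rw [Finset.mem_Icc] at hm
    have h1 := Int.ceil_le.mp hm.1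
    have h2 := Int.le_floor.mp hm.2
    rw [abs_le]
    constructor <;> linarith
  · rw [Int.card_Icc]
    have h1 : κ - R ≤ ⌈κ - R⌉ := Int.le_ceil _
    have h2 : (⌊κ + R⌋ : ℝ) ≤ κ + R := Int.floor_le _
    rcases le_total 0 (⌊κ + R⌋ + 1 - ⌈κ - R⌉) with h | h
    · have : (((⌊κ + R⌋ + 1 - ⌈κ - R⌉).toNat : ℤ) : ℝ) = ((⌊κ + R⌋ + 1 - ⌈κ - R⌉ : ℤ) : ℝ) := by
        rw [Int.toNat_of_nonneg h]
      rw [Int.cast_natCast] at this
      rw [this]
      push_cast
      linarith only [h1, h2]
    · rw [Int.toNat_of_nonpos h]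
      push_cast
      linarith only [hR]

theorem volume_arcSet_inter_le_aux (u v : ℕ) (hu : 0 < u) (huv : Nat.Coprime u v)
    (a b α β : ℝ) (M : Finset ℤ)
    (hM : ∀ m : ℤ, |(m : ℝ) - (v * a - u * b)| < v * α + u * β → m ∈ M) :
    volume (arcSet u a α ∩ arcSet v b β) ≤ ENNReal.ofReal (M.card * (2 * (α / u))) := by
  obtain ⟨c, hc⟩ := arcSet_inter_subset u v hu huv a b α β
  calc volume (arcSet u a α ∩ arcSet v b β)
      ≤ volume (⋃ m ∈ M, Metric.closedBall ((c m : ℝ) : UnitAddCircle) (α / u)) := by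
        apply measure_mono
        refine hc.trans ?_
        intro y hy
        simp only [mem_iUnion] at hy ⊢
        obtain ⟨m, hm, hy⟩ := hy
        exact ⟨m, hM m hm, Metric.ball_subset_closedBall hy⟩
    _ ≤ ∑ m ∈ M, volume (Metric.closedBall ((c m : ℝ) : UnitAddCircle) (α / u)) :=
        measure_biUnion_finset_le _ _
    _ ≤ ∑ m ∈ M, ENNReal.ofReal (2 * (α / u)) := by
        apply Finset.sum_le_sum
        intro m _
        rw [AddCircle.volume_closedBall]
        exact ENNReal.ofReal_le_ofReal (min_le_right _ _)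
    _ = ENNReal.ofReal (M.card * (2 * (α / u))) := by
        rw [Finset.sum_const, nsmul_eq_mul, ENNReal.ofReal_mul (Nat.cast_nonneg _),
          ENNReal.ofReal_natCast]

/-- Main overlap bound for coprime multipliers. -/
theorem volume_arcSet_inter_le (u v : ℕ) (hu : 0 < u) (hv : 0 < v) (huv : Nat.Coprime u v)
    (a b α β : ℝ) (M : Finset ℤ)
    (hM : ∀ m : ℤ, |(m : ℝ) - (v * a - u * b)| < v * α + u * β → m ∈ M) :
    volume (arcSet u a α ∩ arcSet v b β) ≤
      ENNReal.ofReal (M.card * (2 * min (α / u) (β / v))) := by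
  have h1 := volume_arcSet_inter_le_aux u v hu huv a b α β M hM
  have h2 := volume_arcSet_inter_le_aux v u hv huv.symm b a β α (M.image Neg.neg) (by
    intro m hm
    rw [Finset.mem_image]
    refine ⟨-m, hM (-m) ?_, by simp⟩
    push_cast
    have e : -(m : ℝ) - (v * a - u * b) = -((m : ℝ) - (u * b - v * a)) := by ring
    rw [e, abs_neg]
    linarith only [hm])
  rw [inter_comm] at h2
  have hc : (M.image Neg.neg).card = M.card :=
    Finset.card_image_of_injective _ neg_injective
  rw [hc] at h2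
  rcases min_cases (α / u) (β / v) with ⟨e, _⟩ | ⟨e, _⟩
  · rw [e]; exact h1
  · rw [e]; exact h2

theorem arcSet_gcd (q r : ℕ) (hq : 0 < q) (a b α β : ℝ) :
    volume (arcSet q a α ∩ arcSet r b β) =
      volume (arcSet (q / Nat.gcd q r) a α ∩ arcSet (r / Nat.gcd q r) b β) := by
  have hg : 0 < Nat.gcd q r := Nat.gcd_pos_of_pos_left _ hq
  have hmp : MeasurePreserving (fun y : UnitAddCircle => ((Nat.gcd q r : ℕ) : ℤ) • y)
      volume volume := MeasureTheory.Measure.measurePreserving_zsmul volume (by exact_mod_cast hg.ne')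
  have h := hmp.measure_preimage
    (s := arcSet (q / Nat.gcd q r) a α ∩ arcSet (r / Nat.gcd q r) b β)
    ((measurableSet_arcSet _ _ _).inter (measurableSet_arcSet _ _ _)).nullMeasurableSet
  rw [← h]
  congr 1
  ext y
  simp only [arcSet, mem_inter_iff, mem_preimage, mem_ofPred_eq, natCast_zsmul, ← mul_nsmul,
    Nat.mul_div_cancel' (Nat.gcd_dvd_left q r), Nat.mul_div_cancel' (Nat.gcd_dvd_right q r)]

/-- `D(q,r) = max(r α, q β) / gcd(q,r)`. -/
noncomputable def DD (q r : ℕ) (α β : ℝ) : ℝ := max (r * α) (q * β) / Nat.gcd q r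

theorem DD_eq (q r : ℕ) (hq : 0 < q) (α β : ℝ) :
    DD q r α β = max (((r / Nat.gcd q r : ℕ) : ℝ) * α) (((q / Nat.gcd q r : ℕ) : ℝ) * β) := by
  have hg : 0 < Nat.gcd q r := Nat.gcd_pos_of_pos_left _ hq
  have hgR : (0 : ℝ) < Nat.gcd q r := by exact_mod_cast hg
  rw [DD, Nat.cast_div (Nat.gcd_dvd_right q r) hgR.ne', Nat.cast_div (Nat.gcd_dvd_left q r) hgR.ne',
    ← max_div_div_right hgR.le]
  congr 1 <;> ring

theorem volume_inter_le_of_quarter_le (q r : ℕ) (hq : 0 < q) (hr : 0 < r) (a b α β : ℝ)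
    (hα : 0 ≤ α) (hβ : 0 ≤ β) (hD : 1 / 4 ≤ DD q r α β) :
    volume (arcSet q a α ∩ arcSet r b β) ≤ ENNReal.ofReal (16 * α * β) := by
  have hg : 0 < Nat.gcd q r := Nat.gcd_pos_of_pos_left _ hq
  rw [arcSet_gcd q r hq]
  rw [DD_eq q r hq] at hD
  have hu : 0 < q / Nat.gcd q r := Nat.div_pos (Nat.gcd_le_left _ hq) hg
  have hv : 0 < r / Nat.gcd q r := Nat.div_pos (Nat.gcd_le_right _ hr) hg
  have huv : Nat.Coprime (q / Nat.gcd q r) (r / Nat.gcd q r) := Nat.coprime_div_gcd_div_gcd hg
  generalize q / Nat.gcd q r = u at *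
  generalize r / Nat.gcd q r = v at *
  have huR : (0 : ℝ) < u := by exact_mod_cast hu
  have hvR : (0 : ℝ) < v := by exact_mod_cast hv
  obtain ⟨M, hM1, hM2, hM3⟩ := int_set_card (v * a - u * b) (v * α + u * β) (by positivity)
  refine (volume_arcSet_inter_le u v hu hv huv a b α β M hM1).trans ?_
  apply ENNReal.ofReal_le_ofReal
  have h1 : (M.card : ℝ) ≤ 8 * max (v * α) (u * β) := by
    have h2 := le_max_left (v * α) (u * β)
    have h3 := le_max_right (v * α) (u * β)
    linarith only [hD, hM3, h3, h2]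
  have h4 : max (v * α) (u * β) * min (α / u) (β / v) = α * β := by
    rcases le_total (v * α) (u * β) with h | h
    · rw [max_eq_right h, min_eq_left]
      · field_simp
      · rw [div_le_div_iff₀ huR hvR]; linarith only [h]
    · rw [max_eq_left h, min_eq_right]
      · field_simp
      · rw [div_le_div_iff₀ hvR huR]; linarith only [h]
  have h5 : 0 ≤ min (α / u) (β / v) := by positivity
  calc (M.card : ℝ) * (2 * min (α / u) (β / v))
      ≤ (8 * max (v * α) (u * β)) * (2 * min (α / u) (β / v)) := by gcongr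
    _ = 16 * (max (v * α) (u * β) * min (α / u) (β / v)) := by ring
    _ = 16 * α * β := by rw [h4]; ring

theorem volume_inter_le_of_lt_quarter (q r : ℕ) (hq : 0 < q) (hr : 0 < r) (a b α β : ℝ)
    (hα : 0 ≤ α) (hβ : 0 ≤ β) (hD0 : 0 < DD q r α β) (hD : DD q r α β < 1 / 4) :
    volume (arcSet q a α ∩ arcSet r b β) ≤ ENNReal.ofReal (2 * α * β / DD q r α β) := by
  have hg : 0 < Nat.gcd q r := Nat.gcd_pos_of_pos_left _ hq
  rw [arcSet_gcd q r hq]
  rw [DD_eq q r hq] at hD hD0 ⊢
  have hu : 0 < q / Nat.gcd q r := Nat.div_pos (Nat.gcd_le_left _ hq) hg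
  have hv : 0 < r / Nat.gcd q r := Nat.div_pos (Nat.gcd_le_right _ hr) hg
  have huv : Nat.Coprime (q / Nat.gcd q r) (r / Nat.gcd q r) := Nat.coprime_div_gcd_div_gcd hg
  generalize q / Nat.gcd q r = u at *
  generalize r / Nat.gcd q r = v at *
  have huR : (0 : ℝ) < u := by exact_mod_cast hu
  have hvR : (0 : ℝ) < v := by exact_mod_cast hv
  obtain ⟨M, hM1, hM2, hM3⟩ := int_set_card (v * a - u * b) (v * α + u * β) (by positivity)
  refine (volume_arcSet_inter_le u v hu hv huv a b α β M hM1).trans ?_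
  apply ENNReal.ofReal_le_ofReal
  have h1 : (M.card : ℝ) < 2 := by
    have h2 := le_max_left (v * α) (u * β)
    have h3 := le_max_right (v * α) (u * β)
    linarith only [hD, hM3, h2, h3]
  have h1' : (M.card : ℝ) ≤ 1 := by
    have : M.card < 2 := by exact_mod_cast h1
    have : M.card ≤ 1 := by omega
    exact_mod_cast this
  have h4 : max (v * α) (u * β) * min (α / u) (β / v) = α * β := by
    rcases le_total (v * α) (u * β) with h | h
    · rw [max_eq_right h, min_eq_left]
      · field_simp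
      · rw [div_le_div_iff₀ huR hvR]; linarith only [h]
    · rw [max_eq_left h, min_eq_right]
      · field_simp
      · rw [div_le_div_iff₀ hvR huR]; linarith only [h]
  have h5 : 0 ≤ min (α / u) (β / v) := by positivity
  rw [le_div_iff₀ hD0]
  calc (M.card : ℝ) * (2 * min (α / u) (β / v)) * max (v * α) (u * β)
      ≤ 1 * (2 * min (α / u) (β / v)) * max (v * α) (u * β) := by gcongr
    _ = 2 * (max (v * α) (u * β) * min (α / u) (β / v)) := by ring
    _ = 2 * α * β := by rw [h4]; ring

/-- If the sets meet then the shift is well approximated. -/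
theorem exists_int_of_inter_nonempty (q r : ℕ) (hq : 0 < q) (a b α β : ℝ)
    (hne : volume (arcSet q a α ∩ arcSet r b β) ≠ 0) :
    ∃ m : ℤ, |(m : ℝ) - ((r / Nat.gcd q r : ℕ) * a - (q / Nat.gcd q r : ℕ) * b)|
      < (r / Nat.gcd q r : ℕ) * α + (q / Nat.gcd q r : ℕ) * β := by
  have hg : 0 < Nat.gcd q r := Nat.gcd_pos_of_pos_left _ hq
  rw [arcSet_gcd q r hq] at hne
  have hu : 0 < q / Nat.gcd q r := Nat.div_pos (Nat.gcd_le_left _ hq) hg
  have huv : Nat.Coprime (q / Nat.gcd q r) (r / Nat.gcd q r) := Nat.coprime_div_gcd_div_gcd hg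
  generalize q / Nat.gcd q r = u at *
  generalize r / Nat.gcd q r = v at *
  obtain ⟨c, hc⟩ := arcSet_inter_subset u v hu huv a b α β
  by_contra hcon
  push Not at hcon
  apply hne
  have : arcSet u a α ∩ arcSet v b β = ∅ := by
    apply Set.eq_empty_of_subset_empty
    refine hc.trans ?_
    intro y hy
    simp only [mem_iUnion] at hy
    obtain ⟨m, hm, _⟩ := hy
    exact absurd hm (not_lt.mpr (hcon m))
  rw [this, measure_empty]

end Vale.P028
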