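import Vale.Agent.P028.MathlibUsed
import Vale.Agent.P028.Overlap

/-!
# Full measure of a limsup set from a global second moment bound
-/

namespace Vale.P028

open MeasureTheory Set Filter Topology

/-- Weak convergence in a Hilbert space can be tested on a Hilbert basis. -/
theorem weak_conv {H : Type*} [NormedAddCommGroup H] [InnerProductSpace ℂ H] {ι : Type*}
    (b : HilbertBasis ι ℂ H) (f : ℕ → H) (f0 : H) (C : ℝ)
    (hC : ∀ j, ‖f j‖ ≤ C)
    (hconv : ∀ n, Tendsto (fun j => inner ℂ (f j) (b n)) atTop (𝓝 (inner ℂ f0 (b n)))) (g : H) :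
    Tendsto (fun j => inner ℂ (f j) g) atTop (𝓝 (inner ℂ f0 g)) := by
  have key : ∀ p ∈ Submodule.span ℂ (range b),
      Tendsto (fun j => inner ℂ (f j) p) atTop (𝓝 (inner ℂ f0 p)) := by
    intro p hp
    induction hp using Submodule.span_induction with
    | mem x hx =>
      obtain ⟨n, rfl⟩ := hx
      exact hconv n
    | zero => simp
    | add x y _ _ hx hy =>
      simp only [inner_add_right]
      exact hx.add hy
    | smul a x _ hx =>
      simp only [inner_smul_right]
      exact hx.const_mul a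
  have hC0 : 0 ≤ C := (norm_nonneg _).trans (hC 0)
  rw [Metric.tendsto_atTop]
  intro ε hε
  set δ : ℝ := ε / (2 * (C + ‖f0‖ + 1)) with hδ
  have hδ0 : 0 < δ := by positivity
  have hg : g ∈ closure ((Submodule.span ℂ (range b) : Submodule ℂ H) : Set H) := by
    have h := b.dense_span
    have h2 : g ∈ ((Submodule.span ℂ (range b)).topologicalClosure : Set H) := by
      rw [h]; trivial
    exact h2
  obtain ⟨p, hp, hgp⟩ := Metric.mem_closure_iff.mp hg δ hδ0
  obtain ⟨J, hJ⟩ := (Metric.tendsto_atTop.mp (key p hp)) (ε / 2) (by positivity)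
  refine ⟨J, fun j hj => ?_⟩
  have h1 := hJ j hj
  rw [dist_eq_norm] at h1 hgp ⊢
  have e : inner ℂ (f j) g - inner ℂ f0 g
      = (inner ℂ (f j) p - inner ℂ f0 p) + (inner ℂ (f j) (g - p) - inner ℂ f0 (g - p)) := by
    rw [inner_sub_right, inner_sub_right]; ring
  rw [e]
  have h2 : ‖inner ℂ (f j) (g - p)‖ ≤ C * δ :=
    (norm_inner_le_norm _ _).trans (mul_le_mul (hC j) hgp.le (norm_nonneg _) hC0)
  have h3 : ‖inner ℂ f0 (g - p)‖ ≤ ‖f0‖ * δ :=
    (norm_inner_le_norm _ _).trans (mul_le_mul le_rfl hgp.le (norm_nonneg _) (norm_nonneg _))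
  have h4 : (C + ‖f0‖) * δ < ε / 2 := by
    rw [hδ, mul_div_assoc', div_lt_iff₀ (by positivity)]
    linarith only [hε]
  calc ‖(inner ℂ (f j) p - inner ℂ f0 p) + (inner ℂ (f j) (g - p) - inner ℂ f0 (g - p))‖
      ≤ ‖inner ℂ (f j) p - inner ℂ f0 p‖ + (‖inner ℂ (f j) (g - p)‖ + ‖inner ℂ f0 (g - p)‖) :=
        (norm_add_le _ _).trans (add_le_add le_rfl (norm_sub_le _ _))
    _ ≤ ‖inner ℂ (f j) p - inner ℂ f0 p‖ + (C * δ + ‖f0‖ * δ) := by gcongr
    _ < ε := by linarith only [h1, h4]

/-- The general principle: nonnegative bounded test functions supported on tails, bounded in `L²`,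
of mean tending to one and with vanishing nonzero Fourier coefficients, force full measure. -/
theorem ae_infinite_of_test (A : ℕ → Set UnitAddCircle) (F : ℕ → UnitAddCircle → ℝ)
    (hA : ∀ q, MeasurableSet (A q))
    (hFm : ∀ j, Measurable (F j)) (B : ℕ → ℝ) (hFb : ∀ j x, |F j x| ≤ B j)
    (hsupp : ∀ j x, F j x ≠ 0 → ∃ q, j ≤ q ∧ x ∈ A q)
    (C : ℝ) (h2 : ∀ j, ∫ x, (F j x) ^ 2 ≤ C)
    (h1 : Tendsto (fun j => ∫ x, F j x) atTop (𝓝 1))
    (hfour : ∀ n : ℤ, n ≠ 0 → Tendsto (fun j => ∫ x, (F j x : ℂ) * fourier n x) atTop (𝓝 0)) :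
    ∀ᵐ x : UnitAddCircle, {q | x ∈ A q}.Infinite := by
  have hvol : (volume : Measure UnitAddCircle) = AddCircle.haarAddCircle := by
    rw [AddCircle.volume_eq_smul_haarAddCircle]; simp
  have hprob : IsProbabilityMeasure (volume : Measure UnitAddCircle) := by
    rw [hvol]; infer_instance
  simp only [hvol] at h1 h2 hfour
  rw [hvol]
  -- the L² elements
  have hmem : ∀ j, MemLp (fun x => (F j x : ℂ)) 2 (AddCircle.haarAddCircle (T := 1)) := by
    intro j
    apply MemLp.of_bound (Complex.measurable_ofReal.comp (hFm j)).aestronglyMeasurable (B j)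
    filter_upwards with x
    change ‖((F j x : ℝ) : ℂ)‖ ≤ B j
    rw [Complex.norm_real, Real.norm_eq_abs]
    exact hFb j x
  have hint : ∀ j, Integrable (F j) (AddCircle.haarAddCircle (T := 1)) := by
    intro j
    apply Integrable.of_bound (hFm j).aestronglyMeasurable (B j)
    filter_upwards with x
    rw [Real.norm_eq_abs]
    exact hFb j x
  set f : ℕ → Lp ℂ 2 (AddCircle.haarAddCircle (T := 1)) := fun j => (hmem j).toLp with hf
  have hone : MemLp (fun _ : UnitAddCircle => (1 : ℂ)) 2 (AddCircle.haarAddCircle (T := 1)) :=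
    memLp_const _
  set f0 : Lp ℂ 2 (AddCircle.haarAddCircle (T := 1)) := hone.toLp with hf0
  -- inner products as integrals
  have hinner : ∀ j (g : Lp ℂ 2 (AddCircle.haarAddCircle (T := 1))),
      inner ℂ (f j) g = ∫ x, (F j x : ℂ) * g x ∂(AddCircle.haarAddCircle (T := 1)) := by
    intro j g
    rw [L2.inner_def]
    apply integral_congr_ae
    filter_upwards [(hmem j).coeFn_toLp] with x hx
    simp only [hf, hx]
    simp [mul_comm]
  have hinner0 : ∀ (g : Lp ℂ 2 (AddCircle.haarAddCircle (T := 1))),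
      inner ℂ f0 g = ∫ x, g x ∂(AddCircle.haarAddCircle (T := 1)) := by
    intro g
    rw [L2.inner_def]
    apply integral_congr_ae
    filter_upwards [hone.coeFn_toLp] with x hx
    simp only [hf0, hx]
    simp
  have hnorm : ∀ j, ‖f j‖ ≤ Real.sqrt C := by
    intro j
    apply Real.le_sqrt_of_sq_le
    have e : ((‖f j‖ ^ 2 : ℝ) : ℂ) = inner ℂ (f j) (f j) := by
      rw [inner_self_eq_norm_sq_to_K]; norm_cast
    have e2 : inner ℂ (f j) (f j)
        = ((∫ x, (F j x) ^ 2 ∂(AddCircle.haarAddCircle (T := 1)) : ℝ) : ℂ) := by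
      rw [hinner, ← integral_complex_ofReal]
      apply integral_congr_ae
      filter_upwards [(hmem j).coeFn_toLp] with x hx
      simp only [hf, hx]
      push_cast
      ring
    rw [e2] at e
    have e3 : ‖f j‖ ^ 2 = ∫ x, (F j x) ^ 2 ∂(AddCircle.haarAddCircle (T := 1)) := by
      exact_mod_cast e
    rw [e3]
    exact h2 j
  have hweak := weak_conv (fourierBasis (T := 1)) f f0 (Real.sqrt C) hnorm (by
    intro n
    rw [coe_fourierBasis, hinner0]
    have e0 : (∫ x, (fourierLp 2 n : Lp ℂ 2 (AddCircle.haarAddCircle (T := 1))) x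
        ∂(AddCircle.haarAddCircle (T := 1))) = if n = 0 then 1 else 0 := by
      have h := fourierCoeff_fourier (T := 1) n
      have h' := congrFun h 0
      rw [fourierCoeff] at h'
      have e : (∫ x, (fourierLp 2 n : Lp ℂ 2 (AddCircle.haarAddCircle (T := 1))) x
        ∂(AddCircle.haarAddCircle (T := 1)))
          = ∫ x, fourier n x ∂(AddCircle.haarAddCircle (T := 1)) := by
        apply integral_congr_ae
        filter_upwards [coeFn_fourierLp (T := 1) 2 n] with x hx
        rw [hx]
      rw [e]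
      simp only [neg_zero, fourier_zero, one_smul] at h'
      rw [h']
      simp [Pi.single_apply, eq_comm]
    have e1 : ∀ j, inner ℂ (f j) (fourierLp 2 n : Lp ℂ 2 (AddCircle.haarAddCircle (T := 1)))
        = ∫ x, (F j x : ℂ) * fourier n x ∂(AddCircle.haarAddCircle (T := 1)) := by
      intro j
      rw [hinner]
      apply integral_congr_ae
      filter_upwards [coeFn_fourierLp (T := 1) 2 n] with x hx
      rw [hx]
    simp only [e1, e0]
    split_ifs with hn
    · subst hn
      have : ∀ j, (∫ x, (F j x : ℂ) * fourier 0 x ∂(AddCircle.haarAddCircle (T := 1)))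
          = ((∫ x, F j x ∂(AddCircle.haarAddCircle (T := 1)) : ℝ) : ℂ) := by
        intro j
        rw [← integral_complex_ofReal]
        congr 1
        ext x
        simp
      simp only [this]
      exact_mod_cast (Complex.continuous_ofReal.tendsto 1).comp h1
    · exact hfour n hn)
  -- the set of points lying in no `A q`, `q ≥ N`, is null
  have hnull : ∀ N : ℕ, (AddCircle.haarAddCircle (T := 1)) {x | ∀ q, N ≤ q → x ∉ A q} = 0 := by
    intro N
    have hmeas : MeasurableSet {x | ∀ q, N ≤ q → x ∉ A q} := by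
      have e : {x | ∀ q, N ≤ q → x ∉ A q} = ⋂ q, ⋂ (_ : N ≤ q), (A q)ᶜ := by
        ext x; simp
      rw [e]
      exact MeasurableSet.iInter fun q => MeasurableSet.iInter fun _ => (hA q).compl
    set E : Set UnitAddCircle := {x | ∀ q, N ≤ q → x ∉ A q} with hE
    have hgm : MemLp (E.indicator (fun _ => (1 : ℂ))) 2 (AddCircle.haarAddCircle (T := 1)) :=
      (memLp_const _).indicator hmeas
    have hw := hweak hgm.toLp
    have e0 : inner ℂ f0 (hgm.toLp) = (((AddCircle.haarAddCircle (T := 1)).real E : ℝ) : ℂ) := by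
      rw [hinner0]
      have : (∫ x, (hgm.toLp : Lp ℂ 2 (AddCircle.haarAddCircle (T := 1))) x
          ∂(AddCircle.haarAddCircle (T := 1)))
          = ∫ x, E.indicator (fun _ => (1 : ℂ)) x ∂(AddCircle.haarAddCircle (T := 1)) := by
        apply integral_congr_ae
        exact hgm.coeFn_toLp
      rw [this, integral_indicator hmeas, setIntegral_const]
      simp
    have e1 : ∀ j, N ≤ j → inner ℂ (f j) (hgm.toLp) = 0 := by
      intro j hj
      rw [hinner]
      rw [integral_eq_zero_of_ae]
      filter_upwards [hgm.coeFn_toLp] with x hx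
      rw [hx]
      by_cases hxE : x ∈ E
      · have : F j x = 0 := by
          by_contra hne
          obtain ⟨q, hq, hxq⟩ := hsupp j x hne
          exact hxE q (hj.trans hq) hxq
        simp [this]
      · simp [Set.indicator_of_notMem hxE]
    have hlim : Tendsto (fun j => inner ℂ (f j) (hgm.toLp)) atTop (𝓝 (0 : ℂ)) := by
      apply tendsto_const_nhds.congr'
      filter_upwards [eventually_ge_atTop N] with j hj
      exact (e1 j hj).symm
    have := tendsto_nhds_unique hw hlim
    rw [e0] at this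
    have h0 : (AddCircle.haarAddCircle (T := 1)).real E = 0 := by exact_mod_cast this
    rwa [measureReal_eq_zero_iff] at h0
  rw [ae_iff]
  have hsub : {x | ¬ {q | x ∈ A q}.Infinite} ⊆ ⋃ N : ℕ, {x | ∀ q, N ≤ q → x ∉ A q} := by
    intro x hx
    have hfin : {q | x ∈ A q}.Finite := not_infinite.mp hx
    obtain ⟨N, hN⟩ := hfin.bddAbove
    rw [mem_iUnion]
    refine ⟨N + 1, fun q hq hxq => ?_⟩
    have := hN hxq
    omega
  exact measure_mono_null hsub (measure_iUnion_null hnull)

end Vale.P028
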