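import Vale.Agent.P028.MathlibUsed
import Vale.Agent.P028.Overlap
import Vale.Agent.P028.Limsup

/-!
# The block criterion: a global second moment bound on arbitrarily late finite blocks gives
full measure
-/

namespace Vale.P028

open MeasureTheory Set Filter Topology

instance : IsProbabilityMeasure (volume : Measure UnitAddCircle) := by
  have hvol : (volume : Measure UnitAddCircle) = AddCircle.haarAddCircle := by
    rw [AddCircle.volume_eq_smul_haarAddCircle]; simp
  rw [hvol]; infer_instance

theorem fourier_inv_ne_one (q : ℕ) (hq : 0 < q) (n : ℤ) (hn : ¬ (q : ℤ) ∣ n) :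
    fourier (T := 1) n (((1 / q : ℝ)) : UnitAddCircle) ≠ 1 := by
  intro h
  rw [fourier_coe_apply] at h
  rw [Complex.exp_eq_one_iff] at h
  obtain ⟨m, hm⟩ := h
  apply hn
  have hqC : (q : ℂ) ≠ 0 := by exact_mod_cast hq.ne'
  have hpi : (2 * Real.pi * Complex.I : ℂ) ≠ 0 := Complex.two_pi_I_ne_zero
  have h1 : (n : ℂ) = m * q := by
    have h2 : (2 * Real.pi * Complex.I : ℂ) * ((n : ℂ) / q) = (2 * Real.pi * Complex.I) * m := by
      rw [mul_comm (2 * (Real.pi : ℂ) * Complex.I) (m : ℂ), ← hm]
      push_cast
      (clear * - hqC; field_simp)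
    have h3 := mul_left_cancel₀ hpi h2
    rw [div_eq_iff hqC] at h3
    exact h3
  have h4 : n = m * q := by exact_mod_cast h1
  exact ⟨m, by rw [h4]; ring⟩

theorem integral_mul_fourier_eq_zero (q : ℕ) (hq : 0 < q) (g : UnitAddCircle → ℂ)
    (hinv : ∀ x, g (x + ((1 / q : ℝ) : UnitAddCircle)) = g x) (n : ℤ) (hn : ¬ (q : ℤ) ∣ n) :
    ∫ x, g x * fourier n x = 0 := by
  have h1 := integral_add_right_eq_self (μ := (volume : Measure UnitAddCircle))
    (fun x => g x * fourier n x) (((1 / q : ℝ)) : UnitAddCircle)
  have h2 : ∀ x : UnitAddCircle, g (x + ((1 / q : ℝ) : UnitAddCircle)) *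
      fourier n (x + ((1 / q : ℝ) : UnitAddCircle))
      = (g x * fourier n x) * fourier n (((1 / q : ℝ)) : UnitAddCircle) := by
    intro x
    rw [hinv]
    have : fourier (T := 1) n (x + ((1 / q : ℝ) : UnitAddCircle))
        = fourier n x * fourier n (((1 / q : ℝ)) : UnitAddCircle) := by
      simp only [fourier_apply, smul_add, AddCircle.toCircle_add, Circle.coe_mul]
    rw [this]; ring
  simp only [h2] at h1
  rw [integral_mul_const] at h1
  have h3 := fourier_inv_ne_one q hq n hn
  have h4 : (∫ x : UnitAddCircle, g x * fourier n x) *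
      (fourier n (((1 / q : ℝ)) : UnitAddCircle) - 1) = 0 := by
    rw [mul_sub, h1]; ring
  rcases mul_eq_zero.mp h4 with h | h
  · exact h
  · exact absurd (sub_eq_zero.mp h) h3

theorem arcSet_add_inv (q : ℕ) (hq : 0 < q) (a α : ℝ) (x : UnitAddCircle) :
    x + ((1 / q : ℝ) : UnitAddCircle) ∈ arcSet q a α ↔ x ∈ arcSet q a α := by
  have : q • (x + ((1 / q : ℝ) : UnitAddCircle)) = q • x := by
    rw [nsmul_add, ← AddCircle.coe_nsmul]
    have h : ((q • (1 / q : ℝ) : ℝ) : UnitAddCircle) = 0 := by
      rw [AddCircle.coe_eq_zero_iff]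
      refine ⟨1, ?_⟩
      have : (q : ℝ) ≠ 0 := by exact_mod_cast hq.ne'
      simp only [one_smul, nsmul_eq_mul]
      field_simp
    rw [h, add_zero]
  change ‖q • (x + ((1 / q : ℝ) : UnitAddCircle)) - (a : UnitAddCircle)‖ < α ↔
    ‖q • x - (a : UnitAddCircle)‖ < α
  rw [this]

/-- The measure of `arcSet`. -/
theorem volume_arcSet (q : ℕ) (hq : 0 < q) (a α : ℝ) :
    volume (arcSet q a α) = ENNReal.ofReal (min 1 (2 * α)) := by
  have hmp : MeasurePreserving (fun y : UnitAddCircle => (q : ℤ) • y)
      volume volume := MeasureTheory.Measure.measurePreserving_zsmul volume (by exact_mod_cast hq.ne')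
  have h := hmp.measure_preimage (s := Metric.ball ((a : UnitAddCircle)) α)
    Metric.isOpen_ball.measurableSet.nullMeasurableSet
  have e : arcSet q a α = (fun y : UnitAddCircle => (q : ℤ) • y) ⁻¹'
      (Metric.ball ((a : UnitAddCircle)) α) := by
    ext y
    simp only [arcSet, mem_ofPred_eq, natCast_zsmul, mem_preimage, Metric.mem_ball, dist_eq_norm]
  rw [e, h, ← AddCircle.volume_closedBall (T := 1) (x := (a : UnitAddCircle))]
  exact measure_congr AddCircle.closedBall_ae_eq_ball.symm

/-- **Block criterion.** -/
theorem ae_infinite_of_blocks (a α : ℕ → ℝ) (C : ℝ)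
    (h : ∀ N : ℕ, ∃ (S : Finset ℕ) (w : ℕ → ℝ), (∀ q ∈ S, N ≤ q) ∧ (∀ q ∈ S, 0 ≤ w q) ∧
      0 < ∑ q ∈ S, w q * (volume : Measure UnitAddCircle).real (arcSet q (a q) (α q)) ∧
      ∑ q ∈ S, ∑ r ∈ S, w q * w r * (volume : Measure UnitAddCircle).real
        (arcSet q (a q) (α q) ∩ arcSet r (a r) (α r)) ≤
      C * (∑ q ∈ S, w q * (volume : Measure UnitAddCircle).real (arcSet q (a q) (α q))) ^ 2) :
    ∀ᵐ x : UnitAddCircle, {q | 0 < q ∧ x ∈ arcSet q (a q) (α q)}.Infinite := by
  choose S w hS hw hpos hsec using fun N => h (N + 1)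
  set A : ℕ → Set UnitAddCircle := fun q => arcSet q (a q) (α q) with hA
  set I : ℕ → ℝ := fun j => ∑ q ∈ S j, w j q * (volume : Measure UnitAddCircle).real (A q) with hI
  set F : ℕ → UnitAddCircle → ℝ := fun j x =>
    (I j)⁻¹ * ∑ q ∈ S j, w j q * (A q).indicator (fun _ => (1 : ℝ)) x with hF
  have hAm : ∀ q, MeasurableSet (A q) := fun q => measurableSet_arcSet _ _ _
  have hindm : ∀ q, Measurable ((A q).indicator (fun _ => (1 : ℝ))) := fun q =>
    measurable_const.indicator (hAm q)
  have hindi : ∀ q, Integrable ((A q).indicator (fun _ => (1 : ℝ)))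
      (volume : Measure UnitAddCircle) := fun q => (integrable_const _).indicator (hAm q)
  have hFm : ∀ j, Measurable (F j) := by
    intro j
    apply Measurable.const_mul
    apply Finset.measurable_fun_sum
    intro q _
    exact (hindm q).const_mul _
  have hvolreal : ∀ B : Set UnitAddCircle, MeasurableSet B →
      ∫ x, B.indicator (fun _ => (1 : ℝ)) x = (volume : Measure UnitAddCircle).real B := by
    intro B hB
    rw [integral_indicator hB, setIntegral_const]
    simp
  have main := ae_infinite_of_test (fun q => if 0 < q then A q else ∅) F (by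
      intro q
      by_cases hq : 0 < q
      · simp only [hq, if_true]; exact hAm q
      · simp only [hq, if_false]; exact MeasurableSet.empty) hFm
    (fun j => (I j)⁻¹ * ∑ q ∈ S j, w j q) (by
      intro j x
      have h0 : 0 ≤ ∑ q ∈ S j, w j q * (A q).indicator (fun _ => (1 : ℝ)) x := by
        apply Finset.sum_nonneg
        intro q hq
        exact mul_nonneg (hw j q hq) (Set.indicator_nonneg (fun _ _ => zero_le_one) _)
      rw [hF]
      dsimp only
      rw [abs_of_nonneg (mul_nonneg (inv_nonneg.mpr (hpos j).le) h0)]
      apply mul_le_mul_of_nonneg_left _ (inv_nonneg.mpr (hpos j).le)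
      apply Finset.sum_le_sum
      intro q hq
      calc w j q * (A q).indicator (fun _ => (1 : ℝ)) x ≤ w j q * 1 := by
            apply mul_le_mul_of_nonneg_left _ (hw j q hq)
            by_cases hx : x ∈ A q
            · simp [hx]
            · simp [hx]
        _ = w j q := mul_one _) (by
      intro j x hx
      have : ∑ q ∈ S j, w j q * (A q).indicator (fun _ => (1 : ℝ)) x ≠ 0 := by
        intro h0
        apply hx
        rw [hF]
        dsimp only
        rw [h0, mul_zero]
      obtain ⟨q, hq, hq2⟩ := Finset.exists_ne_zero_of_sum_ne_zero this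
      have hqN := hS j q hq
      refine ⟨q, by omega, ?_⟩
      rw [if_pos (by omega)]
      by_contra hxA
      apply hq2
      rw [Set.indicator_of_notMem hxA, mul_zero]) C (by
      intro j
      have e : ∀ x, (F j x) ^ 2 = ((I j)⁻¹) ^ 2 * ∑ q ∈ S j, ∑ r ∈ S j, w j q * w j r *
          ((A q ∩ A r).indicator (fun _ => (1 : ℝ)) x) := by
        intro x
        rw [hF]
        dsimp only
        rw [mul_pow, sq (∑ q ∈ S j, _), Finset.sum_mul_sum]
        congr 1
        apply Finset.sum_congr rfl
        intro q _
        apply Finset.sum_congr rfl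
        intro r _
        by_cases h1 : x ∈ A q <;> by_cases h2 : x ∈ A r <;> simp [h1, h2]
      have hint : ∀ q r, Integrable (fun x => (A q ∩ A r).indicator (fun _ => (1 : ℝ)) x)
          (volume : Measure UnitAddCircle) := fun q r =>
        (integrable_const _).indicator ((hAm q).inter (hAm r))
      simp only [e]
      rw [integral_const_mul, integral_finsetSum _ (fun q _ =>
        integrable_finsetSum _ (fun r _ => (hint q r).const_mul _))]
      have e2 : ∀ q ∈ S j, ∫ x, ∑ r ∈ S j, w j q * w j r *
          ((A q ∩ A r).indicator (fun _ => (1 : ℝ)) x)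
          = ∑ r ∈ S j, w j q * w j r * (volume : Measure UnitAddCircle).real (A q ∩ A r) := by
        intro q _
        rw [integral_finsetSum _ (fun r _ => (hint q r).const_mul _)]
        apply Finset.sum_congr rfl
        intro r _
        rw [integral_const_mul, hvolreal _ ((hAm q).inter (hAm r))]
      rw [Finset.sum_congr rfl e2]
      have h3 := hsec j
      have h4 := hpos j
      calc ((I j)⁻¹) ^ 2 * ∑ q ∈ S j, ∑ r ∈ S j, w j q * w j r *
            (volume : Measure UnitAddCircle).real (A q ∩ A r)
          ≤ ((I j)⁻¹) ^ 2 * (C * (I j) ^ 2) :=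
            mul_le_mul_of_nonneg_left h3 (by (clear * - h4; positivity))
        _ = C := by
            have : I j ≠ 0 := h4.ne'
            (clear * - this; field_simp)) (by
      have e : ∀ j, ∫ x, F j x = 1 := by
        intro j
        rw [hF]
        dsimp only
        rw [integral_const_mul, integral_finsetSum _ (fun q _ => (hindi q).const_mul _)]
        have : ∀ q ∈ S j, ∫ x, w j q * (A q).indicator (fun _ => (1 : ℝ)) x
            = w j q * (volume : Measure UnitAddCircle).real (A q) := by
          intro q _
          rw [integral_const_mul, hvolreal _ (hAm q)]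
        rw [Finset.sum_congr rfl this]
        exact inv_mul_cancel₀ (hpos j).ne'
      simp only [e]
      exact tendsto_const_nhds) (by
      intro n hn
      apply tendsto_const_nhds.congr'
      filter_upwards [eventually_ge_atTop n.natAbs] with j hj
      symm
      have e : ∀ x, (F j x : ℂ) * fourier n x = ((I j)⁻¹ : ℂ) * ∑ q ∈ S j, (w j q : ℂ) *
          ((((A q).indicator (fun _ => (1 : ℝ)) x : ℝ) : ℂ) * fourier n x) := by
        intro x
        rw [hF]
        push_cast
        rw [mul_assoc, Finset.sum_mul]
        congr 1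
        apply Finset.sum_congr rfl
        intro q _
        ring
      simp only [e]
      rw [integral_const_mul, integral_finsetSum]
      · have : ∀ q ∈ S j, ∫ x, (w j q : ℂ) *
            ((((A q).indicator (fun _ => (1 : ℝ)) x : ℝ) : ℂ) * fourier n x) = 0 := by
          intro q hq
          have hqN := hS j q hq
          rw [integral_const_mul, integral_mul_fourier_eq_zero q (by omega)
            (fun x => (((A q).indicator (fun _ => (1 : ℝ)) x : ℝ) : ℂ)) _ n, mul_zero]
          · intro hdvd
            have := Int.natAbs_dvd_natAbs.mpr hdvd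
            rw [Int.natAbs_natCast] at this
            have h5 := Nat.le_of_dvd (Int.natAbs_pos.mpr hn) this
            omega
          · intro x
            have h6 := arcSet_add_inv q (by omega) (a q) (α q) x
            by_cases hx : x ∈ A q
            · have hx' : x + ((1 / q : ℝ) : UnitAddCircle) ∈ A q := h6.mpr hx
              rw [Set.indicator_of_mem hx, Set.indicator_of_mem hx']
            · have hx' : x + ((1 / q : ℝ) : UnitAddCircle) ∉ A q := fun h => hx (h6.mp h)
              rw [Set.indicator_of_notMem hx, Set.indicator_of_notMem hx']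
        rw [Finset.sum_eq_zero this, mul_zero]
      · intro q _
        apply Integrable.const_mul
        apply Integrable.of_bound (C := 1)
        · exact ((Complex.measurable_ofReal.comp (hindm q)).mul
            (fourier n).continuous.measurable).aestronglyMeasurable
        · filter_upwards with x
          rw [norm_mul]
          have h7 : ‖fourier (T := 1) n x‖ = 1 := by
            rw [fourier_apply]; exact Circle.norm_coe _
          rw [h7, mul_one, Complex.norm_real]
          by_cases hx : x ∈ A q
          · rw [Set.indicator_of_mem hx]; simp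
          · rw [Set.indicator_of_notMem hx]; simp only [norm_zero, zero_le_one])
  filter_upwards [main] with x hx
  apply hx.mono
  intro q hq
  simp only [mem_ofPred_eq] at hq ⊢
  by_cases hq0 : 0 < q
  · rw [if_pos hq0] at hq
    exact ⟨hq0, hq⟩
  · rw [if_neg hq0] at hq
    exact absurd hq (Set.notMem_empty _)

end Vale.P028
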