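import Vale.Agent.P028.MathlibUsed
import Vale.Agent.P028.Blocks

/-!
# From the circle to the line
-/

namespace Vale.P028

open MeasureTheory Set Filter Topology

/-- The distance from `t` to the nearest integer. -/
noncomputable def distInt (t : ℝ) : ℝ := |t - round t|

/-- `W γ ψ` is the set of real `x` such that `‖q x - γ‖ < ψ q` for infinitely many positive
integers `q`, where `‖·‖` is the distance to the nearest integer. -/
def W (γ : ℝ) (ψ : ℕ → ℝ) : Set ℝ :=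
  {x : ℝ | {q : ℕ | 0 < q ∧ distInt (q * x - γ) < ψ q}.Infinite}

theorem ae_real_of_ae_circle {P : UnitAddCircle → Prop} (h : ∀ᵐ x : UnitAddCircle, P x) :
    ∀ᵐ x : ℝ, P (x : UnitAddCircle) := by
  have h1 : ∀ n : ℤ, ∀ᵐ x : ℝ ∂(volume.restrict (Ioc (n : ℝ) (n + 1))), P (x : UnitAddCircle) := by
    intro n
    exact (UnitAddCircle.measurePreserving_mk (n : ℝ)).quasiMeasurePreserving.ae h
  have h2 : ∀ᵐ x : ℝ ∂(volume.restrict (⋃ n : ℤ, Ioc (n : ℝ) (n + 1))),
      P (x : UnitAddCircle) := by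
    rw [ae_restrict_iUnion_iff]
    exact h1
  rwa [iUnion_Ioc_intCast, Measure.restrict_univ] at h2

theorem mem_arcSet_coe (q : ℕ) (a α x : ℝ) :
    (x : UnitAddCircle) ∈ arcSet q a α ↔ distInt (q * x - a) < α := by
  change ‖q • (x : UnitAddCircle) - (a : UnitAddCircle)‖ < α ↔ _
  rw [← AddCircle.coe_nsmul, ← AddCircle.coe_sub, UnitAddCircle.norm_eq, nsmul_eq_mul, distInt]

theorem volume_compl_W_eq_zero (γ : ℝ) (ψ : ℕ → ℝ)
    (h : ∀ᵐ x : UnitAddCircle, {q | 0 < q ∧ x ∈ arcSet q γ (ψ q)}.Infinite) :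
    volume (W γ ψ)ᶜ = 0 := by
  have h1 := ae_real_of_ae_circle h
  have h2 : ∀ᵐ x : ℝ, x ∈ W γ ψ := by
    filter_upwards [h1] with x hx
    have e : {q : ℕ | 0 < q ∧ (x : UnitAddCircle) ∈ arcSet q γ (ψ q)}
        = {q : ℕ | 0 < q ∧ distInt (q * x - γ) < ψ q} := by
      ext q
      simp only [mem_ofPred_eq, mem_arcSet_coe]
    rw [e] at hx
    exact hx
  exact mem_ae_iff.mp h2

/-- Second moment criterion, everything in terms of real sums.  `D(q,r)` is
`max (r ψ(q), q ψ(r)) / gcd (q,r)`; only pairs with `D < 1/4` for which `(r-q)/gcd(q,r) * γ` is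
within `2 D` of an integer matter. -/
theorem fullMeasure_of_blocks (γ : ℝ) (ψ : ℕ → ℝ) (C : ℝ) (hC : 0 ≤ C)
    (h : ∀ N : ℕ, ∃ (S : Finset ℕ) (w : ℕ → ℝ), (∀ q ∈ S, N ≤ q ∧ 0 < ψ q ∧ ψ q ≤ 1 / 2) ∧
      (∀ q ∈ S, 0 ≤ w q) ∧ 0 < ∑ q ∈ S, w q * ψ q ∧
      ∀ T : Finset (ℕ × ℕ), (∀ p ∈ T, p.1 ∈ S ∧ p.2 ∈ S ∧ DD p.1 p.2 (ψ p.1) (ψ p.2) < 1 / 4 ∧
        ∃ m : ℤ, |(m : ℝ) - (((p.2 / Nat.gcd p.1 p.2 : ℕ) : ℝ) - (p.1 / Nat.gcd p.1 p.2 : ℕ)) * γ|
          < 2 * DD p.1 p.2 (ψ p.1) (ψ p.2)) →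
      ∑ p ∈ T, w p.1 * w p.2 * (ψ p.1 * ψ p.2 / DD p.1 p.2 (ψ p.1) (ψ p.2)) ≤
      C * (∑ q ∈ S, w q * ψ q) ^ 2) :
    volume (W γ ψ)ᶜ = 0 := by
  apply volume_compl_W_eq_zero
  apply ae_infinite_of_blocks (fun _ => γ) ψ (4 + C)
  intro N
  obtain ⟨S, w, hS, hw, hpos, hT⟩ := h (N + 1)
  have hvol : ∀ q ∈ S, (volume : Measure UnitAddCircle).real (arcSet q γ (ψ q)) = 2 * ψ q := by
    intro q hq
    obtain ⟨h1, h2, h3⟩ := hS q hq
    rw [Measure.real, volume_arcSet q (by omega), min_eq_right (by linarith only [h3]),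
      ENNReal.toReal_ofReal (by linarith only [h2])]
  have hsum : ∑ q ∈ S, w q * (volume : Measure UnitAddCircle).real (arcSet q γ (ψ q))
      = 2 * ∑ q ∈ S, w q * ψ q := by
    rw [Finset.mul_sum]
    apply Finset.sum_congr rfl
    intro q hq
    rw [hvol q hq]; ring
  refine ⟨S, w, fun q hq => by have := (hS q hq).1; omega, hw, by rw [hsum]; linarith only [hpos], ?_⟩
  rw [hsum]
  classical
  set T : Finset (ℕ × ℕ) := (S ×ˢ S).filter (fun p => DD p.1 p.2 (ψ p.1) (ψ p.2) < 1 / 4 ∧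
        ∃ m : ℤ, |(m : ℝ) - (((p.2 / Nat.gcd p.1 p.2 : ℕ) : ℝ) - (p.1 / Nat.gcd p.1 p.2 : ℕ)) * γ|
          < 2 * DD p.1 p.2 (ψ p.1) (ψ p.2)) with hTdef
  have hTb := hT T (by
    intro p hp
    rw [hTdef, Finset.mem_filter, Finset.mem_product] at hp
    exact ⟨hp.1.1, hp.1.2, hp.2.1, hp.2.2⟩)
  have hDpos : ∀ q ∈ S, ∀ r ∈ S, 0 < DD q r (ψ q) (ψ r) := by
    intro q hq r hr
    obtain ⟨h1, h2, _⟩ := hS q hq
    obtain ⟨h3, h4, _⟩ := hS r hr
    have hg : 0 < Nat.gcd q r := Nat.gcd_pos_of_pos_left _ (by omega)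
    have hrR : (0 : ℝ) < r := by exact_mod_cast (by omega : 0 < r)
    rw [DD]
    apply div_pos _ (by exact_mod_cast hg)
    exact lt_max_of_lt_left (mul_pos hrR h2)
  have hpair : ∀ q ∈ S, ∀ r ∈ S,
      (volume : Measure UnitAddCircle).real (arcSet q γ (ψ q) ∩ arcSet r γ (ψ r))
      ≤ 16 * (ψ q * ψ r) + (if (q, r) ∈ T then 2 * (ψ q * ψ r / DD q r (ψ q) (ψ r)) else 0) := by
    intro q hq r hr
    obtain ⟨h1, h2, h2'⟩ := hS q hq
    obtain ⟨h3, h4, h4'⟩ := hS r hr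
    have hD0 := hDpos q hq r hr
    rcases le_or_gt (1 / 4) (DD q r (ψ q) (ψ r)) with hD | hD
    · have := volume_inter_le_of_quarter_le q r (by omega) (by omega) γ γ (ψ q) (ψ r) h2.le h4.le hD
      have h5 : (volume : Measure UnitAddCircle).real (arcSet q γ (ψ q) ∩ arcSet r γ (ψ r))
          ≤ 16 * ψ q * ψ r := ENNReal.toReal_le_of_le_ofReal (by (clear * - h2 h4; positivity)) this
      have h6 : 0 ≤ (if (q, r) ∈ T then 2 * (ψ q * ψ r / DD q r (ψ q) (ψ r)) else 0) := by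
        split_ifs
        · (clear * - h2 h4 hD0; positivity)
        · exact le_rfl
      linarith only [h5, h6]
    · by_cases hT' : (q, r) ∈ T
      · rw [if_pos hT']
        have := volume_inter_le_of_lt_quarter q r (by omega) (by omega) γ γ (ψ q) (ψ r) h2.le h4.le
          hD0 hD
        have h5 : (volume : Measure UnitAddCircle).real (arcSet q γ (ψ q) ∩ arcSet r γ (ψ r))
            ≤ 2 * ψ q * ψ r / DD q r (ψ q) (ψ r) :=
          ENNReal.toReal_le_of_le_ofReal (by (clear * - h2 h4 hD0; positivity)) this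
        have h6 : 2 * ψ q * ψ r / DD q r (ψ q) (ψ r) = 2 * (ψ q * ψ r / DD q r (ψ q) (ψ r)) := by
          ring
        have h7 : 0 ≤ ψ q * ψ r := by positivity
        linarith only [h7, h5, h6]
      · rw [if_neg hT']
        have h0 : volume (arcSet q γ (ψ q) ∩ arcSet r γ (ψ r)) = 0 := by
          by_contra hne
          apply hT'
          rw [hTdef, Finset.mem_filter, Finset.mem_product]
          refine ⟨⟨hq, hr⟩, hD, ?_⟩
          obtain ⟨m, hm⟩ := exists_int_of_inter_nonempty q r (by omega) γ γ (ψ q) (ψ r) hne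
          refine ⟨m, ?_⟩
          dsimp only
          have e : (m : ℝ) - (((r / Nat.gcd q r : ℕ) : ℝ) - (q / Nat.gcd q r : ℕ)) * γ
              = (m : ℝ) - ((r / Nat.gcd q r : ℕ) * γ - (q / Nat.gcd q r : ℕ) * γ) := by ring
          rw [e]
          refine hm.trans_le ?_
          rw [DD_eq q r (by omega)]
          have h5 := le_max_left (((r / Nat.gcd q r : ℕ) : ℝ) * ψ q)
            (((q / Nat.gcd q r : ℕ) : ℝ) * ψ r)
          have h6 := le_max_right (((r / Nat.gcd q r : ℕ) : ℝ) * ψ q)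
            (((q / Nat.gcd q r : ℕ) : ℝ) * ψ r)
          linarith only [h6, h5]
        have h5 : (volume : Measure UnitAddCircle).real (arcSet q γ (ψ q) ∩ arcSet r γ (ψ r)) = 0 := by
          rw [Measure.real, h0]; rfl
        rw [h5]
        (clear * - h2 h4; positivity)
  calc ∑ q ∈ S, ∑ r ∈ S, w q * w r * (volume : Measure UnitAddCircle).real
        (arcSet q γ (ψ q) ∩ arcSet r γ (ψ r))
      ≤ ∑ q ∈ S, ∑ r ∈ S, w q * w r * (16 * (ψ q * ψ r) +
        (if (q, r) ∈ T then 2 * (ψ q * ψ r / DD q r (ψ q) (ψ r)) else 0)) := by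
        apply Finset.sum_le_sum
        intro q hq
        apply Finset.sum_le_sum
        intro r hr
        exact mul_le_mul_of_nonneg_left (hpair q hq r hr) (mul_nonneg (hw q hq) (hw r hr))
    _ = 16 * (∑ q ∈ S, w q * ψ q) ^ 2 + 2 * ∑ p ∈ T, w p.1 * w p.2 *
        (ψ p.1 * ψ p.2 / DD p.1 p.2 (ψ p.1) (ψ p.2)) := by
        simp only [mul_add, Finset.sum_add_distrib]
        congr 1
        · rw [sq, Finset.sum_mul_sum, Finset.mul_sum]
          apply Finset.sum_congr rfl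
          intro q _
          rw [Finset.mul_sum]
          apply Finset.sum_congr rfl
          intro r _
          ring
        · have hTs : T ⊆ S ×ˢ S := Finset.filter_subset _ _
          have e1 : ∑ p ∈ T, w p.1 * w p.2 * (ψ p.1 * ψ p.2 / DD p.1 p.2 (ψ p.1) (ψ p.2))
              = ∑ p ∈ S ×ˢ S, if p ∈ T then
                w p.1 * w p.2 * (ψ p.1 * ψ p.2 / DD p.1 p.2 (ψ p.1) (ψ p.2)) else 0 := by
            rw [Finset.sum_ite_mem, Finset.inter_eq_right.mpr hTs]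
          rw [e1, Finset.sum_product, Finset.mul_sum]
          apply Finset.sum_congr rfl
          intro q _
          rw [Finset.mul_sum]
          apply Finset.sum_congr rfl
          intro r _
          split_ifs
          · ring
          · ring
    _ ≤ 16 * (∑ q ∈ S, w q * ψ q) ^ 2 + 2 * (C * (∑ q ∈ S, w q * ψ q) ^ 2) := by (clear * - hTb; gcongr)
    _ ≤ (4 + C) * (2 * ∑ q ∈ S, w q * ψ q) ^ 2 := by
        have : 0 ≤ C * (∑ q ∈ S, w q * ψ q) ^ 2 := by (clear * - hC hpos; positivity)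
        linarith only [this]

end Vale.P028
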