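import Vale.Agent.P028.MathlibUsed
import Vale.Agent.P028.Line

/-!
# Definitions for the bilinear (l^rho -> l^kappa) method

`θ ∈ (1/2, 1)` is `1/rho`, `1 - θ` is `1/kappa`.
-/

namespace Vale.P028

open Finset

/-- `cofac q r = q / gcd(q,r)`. -/
def cofac (q r : ℕ) : ℕ := q / Nat.gcd q r

/-- `|i - j|` for natural numbers. -/
def ad (i j : ℕ) : ℕ := (i - j) + (j - i)

/-- Edge condition for the pair `(q,r)` in the state `(a,b)`: the gcd is composed of primes of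
`P`, the pair of (multiplied) cofactors is allowed by `Ω`, and the two size conditions hold. -/
def Edge (Ω : ℕ → ℕ → Prop) (P : Finset ℕ) (a b : ℕ) (ψ₁ ψ₂ : ℕ → ℝ) (s₁ s₂ : ℝ) (q r : ℕ) :
    Prop :=
  (∀ p : ℕ, p.Prime → p ∣ Nat.gcd q r → p ∈ P) ∧ Ω (a * cofac q r) (b * cofac r q) ∧
  (b : ℝ) * (cofac r q : ℝ) * ψ₁ q ≤ s₁ ∧ (a : ℝ) * (cofac q r : ℝ) * ψ₂ r ≤ s₂

open Classical in
/-- The bilinear sum over the pairs of `R` in `[1,N]²`. -/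
noncomputable def psum (R : ℕ → ℕ → Prop) (N : ℕ) (f h : ℕ → ℝ) : ℝ :=
  ∑ q ∈ Icc 1 N, ∑ r ∈ Icc 1 N, if R q r then f q * h r else 0

/-- The bilinear sum over the edges. -/
noncomputable def Lam (Ω : ℕ → ℕ → Prop) (P : Finset ℕ) (a b : ℕ) (ψ₁ ψ₂ : ℕ → ℝ) (s₁ s₂ : ℝ)
    (N : ℕ) (f h : ℕ → ℝ) : ℝ :=
  psum (Edge Ω P a b ψ₁ ψ₂ s₁ s₂) N f h

/-- Single prime inequality: for all nonnegative sequences either the exact decomposition into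
cells `(i,j)` or, for some `k`, the decomposition into the `L`-shaped cell `min i j = k` and the
remaining exact cells gives the bound `c`. -/
def SP (θ b x c : ℝ) : Prop :=
  ∀ (N : ℕ) (φ χ : ℕ → ℝ), (∀ i, 0 ≤ φ i) → (∀ i, 0 ≤ χ i) →
    (∑ i ∈ range (N + 1), ∑ j ∈ range (N + 1), b ^ ad i j * (φ i * χ j) ^ θ
      ≤ c * ((∑ i ∈ range (N + 1), φ i) * ∑ j ∈ range (N + 1), χ j) ^ θ) ∨
    ∃ k ≤ N, (if k = 0 then (1 : ℝ) else (1 - x) ^ (2 * (1 - θ))) *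
        ((∑ i ∈ Icc k N, φ i) * ∑ j ∈ Icc k N, χ j) ^ θ
      + ∑ i ∈ range (N + 1), ∑ j ∈ range (N + 1),
          (if min i j = k then 0 else b ^ ad i j * (φ i * χ j) ^ θ)
      ≤ c * ((∑ i ∈ range (N + 1), φ i) * ∑ j ∈ range (N + 1), χ j) ^ θ

/-- Single prime inequality of the tensor theorem. -/
def SPn (θ μ ε c : ℝ) : Prop :=
  ∀ (N : ℕ) (φ χ : ℕ → ℝ) (ν : ℤ → ℝ), (∀ i, 0 ≤ φ i) → (∀ i, 0 ≤ χ i) → (∀ l, 0 ≤ ν l) →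
    ∑ i ∈ range (N + 1), ∑ j ∈ range (N + 1),
        ε ^ ad i j * (φ i * χ j) ^ θ * (ν ((i : ℤ) - (j : ℤ))) ^ μ
      ≤ c * ((∑ i ∈ range (N + 1), φ i) * ∑ j ∈ range (N + 1), χ j) ^ θ *
          (∑ l ∈ Icc (-(N : ℤ)) N, ν l) ^ μ

/-- Base case bound (no prime divides the gcd of an edge). -/
def BaseBound (Ω : ℕ → ℕ → Prop) (θ : ℝ) (K : ℕ → ℕ → ℝ) : Prop :=
  ∀ (a b : ℕ), 0 < a → 0 < b → ∀ (ψ₁ ψ₂ f h : ℕ → ℝ) (s₁ s₂ : ℝ) (N : ℕ),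
    0 < s₁ → 0 < s₂ → (∀ q, 0 ≤ f q ∧ f q ≤ ψ₁ q) → (∀ r, 0 ≤ h r ∧ h r ≤ ψ₂ r) →
    Lam Ω ∅ a b ψ₁ ψ₂ s₁ s₂ N f h ≤
      (s₁ * s₂) ^ (1 - θ) * K a b * ((∑ q ∈ Icc 1 N, f q) * ∑ r ∈ Icc 1 N, h r) ^ θ

/-- The pairs `(q,r)` (with `q ≠ r`) that can collide at level `s`: `D(q,r) ≤ s` and
`‖(u-v)γ‖ < 2 s`, where `u = q/gcd`, `v = r/gcd`. -/
def Rel (γ : ℝ) (ψ : ℕ → ℝ) (s : ℝ) (q r : ℕ) : Prop :=
  cofac q r ≠ cofac r q ∧ (cofac r q : ℝ) * ψ q ≤ s ∧ (cofac q r : ℝ) * ψ r ≤ s ∧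
  distInt (((cofac q r : ℝ) - (cofac r q : ℝ)) * γ) < 2 * s

/-- Lower bound for `‖n γ‖`. -/
def Dioph (γ c₀ τ : ℝ) : Prop := ∀ n : ℕ, 0 < n → c₀ * (n : ℝ) ^ (-τ) ≤ distInt (n * γ)

end Vale.P028
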