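import Vale.Agent.P028.MathlibUsed
import Vale.Agent.P028.MDefs

/-!
# Definitions for Theorem A (all real `γ`): sifting by the convergents with big gaps
-/

namespace Vale.P028

open Finset

/-- `B` is the first `h ≥ 1` with `‖h γ‖ ≤ 4 s`. -/
def First (γ s : ℝ) (B : ℕ) : Prop :=
  0 < B ∧ distInt (B * γ) ≤ 4 * s ∧ ∀ h : ℕ, 0 < h → h < B → 4 * s < distInt (h * γ)

/-- The scale `s` is bad with denominator `B`: `B` is the first `h ≥ 1` with `‖h γ‖ ≤ 4 s` and it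
is at most `s ^ (-1/4)`. -/
def BadAt (γ s : ℝ) (B : ℕ) : Prop := First γ s B ∧ (B : ℝ) ^ 4 * s ≤ 1

/-- `B` is a bad denominator (for some scale `s ≤ s₁`). -/
def Bad (γ s₁ : ℝ) (B : ℕ) : Prop := ∃ s : ℝ, 0 < s ∧ s ≤ s₁ ∧ BadAt γ s B

/-- The pair of cofactors `(u,v)` is far from the bad denominator (if there is one) at scale `s`. -/
def Far (γ s : ℝ) (u v : ℕ) : Prop :=
  ∀ B : ℕ, BadAt γ s B → 1 ≤ 4 * distInt (B * γ) * max (u : ℝ) (v : ℝ)

/-- The centre `(γ + α) / q` is allowed. -/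
def Allowed (γ s₁ R : ℝ) (q : ℕ) (α : ℤ) : Prop :=
  ∀ B : ℕ, Bad γ s₁ B → (Int.gcd (α * B + round (B * γ)) q : ℝ) ≤ max (B : ℝ) R

/-- The sifted set: union of the intervals of radius `ψ q / q` around allowed centres. -/
def Gset (γ s₁ R : ℝ) (ψ : ℕ → ℝ) (q : ℕ) : Set ℝ :=
  {x : ℝ | ∃ α : ℤ, |q * x - γ - α| < ψ q ∧ Allowed γ s₁ R q α}

end Vale.P028
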