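import Vale.Agent.P028.MathlibUsed
import Vale.Agent.P028.Line

/-!
# Limsup sets from lower bounds on intervals
-/

namespace Vale.P028

open MeasureTheory Set Filter Topology

theorem ioc_grid {n : ℕ} (hn : 0 < n) {x : ℝ} (hx : x ∈ Ioc (0 : ℝ) 1) :
    ∃ k : ℕ, k < n ∧ x ∈ Ioc ((k : ℝ) / n) ((k + 1) / n) := by
  have hn0 : (0 : ℝ) < n := by exact_mod_cast hn
  have h1 : 0 < (n : ℝ) * x := mul_pos hn0 hx.1
  have h2 : 0 < ⌈(n : ℝ) * x⌉₊ := Nat.ceil_pos.mpr h1
  obtain ⟨k, hk⟩ : ∃ k, ⌈(n : ℝ) * x⌉₊ = k + 1 := ⟨⌈(n : ℝ) * x⌉₊ - 1, by omega⟩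
  have h3 : (n : ℝ) * x ≤ (k : ℝ) + 1 := by
    have := Nat.le_ceil ((n : ℝ) * x)
    rw [hk] at this
    push_cast at this
    exact this
  have h4 : (k : ℝ) < (n : ℝ) * x := by
    have : k < ⌈(n : ℝ) * x⌉₊ := by omega
    exact Nat.lt_ceil.mp this
  refine ⟨k, ?_, ?_, ?_⟩
  · have h5 : (k : ℝ) < n := by nlinarith only [h4, hx.2]
    exact_mod_cast h5
  · rw [div_lt_iff₀ hn0]; linarith only [h4]
  · rw [le_div_iff₀ hn0]; linarith only [h3]

theorem ioc_grid_disjoint {n : ℕ} (hn : 0 < n) {k l : ℕ} (h : k ≠ l) :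
    Disjoint (Ioc ((k : ℝ) / n) ((k + 1) / n)) (Ioc ((l : ℝ) / n) ((l + 1) / n)) := by
  have hn0 : (0 : ℝ) < n := by exact_mod_cast hn
  rw [Set.disjoint_left]
  rintro x ⟨h1, h2⟩ ⟨h3, h4⟩
  rw [div_lt_iff₀ hn0] at h1 h3
  rw [le_div_iff₀ hn0] at h2 h4
  have h5 : (k : ℝ) < l + 1 := by linarith only [h1, h4]
  have h6 : (l : ℝ) < k + 1 := by linarith only [h2, h3]
  have h7 : k < l + 1 := by exact_mod_cast h5
  have h8 : l < k + 1 := by exact_mod_cast h6
  omega

theorem ioc_grid_subset {n : ℕ} (hn : 0 < n) {k : ℕ} (hk : k < n) :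
    Ioc ((k : ℝ) / n) ((k + 1) / n) ⊆ Ioc (0 : ℝ) 1 := by
  have hn0 : (0 : ℝ) < n := by exact_mod_cast hn
  apply Ioc_subset_Ioc
  · positivity
  · rw [div_le_one hn0]
    exact_mod_cast hk

/-- Nonnegative test functions supported on tails, bounded in `L²`, whose integral over every
interval is eventually at least `c` times its length, force full measure in `(0,1]`. -/
theorem ae_infinite_of_lower_Ioc (A : ℕ → Set ℝ) (F : ℕ → ℝ → ℝ) (hA : ∀ q, MeasurableSet (A q))
    (hFm : ∀ j, Measurable (F j)) (B : ℕ → ℝ) (hFb : ∀ j x, F j x ≤ B j) (hF0 : ∀ j x, 0 ≤ F j x)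
    (hsupp : ∀ j x, F j x ≠ 0 → ∃ q, j ≤ q ∧ x ∈ A q)
    {C c : ℝ} (hc : 0 < c) (h2 : ∀ j, ∫ x in Ioc (0 : ℝ) 1, (F j x) ^ 2 ≤ C)
    (hlow : ∀ u v : ℝ, 0 ≤ u → u < v → v ≤ 1 →
      ∀ᶠ j in atTop, c * (v - u) ≤ ∫ x in Ioc u v, F j x) :
    ∀ᵐ x ∂(volume.restrict (Ioc (0 : ℝ) 1)), {q | x ∈ A q}.Infinite := by
  set Z : ℕ → Set ℝ := fun N => Ioc (0 : ℝ) 1 ∩ ⋂ q ∈ Ici N, (A q)ᶜ with hZ
  have hZm : ∀ N, MeasurableSet (Z N) := by
    intro N
    apply measurableSet_Ioc.inter
    exact MeasurableSet.biInter (to_countable _) (fun q _ => (hA q).compl)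
  have hZ0 : ∀ N, volume (Z N) = 0 := by
    intro N
    by_contra hne
    obtain ⟨K, hKZ, hKc, hKpos⟩ := (hZm N).exists_lt_isCompact (pos_iff_ne_zero.mpr hne)
    have hK01 : K ⊆ Ioc (0 : ℝ) 1 := hKZ.trans inter_subset_left
    have hKfin : volume K ≠ ⊤ := hKc.measure_lt_top.ne
    set κ : ℝ := volume.real K with hκ
    have hκ0 : 0 < κ := by
      rw [hκ, Measure.real]
      exact ENNReal.toReal_pos hKpos.ne' hKfin
    have hC0 : 0 ≤ C := (integral_nonneg (fun x => sq_nonneg _)).trans (h2 0)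
    set t : ℝ := c * κ / (2 * (C + 1)) with ht
    have ht0 : 0 < t := by (clear * - hc hκ0 hC0; positivity)
    set e : ℝ := t * (c * κ) / 2 with he
    have he0 : 0 < e := by (clear * - hc hκ0 hC0; positivity)
    obtain ⟨O, hKO, hO, hOe⟩ := hKc.exists_isOpen_lt_add (μ := volume)
      (ε := ENNReal.ofReal e) (by simp [he0])
    obtain ⟨δ, hδ, hδO⟩ := hKc.exists_thickening_subset_open hO hKO
    obtain ⟨n, hn⟩ := exists_nat_gt (1 / δ)
    have hn0 : (0 : ℝ) < n := lt_trans (by (clear * - hδ; positivity)) hn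
    have hn1 : 0 < n := by exact_mod_cast hn0
    have hnδ : 1 / (n : ℝ) < δ := by
      rw [div_lt_iff₀ hδ] at hn
      rw [div_lt_iff₀ hn0]; linarith only [hn]
    classical
    set S : Finset ℕ := (Finset.range n).filter
      (fun k => ∃ x ∈ K, x ∈ Ioc ((k : ℝ) / n) ((k + 1) / n)) with hS
    set U : Set ℝ := ⋃ k ∈ S, Ioc ((k : ℝ) / n) ((k + 1) / n) with hU
    have hlen : ∀ k : ℕ, ((k : ℝ) + 1) / n - k / n = 1 / n := by
      intro k; ring
    have hUO : U ⊆ O := by
      rw [hU]
      apply iUnion₂_subset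
      intro k hk
      rw [hS, Finset.mem_filter] at hk
      obtain ⟨_, x, hxK, hx⟩ := hk
      intro y hy
      apply hδO
      rw [Metric.mem_thickening_iff]
      refine ⟨x, hxK, ?_⟩
      rw [Real.dist_eq]
      have h5 := hlen k
      rw [abs_lt]
      constructor
      · linarith only [hnδ, h5, hy.1, hx.2]
      · linarith only [hnδ, h5, hy.2, hx.1]
    have hKU : K ⊆ U := by
      intro x hx
      obtain ⟨k, hk, hxk⟩ := ioc_grid hn1 (hK01 hx)
      rw [hU, mem_iUnion₂]
      exact ⟨k, by rw [hS, Finset.mem_filter, Finset.mem_range]; exact ⟨hk, x, hx, hxk⟩, hxk⟩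
    have hU01 : U ⊆ Ioc (0 : ℝ) 1 := by
      rw [hU]
      apply iUnion₂_subset
      intro k hk
      rw [hS, Finset.mem_filter, Finset.mem_range] at hk
      exact ioc_grid_subset hn1 hk.1
    have hUm : MeasurableSet U := Finset.measurableSet_biUnion _ (fun _ _ => measurableSet_Ioc)
    have hUfin : volume U ≠ ⊤ := ((measure_mono hU01).trans_lt (by simp only [Real.volume_Ioc, sub_zero, ENNReal.ofReal_one, ENNReal.one_lt_top])).ne
    have hcard : κ ≤ S.card * (1 / (n : ℝ)) := by
      have h5 : volume K ≤ ∑ k ∈ S, volume (Ioc ((k : ℝ) / n) ((k + 1) / n)) :=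
        (measure_mono hKU).trans (measure_biUnion_finset_le _ _)
      have h6 : ∑ k ∈ S, volume (Ioc ((k : ℝ) / n) ((k + 1) / n))
          = ENNReal.ofReal (S.card * (1 / (n : ℝ))) := by
        simp only [Real.volume_Ioc, hlen]
        rw [Finset.sum_const, nsmul_eq_mul, ENNReal.ofReal_mul (Nat.cast_nonneg _),
          ENNReal.ofReal_natCast]
      rw [h6] at h5
      rw [hκ, Measure.real]
      exact ENNReal.toReal_le_of_le_ofReal (by (clear * - hn1; positivity)) h5
    have hUK : volume.real (U \ K) ≤ e := by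
      have h5 : volume (U \ K) ≤ ENNReal.ofReal e := by
        calc volume (U \ K) ≤ volume (O \ K) := measure_mono (sdiff_subset_sdiff_left hUO)
          _ = volume O - volume K := measure_sdiff hKO hKc.nullMeasurableSet hKfin
          _ ≤ ENNReal.ofReal e := by
              rw [tsub_le_iff_left]
              exact hOe.le
      rw [Measure.real]
      exact ENNReal.toReal_le_of_le_ofReal he0.le h5
    have hev : ∀ᶠ j in atTop, ∀ k ∈ S, c * (1 / (n : ℝ)) ≤
        ∫ x in Ioc ((k : ℝ) / n) ((k + 1) / n), F j x := by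
      rw [Filter.eventually_all_finset]
      intro k hk
      rw [hS, Finset.mem_filter, Finset.mem_range] at hk
      have h5 := hlow ((k : ℝ) / n) ((k + 1) / n) (by (clear * - hn1; positivity))
        (by rw [div_lt_div_iff_of_pos_right hn0]; linarith only [])
        (by rw [div_le_one hn0]; exact_mod_cast hk.1)
      rw [hlen] at h5
      exact h5
    obtain ⟨j, hj1, hj2⟩ := (hev.and (eventually_ge_atTop N)).exists
    have hint : ∀ E : Set ℝ, volume E ≠ ⊤ → IntegrableOn (F j) E volume := by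
      intro E hE
      apply Measure.integrableOn_of_bounded (M := B j) hE (hFm j).aestronglyMeasurable
      filter_upwards with x
      rw [Real.norm_eq_abs, abs_of_nonneg (hF0 j x)]
      exact hFb j x
    have hint2 : ∀ E : Set ℝ, volume E ≠ ⊤ → IntegrableOn (fun x => (F j x) ^ 2) E volume := by
      intro E hE
      apply Measure.integrableOn_of_bounded (M := (B j) ^ 2) hE
        ((hFm j).pow_const 2).aestronglyMeasurable
      filter_upwards with x
      rw [Real.norm_eq_abs, abs_of_nonneg (sq_nonneg _)]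
      exact pow_le_pow_left₀ (hF0 j x) (hFb j x) 2
    have hsum : ∫ x in U, F j x = ∑ k ∈ S, ∫ x in Ioc ((k : ℝ) / n) ((k + 1) / n), F j x := by
      rw [hU]
      apply integral_biUnion_finset
      · intro k _; exact measurableSet_Ioc
      · intro k _ l _ hkl
        exact ioc_grid_disjoint hn1 hkl
      · intro k _
        exact hint _ (by rw [Real.volume_Ioc]; exact ENNReal.ofReal_ne_top)
    have hlowU : S.card * (c * (1 / (n : ℝ))) ≤ ∫ x in U, F j x := by
      rw [hsum, ← nsmul_eq_mul, ← Finset.sum_const]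
      exact Finset.sum_le_sum fun k hk => hj1 k hk
    have hzero : ∀ x ∈ K, F j x = 0 := by
      intro x hx
      by_contra hne
      obtain ⟨q, hq1, hq2⟩ := hsupp j x hne
      have h5 := (hKZ hx).2
      rw [mem_iInter₂] at h5
      exact h5 q (mem_Ici.mpr (hj2.trans hq1)) hq2
    have hsplit : ∫ x in U, F j x = ∫ x in U \ K, F j x := by
      rw [← integral_inter_add_sdiff hKc.measurableSet (hint U hUfin)]
      have : ∫ x in U ∩ K, F j x = 0 := by
        rw [setIntegral_congr_fun (hUm.inter hKc.measurableSet) (g := fun _ => (0 : ℝ))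
          (fun x hx => hzero x hx.2)]
        simp
      rw [this, zero_add]
    have hUKfin : volume (U \ K) ≠ ⊤ := ((measure_mono sdiff_subset).trans_lt hUfin.lt_top).ne
    have hup : ∫ x in U \ K, F j x ≤ t / 2 * C + e / (2 * t) := by
      calc ∫ x in U \ K, F j x ≤ ∫ x in U \ K, (t / 2 * (F j x) ^ 2 + 1 / (2 * t)) := by
            apply setIntegral_mono (hint _ hUKfin)
            · apply Integrable.add
              · exact (hint2 _ hUKfin).const_mul _
              · exact integrableOn_const hUKfin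
            · intro x
              have h5 : 0 ≤ t / 2 * (F j x - 1 / t) ^ 2 := by (clear * - hc hκ0 hC0; positivity)
              have h6 : t / 2 * (F j x - 1 / t) ^ 2
                  = t / 2 * (F j x) ^ 2 + 1 / (2 * t) - F j x := by
                field_simp
                ring
              rw [h6] at h5
              change F j x ≤ t / 2 * (F j x) ^ 2 + 1 / (2 * t)
              linarith only [h5]
        _ = t / 2 * (∫ x in U \ K, (F j x) ^ 2) + volume.real (U \ K) * (1 / (2 * t)) := by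
            rw [integral_add ((hint2 _ hUKfin).const_mul _) (integrableOn_const hUKfin),
              integral_const_mul, setIntegral_const, smul_eq_mul]
        _ ≤ t / 2 * C + e * (1 / (2 * t)) := by
            have h5 : ∫ x in U \ K, (F j x) ^ 2 ≤ C := by
              refine le_trans ?_ (h2 j)
              apply setIntegral_mono_set
              · exact hint2 _ (by simp only [Real.volume_Ioc, sub_zero, ENNReal.ofReal_one, ne_eq, ENNReal.one_ne_top, not_false_eq_true])
              · exact Eventually.of_forall fun x => sq_nonneg _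
              · exact (sdiff_subset.trans hU01).eventuallyLE
            (clear * - h5 hc hκ0 hC0 hUK; gcongr)
        _ = t / 2 * C + e / (2 * t) := by ring
    have hfinal : c * κ ≤ t / 2 * C + e / (2 * t) := by
      calc c * κ ≤ c * (S.card * (1 / (n : ℝ))) := mul_le_mul_of_nonneg_left hcard hc.le
        _ = S.card * (c * (1 / (n : ℝ))) := by ring
        _ ≤ ∫ x in U, F j x := hlowU
        _ = ∫ x in U \ K, F j x := hsplit
        _ ≤ _ := hup
    have h7 : e / (2 * t) = c * κ / 4 := by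
      rw [he]; field_simp; ring
    have h8 : t / 2 * C ≤ c * κ / 4 := by
      rw [ht, div_div, div_mul_eq_mul_div, div_le_div_iff₀ (by (clear * - hC0; positivity)) (by norm_num)]
      have : 0 < c * κ := mul_pos hc hκ0
      nlinarith only [this]
    have : 0 < c * κ := mul_pos hc hκ0
    linarith only [hfinal, h7, h8, this]
  rw [ae_restrict_iff' measurableSet_Ioc, ae_iff]
  refine measure_mono_null ?_ (measure_iUnion_null hZ0)
  intro x hx
  simp only [mem_ofPred_eq, Classical.not_imp, Set.not_infinite] at hx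
  obtain ⟨hx1, hx2⟩ := hx
  obtain ⟨N, hN⟩ := hx2.bddAbove
  rw [mem_iUnion]
  refine ⟨N + 1, hx1, ?_⟩
  rw [mem_iInter₂]
  intro q hq hxq
  have h5 := hN (show q ∈ {q | x ∈ A q} from hxq)
  have h6 := mem_Ici.mp hq
  omega

end Vale.P028
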