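import Vale.Agent.P028.MathlibUsed
import Vale.Agent.P028.MLower
import Vale.Agent.P028.MDefs
attribute [-instance] ProperSMul.toContinuousSMul IsTopologicalTorsor.toContinuousSMul IdemSemiring.toCanonicallyOrderedAdd IdemSemiring.toMulLeftMono IdemSemiring.toMulRightMono AddQuantale.instAddLeftMono AddQuantale.instAddRightMono Quantale.instMulLeftMono Quantale.instMulRightMono FiniteDimensional.rclike_to_real IsScalarTower.complexToReal FiniteDimensional.complexToReal

/-!
# Full measure from sifted sets of centres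
-/

namespace Vale.P028

open MeasureTheory Set Filter Topology

/-- The points `x` with `|q x - γ - al| < α` for some integer `al` satisfying `P`. -/
def GS (γ : ℝ) (q : ℕ) (α : ℝ) (P : ℤ → Prop) : Set ℝ :=
  {x | ∃ al : ℤ, P al ∧ |(q : ℝ) * x - γ - al| < α}

theorem isOpen_GS (γ : ℝ) (q : ℕ) (α : ℝ) (P : ℤ → Prop) : IsOpen (GS γ q α P) := by
  have e : GS γ q α P = ⋃ al : ℤ, ⋃ (_ : P al), {x : ℝ | |(q : ℝ) * x - γ - al| < α} := by
    ext x
    simp only [GS, mem_ofPred_eq, mem_iUnion, exists_prop]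
  rw [e]
  refine isOpen_iUnion fun al => isOpen_iUnion fun _ => ?_
  exact isOpen_lt (by (clear * -; fun_prop)) continuous_const

theorem GS_subset (γ : ℝ) (q : ℕ) (α : ℝ) (P : ℤ → Prop) :
    GS γ q α P ⊆ {x | distInt (q * x - γ) < α} := by
  rintro x ⟨al, _, h⟩
  exact lt_of_le_of_lt (round_le _ al) h

open Classical in
theorem GS_lower (γ : ℝ) {q : ℕ} (hq : 0 < q) {α : ℝ} (hα : 0 < α) (hα2 : α ≤ 1 / 2)
    (P : ℤ → Prop) (u v : ℝ) (m n : ℤ) (hm : q * u - γ + α ≤ m + 1) (hn : n ≤ q * v - γ - α) :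
    (((Finset.Ioc m n).filter P).card : ℝ) * (2 * α / q) ≤
      volume.real (GS γ q α P ∩ Ioc u v) := by
  have hq0 : (0 : ℝ) < q := by exact_mod_cast hq
  set T := (Finset.Ioc m n).filter P with hT
  set J : ℤ → Set ℝ := fun al => Ioo ((γ + al - α) / q) ((γ + al + α) / q) with hJ
  have hsub : (⋃ al ∈ T, J al) ⊆ GS γ q α P ∩ Ioc u v := by
    apply iUnion₂_subset
    intro al hal x hx
    rw [hT, Finset.mem_filter, Finset.mem_Ioc] at hal
    obtain ⟨⟨h1, h2⟩, h3⟩ := hal
    simp only [hJ, mem_Ioo] at hx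
    obtain ⟨hx1, hx2⟩ := hx
    rw [div_lt_iff₀ hq0] at hx1
    rw [lt_div_iff₀ hq0] at hx2
    refine ⟨⟨al, h3, ?_⟩, ?_, ?_⟩
    · rw [abs_lt]; constructor <;> linarith only [hx1, hx2]
    · have h4 : (m : ℝ) + 1 ≤ al := by exact_mod_cast h1
      have h5 : (q : ℝ) * u < q * x := by linarith only [hm, hx1, h4]
      exact lt_of_mul_lt_mul_left h5 hq0.le
    · have h4 : (al : ℝ) ≤ n := by exact_mod_cast h2
      have h5 : (q : ℝ) * x ≤ q * v := by linarith only [hn, hx2, h4]
      exact le_of_mul_le_mul_left h5 hq0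
  have hdisj : (T : Set ℤ).PairwiseDisjoint J := by
    intro a _ b _ hab
    change Disjoint (J a) (J b)
    rw [Set.disjoint_left]
    intro x hx hx'
    simp only [hJ, mem_Ioo] at hx hx'
    obtain ⟨h1, h2⟩ := hx
    obtain ⟨h3, h4⟩ := hx'
    rw [div_lt_iff₀ hq0] at h1 h3
    rw [lt_div_iff₀ hq0] at h2 h4
    have h5 : (a : ℝ) < b + 1 := by linarith only [hα2, h1, h4]
    have h6 : (b : ℝ) < a + 1 := by linarith only [hα2, h2, h3]
    have h7 : a < b + 1 := by exact_mod_cast h5
    have h8 : b < a + 1 := by exact_mod_cast h6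
    exact hab (by omega)
  have hvol : volume (⋃ al ∈ T, J al) = ENNReal.ofReal (T.card * (2 * α / q)) := by
    rw [measure_biUnion_finset hdisj (fun _ _ => measurableSet_Ioo)]
    have : ∀ al : ℤ, (γ + al + α) / q - (γ + al - α) / q = 2 * α / q := by
      intro al; field_simp; ring
    simp only [hJ, Real.volume_Ioo, this]
    rw [Finset.sum_const, nsmul_eq_mul, ENNReal.ofReal_mul (Nat.cast_nonneg _),
      ENNReal.ofReal_natCast]
  have hfin : volume (GS γ q α P ∩ Ioc u v) ≠ ⊤ :=
    ((measure_mono inter_subset_right).trans_lt (by rw [Real.volume_Ioc]; exact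
      ENNReal.ofReal_lt_top)).ne
  have h9 : volume.real (⋃ al ∈ T, J al) ≤ volume.real (GS γ q α P ∩ Ioc u v) :=
    measureReal_mono hsub hfin
  rw [Measure.real, hvol, ENNReal.toReal_ofReal (by (clear * - hα hq; positivity))] at h9
  exact h9

theorem volume_real_inter_le {E : Set UnitAddCircle} (hE : MeasurableSet E) {E' : Set ℝ}
    (h : ∀ x ∈ E', (x : UnitAddCircle) ∈ E) : volume (E' ∩ Ioc (0 : ℝ) 1) ≤ volume E := by
  have hmp := UnitAddCircle.measurePreserving_mk (0 : ℝ)
  rw [← hmp.measure_preimage hE.nullMeasurableSet, Measure.restrict_apply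
    (hmp.measurable hE)]
  apply measure_mono
  rintro x ⟨h1, h2⟩
  exact ⟨h x h1, by simpa only [zero_add, mem_Ioc] using h2⟩

theorem GS_inter_le (γ : ℝ) (q r : ℕ) (α β : ℝ) (P Q : ℤ → Prop) :
    volume (GS γ q α P ∩ GS γ r β Q ∩ Ioc (0 : ℝ) 1) ≤
      volume (arcSet q γ α ∩ arcSet r γ β) := by
  apply volume_real_inter_le ((measurableSet_arcSet _ _ _).inter (measurableSet_arcSet _ _ _))
  rintro x ⟨h1, h2⟩
  exact ⟨(mem_arcSet_coe q γ α x).mpr (GS_subset _ _ _ _ h1),
    (mem_arcSet_coe r γ β x).mpr (GS_subset _ _ _ _ h2)⟩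

/-- Full measure on `(0,1]` gives full measure on the line. -/
theorem volume_compl_W_of_unit_Ioc (γ : ℝ) (ψ : ℕ → ℝ)
    (h : ∀ᵐ x ∂(volume.restrict (Ioc (0 : ℝ) 1)),
      {q : ℕ | 0 < q ∧ distInt (q * x - γ) < ψ q}.Infinite) :
    volume (W γ ψ)ᶜ = 0 := by
  rw [ae_restrict_iff' measurableSet_Ioc, ae_iff] at h
  set Z : Set ℝ := {a | ¬(a ∈ Ioc (0 : ℝ) 1 → {q : ℕ | 0 < q ∧ distInt (q * a - γ) < ψ q}.Infinite)}
    with hZ
  have hsub : (W γ ψ)ᶜ ⊆ ⋃ n : ℤ, (fun x : ℝ => x + (n : ℝ)) ⁻¹' Z := by
    intro x hx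
    rw [mem_iUnion]
    refine ⟨-(⌈x⌉ - 1), ?_⟩
    simp only [mem_preimage, hZ, mem_ofPred_eq, Classical.not_imp]
    refine ⟨⟨?_, ?_⟩, ?_⟩
    · push_cast
      have := Int.ceil_lt_add_one x
      linarith only [this]
    · push_cast
      have := Int.le_ceil x
      linarith only [this]
    · intro hinf
      apply hx
      have e : {q : ℕ | 0 < q ∧ distInt (q * (x + ((-(⌈x⌉ - 1) : ℤ) : ℝ)) - γ) < ψ q}
          = {q : ℕ | 0 < q ∧ distInt (q * x - γ) < ψ q} := by
        ext q
        simp only [mem_ofPred_eq]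
        have e2 : (q : ℝ) * (x + ((-(⌈x⌉ - 1) : ℤ) : ℝ)) - γ
            = (q * x - γ) + (((q : ℤ) * (-(⌈x⌉ - 1)) : ℤ) : ℝ) := by
          push_cast; ring
        have e3 : distInt ((q * x - γ) + (((q : ℤ) * (-(⌈x⌉ - 1)) : ℤ) : ℝ))
            = distInt (q * x - γ) := by
          unfold distInt
          rw [round_add_intCast]
          congr 1
          push_cast
          ring
        rw [e2, e3]
      rw [e] at hinf
      exact hinf
  refine measure_mono_null hsub (measure_iUnion_null fun n => ?_)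
  rw [measure_preimage_add_right]
  exact h

open Classical in
/-- **Sifted block criterion.** -/
theorem fullMeasure_of_sifted (γ : ℝ) (ψ : ℕ → ℝ) {C c : ℝ} (hC : 0 ≤ C) (hc : 0 < c)
    (h : ∀ N : ℕ, ∃ (S : Finset ℕ) (w : ℕ → ℝ) (P : ℕ → ℤ → Prop),
      (∀ q ∈ S, N ≤ q ∧ 0 < ψ q ∧ ψ q ≤ 1 / 2) ∧
      (∀ q ∈ S, 0 ≤ w q) ∧ 0 < ∑ q ∈ S, w q * ψ q ∧
      (∀ q ∈ S, ∀ m n : ℤ, (q : ℝ) / (N + 1) ≤ (n : ℝ) - m →
        c * ((n : ℝ) - m) ≤ (((Finset.Ioc m n).filter (P q)).card : ℝ)) ∧
      ∀ T : Finset (ℕ × ℕ), (∀ p ∈ T, p.1 ∈ S ∧ p.2 ∈ S ∧ DD p.1 p.2 (ψ p.1) (ψ p.2) < 1 / 4 ∧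
        ∃ al be : ℤ, P p.1 al ∧ P p.2 be ∧
          |((al : ℝ) + γ) * (cofac p.2 p.1 : ℝ) - ((be : ℝ) + γ) * (cofac p.1 p.2 : ℝ)| <
            (cofac p.2 p.1 : ℝ) * ψ p.1 + (cofac p.1 p.2 : ℝ) * ψ p.2) →
      ∑ p ∈ T, w p.1 * w p.2 * (ψ p.1 * ψ p.2 / DD p.1 p.2 (ψ p.1) (ψ p.2)) ≤
      C * (∑ q ∈ S, w q * ψ q) ^ 2) :
    volume (W γ ψ)ᶜ = 0 := by
  apply volume_compl_W_of_unit_Ioc
  choose S w P hS hw hpos hcount hsec using fun N => h (N + 1)
  set G : ℕ → ℕ → Set ℝ := fun j q => GS γ q (ψ q) (P j q) with hG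
  set A : ℕ → Set ℝ := fun q => if 0 < q then {x | distInt (q * x - γ) < ψ q} else ∅ with hA
  set M : ℕ → ℝ := fun j => ∑ q ∈ S j, w j q * ψ q with hM
  have hM0 : ∀ j, 0 < M j := hpos
  set F : ℕ → ℝ → ℝ := fun j x =>
    (M j)⁻¹ * ∑ q ∈ S j, w j q * (G j q).indicator (fun _ => (1 : ℝ)) x with hF
  have hGm : ∀ j q, MeasurableSet (G j q) := fun j q => (isOpen_GS _ _ _ _).measurableSet
  have hindm : ∀ j q, Measurable ((G j q).indicator (fun _ => (1 : ℝ))) := fun j q =>
    measurable_const.indicator (hGm j q)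
  have hFm : ∀ j, Measurable (F j) := by
    intro j
    apply Measurable.const_mul
    apply Finset.measurable_fun_sum
    intro q _
    exact (hindm j q).const_mul _
  have hind0 : ∀ j q x, 0 ≤ (G j q).indicator (fun _ => (1 : ℝ)) x := fun j q x =>
    Set.indicator_nonneg (fun _ _ => zero_le_one) _
  have hind1 : ∀ j q x, (G j q).indicator (fun _ => (1 : ℝ)) x ≤ 1 := by
    intro j q x
    by_cases hx : x ∈ G j q
    · simp [hx]
    · simp only [hx, not_false_eq_true, indicator_of_notMem, zero_le_one]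
  have hAm : ∀ q, MeasurableSet (A q) := by
    intro q
    by_cases hq : 0 < q
    · have e : A q = GS γ q (ψ q) (fun _ => True) := by
        simp only [hA, hq, if_true]
        ext x
        simp only [GS, mem_ofPred_eq, true_and]
        constructor
        · intro h1; exact ⟨round ((q : ℝ) * x - γ), h1⟩
        · rintro ⟨al, h1⟩; exact lt_of_le_of_lt (round_le _ al) h1
      rw [e]; exact (isOpen_GS _ _ _ _).measurableSet
    · simp only [hA, hq, if_false]; exact MeasurableSet.empty
  have hintG : ∀ (E E' : Set ℝ), MeasurableSet E → MeasurableSet E' → volume E' ≠ ⊤ →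
      ∫ x in E', E.indicator (fun _ => (1 : ℝ)) x = volume.real (E ∩ E') := by
    intro E E' hE hE' hfin
    rw [integral_indicator hE, setIntegral_const, smul_eq_mul, mul_one,
      measureReal_restrict_apply hE]
  have hintI : ∀ (E E' : Set ℝ), MeasurableSet E → volume E' ≠ ⊤ →
      Integrable (fun x => E.indicator (fun _ => (1 : ℝ)) x) (volume.restrict E') := by
    intro E E' hE hfin
    have : IsFiniteMeasure (volume.restrict E') := ⟨by
      rw [Measure.restrict_apply_univ]; exact hfin.lt_top⟩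
    exact (integrable_const (1 : ℝ)).indicator hE
  have main := ae_infinite_of_lower_Ioc A F hAm hFm (fun j => (M j)⁻¹ * ∑ q ∈ S j, w j q) (by
      intro j x
      apply mul_le_mul_of_nonneg_left _ (inv_nonneg.mpr (hM0 j).le)
      apply Finset.sum_le_sum
      intro q hq
      calc w j q * (G j q).indicator (fun _ => (1 : ℝ)) x ≤ w j q * 1 :=
            mul_le_mul_of_nonneg_left (hind1 j q x) (hw j q hq)
        _ = w j q := mul_one _) (by
      intro j x
      exact mul_nonneg (inv_nonneg.mpr (hM0 j).le) (Finset.sum_nonneg fun q hq =>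
        mul_nonneg (hw j q hq) (hind0 j q x))) (by
      intro j x hx
      have : ∑ q ∈ S j, w j q * (G j q).indicator (fun _ => (1 : ℝ)) x ≠ 0 := by
        intro h0
        apply hx
        simp only [hF]
        rw [h0, mul_zero]
      obtain ⟨q, hq, hq2⟩ := Finset.exists_ne_zero_of_sum_ne_zero this
      have hqN := (hS j q hq).1
      have hq0 : 0 < q := by omega
      refine ⟨q, by omega, ?_⟩
      simp only [hA, hq0, if_true]
      by_contra hxA
      apply hq2
      rw [Set.indicator_of_notMem (fun hx' => hxA (GS_subset _ _ _ _ hx')), mul_zero])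
    (C := 16 + 2 * C) (c := c) hc (by
      intro j
      have e : ∀ x, (F j x) ^ 2 = ((M j)⁻¹) ^ 2 * ∑ q ∈ S j, ∑ r ∈ S j, w j q * w j r *
          ((G j q ∩ G j r).indicator (fun _ => (1 : ℝ)) x) := by
        intro x
        simp only [hF]
        rw [mul_pow, sq (∑ q ∈ S j, _), Finset.sum_mul_sum]
        congr 1
        apply Finset.sum_congr rfl
        intro q _
        apply Finset.sum_congr rfl
        intro r _
        by_cases h1 : x ∈ G j q <;> by_cases h2 : x ∈ G j r <;> simp [h1, h2]
      have hint : ∀ q r, Integrable (fun x => (G j q ∩ G j r).indicator (fun _ => (1 : ℝ)) x)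
          (volume.restrict (Ioc (0 : ℝ) 1)) := fun q r =>
        hintI _ _ ((hGm j q).inter (hGm j r)) (by simp only [Real.volume_Ioc, sub_zero, ENNReal.ofReal_one, ne_eq, ENNReal.one_ne_top, not_false_eq_true])
      simp only [e]
      rw [integral_const_mul, integral_finsetSum _ (fun q _ =>
        integrable_finsetSum _ (fun r _ => (hint q r).const_mul _))]
      have e2 : ∀ q ∈ S j, ∫ x in Ioc (0 : ℝ) 1, ∑ r ∈ S j, w j q * w j r *
          ((G j q ∩ G j r).indicator (fun _ => (1 : ℝ)) x)
          = ∑ r ∈ S j, w j q * w j r * volume.real (G j q ∩ G j r ∩ Ioc (0 : ℝ) 1) := by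
        intro q _
        rw [integral_finsetSum _ (fun r _ => (hint q r).const_mul _)]
        apply Finset.sum_congr rfl
        intro r _
        rw [integral_const_mul, hintG _ _ ((hGm j q).inter (hGm j r)) measurableSet_Ioc (by simp only [Real.volume_Ioc, sub_zero, ENNReal.ofReal_one, ne_eq, ENNReal.one_ne_top, not_false_eq_true])]
      rw [Finset.sum_congr rfl e2]
      -- the pairs
      set T : Finset (ℕ × ℕ) := (S j ×ˢ S j).filter (fun p => DD p.1 p.2 (ψ p.1) (ψ p.2) < 1 / 4 ∧
        ∃ al be : ℤ, P j p.1 al ∧ P j p.2 be ∧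
          |((al : ℝ) + γ) * (cofac p.2 p.1 : ℝ) - ((be : ℝ) + γ) * (cofac p.1 p.2 : ℝ)| <
            (cofac p.2 p.1 : ℝ) * ψ p.1 + (cofac p.1 p.2 : ℝ) * ψ p.2) with hTdef
      have hTb := hsec j T (by
        intro p hp
        rw [hTdef, Finset.mem_filter, Finset.mem_product] at hp
        exact ⟨hp.1.1, hp.1.2, hp.2.1, hp.2.2⟩)
      have hDpos : ∀ q ∈ S j, ∀ r ∈ S j, 0 < DD q r (ψ q) (ψ r) := by
        intro q hq r hr
        obtain ⟨h1, h2, _⟩ := hS j q hq
        obtain ⟨h3, h4, _⟩ := hS j r hr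
        have hg : 0 < Nat.gcd q r := Nat.gcd_pos_of_pos_left _ (by omega)
        have hrR : (0 : ℝ) < r := by exact_mod_cast (by omega : 0 < r)
        rw [DD]
        apply div_pos _ (by exact_mod_cast hg)
        exact lt_max_of_lt_left (mul_pos hrR h2)
      have hpair : ∀ q ∈ S j, ∀ r ∈ S j,
          volume.real (G j q ∩ G j r ∩ Ioc (0 : ℝ) 1)
          ≤ 16 * (ψ q * ψ r) + (if (q, r) ∈ T then 2 * (ψ q * ψ r / DD q r (ψ q) (ψ r)) else 0) := by
        intro q hq r hr
        obtain ⟨h1, h2, h2'⟩ := hS j q hq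
        obtain ⟨h3, h4, h4'⟩ := hS j r hr
        have hD0 := hDpos q hq r hr
        have hle := GS_inter_le γ q r (ψ q) (ψ r) (P j q) (P j r)
        rcases le_or_gt (1 / 4) (DD q r (ψ q) (ψ r)) with hD | hD
        · have := volume_inter_le_of_quarter_le q r (by omega) (by omega) γ γ (ψ q) (ψ r)
            h2.le h4.le hD
          have h5 : volume.real (G j q ∩ G j r ∩ Ioc (0 : ℝ) 1) ≤ 16 * ψ q * ψ r :=
            ENNReal.toReal_le_of_le_ofReal (by (clear * - h2 h4; positivity)) (hle.trans this)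
          have h6 : 0 ≤ (if (q, r) ∈ T then 2 * (ψ q * ψ r / DD q r (ψ q) (ψ r)) else 0) := by
            split_ifs
            · (clear * - h2 h4 hD0; positivity)
            · exact le_rfl
          (clear * - h5 h6; linarith)
        · by_cases hT' : (q, r) ∈ T
          · rw [if_pos hT']
            have := volume_inter_le_of_lt_quarter q r (by omega) (by omega) γ γ (ψ q) (ψ r)
              h2.le h4.le hD0 hD
            have h5 : volume.real (G j q ∩ G j r ∩ Ioc (0 : ℝ) 1)
                ≤ 2 * ψ q * ψ r / DD q r (ψ q) (ψ r) :=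
              ENNReal.toReal_le_of_le_ofReal (by (clear * - h2 h4 hD0; positivity)) (hle.trans this)
            have h6 : 2 * ψ q * ψ r / DD q r (ψ q) (ψ r)
                = 2 * (ψ q * ψ r / DD q r (ψ q) (ψ r)) := by
              ring
            have h7 : 0 ≤ ψ q * ψ r := by (clear * - h2 h4; positivity)
            (clear * - h5 h6 h7; linarith)
          · rw [if_neg hT']
            have h0 : G j q ∩ G j r ∩ Ioc (0 : ℝ) 1 = ∅ := by
              rw [Set.eq_empty_iff_forall_notMem]
              rintro x ⟨⟨⟨al, hal, hx1⟩, ⟨be, hbe, hx2⟩⟩, _⟩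
              apply hT'
              rw [hTdef, Finset.mem_filter, Finset.mem_product]
              refine ⟨⟨hq, hr⟩, hD, al, be, hal, hbe, ?_⟩
              have hg : 0 < Nat.gcd q r := Nat.gcd_pos_of_pos_left _ (by omega)
              have hgR : (0 : ℝ) < Nat.gcd q r := by exact_mod_cast hg
              have ha : 0 < cofac q r := Nat.div_pos (Nat.gcd_le_left _ (by omega)) hg
              have hb : 0 < cofac r q := by
                unfold cofac
                rw [Nat.gcd_comm]
                exact Nat.div_pos (Nat.gcd_le_right _ (by omega)) hg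
              have haR : (0 : ℝ) < cofac q r := by exact_mod_cast ha
              have hbR : (0 : ℝ) < cofac r q := by exact_mod_cast hb
              have e3 : (q : ℝ) * cofac r q = r * cofac q r := by
                have e4 : q * cofac r q = r * cofac q r := by
                  unfold cofac
                  rw [Nat.gcd_comm r q, ← Nat.mul_div_assoc _ (Nat.gcd_dvd_right q r),
                    ← Nat.mul_div_assoc _ (Nat.gcd_dvd_left q r), Nat.mul_comm]
                exact_mod_cast e4
              dsimp only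
              have e5 : ((al : ℝ) + γ) * (cofac r q : ℝ) - ((be : ℝ) + γ) * (cofac q r : ℝ)
                  = (cofac q r : ℝ) * ((r : ℝ) * x - γ - be)
                    - (cofac r q : ℝ) * ((q : ℝ) * x - γ - al) := by
                linear_combination x * e3
              rw [e5]
              calc |(cofac q r : ℝ) * ((r : ℝ) * x - γ - be)
                    - (cofac r q : ℝ) * ((q : ℝ) * x - γ - al)|
                  ≤ |(cofac q r : ℝ) * ((r : ℝ) * x - γ - be)|
                    + |(cofac r q : ℝ) * ((q : ℝ) * x - γ - al)| := abs_sub _ _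
                _ = (cofac q r : ℝ) * |(r : ℝ) * x - γ - be|
                    + (cofac r q : ℝ) * |(q : ℝ) * x - γ - al| := by
                    rw [abs_mul, abs_mul, abs_of_pos haR, abs_of_pos hbR]
                _ < (cofac q r : ℝ) * ψ r + (cofac r q : ℝ) * ψ q := by
                    (clear * - hx2 ha hx1 hb; gcongr)
                _ = _ := by ring
            rw [h0, measureReal_empty]
            have h7 : 0 ≤ ψ q * ψ r := by (clear * - h2 h4; positivity)
            linarith only [h7]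
      have hsumT : ∑ q ∈ S j, ∑ r ∈ S j, w j q * w j r *
          volume.real (G j q ∩ G j r ∩ Ioc (0 : ℝ) 1) ≤ (16 + 2 * C) * (M j) ^ 2 := by
        calc ∑ q ∈ S j, ∑ r ∈ S j, w j q * w j r * volume.real (G j q ∩ G j r ∩ Ioc (0 : ℝ) 1)
            ≤ ∑ q ∈ S j, ∑ r ∈ S j, w j q * w j r * (16 * (ψ q * ψ r) +
              (if (q, r) ∈ T then 2 * (ψ q * ψ r / DD q r (ψ q) (ψ r)) else 0)) := by
              apply Finset.sum_le_sum
              intro q hq
              apply Finset.sum_le_sum
              intro r hr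
              exact mul_le_mul_of_nonneg_left (hpair q hq r hr)
                (mul_nonneg (hw j q hq) (hw j r hr))
          _ = 16 * (∑ q ∈ S j, w j q * ψ q) ^ 2 + 2 * ∑ p ∈ T, w j p.1 * w j p.2 *
              (ψ p.1 * ψ p.2 / DD p.1 p.2 (ψ p.1) (ψ p.2)) := by
              simp only [mul_add, Finset.sum_add_distrib]
              congr 1
              · rw [sq, Finset.sum_mul_sum, Finset.mul_sum]
                apply Finset.sum_congr rfl
                intro q _
                rw [Finset.mul_sum]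
                apply Finset.sum_congr rfl
                intro r _
                ring
              · have hTs : T ⊆ S j ×ˢ S j := Finset.filter_subset _ _
                have e1 : ∑ p ∈ T, w j p.1 * w j p.2 *
                    (ψ p.1 * ψ p.2 / DD p.1 p.2 (ψ p.1) (ψ p.2))
                    = ∑ p ∈ S j ×ˢ S j, if p ∈ T then
                      w j p.1 * w j p.2 * (ψ p.1 * ψ p.2 / DD p.1 p.2 (ψ p.1) (ψ p.2)) else 0 := by
                  rw [Finset.sum_ite_mem, Finset.inter_eq_right.mpr hTs]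
                rw [e1, Finset.sum_product, Finset.mul_sum]
                apply Finset.sum_congr rfl
                intro q _
                rw [Finset.mul_sum]
                apply Finset.sum_congr rfl
                intro r _
                split_ifs
                · ring
                · ring
          _ ≤ 16 * (M j) ^ 2 + 2 * (C * (M j) ^ 2) := by
              have := hTb
              simp only [hM]
              (clear * - hTb; linarith)
          _ = (16 + 2 * C) * (M j) ^ 2 := by ring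
      have hMj := hM0 j
      calc ((M j)⁻¹) ^ 2 * ∑ q ∈ S j, ∑ r ∈ S j, w j q * w j r *
            volume.real (G j q ∩ G j r ∩ Ioc (0 : ℝ) 1)
          ≤ ((M j)⁻¹) ^ 2 * ((16 + 2 * C) * (M j) ^ 2) :=
            mul_le_mul_of_nonneg_left hsumT (by (clear * - hMj; positivity))
        _ = 16 + 2 * C := by
            have : M j ≠ 0 := hMj.ne'
            (clear * - this hC; field_simp)) (by
      intro u v hu huv hv
      obtain ⟨j₀, hj₀⟩ := exists_nat_gt (4 / (v - u))
      filter_upwards [eventually_ge_atTop j₀] with j hj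
      have hvu : 0 < v - u := by linarith only [huv]
      have hjR : (j₀ : ℝ) ≤ j := by exact_mod_cast hj
      have hj4 : 4 / (v - u) < j := lt_of_lt_of_le hj₀ hjR
      have hj4' : 4 < j * (v - u) := by rwa [div_lt_iff₀ hvu] at hj4
      have hfin : volume (Ioc u v) ≠ ⊤ := by rw [Real.volume_Ioc]; exact ENNReal.ofReal_ne_top
      have e1 : ∫ x in Ioc u v, F j x
          = (M j)⁻¹ * ∑ q ∈ S j, w j q * volume.real (G j q ∩ Ioc u v) := by
        simp only [hF]
        rw [integral_const_mul, integral_finsetSum _ (fun q _ =>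
          (hintI _ _ (hGm j q) hfin).const_mul _)]
        congr 1
        apply Finset.sum_congr rfl
        intro q _
        rw [integral_const_mul, hintG _ _ (hGm j q) measurableSet_Ioc hfin]
      rw [e1]
      have hMj := hM0 j
      rw [inv_mul_eq_div, le_div_iff₀ hMj]
      simp only [hM]
      rw [Finset.mul_sum]
      apply Finset.sum_le_sum
      intro q hq
      obtain ⟨h1, h2, h2'⟩ := hS j q hq
      have hq0 : 0 < q := by (clear * - hj h1; omega)
      have hq0' : (0 : ℝ) < q := by exact_mod_cast hq0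
      have hqj : (j : ℝ) ≤ q := by
        have : j ≤ q := by omega
        exact_mod_cast this
      set m : ℤ := ⌈(q : ℝ) * u - γ + ψ q⌉ - 1 with hm
      set n : ℤ := ⌊(q : ℝ) * v - γ - ψ q⌋ with hn
      have hm1 : (q : ℝ) * u - γ + ψ q ≤ m + 1 := by
        rw [hm]; push_cast
        have := Int.le_ceil ((q : ℝ) * u - γ + ψ q)
        linarith only [this]
      have hm2 : (m : ℝ) < (q : ℝ) * u - γ + ψ q := by
        rw [hm]; push_cast
        have := Int.ceil_lt_add_one ((q : ℝ) * u - γ + ψ q)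
        linarith only [this]
      have hn1 : (n : ℝ) ≤ (q : ℝ) * v - γ - ψ q := Int.floor_le _
      have hn2 : (q : ℝ) * v - γ - ψ q < n + 1 := Int.lt_floor_add_one _
      have hq4 : 4 < q * (v - u) := by nlinarith only [hj4', huv, hqj]
      have hnm : q * (v - u) / 2 ≤ (n : ℝ) - m := by nlinarith only [h2', hm2, hn2, hq4]
      have h5 := GS_lower γ hq0 h2 h2' (P j q) u v m n hm1 hn1
      have h6 := hcount j q hq m n (by
        refine le_trans ?_ hnm
        push_cast
        rw [div_le_iff₀ (by (clear * -; positivity))]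
        have : (2 : ℝ) ≤ (v - u) * (j + 1 + 1) := by nlinarith only [hj4']
        nlinarith only [hj4', hq4])
      calc c * (v - u) * (w j q * ψ q)
          = w j q * ((c * (q * (v - u) / 2)) * (2 * ψ q / q)) := by (clear * - hq0 h2 hvu hc; field_simp)
        _ ≤ w j q * ((((Finset.Ioc m n).filter (P j q)).card : ℝ) * (2 * ψ q / q)) := by
            apply mul_le_mul_of_nonneg_left _ (hw j q hq)
            apply mul_le_mul_of_nonneg_right _ (by (clear * - h2 hq0; positivity))
            exact (mul_le_mul_of_nonneg_left hnm hc.le).trans h6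
        _ ≤ w j q * volume.real (G j q ∩ Ioc u v) :=
            mul_le_mul_of_nonneg_left h5 (hw j q hq))
  filter_upwards [main] with x hx
  apply hx.mono
  intro q hq
  simp only [mem_ofPred_eq, hA] at hq ⊢
  by_cases hq0 : 0 < q
  · rw [if_pos hq0] at hq
    exact ⟨hq0, hq⟩
  · rw [if_neg hq0] at hq
    exact absurd hq (Set.notMem_empty _)

/-- The elimination step: if `γ` is well approximated by `A/B` and the two centres are close, then
both centres are divisible. -/
theorem kill_dvd {γ s β : ℝ} {A : ℤ} {B a b : ℕ} (hβ : |(B : ℝ) * γ - A| ≤ β)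
    (hab : Nat.Coprime a b) (hsmall : 2 * s * B + β * |(b : ℝ) - a| ≤ 1) (hB : 0 < B) {al be : ℤ}
    (h : |((al : ℝ) + γ) * b - ((be : ℝ) + γ) * a| < 2 * s) :
    (a : ℤ) ∣ al * B + A ∧ (b : ℤ) ∣ be * B + A := by
  have hB0 : (0 : ℝ) < B := by exact_mod_cast hB
  set e : ℝ := (B : ℝ) * γ - A with he
  have h1 : (((al * B + A) * b - (be * B + A) * a : ℤ) : ℝ)
      = B * (((al : ℝ) + γ) * b - ((be : ℝ) + γ) * a) - e * ((b : ℝ) - a) := by
    rw [he]; push_cast; ring
  have h2 : |(((al * B + A) * b - (be * B + A) * a : ℤ) : ℝ)| < 1 := by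
    rw [h1]
    calc |(B : ℝ) * (((al : ℝ) + γ) * b - ((be : ℝ) + γ) * a) - e * ((b : ℝ) - a)|
        ≤ |(B : ℝ) * (((al : ℝ) + γ) * b - ((be : ℝ) + γ) * a)| + |e * ((b : ℝ) - a)| :=
          abs_sub _ _
      _ = B * |((al : ℝ) + γ) * b - ((be : ℝ) + γ) * a| + |e| * |(b : ℝ) - a| := by
          rw [abs_mul, abs_mul, abs_of_pos hB0]
      _ < B * (2 * s) + β * |(b : ℝ) - a| := by
          have h3 : B * |((al : ℝ) + γ) * b - ((be : ℝ) + γ) * a| < B * (2 * s) :=
            mul_lt_mul_of_pos_left h hB0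
          have h4 : |e| * |(b : ℝ) - a| ≤ β * |(b : ℝ) - a| :=
            mul_le_mul_of_nonneg_right hβ (abs_nonneg _)
          linarith only [h3, h4]
      _ ≤ 1 := by linarith only [hsmall]
  have h3 : (al * B + A) * b - (be * B + A) * a = 0 := by
    rw [← Int.cast_abs] at h2
    have h4 : |(al * B + A) * b - (be * B + A) * a| < 1 := by exact_mod_cast h2
    exact Int.abs_lt_one_iff.mp h4
  have hcop : IsCoprime (a : ℤ) (b : ℤ) := Nat.isCoprime_iff_coprime.mpr hab
  constructor
  · apply hcop.dvd_of_dvd_mul_right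
    exact ⟨be * B + A, by linear_combination h3⟩
  · apply hcop.symm.dvd_of_dvd_mul_right
    exact ⟨al * B + A, by linear_combination -h3⟩

end Vale.P028
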