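import Vale.Agent.P028.MathlibUsed
import Vale.Agent.P028.ADefs
import Vale.Agent.P028.MSift

/-!
# Structure of the bad denominators, kill lemma
-/

namespace Vale.P028

open Finset MeasureTheory Filter

theorem distInt_le_abs_sub' (x : ℝ) (z : ℤ) : distInt x ≤ |x - z| := round_le x z

theorem BadAt.gcd_eq_one {γ s : ℝ} {B : ℕ} (_hs : 0 < s) (_hs2 : s ≤ 1 / 1000)
    (h : BadAt γ s B) : Int.gcd (round ((B : ℝ) * γ)) B = 1 := by
  obtain ⟨⟨hB, h1, h2⟩, _⟩ := h
  set A := round ((B : ℝ) * γ) with hA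
  by_contra hne
  have hB0 : (B : ℤ) ≠ 0 := by exact_mod_cast hB.ne'
  have hd0 : 0 < Int.gcd A B := Int.gcd_pos_of_ne_zero_right _ hB0
  have hd2 : 2 ≤ Int.gcd A B := by omega
  obtain ⟨A', hA'⟩ := Int.gcd_dvd_left A (B : ℤ)
  obtain ⟨k, hk⟩ : Int.gcd A B ∣ B := by
    have := Int.gcd_dvd_right A (B : ℤ)
    exact_mod_cast this
  set d := Int.gcd A B with hd
  have hk0 : 0 < k := by
    rcases Nat.eq_zero_or_pos k with h0 | h0
    · rw [h0, mul_zero] at hk; omega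
    · exact h0
  have hkB : k < B := by rw [hk]; nlinarith only [hk0, hd2]
  have h3 := h2 k hk0 hkB
  have hdR : (0 : ℝ) < d := by exact_mod_cast hd0
  have h4 : distInt (k * γ) ≤ distInt (B * γ) := by
    have h5 : distInt (B * γ) = d * |(k : ℝ) * γ - A'| := by
      have e : (B : ℝ) * γ - A = d * ((k : ℝ) * γ - A') := by
        rw [hA', hk]; push_cast; ring
      unfold distInt
      rw [← hA, e, abs_mul, abs_of_pos hdR]
    rw [h5]
    calc distInt (k * γ) ≤ |(k : ℝ) * γ - A'| := distInt_le_abs_sub' _ _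
      _ = 1 * |(k : ℝ) * γ - A'| := (one_mul _).symm
      _ ≤ d * |(k : ℝ) * γ - A'| := by
          apply mul_le_mul_of_nonneg_right _ (abs_nonneg _)
          exact_mod_cast hd0
  linarith only [h4, h3, h1]

theorem BadAt.mul_le {γ s : ℝ} {B : ℕ} (hs : 0 < s) (hs2 : s ≤ 1 / 1000) (h : BadAt γ s B) :
    s * B ≤ 1 / 16 := by
  by_contra hne
  rw [not_le] at hne
  have h1 : (1 / 16 : ℝ) ^ 4 < (s * B) ^ 4 := pow_lt_pow_left₀ hne (by norm_num) (by norm_num)
  have h2 : (s * (B : ℝ)) ^ 4 = ((B : ℝ) ^ 4 * s) * s ^ 3 := by ring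
  have h3 : ((B : ℝ) ^ 4 * s) * s ^ 3 ≤ 1 * (1 / 1000) ^ 3 := by
    apply mul_le_mul h.2 (pow_le_pow_left₀ hs.le hs2 3) (by positivity) zero_le_one
  rw [h2] at h1
  norm_num at h1 h3
  linarith only [h1, h3]

theorem Bad.gap {γ s₁ : ℝ} {B B' : ℕ} (hs1 : s₁ ≤ 1 / 1000) (h : Bad γ s₁ B) (h' : Bad γ s₁ B')
    (hlt : B < B') : 3 / 16 * max ((B : ℝ) ^ 4) (1 / s₁) ≤ B' := by
  obtain ⟨s, hs, hss₁, hb⟩ := h
  obtain ⟨s', hs', hss₁', hb'⟩ := h'
  have hg := hb.gcd_eq_one hs (hss₁.trans hs1)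
  have hg' := hb'.gcd_eq_one hs' (hss₁'.trans hs1)
  have hm := hb.mul_le hs (hss₁.trans hs1)
  obtain ⟨⟨hB, h1, h2⟩, h3⟩ := hb
  obtain ⟨⟨hB', h1', h2'⟩, h3'⟩ := hb'
  have hBR : (0 : ℝ) < B := by exact_mod_cast hB
  have hBR' : (0 : ℝ) < B' := by exact_mod_cast hB'
  have h4 := h2' B hB hlt
  set A := round ((B : ℝ) * γ) with hA
  set A' := round ((B' : ℝ) * γ) with hA'
  have hne : A' * B - A * B' ≠ 0 := by
    intro h0
    have h5 : A' * B = A * B' := by linarith only [h0]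
    have h6 : (B : ℤ) ∣ B' := by
      have : (B : ℤ) ∣ A * B' := ⟨A', by rw [← h5]; ring⟩
      exact (Int.isCoprime_iff_gcd_eq_one.mpr hg).symm.dvd_of_dvd_mul_left this
    have h7 : (B' : ℤ) ∣ B := by
      have : (B' : ℤ) ∣ A' * B := ⟨A, by rw [h5]; ring⟩
      exact (Int.isCoprime_iff_gcd_eq_one.mpr hg').symm.dvd_of_dvd_mul_left this
    have h8 : B ∣ B' := by exact_mod_cast h6
    have h9 : B' ∣ B := by exact_mod_cast h7
    have := Nat.dvd_antisymm h8 h9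
    omega
  have h5 : (1 : ℝ) ≤ |((A' * B - A * B' : ℤ) : ℝ)| := by
    rw [← Int.cast_abs]
    exact_mod_cast Int.one_le_abs hne
  set β := distInt (B * γ) with hβ
  set β' := distInt (B' * γ) with hβ'
  have h6 : |((A' * B - A * B' : ℤ) : ℝ)| ≤ B * β' + B' * β := by
    have e : ((A' * B - A * B' : ℤ) : ℝ) = B' * ((B : ℝ) * γ - A) - B * ((B' : ℝ) * γ - A') := by
      push_cast; ring
    rw [e]
    calc |(B' : ℝ) * ((B : ℝ) * γ - A) - B * ((B' : ℝ) * γ - A')|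
        ≤ |(B' : ℝ) * ((B : ℝ) * γ - A)| + |(B : ℝ) * ((B' : ℝ) * γ - A')| := abs_sub _ _
      _ = B * β' + B' * β := by
          rw [abs_mul, abs_mul, abs_of_pos hBR, abs_of_pos hBR', hβ, hβ']
          unfold distInt
          ring
  have h7 : B * β' ≤ 1 / 4 := by
    have : (B : ℝ) * β' ≤ B * (4 * s) := mul_le_mul_of_nonneg_left (by linarith only [h4, h1', h1]) hBR.le
    linarith only [hm, this]
  have h8 : 3 / 4 ≤ B' * β := by linarith only [h6, h5, h7]
  have h9 : 3 / 16 ≤ B' * s := by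
    have : (B' : ℝ) * β ≤ B' * (4 * s) := mul_le_mul_of_nonneg_left h1 hBR'.le
    linarith only [h6, this, h5, h7]
  have h10 : 3 / 16 * (1 / s) ≤ B' := by
    rw [mul_one_div, div_le_iff₀ hs]; exact h9
  have h11 : (B : ℝ) ^ 4 ≤ 1 / s := by
    rw [le_div_iff₀ hs]; exact h3
  have h12 : 1 / s₁ ≤ 1 / s := one_div_le_one_div_of_le hs hss₁
  have h13 : max ((B : ℝ) ^ 4) (1 / s₁) ≤ 1 / s := max_le h11 h12
  linarith only [h10, h13]

theorem kill {γ s s₁ R : ℝ} {ψ : ℕ → ℝ} (hs : 0 < s) (hs1 : s ≤ s₁) (hs2 : s ≤ 1 / 1000)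
    {q r : ℕ} (hq : 0 < q) (hr : 0 < r) (hqr : q ≠ r)
    (hD1 : (cofac r q : ℝ) * ψ q ≤ s) (hD2 : (cofac q r : ℝ) * ψ r ≤ s)
    (hR : R < max (cofac q r : ℝ) (cofac r q : ℝ)) (hF : ¬ Far γ s (cofac q r) (cofac r q)) :
    Gset γ s₁ R ψ q ∩ Gset γ s₁ R ψ r = ∅ := by
  rw [Set.eq_empty_iff_forall_notMem]
  rintro x ⟨⟨al, hx1, hal⟩, ⟨be, hx2, hbe⟩⟩
  unfold Far at hF
  push Not at hF
  obtain ⟨B, hB, hlt⟩ := hF
  have hmul := hB.mul_le hs hs2
  have hBad : Bad γ s₁ B := ⟨s, hs, hs1, hB⟩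
  have hB0 : 0 < B := hB.1.1
  have hBR : (0 : ℝ) < B := by exact_mod_cast hB0
  have hg : 0 < Nat.gcd q r := Nat.gcd_pos_of_pos_left _ hq
  have ha : 0 < cofac q r := Nat.div_pos (Nat.gcd_le_left _ hq) hg
  have hb : 0 < cofac r q := by
    unfold cofac
    rw [Nat.gcd_comm]
    exact Nat.div_pos (Nat.gcd_le_right _ hr) hg
  have haR : (0 : ℝ) < cofac q r := by exact_mod_cast ha
  have hbR : (0 : ℝ) < cofac r q := by exact_mod_cast hb
  have haR1 : (1 : ℝ) ≤ cofac q r := by exact_mod_cast ha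
  have hbR1 : (1 : ℝ) ≤ cofac r q := by exact_mod_cast hb
  have e4 : q * cofac r q = r * cofac q r := by
    unfold cofac
    rw [Nat.gcd_comm r q, ← Nat.mul_div_assoc _ (Nat.gcd_dvd_right q r),
      ← Nat.mul_div_assoc _ (Nat.gcd_dvd_left q r), Nat.mul_comm]
  have e3 : (q : ℝ) * cofac r q = r * cofac q r := by exact_mod_cast e4
  have hcop : Nat.Coprime (cofac q r) (cofac r q) := by
    unfold cofac
    rw [Nat.gcd_comm r q]
    exact Nat.coprime_div_gcd_div_gcd hg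
  have haq : cofac q r ∣ q := Nat.div_dvd_of_dvd (Nat.gcd_dvd_left q r)
  have hbr : cofac r q ∣ r := Nat.div_dvd_of_dvd (Nat.gcd_dvd_left r q)
  have hab : cofac q r ≠ cofac r q := by
    intro h
    rw [h] at e4
    exact hqr (Nat.eq_of_mul_eq_mul_right hb e4)
  set a := cofac q r with hadef
  set b := cofac r q with hbdef
  have hclose : |((al : ℝ) + γ) * b - ((be : ℝ) + γ) * a| < 2 * s := by
    have e5 : ((al : ℝ) + γ) * b - ((be : ℝ) + γ) * a
        = (a : ℝ) * ((r : ℝ) * x - γ - be) - (b : ℝ) * ((q : ℝ) * x - γ - al) := by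
      linear_combination x * e3
    rw [e5]
    calc |(a : ℝ) * ((r : ℝ) * x - γ - be) - (b : ℝ) * ((q : ℝ) * x - γ - al)|
        ≤ |(a : ℝ) * ((r : ℝ) * x - γ - be)| + |(b : ℝ) * ((q : ℝ) * x - γ - al)| := abs_sub _ _
      _ = (a : ℝ) * |(r : ℝ) * x - γ - be| + (b : ℝ) * |(q : ℝ) * x - γ - al| := by
          rw [abs_mul, abs_mul, abs_of_pos haR, abs_of_pos hbR]
      _ < (a : ℝ) * ψ r + (b : ℝ) * ψ q := by gcongr
      _ ≤ s + s := add_le_add hD2 hD1
      _ = 2 * s := by ring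
  have hmaxab : |(b : ℝ) - a| < max (a : ℝ) (b : ℝ) := by
    rw [abs_lt]
    constructor
    · have := le_max_left (a : ℝ) (b : ℝ)
      linarith only [this, hbR1]
    · have := le_max_right (a : ℝ) (b : ℝ)
      linarith only [this, haR1]
  have hβ0 : 0 ≤ distInt (B * γ) := abs_nonneg _
  obtain ⟨hd1, hd2⟩ := kill_dvd (γ := γ) (s := s) (β := distInt (B * γ))
    (A := round ((B : ℝ) * γ)) (B := B) le_rfl hcop (by
      have h1 : distInt (B * γ) * |(b : ℝ) - a| ≤ distInt (B * γ) * max (a : ℝ) (b : ℝ) :=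
        mul_le_mul_of_nonneg_left hmaxab.le hβ0
      linarith only [h1, hmul, hlt]) hB0 hclose
  -- |a - b| ≥ B
  have hBlt : (B : ℝ) < max (a : ℝ) (b : ℝ) := by
    refine lt_of_le_of_lt ?_ hmaxab
    set h : ℕ := ((b : ℤ) - a).natAbs with hh
    have hh0 : 0 < h := by
      rw [hh, Int.natAbs_pos, sub_ne_zero]
      exact_mod_cast hab.symm
    have hhR : (h : ℝ) = |(b : ℝ) - a| := by
      rw [hh, Nat.cast_natAbs, Int.cast_abs]
      push_cast
      rfl
    rw [← hhR]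
    by_contra hcon
    rw [not_le] at hcon
    have hhB : h < B := by exact_mod_cast hcon
    have h5 := hB.1.2.2 h hh0 hhB
    have h6 : distInt (h * γ) < 2 * s := by
      rcases le_total (a : ℝ) b with hle | hle
      · have h7 : (h : ℝ) = b - a := by rw [hhR, abs_of_nonneg (by linarith only [hle])]
        refine lt_of_le_of_lt (distInt_le_abs_sub' _ (-(al * b - be * a))) ?_
        have e : (h : ℝ) * γ - ((-(al * b - be * a) : ℤ) : ℝ)
            = ((al : ℝ) + γ) * b - ((be : ℝ) + γ) * a := by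
          rw [h7]; push_cast; ring
        rw [e]; exact hclose
      · have h7 : (h : ℝ) = a - b := by
          rw [hhR, abs_of_nonpos (by linarith only [hle])]; ring
        refine lt_of_le_of_lt (distInt_le_abs_sub' _ (al * b - be * a)) ?_
        have e : (h : ℝ) * γ - ((al * b - be * a : ℤ) : ℝ)
            = -(((al : ℝ) + γ) * b - ((be : ℝ) + γ) * a) := by
          rw [h7]; push_cast; ring
        rw [e, abs_neg]; exact hclose
    linarith only [h6, h5, hs]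
  have hboth : max (B : ℝ) R < max (a : ℝ) (b : ℝ) := max_lt hBlt hR
  rcases le_total (a : ℝ) b with hle | hle
  · rw [max_eq_right hle] at hboth
    have h5 := hbe B hBad
    have h6 : (b : ℤ) ∣ ((Int.gcd (be * B + round ((B : ℝ) * γ)) r : ℕ) : ℤ) :=
      Int.dvd_coe_gcd hd2 (by exact_mod_cast hbr)
    have h7 : b ∣ Int.gcd (be * B + round ((B : ℝ) * γ)) r := by exact_mod_cast h6
    have h8 : b ≤ Int.gcd (be * B + round ((B : ℝ) * γ)) r :=
      Nat.le_of_dvd (Int.gcd_pos_of_ne_zero_right _ (by exact_mod_cast hr.ne')) h7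
    have h9 : (b : ℝ) ≤ (Int.gcd (be * B + round ((B : ℝ) * γ)) r : ℝ) := by exact_mod_cast h8
    linarith only [h9, hboth, h5]
  · rw [max_eq_left hle] at hboth
    have h5 := hal B hBad
    have h6 : (a : ℤ) ∣ ((Int.gcd (al * B + round ((B : ℝ) * γ)) q : ℕ) : ℤ) :=
      Int.dvd_coe_gcd hd1 (by exact_mod_cast haq)
    have h7 : a ∣ Int.gcd (al * B + round ((B : ℝ) * γ)) q := by exact_mod_cast h6
    have h8 : a ≤ Int.gcd (al * B + round ((B : ℝ) * γ)) q :=
      Nat.le_of_dvd (Int.gcd_pos_of_ne_zero_right _ (by exact_mod_cast hq.ne')) h7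
    have h9 : (a : ℝ) ≤ (Int.gcd (al * B + round ((B : ℝ) * γ)) q : ℝ) := by exact_mod_cast h8
    linarith only [hboth, h9, h5]

end Vale.P028
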