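import Vale.Agent.P028.MathlibUsed
import Vale.Agent.P013.Mertens

/-!
# Mertens type sums (from the Mertens file of P013)
-/

namespace Vale.P028

open Finset

theorem filter_Icc_eq_range (y : ℕ) :
    (Icc 1 y).filter Nat.Prime = (range (y + 1)).filter Nat.Prime := by
  ext p
  simp only [mem_filter, mem_Icc, mem_range]
  constructor
  · rintro ⟨⟨_, h1⟩, h2⟩; exact ⟨by omega, h2⟩
  · rintro ⟨h1, h2⟩; exact ⟨⟨h2.one_lt.le, by omega⟩, h2⟩

theorem sum_log_div_prime_le : ∃ C ≥ 0, ∀ y : ℕ, 1 ≤ y →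
    ∑ p ∈ (Icc 1 y).filter Nat.Prime, Real.log p / p ≤ Real.log y + C := by
  obtain ⟨C, hC0, hC⟩ := Vale.Agent.P013.mertens_one
  refine ⟨C + Real.log 2, add_nonneg hC0.le (Real.log_nonneg (by norm_num)), ?_⟩
  intro y hy
  have h1 := hC (y + 1) (by omega)
  rw [filter_Icc_eq_range]
  have h2 := (abs_le.mp h1).2
  have hy0 : (0 : ℝ) < y := by exact_mod_cast hy
  have hy1 : (1 : ℝ) ≤ y := by exact_mod_cast hy
  have h3 : Real.log ((y + 1 : ℕ) : ℝ) ≤ Real.log y + Real.log 2 := by
    rw [← Real.log_mul hy0.ne' (by norm_num)]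
    apply Real.log_le_log (by positivity)
    push_cast; linarith only [hy1]
  linarith only [h2, h3]

theorem prod_one_add_div_prime_le (A : ℝ) (hA : 0 ≤ A) : ∃ C > 0, ∃ k ≥ 0, ∀ V : ℕ, 1 ≤ V →
    ∏ p ∈ (Icc 1 V).filter Nat.Prime, (1 + A / (p : ℝ)) ≤ C * (1 + Real.log V) ^ (k : ℝ) := by
  obtain ⟨C, hC0, hC⟩ := Vale.Agent.P013.sum_inv_prime_le
  refine ⟨Real.exp (A * C), Real.exp_pos _, A, hA, ?_⟩
  intro V hV
  have hV0 : (0 : ℝ) < V := by exact_mod_cast hV
  have hV1 : (1 : ℝ) ≤ V := by exact_mod_cast hV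
  have h1 := hC (V + 1) (by omega)
  have hlV : 0 ≤ Real.log V := Real.log_nonneg hV1
  have hl1 : 0 < Real.log ((V + 1 : ℕ) : ℝ) := by
    apply Real.log_pos
    push_cast; linarith only [hV0]
  have h3 : Real.log ((V + 1 : ℕ) : ℝ) ≤ 1 + Real.log V := by
    have : Real.log ((V + 1 : ℕ) : ℝ) ≤ Real.log (Real.exp 1 * V) := by
      apply Real.log_le_log (by positivity)
      have : (2 : ℝ) ≤ Real.exp 1 := by
        have := Real.add_one_le_exp (1 : ℝ)
        linarith only [this]
      push_cast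
      nlinarith only [hV1, this]
    rwa [Real.log_mul (Real.exp_pos 1).ne' hV0.ne', Real.log_exp] at this
  have h4 : Real.log (Real.log ((V + 1 : ℕ) : ℝ)) ≤ Real.log (1 + Real.log V) :=
    Real.log_le_log hl1 h3
  calc ∏ p ∈ (Icc 1 V).filter Nat.Prime, (1 + A / (p : ℝ))
      ≤ ∏ p ∈ (Icc 1 V).filter Nat.Prime, Real.exp (A / (p : ℝ)) := by
        refine prod_le_prod (fun p _ => by (clear * - hA; positivity)) (fun p _ => ?_)
        have := Real.add_one_le_exp (A / (p : ℝ))
        linarith only [this]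
    _ = Real.exp (A * ∑ p ∈ (range (V + 1)).filter Nat.Prime, 1 / (p : ℝ)) := by
        rw [← Real.exp_sum, filter_Icc_eq_range, mul_sum]
        congr 1
        refine sum_congr rfl fun p _ => ?_
        ring
    _ ≤ Real.exp (A * (Real.log (1 + Real.log V) + C)) := by
        apply Real.exp_le_exp.mpr
        apply mul_le_mul_of_nonneg_left _ hA
        linarith only [h1, h4]
    _ = Real.exp (A * C) * (1 + Real.log V) ^ A := by
        rw [Real.rpow_def_of_pos (by linarith only [hlV]), ← Real.exp_add]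
        congr 1
        ring

end Vale.P028
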