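import Vale.Agent.P028.MathlibUsed

/-!
One dimensional inequality behind the tensor inequality: a Hoelder type inequality on the
integers with kernel weights `p^(-|d|)` and constant `1 + C/p`.
-/

namespace Vale.P028

open Finset

/-- Sum of powers of `r` over nonzero natural numbers. -/
theorem sum_pow_nat_le {r : ℝ} (h0 : 0 ≤ r) (h1 : r < 1) (G : Finset ℕ) (hG : ∀ n ∈ G, n ≠ 0) :
    ∑ n ∈ G, r ^ n ≤ r / (1 - r) := by
  have hs : Summable (fun n : ℕ => r ^ n) := summable_geometric_of_lt_one h0 h1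
  have hs' : Summable (fun n : ℕ => r ^ (n + 1)) := (summable_nat_add_iff 1).2 hs
  have ht : ∑' n : ℕ, r ^ (n + 1) = r / (1 - r) := by
    have h := hs.tsum_eq_zero_add
    rw [tsum_geometric_of_lt_one h0 h1] at h
    have : (1 - r) ≠ 0 := by linarith only [h1]
    have h2 : ∑' n : ℕ, r ^ (n + 1) = (1 - r)⁻¹ - 1 := by
      rw [pow_zero] at h
      linarith only [h]
    rw [h2]
    field_simp
    ring
  rw [← ht]
  have himg : ∑ n ∈ G, r ^ n = ∑ n ∈ G.image (fun n => n - 1), r ^ (n + 1) := by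
    rw [Finset.sum_image]
    · refine Finset.sum_congr rfl fun n hn => ?_
      have := hG n hn
      congr 1
      omega
    · intro a ha b hb hab
      have h1 := hG a ha
      have h2 := hG b hb
      simp only at hab
      omega
  rw [himg]
  exact hs'.sum_le_tsum _ (fun n _ => by (clear * - h0; positivity))

/-- Sum of powers of `r` over nonzero integers. -/
theorem sum_pow_int_le {r : ℝ} (h0 : 0 ≤ r) (h1 : r < 1) (F : Finset ℤ) (hF : ∀ d ∈ F, d ≠ 0) :
    ∑ d ∈ F, r ^ d.natAbs ≤ 2 * (r / (1 - r)) := by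
  have hsplit : ∑ d ∈ F, r ^ d.natAbs
      = ∑ d ∈ F.filter (fun d => 0 < d), r ^ d.natAbs
        + ∑ d ∈ F.filter (fun d => ¬ 0 < d), r ^ d.natAbs :=
    (Finset.sum_filter_add_sum_filter_not F _ _).symm
  have hA : ∑ d ∈ F.filter (fun d => 0 < d), r ^ d.natAbs ≤ r / (1 - r) := by
    have : ∑ d ∈ F.filter (fun d => 0 < d), r ^ d.natAbs
        = ∑ n ∈ (F.filter (fun d => 0 < d)).image Int.natAbs, r ^ n := by
      rw [Finset.sum_image]
      intro a ha b hb hab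
      simp only [Finset.coe_filter, Set.mem_ofPred_eq] at ha hb
      omega
    rw [this]
    refine sum_pow_nat_le h0 h1 _ ?_
    intro n hn
    obtain ⟨d, hd, rfl⟩ := Finset.mem_image.1 hn
    have := hF d (Finset.mem_filter.1 hd).1
    omega
  have hB : ∑ d ∈ F.filter (fun d => ¬ 0 < d), r ^ d.natAbs ≤ r / (1 - r) := by
    have : ∑ d ∈ F.filter (fun d => ¬ 0 < d), r ^ d.natAbs
        = ∑ n ∈ (F.filter (fun d => ¬ 0 < d)).image Int.natAbs, r ^ n := by
      rw [Finset.sum_image]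
      intro a ha b hb hab
      simp only [Finset.coe_filter, Set.mem_ofPred_eq] at ha hb
      omega
    rw [this]
    refine sum_pow_nat_le h0 h1 _ ?_
    intro n hn
    obtain ⟨d, hd, rfl⟩ := Finset.mem_image.1 hn
    have := hF d (Finset.mem_filter.1 hd).1
    omega
  linarith only [hsplit, hB, hA]

/-- Weighted inequality between geometric and arithmetic means, three terms. -/
theorem amgm3 {α β s c : ℝ} (hα : 0 < α) (hβ : 0 < β) (hs : 0 < s) (hsum : α + β + s = 1)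
    (hc : 0 < c) {X Y Z : ℝ} (hX : 0 ≤ X) (hY : 0 ≤ Y) (hZ : 0 ≤ Z) :
    X ^ α * Y ^ β * Z ^ s ≤ c * X + c * Y + c ^ (-((α + β) / s)) * Z := by
  have hc' : 0 ≤ c ^ (-((α + β) / s)) := (Real.rpow_pos_of_pos hc _).le
  have h := Real.geom_mean_le_arith_mean3_weighted hα.le hβ.le hs.le
    (mul_nonneg hc.le hX) (mul_nonneg hc.le hY) (mul_nonneg hc' hZ) hsum
  have e : (c * X) ^ α * (c * Y) ^ β * (c ^ (-((α + β) / s)) * Z) ^ s
      = X ^ α * Y ^ β * Z ^ s := by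
    rw [Real.mul_rpow hc.le hX, Real.mul_rpow hc.le hY, Real.mul_rpow hc' hZ, ← Real.rpow_mul hc.le]
    have : -((α + β) / s) * s = -(α + β) := by field_simp
    rw [this]
    have h3 : c ^ α * c ^ β * c ^ (-(α + β)) = 1 := by
      rw [← Real.rpow_add hc, ← Real.rpow_add hc]
      simp
    calc c ^ α * X ^ α * (c ^ β * Y ^ β) * (c ^ (-(α + β)) * Z ^ s)
        = (c ^ α * c ^ β * c ^ (-(α + β))) * (X ^ α * Y ^ β * Z ^ s) := by ring
      _ = _ := by rw [h3, one_mul]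
  rw [e] at h
  refine h.trans ?_
  have hα1 : α ≤ 1 := by linarith only [hβ, hs, hsum]
  have hβ1 : β ≤ 1 := by linarith only [hα, hs, hsum]
  have hs1 : s ≤ 1 := by linarith only [hβ, hα, hsum]
  have i1 : α * (c * X) ≤ c * X := mul_le_of_le_one_left (mul_nonneg hc.le hX) hα1
  have i2 : β * (c * Y) ≤ c * Y := mul_le_of_le_one_left (mul_nonneg hc.le hY) hβ1
  have i3 : s * (c ^ (-((α + β) / s)) * Z) ≤ c ^ (-((α + β) / s)) * Z :=
    mul_le_of_le_one_left (mul_nonneg hc' hZ) hs1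
  linarith only [i3, i2, i1]

/-- The kernel `p^(-s |d|)`. -/
noncomputable def ker (p s : ℝ) (d : ℤ) : ℝ := (p⁻¹ ^ d.natAbs) ^ s

theorem ker_nonneg {p : ℝ} (hp : 2 ≤ p) (s : ℝ) (d : ℤ) : 0 ≤ ker p s d := by
  have : 0 ≤ p⁻¹ := by positivity
  exact Real.rpow_nonneg (pow_nonneg this _) _

theorem ker_zero (p s : ℝ) : ker p s 0 = 1 := by
  simp only [ker, Int.natAbs_zero, pow_zero, Real.one_rpow]

theorem ker_eq {p : ℝ} (hp : 2 ≤ p) (s : ℝ) (d : ℤ) : ker p s d = ((p⁻¹) ^ s) ^ d.natAbs := by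
  have h0 : 0 ≤ p⁻¹ := by positivity
  unfold ker
  rw [← Real.rpow_natCast, ← Real.rpow_natCast, ← Real.rpow_mul h0, ← Real.rpow_mul h0, mul_comm]

theorem ker_neg (p s : ℝ) (d : ℤ) : ker p s (-d) = ker p s d := by
  simp only [ker, Int.natAbs_neg, inv_pow]

theorem sum_ker_le {p s : ℝ} (hp : 2 ≤ p) (hs : 0 < s) (F : Finset ℤ) (hF : ∀ d ∈ F, d ≠ 0) :
    ∑ d ∈ F, ker p s d ≤ 2 * ((p⁻¹) ^ s / (1 - (p⁻¹) ^ s)) := by
  have h0 : 0 ≤ (p⁻¹) ^ s := Real.rpow_nonneg (by positivity) _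
  have h1 : (p⁻¹) ^ s < 1 := by
    refine Real.rpow_lt_one (by positivity) ?_ hs
    rw [inv_lt_one₀ (by linarith only [hp])]
    linarith only [hp]
  simp_rw [ker_eq hp]
  exact sum_pow_int_le h0 h1 F hF

/-- Off-diagonal part. -/
theorem offdiag_le {α p s : ℝ} (hp : 2 ≤ p) (hs : 0 < s) (I J : Finset ℕ)
    (x y : ℕ → ℝ) (hx : ∀ i, 0 ≤ x i) (hy : ∀ i, 0 ≤ y i) :
    ∑ i ∈ I, ∑ j ∈ J.filter (fun j => i ≠ j), x i ^ α * y j ^ α * ker p s ((i : ℤ) - j)
      ≤ 2 * ((p⁻¹) ^ s / (1 - (p⁻¹) ^ s))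
        * ((∑ i ∈ I, x i ^ (2 * α) + ∑ j ∈ J, y j ^ (2 * α)) / 2) := by
  set η := 2 * ((p⁻¹) ^ s / (1 - (p⁻¹) ^ s)) with hη
  have hsq : ∀ t : ℝ, 0 ≤ t → (t ^ α) ^ 2 = t ^ (2 * α) := by
    intro t ht
    rw [← Real.rpow_natCast, ← Real.rpow_mul ht]
    congr 1
    push_cast
    ring
  have step : ∀ i j : ℕ, x i ^ α * y j ^ α * ker p s ((i : ℤ) - j)
      ≤ x i ^ (2 * α) / 2 * ker p s ((i : ℤ) - j) + y j ^ (2 * α) / 2 * ker p s ((i : ℤ) - j) := by
    intro i j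
    have h1 : x i ^ α * y j ^ α ≤ x i ^ (2 * α) / 2 + y j ^ (2 * α) / 2 := by
      rw [← hsq _ (hx i), ← hsq _ (hy j)]
      linarith only [sq_nonneg (x i ^ α - y j ^ α)]
    have := mul_le_mul_of_nonneg_right h1 (ker_nonneg hp s ((i : ℤ) - j))
    linarith only [this]
  have hrow : ∀ i : ℕ, ∀ K : Finset ℕ, ∑ j ∈ K.filter (fun j => i ≠ j), ker p s ((i : ℤ) - j) ≤ η := by
    intro i K
    have : ∑ j ∈ K.filter (fun j => i ≠ j), ker p s ((i : ℤ) - j)
        = ∑ d ∈ (K.filter (fun j => i ≠ j)).image (fun j : ℕ => (i : ℤ) - j), ker p s d := by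
      rw [Finset.sum_image]
      intro a _ b _ hab
      simp only at hab
      omega
    rw [this]
    refine sum_ker_le hp hs _ ?_
    intro d hd
    obtain ⟨j, hj, rfl⟩ := Finset.mem_image.1 hd
    have := (Finset.mem_filter.1 hj).2
    omega
  have hcol : ∀ j : ℕ, ∀ K : Finset ℕ, ∑ i ∈ K.filter (fun i => i ≠ j), ker p s ((i : ℤ) - j) ≤ η := by
    intro j K
    have : ∑ i ∈ K.filter (fun i => i ≠ j), ker p s ((i : ℤ) - j)
        = ∑ d ∈ (K.filter (fun i => i ≠ j)).image (fun i : ℕ => (i : ℤ) - j), ker p s d := by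
      rw [Finset.sum_image]
      intro a _ b _ hab
      simp only at hab
      omega
    rw [this]
    refine sum_ker_le hp hs _ ?_
    intro d hd
    obtain ⟨i, hi, rfl⟩ := Finset.mem_image.1 hd
    have := (Finset.mem_filter.1 hi).2
    omega
  calc ∑ i ∈ I, ∑ j ∈ J.filter (fun j => i ≠ j), x i ^ α * y j ^ α * ker p s ((i : ℤ) - j)
      ≤ ∑ i ∈ I, ∑ j ∈ J.filter (fun j => i ≠ j), (x i ^ (2 * α) / 2 * ker p s ((i : ℤ) - j)
          + y j ^ (2 * α) / 2 * ker p s ((i : ℤ) - j)) :=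
        Finset.sum_le_sum fun i _ => Finset.sum_le_sum fun j _ => step i j
    _ = ∑ i ∈ I, ∑ j ∈ J.filter (fun j => i ≠ j), x i ^ (2 * α) / 2 * ker p s ((i : ℤ) - j)
        + ∑ i ∈ I, ∑ j ∈ J.filter (fun j => i ≠ j), y j ^ (2 * α) / 2 * ker p s ((i : ℤ) - j) := by
        simp only [sum_add_distrib]
    _ = ∑ i ∈ I, ∑ j ∈ J.filter (fun j => i ≠ j), x i ^ (2 * α) / 2 * ker p s ((i : ℤ) - j)
        + ∑ j ∈ J, ∑ i ∈ I.filter (fun i => i ≠ j), y j ^ (2 * α) / 2 * ker p s ((i : ℤ) - j) := by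
        congr 1
        simp only [Finset.sum_filter]
        rw [Finset.sum_comm]
    _ ≤ ∑ i ∈ I, x i ^ (2 * α) / 2 * η + ∑ j ∈ J, y j ^ (2 * α) / 2 * η := by
        refine add_le_add (Finset.sum_le_sum fun i _ => ?_) (Finset.sum_le_sum fun j _ => ?_)
        · rw [← Finset.mul_sum]
          exact mul_le_mul_of_nonneg_left (hrow i J)
            (div_nonneg (Real.rpow_nonneg (hx i) _) (by norm_num))
        · rw [← Finset.mul_sum]
          exact mul_le_mul_of_nonneg_left (hcol j I)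
            (div_nonneg (Real.rpow_nonneg (hy j) _) (by norm_num))
    _ = η * ((∑ i ∈ I, x i ^ (2 * α) + ∑ j ∈ J, y j ^ (2 * α)) / 2) := by
        rw [← Finset.sum_mul, ← Finset.sum_mul, ← Finset.sum_div, ← Finset.sum_div]
        ring


/-- Bound for a row or a column through the dominating index. -/
theorem cross_le {α β s c p : ℝ} (hα : 0 < α) (hβ : 0 < β) (hs : 0 < s) (hsum : α + β + s = 1)
    (hc : 0 < c) (hp : 2 ≤ p) (J : Finset ℕ) (D : Finset ℤ) (y : ℕ → ℝ) (z : ℤ → ℝ)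
    (hy : ∀ j, 0 ≤ y j) (hz : ∀ d, 0 ≤ z d) (g : ℕ → ℤ) (ginj : Function.Injective g)
    (hg0 : ∀ j ∈ J, g j ≠ 0) (hgD : ∀ j ∈ J, g j ∈ D) :
    ∑ j ∈ J, y j ^ α * z (g j) ^ β * ker p s (g j)
      ≤ c * ∑ j ∈ J, y j + c * ∑ d ∈ D.erase 0, z d + c ^ (-((α + β) / s)) * (4 / p) := by
  have hp0 : 0 < p := by linarith only [hp]
  have hc' : 0 ≤ c ^ (-((α + β) / s)) := (Real.rpow_pos_of_pos hc _).le
  have h1 : ∑ j ∈ J, y j ^ α * z (g j) ^ β * ker p s (g j)
      ≤ ∑ j ∈ J, (c * y j + c * z (g j) + c ^ (-((α + β) / s)) * (p⁻¹) ^ (g j).natAbs) := by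
    refine Finset.sum_le_sum fun j _ => ?_
    exact amgm3 hα hβ hs hsum hc (hy j) (hz _) (by (clear * - hp; positivity))
  refine h1.trans ?_
  rw [Finset.sum_add_distrib, Finset.sum_add_distrib, ← Finset.mul_sum, ← Finset.mul_sum,
    ← Finset.mul_sum]
  have hz' : ∑ j ∈ J, z (g j) ≤ ∑ d ∈ D.erase 0, z d := by
    rw [← Finset.sum_image (f := z) (s := J) (g := g) (fun a _ b _ h => ginj h)]
    refine Finset.sum_le_sum_of_subset_of_nonneg ?_ (fun d _ _ => hz d)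
    intro d hd
    obtain ⟨j, hj, rfl⟩ := Finset.mem_image.1 hd
    exact Finset.mem_erase.2 ⟨hg0 j hj, hgD j hj⟩
  have hw : ∑ j ∈ J, (p⁻¹) ^ (g j).natAbs ≤ 4 / p := by
    have e : ∑ j ∈ J, (p⁻¹) ^ (g j).natAbs = ∑ d ∈ J.image g, (p⁻¹) ^ d.natAbs := by
      rw [Finset.sum_image (fun a _ b _ h => ginj h)]
    rw [e]
    have hlt : p⁻¹ < 1 := by
      rw [inv_lt_one₀ hp0]
      linarith only [hp]
    refine (sum_pow_int_le (by positivity) hlt _ ?_).trans ?_
    · intro d hd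
      obtain ⟨j, hj, rfl⟩ := Finset.mem_image.1 hd
      exact hg0 j hj
    · have h3 : p⁻¹ / (1 - p⁻¹) = 1 / (p - 1) := by
        have : p - 1 ≠ 0 := by linarith only [hp]
        have : 1 - p⁻¹ ≠ 0 := by
          intro h
          linarith only [h, hlt]
        field_simp
      rw [h3, ← mul_div_assoc, div_le_div_iff₀ (by linarith only [hp]) hp0]
      linarith only [hp]
  have := mul_le_mul_of_nonneg_left hz' hc.le
  have := mul_le_mul_of_nonneg_left hw hc'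
  linarith

/-- Near case: both sequences are concentrated at the same index. -/
theorem near_case {α β s c θ η p : ℝ} (hα : 1 / 2 < α) (hβ : 0 < β) (hs : 0 < s)
    (hsum : α + β + s = 1) (hc : 0 < c) (hcβ : c ≤ β / 6) (hcα : c ≤ α / 6)
    (hη : 2 * ((p⁻¹) ^ s / (1 - (p⁻¹) ^ s)) ≤ η) (hη0 : 0 ≤ η)
    (hθ : (1 + η) * θ ^ (2 * α - 1) / 2 ≤ α / 6)
    (hp : 2 ≤ p) (I : Finset ℕ) (D : Finset ℤ) (x y : ℕ → ℝ) (z : ℤ → ℝ)
    (hx : ∀ j, 0 ≤ x j) (hy : ∀ j, 0 ≤ y j) (hz : ∀ d, 0 ≤ z d)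
    (hD : ∀ i ∈ I, ∀ j ∈ I, (i : ℤ) - j ∈ D) (hxs : ∑ i ∈ I, x i ≤ 1) (hys : ∑ i ∈ I, y i ≤ 1)
    (hzs : ∑ d ∈ D, z d ≤ 1) (k : ℕ) (hk : k ∈ I) (hxk : 1 - θ ≤ x k) (hyk : 1 - θ ≤ y k) :
    ∑ i ∈ I, ∑ j ∈ I, x i ^ α * y j ^ α * z ((i : ℤ) - j) ^ β * ker p s ((i : ℤ) - j)
      ≤ 1 + 2 * (c ^ (-((α + β) / s)) * (4 / p)) := by
  have hα0 : 0 < α := by linarith only [hα]
  have h0D : (0 : ℤ) ∈ D := by simpa only [sub_self] using hD k hk k hk
  set I' := I.erase k with hI'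
  set A := ∑ i ∈ I', x i with hA
  set B := ∑ i ∈ I', y i with hB
  set Z := ∑ d ∈ D.erase 0, z d with hZ
  have hxA : x k + A ≤ 1 := by
    rw [hA, hI', Finset.add_sum_erase I x hk]
    exact hxs
  have hyB : y k + B ≤ 1 := by
    rw [hB, hI', Finset.add_sum_erase I y hk]
    exact hys
  have hzZ : z 0 + Z ≤ 1 := by
    rw [hZ, Finset.add_sum_erase D z h0D]
    exact hzs
  have hA0 : 0 ≤ A := Finset.sum_nonneg fun i _ => hx i
  have hB0 : 0 ≤ B := Finset.sum_nonneg fun i _ => hy i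
  have hZ0 : 0 ≤ Z := Finset.sum_nonneg fun i _ => hz i
  have hAθ : A ≤ θ := by linarith only [hxk, hxA]
  have hBθ : B ≤ θ := by linarith only [hyB, hyk]
  have hz1 : ∀ d ∈ D, z d ≤ 1 := fun d hd =>
    (Finset.single_le_sum (fun i _ => hz i) hd).trans hzs
  have hA1 : A ≤ 1 := by linarith only [hx k, hxA]
  have hB1 : B ≤ 1 := by linarith only [hy k, hyB]
  have hZ1 : Z ≤ 1 := by linarith only [hz 0, hzZ]
  -- the corner term
  have T00 : x k ^ α * y k ^ α * z ((k : ℤ) - k) ^ β * ker p s ((k : ℤ) - k)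
      ≤ 1 - (α * A + α * B + β * Z) / 3 := by
    rw [sub_self, ker_zero, mul_one]
    have e1 : x k ^ α ≤ 1 - α * A := by
      have h1 : x k ^ α ≤ (1 + (-A)) ^ α :=
        Real.rpow_le_rpow (hx k) (by linarith only [hxA]) hα0.le
      have h2 := rpow_one_add_le_one_add_mul_self (s := -A) (by linarith only [hA1]) hα0.le
        (by linarith only [hc, hs, hsum, hcβ] : α ≤ 1)
      linarith only [h2, h1]
    have e2 : y k ^ α ≤ 1 - α * B := by
      have h1 : y k ^ α ≤ (1 + (-B)) ^ α :=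
        Real.rpow_le_rpow (hy k) (by linarith only [hyB]) hα0.le
      have h2 := rpow_one_add_le_one_add_mul_self (s := -B) (by linarith only [hB1]) hα0.le
        (by linarith only [hc, hs, hsum, hcβ] : α ≤ 1)
      linarith only [h1, h2]
    have e3 : z 0 ^ β ≤ 1 - β * Z := by
      have h1 : z 0 ^ β ≤ (1 + (-Z)) ^ β :=
        Real.rpow_le_rpow (hz 0) (by linarith only [hzZ]) hβ.le
      have h2 := rpow_one_add_le_one_add_mul_self (s := -Z) (by linarith only [hZ1]) hβ.le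
        (by linarith only [hα, hs, hsum] : β ≤ 1)
      linarith only [h2, h1]
    have f1 : 0 ≤ x k ^ α := Real.rpow_nonneg (hx k) _
    have f2 : 0 ≤ y k ^ α := Real.rpow_nonneg (hy k) _
    have f3 : 0 ≤ z 0 ^ β := Real.rpow_nonneg (hz 0) _
    have g1 : 0 ≤ α * A := by (clear * - hα hA0; positivity)
    have g2 : 0 ≤ α * B := by (clear * - hα hB0; positivity)
    have g3 : 0 ≤ β * Z := by (clear * - hβ hZ0; positivity)
    have m1 : x k ^ α * y k ^ α * z 0 ^ β ≤ x k ^ α := by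
      calc x k ^ α * y k ^ α * z 0 ^ β ≤ x k ^ α * 1 * 1 := by
            gcongr
            · linarith only [g2, e2]
            · linarith only [g3, e3]
        _ = _ := by ring
    have m2 : x k ^ α * y k ^ α * z 0 ^ β ≤ y k ^ α := by
      calc x k ^ α * y k ^ α * z 0 ^ β ≤ 1 * y k ^ α * 1 := by
            gcongr
            · linarith only [g1, e1]
            · linarith only [g3, e3]
        _ = _ := by ring
    have m3 : x k ^ α * y k ^ α * z 0 ^ β ≤ z 0 ^ β := by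
      calc x k ^ α * y k ^ α * z 0 ^ β ≤ 1 * 1 * z 0 ^ β := by
            gcongr
            · linarith only [g1, e1]
            · linarith only [g2, e2]
        _ = _ := by ring
    linarith only [m3, e3, m2, e2, m1, e1]
  -- the row
  have hcd : 0 ≤ c ^ (-((α + β) / s)) * (4 / p) := by
    have : 0 ≤ c ^ (-((α + β) / s)) := (Real.rpow_pos_of_pos hc _).le
    positivity
  have hxk1 : x k ^ α ≤ 1 := Real.rpow_le_one (hx k) (by linarith only [hA0, hxA]) hα0.le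
  have hyk1 : y k ^ α ≤ 1 := Real.rpow_le_one (hy k) (by linarith only [hB0, hyB]) hα0.le
  have T01 : ∑ j ∈ I', x k ^ α * y j ^ α * z ((k : ℤ) - j) ^ β * ker p s ((k : ℤ) - j)
      ≤ c * B + c * Z + c ^ (-((α + β) / s)) * (4 / p) := by
    have h := cross_le hα0 hβ hs hsum hc hp I' D y z hy hz (fun j : ℕ => (k : ℤ) - j)
      (fun a b h => by simp only at h; omega)
      (fun j hj => by
        have := (Finset.mem_erase.1 hj).1
        omega)
      (fun j hj => hD k hk j (Finset.mem_erase.1 hj).2)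
    refine le_trans ?_ h
    refine Finset.sum_le_sum fun j _ => ?_
    have : 0 ≤ y j ^ α * z ((k : ℤ) - j) ^ β * ker p s ((k : ℤ) - j) :=
      mul_nonneg (mul_nonneg (Real.rpow_nonneg (hy j) _) (Real.rpow_nonneg (hz _) _))
        (ker_nonneg hp s _)
    calc x k ^ α * y j ^ α * z ((k : ℤ) - j) ^ β * ker p s ((k : ℤ) - j)
        = x k ^ α * (y j ^ α * z ((k : ℤ) - j) ^ β * ker p s ((k : ℤ) - j)) := by ring
      _ ≤ 1 * (y j ^ α * z ((k : ℤ) - j) ^ β * ker p s ((k : ℤ) - j)) :=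
          mul_le_mul_of_nonneg_right hxk1 this
      _ = _ := by ring
  have T10 : ∑ i ∈ I', x i ^ α * y k ^ α * z ((i : ℤ) - k) ^ β * ker p s ((i : ℤ) - k)
      ≤ c * A + c * Z + c ^ (-((α + β) / s)) * (4 / p) := by
    have h := cross_le hα0 hβ hs hsum hc hp I' D x z hx hz (fun j : ℕ => (j : ℤ) - k)
      (fun a b h => by simp only at h; omega)
      (fun j hj => by
        have := (Finset.mem_erase.1 hj).1
        omega)
      (fun j hj => hD j (Finset.mem_erase.1 hj).2 k hk)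
    refine le_trans ?_ h
    refine Finset.sum_le_sum fun j _ => ?_
    have : 0 ≤ x j ^ α * z ((j : ℤ) - k) ^ β * ker p s ((j : ℤ) - k) :=
      mul_nonneg (mul_nonneg (Real.rpow_nonneg (hx j) _) (Real.rpow_nonneg (hz _) _))
        (ker_nonneg hp s _)
    calc x j ^ α * y k ^ α * z ((j : ℤ) - k) ^ β * ker p s ((j : ℤ) - k)
        = y k ^ α * (x j ^ α * z ((j : ℤ) - k) ^ β * ker p s ((j : ℤ) - k)) := by ring
      _ ≤ 1 * (x j ^ α * z ((j : ℤ) - k) ^ β * ker p s ((j : ℤ) - k)) :=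
          mul_le_mul_of_nonneg_right hyk1 this
      _ = _ := by ring
  -- the rest
  have hpow : ∀ t : ℝ, 0 ≤ t → t ≤ θ → t ^ (2 * α) ≤ θ ^ (2 * α - 1) * t := by
    intro t ht htθ
    rcases eq_or_lt_of_le ht with h | h
    · rw [← h, Real.zero_rpow (by linarith only [hα]), mul_zero]
    · have : t ^ (2 * α) = t ^ (2 * α - 1) * t := by
        rw [← Real.rpow_add_one h.ne']
        congr 1
        ring
      rw [this]
      exact mul_le_mul_of_nonneg_right (Real.rpow_le_rpow ht htθ (by linarith only [hα])) ht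
  have hX2 : ∑ i ∈ I', x i ^ (2 * α) ≤ θ ^ (2 * α - 1) * A := by
    rw [hA, Finset.mul_sum]
    refine Finset.sum_le_sum fun i hi => hpow _ (hx i) ?_
    exact (Finset.single_le_sum (fun i _ => hx i) hi).trans hAθ
  have hY2 : ∑ i ∈ I', y i ^ (2 * α) ≤ θ ^ (2 * α - 1) * B := by
    rw [hB, Finset.mul_sum]
    refine Finset.sum_le_sum fun i hi => hpow _ (hy i) ?_
    exact (Finset.single_le_sum (fun i _ => hy i) hi).trans hBθ
  have hsq : ∀ t : ℝ, 0 ≤ t → (t ^ α) ^ 2 = t ^ (2 * α) := by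
    intro t ht
    rw [← Real.rpow_natCast, ← Real.rpow_mul ht]
    congr 1
    push_cast
    ring
  have T11 : ∑ i ∈ I', ∑ j ∈ I', x i ^ α * y j ^ α * z ((i : ℤ) - j) ^ β * ker p s ((i : ℤ) - j)
      ≤ α / 6 * (A + B) := by
    have h1 : ∑ i ∈ I', ∑ j ∈ I', x i ^ α * y j ^ α * z ((i : ℤ) - j) ^ β * ker p s ((i : ℤ) - j)
        ≤ ∑ i ∈ I', ∑ j ∈ I', x i ^ α * y j ^ α * ker p s ((i : ℤ) - j) := by
      refine Finset.sum_le_sum fun i hi => Finset.sum_le_sum fun j hj => ?_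
      have hzd : z ((i : ℤ) - j) ^ β ≤ 1 :=
        Real.rpow_le_one (hz _) (hz1 _ (hD i (Finset.mem_erase.1 hi).2 j (Finset.mem_erase.1 hj).2))
          hβ.le
      have hxy : 0 ≤ x i ^ α * y j ^ α :=
        mul_nonneg (Real.rpow_nonneg (hx i) _) (Real.rpow_nonneg (hy j) _)
      have hk' := ker_nonneg hp s ((i : ℤ) - j)
      calc x i ^ α * y j ^ α * z ((i : ℤ) - j) ^ β * ker p s ((i : ℤ) - j)
          ≤ x i ^ α * y j ^ α * 1 * ker p s ((i : ℤ) - j) := by (clear * - hzd hxy hk'; gcongr)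
        _ = _ := by ring
    have h2 : ∑ i ∈ I', ∑ j ∈ I', x i ^ α * y j ^ α * ker p s ((i : ℤ) - j)
        = ∑ i ∈ I', ∑ j ∈ I'.filter (fun j => i ≠ j), x i ^ α * y j ^ α * ker p s ((i : ℤ) - j)
          + ∑ i ∈ I', x i ^ α * y i ^ α := by
      rw [← Finset.sum_add_distrib]
      refine Finset.sum_congr rfl fun i hi => ?_
      have e := Finset.sum_filter_add_sum_filter_not I' (fun j => i ≠ j)
        (fun j => x i ^ α * y j ^ α * ker p s ((i : ℤ) - j))
      rw [← e]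
      congr 1
      have : I'.filter (fun j => ¬ i ≠ j) = {i} := by
        ext j
        simp only [Finset.mem_filter, not_not, Finset.mem_singleton]
        constructor
        · rintro ⟨_, h⟩
          exact h.symm
        · rintro rfl
          exact ⟨hi, rfl⟩
      rw [this, Finset.sum_singleton, sub_self, ker_zero, mul_one]
    have h3 := offdiag_le (α := α) hp hs I' I' x y hx hy
    have h4 : ∑ i ∈ I', x i ^ α * y i ^ α
        ≤ (∑ i ∈ I', x i ^ (2 * α) + ∑ j ∈ I', y j ^ (2 * α)) / 2 := by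
      rw [← Finset.sum_add_distrib, Finset.sum_div]
      refine Finset.sum_le_sum fun i _ => ?_
      rw [← hsq _ (hx i), ← hsq _ (hy i)]
      linarith only [sq_nonneg (x i ^ α - y i ^ α)]
    have hS : 0 ≤ (∑ i ∈ I', x i ^ (2 * α) + ∑ j ∈ I', y j ^ (2 * α)) / 2 := by
      have a1 : 0 ≤ ∑ i ∈ I', x i ^ (2 * α) :=
        Finset.sum_nonneg fun i _ => Real.rpow_nonneg (hx i) _
      have a2 : 0 ≤ ∑ i ∈ I', y i ^ (2 * α) :=
        Finset.sum_nonneg fun i _ => Real.rpow_nonneg (hy i) _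
      linarith only [a1, a2]
    have h5 : (∑ i ∈ I', x i ^ (2 * α) + ∑ j ∈ I', y j ^ (2 * α)) / 2
        ≤ θ ^ (2 * α - 1) * (A + B) / 2 := by
      have := add_le_add hX2 hY2
      linarith only [hY2, hX2]
    have h6 : (1 + η) * ((∑ i ∈ I', x i ^ (2 * α) + ∑ j ∈ I', y j ^ (2 * α)) / 2)
        ≤ (1 + η) * (θ ^ (2 * α - 1) * (A + B) / 2) :=
      mul_le_mul_of_nonneg_left h5 (by linarith only [hη0])
    have h7 : 2 * ((p⁻¹) ^ s / (1 - (p⁻¹) ^ s))
        * ((∑ i ∈ I', x i ^ (2 * α) + ∑ j ∈ I', y j ^ (2 * α)) / 2)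
        ≤ η * ((∑ i ∈ I', x i ^ (2 * α) + ∑ j ∈ I', y j ^ (2 * α)) / 2) :=
      mul_le_mul_of_nonneg_right hη hS
    have h8 : (1 + η) * (θ ^ (2 * α - 1) * (A + B) / 2) = ((1 + η) * θ ^ (2 * α - 1) / 2) * (A + B) := by
      ring
    have h9 : ((1 + η) * θ ^ (2 * α - 1) / 2) * (A + B) ≤ α / 6 * (A + B) :=
      mul_le_mul_of_nonneg_right hθ (by linarith only [hA0, hB0])
    linarith only [h6, h7, h4, h1, h3, h2, h9]
  -- total
  have split : ∑ i ∈ I, ∑ j ∈ I, x i ^ α * y j ^ α * z ((i : ℤ) - j) ^ β * ker p s ((i : ℤ) - j)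
      = x k ^ α * y k ^ α * z ((k : ℤ) - k) ^ β * ker p s ((k : ℤ) - k)
        + ∑ j ∈ I', x k ^ α * y j ^ α * z ((k : ℤ) - j) ^ β * ker p s ((k : ℤ) - j)
        + (∑ i ∈ I', x i ^ α * y k ^ α * z ((i : ℤ) - k) ^ β * ker p s ((i : ℤ) - k)
          + ∑ i ∈ I', ∑ j ∈ I', x i ^ α * y j ^ α * z ((i : ℤ) - j) ^ β * ker p s ((i : ℤ) - j)) := by
    rw [← Finset.add_sum_erase I _ hk, ← Finset.add_sum_erase I (fun j => x k ^ α * y j ^ α *
      z ((k : ℤ) - j) ^ β * ker p s ((k : ℤ) - j)) hk, ← Finset.sum_add_distrib]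
    congr 1
    refine Finset.sum_congr rfl fun i _ => ?_
    rw [← Finset.add_sum_erase I _ hk]
  rw [split]
  have i1 : c * B ≤ α / 6 * B := mul_le_mul_of_nonneg_right hcα hB0
  have i2 : c * A ≤ α / 6 * A := mul_le_mul_of_nonneg_right hcα hA0
  have i3 : c * Z ≤ β / 6 * Z := mul_le_mul_of_nonneg_right hcβ hZ0
  linarith only [T00, i2, T01, T10, i1, i3, T11]

/-- Far case: no common dominating index. -/
theorem far_case {α β s θ p : ℝ} (hα : 1 / 2 < α) (hβ : 0 < β) (hs : 0 < s) (hθ1 : θ ≤ 1)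
    (hp : 2 ≤ p) (I : Finset ℕ) (D : Finset ℤ) (x y : ℕ → ℝ) (z : ℤ → ℝ)
    (hx : ∀ j, 0 ≤ x j) (hy : ∀ j, 0 ≤ y j) (hz : ∀ d, 0 ≤ z d)
    (hD : ∀ i ∈ I, ∀ j ∈ I, (i : ℤ) - j ∈ D) (hxs : ∑ i ∈ I, x i ≤ 1) (hys : ∑ i ∈ I, y i ≤ 1)
    (hzs : ∑ d ∈ D, z d ≤ 1) (hfar : ∀ k ∈ I, 1 - θ ≤ x k → y k ≤ 1 - θ) :
    ∑ i ∈ I, ∑ j ∈ I, x i ^ α * y j ^ α * z ((i : ℤ) - j) ^ β * ker p s ((i : ℤ) - j)
      ≤ (1 - θ) ^ (α - 1 / 2) + 2 * ((p⁻¹) ^ s / (1 - (p⁻¹) ^ s)) := by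
  have hα0 : 0 < α := by linarith
  have hz1 : ∀ d ∈ D, z d ≤ 1 := fun d hd =>
    (Finset.single_le_sum (fun i _ => hz i) hd).trans hzs
  have hx1 : ∀ i ∈ I, x i ≤ 1 := fun i hi =>
    (Finset.single_le_sum (fun i _ => hx i) hi).trans hxs
  have hy1 : ∀ i ∈ I, y i ≤ 1 := fun i hi =>
    (Finset.single_le_sum (fun i _ => hy i) hi).trans hys
  have h1 : ∑ i ∈ I, ∑ j ∈ I, x i ^ α * y j ^ α * z ((i : ℤ) - j) ^ β * ker p s ((i : ℤ) - j)
      ≤ ∑ i ∈ I, ∑ j ∈ I, x i ^ α * y j ^ α * ker p s ((i : ℤ) - j) := by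
    refine Finset.sum_le_sum fun i hi => Finset.sum_le_sum fun j hj => ?_
    have hzd : z ((i : ℤ) - j) ^ β ≤ 1 :=
      Real.rpow_le_one (hz _) (hz1 _ (hD i hi j hj)) hβ.le
    have hxy : 0 ≤ x i ^ α * y j ^ α :=
      mul_nonneg (Real.rpow_nonneg (hx i) _) (Real.rpow_nonneg (hy j) _)
    have hk' := ker_nonneg hp s ((i : ℤ) - j)
    calc x i ^ α * y j ^ α * z ((i : ℤ) - j) ^ β * ker p s ((i : ℤ) - j)
        ≤ x i ^ α * y j ^ α * 1 * ker p s ((i : ℤ) - j) := by (clear * - hzd hxy hk'; gcongr)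
      _ = _ := by ring
  have h2 : ∑ i ∈ I, ∑ j ∈ I, x i ^ α * y j ^ α * ker p s ((i : ℤ) - j)
      = ∑ i ∈ I, ∑ j ∈ I.filter (fun j => i ≠ j), x i ^ α * y j ^ α * ker p s ((i : ℤ) - j)
        + ∑ i ∈ I, x i ^ α * y i ^ α := by
    rw [← Finset.sum_add_distrib]
    refine Finset.sum_congr rfl fun i hi => ?_
    have e := Finset.sum_filter_add_sum_filter_not I (fun j => i ≠ j)
      (fun j => x i ^ α * y j ^ α * ker p s ((i : ℤ) - j))
    rw [← e]
    congr 1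
    have : I.filter (fun j => ¬ i ≠ j) = {i} := by
      ext j
      simp only [Finset.mem_filter, not_not, Finset.mem_singleton]
      constructor
      · rintro ⟨_, h⟩
        exact h.symm
      · rintro rfl
        exact ⟨hi, rfl⟩
    rw [this, Finset.sum_singleton, sub_self, ker_zero, mul_one]
  have h3 := offdiag_le (α := α) hp hs I I x y hx hy
  have hpow : ∀ t : ℝ, 0 ≤ t → t ≤ 1 → t ^ (2 * α) ≤ t := by
    intro t ht ht1
    rcases eq_or_lt_of_le ht with h | h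
    · rw [← h, Real.zero_rpow (by linarith only [hα])]
    · calc t ^ (2 * α) ≤ t ^ (1 : ℝ) :=
          Real.rpow_le_rpow_of_exponent_ge h ht1 (by linarith only [hα])
        _ = t := Real.rpow_one t
  have hX2 : ∑ i ∈ I, x i ^ (2 * α) ≤ 1 :=
    (Finset.sum_le_sum fun i hi => hpow _ (hx i) (hx1 i hi)).trans hxs
  have hY2 : ∑ i ∈ I, y i ^ (2 * α) ≤ 1 :=
    (Finset.sum_le_sum fun i hi => hpow _ (hy i) (hy1 i hi)).trans hys
  have hη0 : 0 ≤ 2 * ((p⁻¹) ^ s / (1 - (p⁻¹) ^ s)) := by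
    have h0 : 0 ≤ (p⁻¹) ^ s := Real.rpow_nonneg (by positivity) _
    have h1 : (p⁻¹) ^ s < 1 := by
      refine Real.rpow_lt_one (by positivity) ?_ hs
      rw [inv_lt_one₀ (by linarith only [hp])]
      linarith only [hp]
    have : 0 ≤ (p⁻¹) ^ s / (1 - (p⁻¹) ^ s) := div_nonneg h0 (by linarith only [h1])
    linarith only [this]
  have h4 : ∑ i ∈ I, ∑ j ∈ I.filter (fun j => i ≠ j), x i ^ α * y j ^ α * ker p s ((i : ℤ) - j)
      ≤ 2 * ((p⁻¹) ^ s / (1 - (p⁻¹) ^ s)) := by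
    refine h3.trans ?_
    calc _ ≤ 2 * ((p⁻¹) ^ s / (1 - (p⁻¹) ^ s)) * 1 :=
          mul_le_mul_of_nonneg_left (by linarith only [hX2, hY2]) hη0
      _ = _ := mul_one _
  have h5 : ∑ i ∈ I, x i ^ α * y i ^ α ≤ (1 - θ) ^ (α - 1 / 2) := by
    have hb : 0 ≤ (1 - θ) ^ (α - 1 / 2) := Real.rpow_nonneg (by linarith only [hθ1]) _
    have key : ∀ i ∈ I, x i ^ α * y i ^ α ≤ (1 - θ) ^ (α - 1 / 2) * ((x i + y i) / 2) := by
      intro i hi
      rw [← Real.mul_rpow (hx i) (hy i)]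
      have hxy : x i * y i ≤ 1 - θ := by
        by_cases h : 1 - θ ≤ x i
        · have := hfar i hi h
          have h1 := hx1 i hi
          nlinarith only [hy i, this, h1]
        · push Not at h
          have h1 := hy1 i hi
          nlinarith only [hx i, h, h1]
      have hxy0 : 0 ≤ x i * y i := mul_nonneg (hx i) (hy i)
      rcases eq_or_lt_of_le hxy0 with h | h
      · rw [← h, Real.zero_rpow hα0.ne']
        have := hx i
        have := hy i
        (clear β s p hα hβ hs hp I D z hz hD hxs hys hzs hfar hα0 hz1 hx1 hy1 h1 h2 h3 hpow hX2 hY2 hη0 h4 hb hi hxy hxy0 h; positivity)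
      · have e : (x i * y i) ^ α = (x i * y i) ^ (α - 1 / 2) * (x i * y i) ^ (1 / 2 : ℝ) := by
          rw [← Real.rpow_add h]
          congr 1
          ring
        rw [e]
        have e1 : (x i * y i) ^ (α - 1 / 2) ≤ (1 - θ) ^ (α - 1 / 2) :=
          Real.rpow_le_rpow hxy0 hxy (by linarith only [hα])
        have e2 : (x i * y i) ^ (1 / 2 : ℝ) ≤ (x i + y i) / 2 := by
          rw [← Real.sqrt_eq_rpow]
          rw [Real.sqrt_le_left (by linarith only [hx i, hy i])]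
          linarith only [sq_nonneg (x i - y i)]
        exact mul_le_mul e1 e2 (Real.rpow_nonneg hxy0 _) hb
    calc ∑ i ∈ I, x i ^ α * y i ^ α
        ≤ ∑ i ∈ I, (1 - θ) ^ (α - 1 / 2) * ((x i + y i) / 2) := Finset.sum_le_sum key
      _ = (1 - θ) ^ (α - 1 / 2) * ((∑ i ∈ I, x i + ∑ i ∈ I, y i) / 2) := by
          rw [← Finset.mul_sum, ← Finset.sum_div, Finset.sum_add_distrib]
      _ ≤ (1 - θ) ^ (α - 1 / 2) * 1 := mul_le_mul_of_nonneg_left (by linarith only [hxs, hys]) hb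
      _ = _ := mul_one _
  linarith only [h5, h2, h4, h1]

/-- Normalised one dimensional inequality. -/
theorem oneDim_norm {α β s : ℝ} (hα : 1 / 2 < α) (hβ : 0 < β) (hs : 0 < s)
    (hsum : α + β + s = 1) :
    ∃ C ≥ 0, ∀ p : ℝ, 2 ≤ p → ∀ (I : Finset ℕ) (D : Finset ℤ) (x y : ℕ → ℝ) (z : ℤ → ℝ),
      (∀ j, 0 ≤ x j) → (∀ j, 0 ≤ y j) → (∀ d, 0 ≤ z d) →
      (∀ i ∈ I, ∀ j ∈ I, (i : ℤ) - j ∈ D) → ∑ i ∈ I, x i ≤ 1 → ∑ i ∈ I, y i ≤ 1 →
      ∑ d ∈ D, z d ≤ 1 →
      ∑ i ∈ I, ∑ j ∈ I, x i ^ α * y j ^ α * z ((i : ℤ) - j) ^ β * ker p s ((i : ℤ) - j)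
        ≤ 1 + C / p := by
  have hα0 : 0 < α := by linarith only [hα]
  set e2 : ℝ := (2⁻¹ : ℝ) ^ s with he2
  have he20 : 0 < e2 := Real.rpow_pos_of_pos (by norm_num) _
  have he21 : e2 < 1 := Real.rpow_lt_one (by norm_num) (by norm_num) hs
  set η : ℝ := 2 * (e2 / (1 - e2)) with hη
  have hη0 : 0 ≤ η := by
    have : 0 ≤ e2 / (1 - e2) := div_nonneg he20.le (by linarith only [he21])
    linarith only [this]
  -- the dependence on p
  have hηp : ∀ p : ℝ, 2 ≤ p → 2 * ((p⁻¹) ^ s / (1 - (p⁻¹) ^ s)) ≤ η := by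
    intro p hp
    have h1 : (p⁻¹) ^ s ≤ e2 := by
      refine Real.rpow_le_rpow (by positivity) ?_ hs.le
      exact inv_anti₀ (by norm_num) hp
    have h0 : 0 ≤ (p⁻¹) ^ s := Real.rpow_nonneg (by positivity) _
    have : (p⁻¹) ^ s / (1 - (p⁻¹) ^ s) ≤ e2 / (1 - e2) := by
      rw [div_le_div_iff₀ (by linarith only [he21, h1]) (by linarith only [he21])]
      linarith only [h1]
    linarith only [this]
  -- choice of θ
  obtain ⟨θ, hθ0, hθ1, hθ⟩ : ∃ θ : ℝ, 0 < θ ∧ θ ≤ 1 / 2 ∧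
      (1 + η) * θ ^ (2 * α - 1) / 2 ≤ α / 6 := by
    set w : ℝ := α / (3 * (1 + η)) with hw
    have hw0 : 0 < w := by positivity
    refine ⟨min (1 / 2) (w ^ (1 / (2 * α - 1))), ?_, min_le_left _ _, ?_⟩
    · exact lt_min (by norm_num) (Real.rpow_pos_of_pos hw0 _)
    · have hpos : 0 < 2 * α - 1 := by linarith only [hα]
      have : (min (1 / 2) (w ^ (1 / (2 * α - 1)))) ^ (2 * α - 1) ≤ w := by
        calc (min (1 / 2) (w ^ (1 / (2 * α - 1)))) ^ (2 * α - 1)
            ≤ (w ^ (1 / (2 * α - 1))) ^ (2 * α - 1) :=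
              Real.rpow_le_rpow (le_min (by norm_num) (Real.rpow_nonneg hw0.le _))
                (min_le_right _ _) hpos.le
          _ = w := by
              rw [← Real.rpow_mul hw0.le]
              rw [one_div, inv_mul_cancel₀ hpos.ne', Real.rpow_one]
      have h3 : (1 + η) * (min (1 / 2) (w ^ (1 / (2 * α - 1)))) ^ (2 * α - 1) ≤ (1 + η) * w :=
        mul_le_mul_of_nonneg_left this (by linarith only [hη0])
      have h4 : (1 + η) * w = α / 3 := by
        rw [hw]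
        have : (1 + η) ≠ 0 := by linarith only [hη0]
        field_simp
      linarith only [h3, h4]
  set c : ℝ := min (β / 6) (α / 6) with hc
  have hc0 : 0 < c := lt_min (by linarith only [hβ]) (by linarith only [hα])
  set Cc : ℝ := c ^ (-((α + β) / s)) with hCc
  have hCc0 : 0 < Cc := Real.rpow_pos_of_pos hc0 _
  set G : ℝ := (1 - θ) ^ (α - 1 / 2) with hG
  have hG0 : 0 ≤ G := Real.rpow_nonneg (by linarith only [hθ1]) _
  have hG1 : G < 1 := Real.rpow_lt_one (by linarith only [hθ1]) (by linarith only [hθ0]) (by linarith only [hα])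
  set p0 : ℝ := ((3 - G) / (1 - G)) ^ (1 / s) with hp0
  have hq : 0 < (3 - G) / (1 - G) := div_pos (by linarith only [hG1]) (by linarith only [hG1])
  have hp00 : 0 < p0 := Real.rpow_pos_of_pos hq _
  refine ⟨8 * Cc + η * p0, by (clear * - hβ hα he21 hq; positivity), ?_⟩
  intro p hp I D x y z hx hy hz hD hxs hys hzs
  have hpp : 0 < p := by linarith only [hp]
  by_cases hnear : ∃ k ∈ I, 1 - θ ≤ x k ∧ 1 - θ ≤ y k
  · obtain ⟨k, hk, hxk, hyk⟩ := hnear
    have h := near_case hα hβ hs hsum hc0 (min_le_left _ _) (min_le_right _ _)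
      (hηp p hp) hη0 hθ hp I D x y z hx hy hz hD hxs hys hzs k hk hxk hyk
    refine h.trans ?_
    have : (8 * Cc + η * p0) / p = 2 * (Cc * (4 / p)) + η * p0 / p := by
      field_simp
      ring
    rw [this]
    have : 0 ≤ η * p0 / p := by (clear * - he21 hq hp; positivity)
    linarith only [this]
  · push Not at hnear
    have hfar : ∀ k ∈ I, 1 - θ ≤ x k → y k ≤ 1 - θ := fun k hk h => (hnear k hk h).le
    have h := far_case hα hβ hs (by linarith only [hθ1] : θ ≤ 1) hp I D x y z hx hy hz hD hxs hys hzs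
      hfar
    have hCp : 0 ≤ 8 * Cc / p := by positivity
    by_cases hpl : p0 ≤ p
    · have h1 : (p⁻¹) ^ s ≤ (1 - G) / (3 - G) := by
        have : (p0)⁻¹ ^ s = (1 - G) / (3 - G) := by
          rw [hp0, Real.inv_rpow (Real.rpow_nonneg hq.le _), ← Real.rpow_mul hq.le, one_div,
            inv_mul_cancel₀ hs.ne', Real.rpow_one, inv_div]
        rw [← this]
        exact Real.rpow_le_rpow (by (clear * - hp; positivity)) (inv_anti₀ hp00 hpl) hs.le
      have h0 : 0 ≤ (p⁻¹) ^ s := Real.rpow_nonneg (by positivity) _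
      have h3G : 0 < 3 - G := by linarith only [hG1]
      have h2 : 2 * ((p⁻¹) ^ s / (1 - (p⁻¹) ^ s)) ≤ 1 - G := by
        have hlt : (1 - G) / (3 - G) < 1 := by
          rw [div_lt_one h3G]
          linarith only []
        rw [← mul_div_assoc, div_le_iff₀ (by linarith only [h1, hlt])]
        rw [le_div_iff₀ h3G] at h1
        linarith only [h1]
      have : 0 ≤ (8 * Cc + η * p0) / p := by (clear * - hβ hα he21 h3G hG1 hp; positivity)
      linarith only [h2, h, this]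
    · push Not at hpl
      have h1 := hηp p hp
      have h2 : η ≤ η * p0 / p := by
        rw [le_div_iff₀ hpp]
        exact mul_le_mul_of_nonneg_left hpl.le hη0
      have h3 : (8 * Cc + η * p0) / p = 8 * Cc / p + η * p0 / p := by
        rw [add_div]
      rw [h3]
      linarith only [h, hCp, hG1, h1, h2]

end Vale.P028
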