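import Vale.Agent.P028.MathlibUsed
import Vale.Agent.P028.MDefs
import Vale.Agent.P028.OneDim
attribute [-instance] ProperSMul.toContinuousSMul IsTopologicalTorsor.toContinuousSMul IdemSemiring.toCanonicallyOrderedAdd IdemSemiring.toMulLeftMono IdemSemiring.toMulRightMono AddQuantale.instAddLeftMono AddQuantale.instAddRightMono Quantale.instMulLeftMono Quantale.instMulRightMono FiniteDimensional.rclike_to_real IsScalarTower.complexToReal FiniteDimensional.complexToReal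

/-!
# Tensor inequality
-/

namespace Vale.P028

open Finset

theorem ker_ad {p : ℝ} (hp : 2 ≤ p) (s : ℝ) (i j : ℕ) :
    ker p s ((i : ℤ) - j) = (p ^ (-s)) ^ ad i j := by
  rw [ker_eq hp]
  have h1 : (p⁻¹) ^ s = p ^ (-s) := by
    rw [Real.inv_rpow (by linarith only [hp]), Real.rpow_neg (by linarith only [hp])]
  rw [h1]
  congr 1
  unfold ad
  omega

theorem SPn_all {θ μ : ℝ} (hθ : 1 / 2 < θ) (hθ1 : θ < 1) (hμ : 0 < μ) (hμ1 : μ < 1 - θ) :
    ∃ C ≥ 0, ∀ p : ℕ, p.Prime → SPn θ μ ((p : ℝ) ^ (-(1 - θ - μ))) (1 + C / p) := by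
  obtain ⟨C, hC0, hC⟩ := oneDim_norm (s := 1 - θ - μ) hθ hμ (by linarith only [hμ1]) (by ring)
  refine ⟨C, hC0, ?_⟩
  intro p hp N φ χ ν hφ hχ hν
  have hp2 : (2 : ℝ) ≤ p := by exact_mod_cast hp.two_le
  have hθ0 : 0 < θ := by linarith only [hθ]
  set I := range (N + 1) with hI
  set D := Icc (-(N : ℤ)) (N : ℤ) with hD
  set Φ := ∑ i ∈ I, φ i with hΦ
  set X := ∑ i ∈ I, χ i with hX
  set V := ∑ l ∈ D, ν l with hV
  have hΦ0 : 0 ≤ Φ := Finset.sum_nonneg fun i _ => hφ i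
  have hX0 : 0 ≤ X := Finset.sum_nonneg fun i _ => hχ i
  have hV0 : 0 ≤ V := Finset.sum_nonneg fun i _ => hν i
  have hDmem : ∀ i ∈ I, ∀ j ∈ I, (i : ℤ) - j ∈ D := by
    intro i hi j hj
    rw [hI, Finset.mem_range] at hi hj
    rw [hD, Finset.mem_Icc]
    constructor <;> omega
  have hRHS : 0 ≤ (1 + C / (p : ℝ)) * (Φ * X) ^ θ * V ^ μ := by
    have : 0 ≤ C / (p : ℝ) := by (clear * - hC0 hp2; positivity)
    have h1 : 0 ≤ (Φ * X) ^ θ := Real.rpow_nonneg (mul_nonneg hΦ0 hX0) _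
    have h2 : 0 ≤ V ^ μ := Real.rpow_nonneg hV0 _
    (clear * - hC0 hp2 hΦ0 hX0 hV0; positivity)
  rcases eq_or_lt_of_le hΦ0 with h0 | hΦp
  · refine le_trans (le_of_eq ?_) hRHS
    refine Finset.sum_eq_zero fun i hi => Finset.sum_eq_zero fun j _ => ?_
    have : φ i = 0 := (Finset.sum_eq_zero_iff_of_nonneg fun i _ => hφ i).1 h0.symm i hi
    rw [this, zero_mul, Real.zero_rpow hθ0.ne']
    ring
  rcases eq_or_lt_of_le hX0 with h0 | hXp
  · refine le_trans (le_of_eq ?_) hRHS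
    refine Finset.sum_eq_zero fun i _ => Finset.sum_eq_zero fun j hj => ?_
    have : χ j = 0 := (Finset.sum_eq_zero_iff_of_nonneg fun i _ => hχ i).1 h0.symm j hj
    rw [this, mul_zero, Real.zero_rpow hθ0.ne']
    ring
  rcases eq_or_lt_of_le hV0 with h0 | hVp
  · refine le_trans (le_of_eq ?_) hRHS
    refine Finset.sum_eq_zero fun i hi => Finset.sum_eq_zero fun j hj => ?_
    have : ν ((i : ℤ) - j) = 0 :=
      (Finset.sum_eq_zero_iff_of_nonneg fun i _ => hν i).1 h0.symm _ (hDmem i hi j hj)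
    rw [this, Real.zero_rpow hμ.ne']
    ring
  have key := hC p hp2 I D (fun i => φ i / Φ) (fun i => χ i / X) (fun l => ν l / V)
    (fun i => div_nonneg (hφ i) hΦ0) (fun i => div_nonneg (hχ i) hX0)
    (fun i => div_nonneg (hν i) hV0) hDmem
    (by rw [← Finset.sum_div, div_self hΦp.ne'])
    (by rw [← Finset.sum_div, div_self hXp.ne'])
    (by rw [← Finset.sum_div, div_self hVp.ne'])
  have hF : 0 ≤ (Φ * X) ^ θ * V ^ μ :=
    mul_nonneg (Real.rpow_nonneg (mul_nonneg hΦ0 hX0) _) (Real.rpow_nonneg hV0 _)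
  have hmul := mul_le_mul_of_nonneg_left key hF
  refine le_trans (le_of_eq ?_) (hmul.trans (le_of_eq ?_))
  · rw [Finset.mul_sum]
    refine Finset.sum_congr rfl fun i hi => ?_
    rw [Finset.mul_sum]
    refine Finset.sum_congr rfl fun j hj => ?_
    rw [ker_ad hp2, Real.div_rpow (hφ i) hΦ0, Real.div_rpow (hχ j) hX0, Real.div_rpow (hν _) hV0,
      Real.mul_rpow hΦ0 hX0, Real.mul_rpow (hφ i) (hχ j)]
    have n1 : Φ ^ θ ≠ 0 := (Real.rpow_pos_of_pos hΦp _).ne'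
    have n2 : X ^ θ ≠ 0 := (Real.rpow_pos_of_pos hXp _).ne'
    have n3 : V ^ μ ≠ 0 := (Real.rpow_pos_of_pos hVp _).ne'
    (clear * - n1 n2 n3 hp2; field_simp)
  · ring

/-- Splitting a sum over `[1,N]` according to the power of `p`. -/
theorem sum_split_prime {p : ℕ} (hp : p.Prime) (N : ℕ) (g : ℕ → ℝ) :
    ∑ q ∈ Icc 1 N, g q = ∑ i ∈ range (N + 1), ∑ q ∈ Icc 1 N,
      if ¬ p ∣ q ∧ p ^ i * q ≤ N then g (p ^ i * q) else 0 := by
  rw [← Finset.sum_product' (range (N + 1)) (Icc 1 N)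
    (fun i q => if ¬ p ∣ q ∧ p ^ i * q ≤ N then g (p ^ i * q) else 0), ← Finset.sum_filter]
  refine Finset.sum_nbij' (fun q => (q.factorization p, q / p ^ (q.factorization p)))
    (fun x => p ^ x.1 * x.2) ?_ ?_ ?_ ?_ ?_
  · intro q hq
    rw [Finset.mem_Icc] at hq
    have hq0 : q ≠ 0 := by omega
    have h1 : q.factorization p < q := Nat.factorization_lt p hq0
    have h2 : 0 < q / p ^ q.factorization p := Nat.ordCompl_pos p hq0
    have h3 : q / p ^ q.factorization p ≤ q := Nat.div_le_self _ _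
    have h4 : ¬ p ∣ q / p ^ q.factorization p := Nat.not_dvd_ordCompl hp hq0
    have h5 : p ^ q.factorization p * (q / p ^ q.factorization p) = q :=
      Nat.ordProj_mul_ordCompl_eq_self q p
    simp only [mem_filter, mem_product, mem_range, mem_Icc]
    refine ⟨⟨by omega, by omega, by omega⟩, h4, ?_⟩
    rw [h5]
    omega
  · intro x hx
    simp only [Finset.mem_filter, Finset.mem_product, Finset.mem_range, Finset.mem_Icc] at hx
    rw [Finset.mem_Icc]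
    have : 0 < p ^ x.1 * x.2 := Nat.mul_pos (pow_pos hp.pos _) (by omega)
    omega
  · intro q _
    exact Nat.ordProj_mul_ordCompl_eq_self q p
  · intro x hx
    simp only [Finset.mem_filter, Finset.mem_product, Finset.mem_range, Finset.mem_Icc] at hx
    obtain ⟨⟨_, hx1, _⟩, hnd, _⟩ := hx
    have hx2 : x.2 ≠ 0 := by omega
    have hf : (p ^ x.1 * x.2).factorization p = x.1 := by
      rw [Nat.factorization_mul (pow_pos hp.pos _).ne' hx2, Finsupp.add_apply,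
        hp.factorization_pow, Finsupp.single_eq_same, Nat.factorization_eq_zero_of_not_dvd hnd,
        add_zero]
    ext
    · simp only [hf]
    · simp only [hf]
      exact Nat.mul_div_cancel_left _ (pow_pos hp.pos _)
  · intro q _
    simp only
    rw [Nat.ordProj_mul_ordCompl_eq_self q p]

theorem gcd_prime_pow_mul {p : ℕ} (hp : p.Prime) {q r : ℕ} (hq : ¬ p ∣ q) (hr : ¬ p ∣ r)
    (i j : ℕ) : Nat.gcd (p ^ i * q) (p ^ j * r) = p ^ min i j * Nat.gcd q r := by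
  have cq : ∀ k : ℕ, Nat.Coprime q (p ^ k) := fun k =>
    Nat.Coprime.pow_right k ((Nat.Prime.coprime_iff_not_dvd hp).2 hq).symm
  have cr : ∀ k : ℕ, Nat.Coprime r (p ^ k) := fun k =>
    Nat.Coprime.pow_right k ((Nat.Prime.coprime_iff_not_dvd hp).2 hr).symm
  rcases le_total i j with h | h
  · obtain ⟨k, rfl⟩ := Nat.exists_eq_add_of_le h
    rw [min_eq_left h, pow_add, mul_assoc, Nat.gcd_mul_left,
      Nat.Coprime.gcd_mul_left_cancel_right r (cq k).symm]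
  · obtain ⟨k, rfl⟩ := Nat.exists_eq_add_of_le h
    rw [min_eq_right h, pow_add, mul_assoc, Nat.gcd_mul_left,
      Nat.Coprime.gcd_mul_left_cancel q (cr k).symm]

theorem cofac_prime_pow_mul {p : ℕ} (hp : p.Prime) {q r : ℕ} (hq : ¬ p ∣ q) (hr : ¬ p ∣ r)
    (i j : ℕ) : cofac (p ^ i * q) (p ^ j * r) = p ^ (i - j) * cofac q r := by
  unfold cofac
  rw [gcd_prime_pow_mul hp hq hr]
  have h1 : p ^ i * q = p ^ min i j * (p ^ (i - j) * q) := by
    rw [← mul_assoc, ← pow_add]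
    congr 2
    omega
  rw [h1, Nat.mul_div_mul_left _ _ (pow_pos hp.pos _), Nat.mul_div_assoc _ (Nat.gcd_dvd_left q r)]

theorem cofac_dvd (q r : ℕ) : cofac q r ∣ q := Nat.div_dvd_of_dvd (Nat.gcd_dvd_left q r)

theorem cofac_pos {q : ℕ} (r : ℕ) (hq : 0 < q) : 0 < cofac q r :=
  Nat.pos_of_dvd_of_pos (cofac_dvd q r) hq

theorem cofac_le {q : ℕ} (r : ℕ) (hq : 0 < q) : cofac q r ≤ q := Nat.le_of_dvd hq (cofac_dvd q r)

theorem cofac_coprime {q r : ℕ} (hq : 0 < q) : Nat.Coprime (cofac q r) (cofac r q) := by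
  unfold cofac
  rw [Nat.gcd_comm r q]
  exact Nat.coprime_div_gcd_div_gcd (Nat.gcd_pos_of_pos_left r hq)

theorem gcd_mul_cofac (q r : ℕ) : Nat.gcd q r * cofac q r = q :=
  Nat.mul_div_cancel' (Nat.gcd_dvd_left q r)

open Classical in
/-- The statement of the tensor inequality for a finite set of primes `P`. -/
def TensorStmt (θ μ : ℝ) (P : Finset ℕ) (K : ℝ) : Prop :=
  ∀ (N : ℕ) (f h : ℕ → ℝ) (z : ℕ → ℕ → ℝ), (∀ q, 0 ≤ f q) → (∀ q, 0 ≤ h q) →
    (∀ u v, 0 ≤ z u v) →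
    ∑ q ∈ Icc 1 N, ∑ r ∈ Icc 1 N,
      (if (∀ l : ℕ, l.Prime → l ∣ cofac q r * cofac r q → l ∈ P) then
        (f q * h r) ^ θ * ((cofac q r : ℝ) * (cofac r q : ℝ)) ^ (-(1 - θ - μ)) *
          (z (cofac q r) (cofac r q)) ^ μ else 0) ≤
    K * ((∑ q ∈ Icc 1 N, f q) * ∑ r ∈ Icc 1 N, h r) ^ θ *
      (∑ u ∈ Icc 1 N, ∑ v ∈ Icc 1 N, if Nat.Coprime u v then z u v else 0) ^ μ

theorem sum_mul_rpow_le {θ : ℝ} (hθ : 1 / 2 ≤ θ) (I : Finset ℕ) (f h : ℕ → ℝ)
    (hf : ∀ q, 0 ≤ f q) (hh : ∀ q, 0 ≤ h q) :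
    ∑ q ∈ I, (f q * h q) ^ θ ≤ ((∑ q ∈ I, f q) * ∑ r ∈ I, h r) ^ θ := by
  have hθ0 : 0 < θ := by linarith only [hθ]
  set F := ∑ q ∈ I, f q with hF
  set H := ∑ q ∈ I, h q with hH
  have hF0 : 0 ≤ F := Finset.sum_nonneg fun i _ => hf i
  have hH0 : 0 ≤ H := Finset.sum_nonneg fun i _ => hh i
  have hR : 0 ≤ (F * H) ^ θ := Real.rpow_nonneg (mul_nonneg hF0 hH0) _
  rcases eq_or_lt_of_le hF0 with h0 | hFp
  · refine le_trans (le_of_eq ?_) hR
    refine Finset.sum_eq_zero fun i hi => ?_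
    have : f i = 0 := (Finset.sum_eq_zero_iff_of_nonneg fun i _ => hf i).1 h0.symm i hi
    rw [this, zero_mul, Real.zero_rpow hθ0.ne']
  rcases eq_or_lt_of_le hH0 with h0 | hHp
  · refine le_trans (le_of_eq ?_) hR
    refine Finset.sum_eq_zero fun i hi => ?_
    have : h i = 0 := (Finset.sum_eq_zero_iff_of_nonneg fun i _ => hh i).1 h0.symm i hi
    rw [this, mul_zero, Real.zero_rpow hθ0.ne']
  have key : ∀ q ∈ I, (f q * h q) ^ θ ≤ (F * H) ^ θ * ((f q / F + h q / H) / 2) := by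
    intro q hq
    have a0 : 0 ≤ f q / F := div_nonneg (hf q) hF0
    have b0 : 0 ≤ h q / H := div_nonneg (hh q) hH0
    have a1 : f q / F ≤ 1 := (div_le_one hFp).2 (Finset.single_le_sum (fun i _ => hf i) hq)
    have b1 : h q / H ≤ 1 := (div_le_one hHp).2 (Finset.single_le_sum (fun i _ => hh i) hq)
    have e : f q * h q = (F * H) * ((f q / F) * (h q / H)) := by
      (clear * - hFp hHp; field_simp)
    rw [e, Real.mul_rpow (mul_nonneg hF0 hH0) (mul_nonneg a0 b0)]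
    refine mul_le_mul_of_nonneg_left ?_ hR
    have hab : 0 ≤ f q / F * (h q / H) := mul_nonneg a0 b0
    have hab1 : f q / F * (h q / H) ≤ 1 := by nlinarith only [a1, a0, b1]
    calc (f q / F * (h q / H)) ^ θ ≤ (f q / F * (h q / H)) ^ (1 / 2 : ℝ) := by
          rcases eq_or_lt_of_le hab with h | h
          · rw [← h, Real.zero_rpow hθ0.ne', Real.zero_rpow (by norm_num)]
          · exact Real.rpow_le_rpow_of_exponent_ge h hab1 hθ
      _ ≤ (f q / F + h q / H) / 2 := by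
          rw [← Real.sqrt_eq_rpow, Real.sqrt_le_left (by linarith only [a0, b0])]
          nlinarith only [sq_nonneg (f q / F - h q / H)]
  calc ∑ q ∈ I, (f q * h q) ^ θ
      ≤ ∑ q ∈ I, (F * H) ^ θ * ((f q / F + h q / H) / 2) := Finset.sum_le_sum key
    _ = (F * H) ^ θ * ((∑ q ∈ I, f q) / F / 2 + (∑ q ∈ I, h q) / H / 2) := by
        rw [← Finset.mul_sum, ← Finset.sum_div, Finset.sum_add_distrib, ← Finset.sum_div,
          ← Finset.sum_div]
        ring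
    _ = (F * H) ^ θ := by
        rw [← hF, ← hH, div_self hFp.ne', div_self hHp.ne']
        ring

theorem eq_of_cofac_eq_one {q r : ℕ} (h1 : cofac q r = 1) (h2 : cofac r q = 1) : q = r := by
  have e1 := gcd_mul_cofac q r
  have e2 := gcd_mul_cofac r q
  rw [h1, mul_one] at e1
  rw [h2, mul_one, Nat.gcd_comm] at e2
  exact e1.symm.trans e2

theorem cofac_self {q : ℕ} (hq : 0 < q) : cofac q q = 1 := by
  unfold cofac
  rw [Nat.gcd_self, Nat.div_self hq]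

theorem tensorStmt_empty {θ μ : ℝ} (hθ : 1 / 2 < θ) (hμ : 0 < μ) :
    TensorStmt θ μ ∅ 1 := by
  classical
  intro N f h z hf hh hz
  rcases Nat.eq_zero_or_pos N with hN | hN
  · subst hN
    simp only [Finset.Icc_eq_empty_of_lt (show (0 : ℕ) < 1 by norm_num), Finset.sum_empty]
    rw [Real.zero_rpow hμ.ne', mul_zero]
  have hterm : ∀ q ∈ Icc 1 N, ∑ r ∈ Icc 1 N,
      (if (∀ l : ℕ, l.Prime → l ∣ cofac q r * cofac r q → l ∈ (∅ : Finset ℕ)) then
        (f q * h r) ^ θ * ((cofac q r : ℝ) * (cofac r q : ℝ)) ^ (-(1 - θ - μ)) *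
          (z (cofac q r) (cofac r q)) ^ μ else 0) = (f q * h q) ^ θ * z 1 1 ^ μ := by
    intro q hq
    have hq0 : 0 < q := (Finset.mem_Icc.1 hq).1
    rw [Finset.sum_eq_single q]
    · rw [cofac_self hq0, if_pos]
      · simp
      · intro l hl hd
        rw [mul_one, Nat.dvd_one] at hd
        exact absurd (hd ▸ hl) Nat.not_prime_one
    · intro r hr hrq
      rw [if_neg]
      intro hall
      have h1 : cofac q r * cofac r q = 1 := by
        by_contra hne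
        obtain ⟨l, hl, hld⟩ := Nat.exists_prime_and_dvd hne
        exact absurd (hall l hl hld) (by simp)
      exact hrq (eq_of_cofac_eq_one (Nat.eq_one_of_mul_eq_one_right h1)
        (Nat.eq_one_of_mul_eq_one_left h1)).symm
    · intro hn
      exact absurd hq hn
  rw [Finset.sum_congr rfl hterm, ← Finset.sum_mul, one_mul]
  have hz1 : z 1 1 ≤ ∑ u ∈ Icc 1 N, ∑ v ∈ Icc 1 N, if Nat.Coprime u v then z u v else 0 := by
    have m1 : (1 : ℕ) ∈ Icc 1 N := by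
      rw [Finset.mem_Icc]
      omega
    have hnn : ∀ u v : ℕ, 0 ≤ (if Nat.Coprime u v then z u v else 0) := by
      intro u v
      split_ifs
      · exact hz u v
      · exact le_rfl
    calc z 1 1 = (if Nat.Coprime 1 1 then z 1 1 else 0) := by simp
      _ ≤ ∑ v ∈ Icc 1 N, (if Nat.Coprime 1 v then z 1 v else 0) :=
          Finset.single_le_sum (f := fun v => (if Nat.Coprime 1 v then z 1 v else 0))
            (fun v _ => hnn 1 v) m1
      _ ≤ _ := Finset.single_le_sum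
            (f := fun u => ∑ v ∈ Icc 1 N, (if Nat.Coprime u v then z u v else 0))
            (fun u _ => Finset.sum_nonneg fun v _ => hnn u v) m1
  exact mul_le_mul (sum_mul_rpow_le hθ.le _ f h hf hh) (Real.rpow_le_rpow (hz 1 1) hz1 hμ.le)
    (Real.rpow_nonneg (hz 1 1) _)
    (Real.rpow_nonneg (mul_nonneg (Finset.sum_nonneg fun i _ => hf i)
      (Finset.sum_nonneg fun i _ => hh i)) _)

/-- The weights after removing the prime `p`, for the shift `l`. -/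
noncomputable def zshift (p N : ℕ) (z : ℕ → ℕ → ℝ) (l : ℤ) (u v : ℕ) : ℝ :=
  if ¬ p ∣ u ∧ ¬ p ∣ v ∧ p ^ l.toNat * u ≤ N ∧ p ^ (-l).toNat * v ≤ N then
    z (p ^ l.toNat * u) (p ^ (-l).toNat * v) else 0

theorem zshift_nonneg (p N : ℕ) {z : ℕ → ℕ → ℝ} (hz : ∀ u v, 0 ≤ z u v) (l : ℤ) (u v : ℕ) :
    0 ≤ zshift p N z l u v := by
  unfold zshift
  split_ifs
  · exact hz _ _
  · exact le_rfl

theorem sum_zshift_le {p : ℕ} (hp : p.Prime) (N : ℕ) (z : ℕ → ℕ → ℝ) (hz : ∀ u v, 0 ≤ z u v) :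
    ∑ l ∈ Icc (-(N : ℤ)) N, ∑ u ∈ Icc 1 N, ∑ v ∈ Icc 1 N,
      (if Nat.Coprime u v then zshift p N z l u v else 0)
      ≤ ∑ u ∈ Icc 1 N, ∑ v ∈ Icc 1 N, if Nat.Coprime u v then z u v else 0 := by
  classical
  -- left side as a sum over triples
  set S : Finset (ℤ × ℕ × ℕ) := (Icc (-(N : ℤ)) (N : ℤ) ×ˢ (Icc 1 N ×ˢ Icc 1 N)).filter
    (fun x => Nat.Coprime x.2.1 x.2.2 ∧ ¬ p ∣ x.2.1 ∧ ¬ p ∣ x.2.2 ∧ p ^ x.1.toNat * x.2.1 ≤ N ∧
      p ^ (-x.1).toNat * x.2.2 ≤ N) with hS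
  set φ : ℤ × ℕ × ℕ → ℕ × ℕ := fun x => (p ^ x.1.toNat * x.2.1, p ^ (-x.1).toNat * x.2.2) with hφ
  have hL : ∑ l ∈ Icc (-(N : ℤ)) N, ∑ u ∈ Icc 1 N, ∑ v ∈ Icc 1 N,
      (if Nat.Coprime u v then zshift p N z l u v else 0) = ∑ x ∈ S, z (φ x).1 (φ x).2 := by
    rw [hS, Finset.sum_filter, Finset.sum_product]
    refine Finset.sum_congr rfl fun l _ => ?_
    rw [Finset.sum_product]
    refine Finset.sum_congr rfl fun u _ => Finset.sum_congr rfl fun v _ => ?_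
    unfold zshift
    by_cases h1 : Nat.Coprime u v
    · by_cases h2 : ¬ p ∣ u ∧ ¬ p ∣ v ∧ p ^ l.toNat * u ≤ N ∧ p ^ (-l).toNat * v ≤ N
      · rw [if_pos h1, if_pos h2, if_pos ⟨h1, h2⟩]
      · rw [if_pos h1, if_neg h2, if_neg (fun h => h2 h.2)]
    · rw [if_neg h1, if_neg (fun h => h1 h.1)]
  have hR : ∑ u ∈ Icc 1 N, ∑ v ∈ Icc 1 N, (if Nat.Coprime u v then z u v else 0)
      = ∑ y ∈ (Icc 1 N ×ˢ Icc 1 N).filter (fun y => Nat.Coprime y.1 y.2), z y.1 y.2 := by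
    rw [Finset.sum_filter, Finset.sum_product]
  have hfac : ∀ a m : ℕ, m ≠ 0 → ¬ p ∣ m → (p ^ a * m).factorization p = a := by
    intro a m hm hnd
    rw [Nat.factorization_mul (pow_pos hp.pos _).ne' hm, Finsupp.add_apply,
      hp.factorization_pow, Finsupp.single_eq_same, Nat.factorization_eq_zero_of_not_dvd hnd,
      add_zero]
  have hinj : Set.InjOn φ S := by
    intro x hx y hy hxy
    simp only [hS, Finset.coe_filter, Finset.mem_product, Finset.mem_Icc, Set.mem_ofPred_eq] at hx hy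
    obtain ⟨⟨_, ⟨hx1, _⟩, ⟨hx2, _⟩⟩, _, hxa, hxb, _, _⟩ := hx
    obtain ⟨⟨_, ⟨hy1, _⟩, ⟨hy2, _⟩⟩, _, hya, hyb, _, _⟩ := hy
    simp only [hφ, Prod.mk.injEq] at hxy
    obtain ⟨e1, e2⟩ := hxy
    have f1 : x.1.toNat = y.1.toNat := by
      rw [← hfac x.1.toNat x.2.1 (by omega) hxa, ← hfac y.1.toNat y.2.1 (by omega) hya, e1]
    have f2 : (-x.1).toNat = (-y.1).toNat := by
      rw [← hfac (-x.1).toNat x.2.2 (by omega) hxb, ← hfac (-y.1).toNat y.2.2 (by omega) hyb, e2]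
    have g0 : x.1 = y.1 := by (clear * - f1 f2; omega)
    rw [f1] at e1
    rw [f2] at e2
    have g1 := Nat.eq_of_mul_eq_mul_left (pow_pos hp.pos _) e1
    have g2 := Nat.eq_of_mul_eq_mul_left (pow_pos hp.pos _) e2
    exact Prod.ext g0 (Prod.ext g1 g2)
  rw [hL, hR, ← Finset.sum_image (f := fun y : ℕ × ℕ => z y.1 y.2) hinj]
  refine Finset.sum_le_sum_of_subset_of_nonneg ?_ (fun y _ _ => hz _ _)
  intro y hy
  obtain ⟨x, hx, rfl⟩ := Finset.mem_image.1 hy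
  simp only [hS, Finset.mem_filter, Finset.mem_product, Finset.mem_Icc] at hx
  obtain ⟨⟨_, ⟨hx1, _⟩, ⟨hx2, _⟩⟩, hco, hxa, hxb, hxN, hxM⟩ := hx
  simp only [hφ, Finset.mem_filter, Finset.mem_product, Finset.mem_Icc]
  refine ⟨⟨⟨?_, hxN⟩, ⟨?_, hxM⟩⟩, ?_⟩
  · exact Nat.mul_pos (pow_pos hp.pos _) (by omega)
  · exact Nat.mul_pos (pow_pos hp.pos _) (by omega)
  · have c1 : ∀ k : ℕ, Nat.Coprime (p ^ k) x.2.1 := fun k =>
      Nat.Coprime.pow_left k ((Nat.Prime.coprime_iff_not_dvd hp).2 hxa)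
    have c2 : ∀ k : ℕ, Nat.Coprime (p ^ k) x.2.2 := fun k =>
      Nat.Coprime.pow_left k ((Nat.Prime.coprime_iff_not_dvd hp).2 hxb)
    have c3 : Nat.Coprime (p ^ x.1.toNat) (p ^ (-x.1).toNat) := by
      rcases le_total 0 x.1 with h | h
      · have : (-x.1).toNat = 0 := by omega
        rw [this, pow_zero]
        exact Nat.coprime_one_right _
      · have : x.1.toNat = 0 := by omega
        rw [this, pow_zero]
        exact Nat.coprime_one_left _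
    exact Nat.Coprime.mul_left (Nat.Coprime.mul_right c3 (c2 _))
      (Nat.Coprime.mul_right (c1 _).symm hco)

theorem tensor_term_le {θ μ : ℝ} (hθ0 : 0 < θ) {p : ℕ} (hp : p.Prime)
    {P : Finset ℕ} (N : ℕ) (f h : ℕ → ℝ) (z : ℕ → ℕ → ℝ) (hz : ∀ u v, 0 ≤ z u v)
    (hf : ∀ q, 0 ≤ f q) (hh : ∀ q, 0 ≤ h q)
    (i j q r : ℕ) (hq0 : 0 < q) (hr0 : 0 < r) (hq : ¬ p ∣ q) (hqN : p ^ i * q ≤ N)
    (hr : ¬ p ∣ r) (hrN : p ^ j * r ≤ N)
    (hcond : ∀ l : ℕ, l.Prime → l ∣ cofac (p ^ i * q) (p ^ j * r) * cofac (p ^ j * r) (p ^ i * q) →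
      l ∈ insert p P) :
    (∀ l : ℕ, l.Prime → l ∣ cofac q r * cofac r q → l ∈ P) ∧
    (f (p ^ i * q) * h (p ^ j * r)) ^ θ *
      ((cofac (p ^ i * q) (p ^ j * r) : ℝ) * (cofac (p ^ j * r) (p ^ i * q) : ℝ)) ^ (-(1 - θ - μ)) *
        (z (cofac (p ^ i * q) (p ^ j * r)) (cofac (p ^ j * r) (p ^ i * q))) ^ μ
      = ((p : ℝ) ^ (-(1 - θ - μ))) ^ ad i j *
        ((f (p ^ i * q) * h (p ^ j * r)) ^ θ *
          ((cofac q r : ℝ) * (cofac r q : ℝ)) ^ (-(1 - θ - μ)) *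
          (zshift p N z ((i : ℤ) - j) (cofac q r) (cofac r q)) ^ μ) := by
  have hu : ¬ p ∣ cofac q r := fun hd => hq (hd.trans (cofac_dvd q r))
  have hv : ¬ p ∣ cofac r q := fun hd => hr (hd.trans (cofac_dvd r q))
  have e1 := cofac_prime_pow_mul hp hq hr i j
  have e2 := cofac_prime_pow_mul hp hr hq j i
  constructor
  · intro l hl hd
    have h1 : l ∣ cofac (p ^ i * q) (p ^ j * r) * cofac (p ^ j * r) (p ^ i * q) := by
      rw [e1, e2]
      refine hd.trans ?_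
      exact Nat.mul_dvd_mul (Dvd.intro_left _ rfl) (Dvd.intro_left _ rfl)
    have h2 := hcond l hl h1
    rw [Finset.mem_insert] at h2
    rcases h2 with h2 | h2
    · subst h2
      rcases hl.dvd_mul.1 hd with h3 | h3
      · exact absurd h3 hu
      · exact absurd h3 hv
    · exact h2
  · have hz1 : zshift p N z ((i : ℤ) - j) (cofac q r) (cofac r q)
        = z (cofac (p ^ i * q) (p ^ j * r)) (cofac (p ^ j * r) (p ^ i * q)) := by
      have t1 : ((i : ℤ) - j).toNat = i - j := by omega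
      have t2 : (-((i : ℤ) - j)).toNat = j - i := by (clear * -; omega)
      unfold zshift
      rw [t1, t2, ← e1, ← e2, if_pos]
      refine ⟨hu, hv, ?_, ?_⟩
      · exact (cofac_le _ (Nat.mul_pos (pow_pos hp.pos _) hq0)).trans hqN
      · exact (cofac_le _ (Nat.mul_pos (pow_pos hp.pos _) hr0)).trans hrN
    rw [hz1, e1, e2]
    have hp0 : (0 : ℝ) ≤ p := Nat.cast_nonneg p
    have hpow : (((p ^ (i - j) * cofac q r : ℕ) : ℝ) * ((p ^ (j - i) * cofac r q : ℕ) : ℝ))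
        ^ (-(1 - θ - μ)) = ((p : ℝ) ^ (-(1 - θ - μ))) ^ ad i j *
          ((cofac q r : ℝ) * (cofac r q : ℝ)) ^ (-(1 - θ - μ)) := by
      have : (((p ^ (i - j) * cofac q r : ℕ) : ℝ) * ((p ^ (j - i) * cofac r q : ℕ) : ℝ))
          = (p : ℝ) ^ (ad i j) * ((cofac q r : ℝ) * (cofac r q : ℝ)) := by
        unfold ad
        push_cast
        rw [pow_add]
        ring
      rw [this, Real.mul_rpow (by (clear * -; positivity)) (by (clear * -; positivity))]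
      congr 1
      rw [← Real.rpow_natCast, ← Real.rpow_natCast, ← Real.rpow_mul hp0, ← Real.rpow_mul hp0,
        mul_comm]
    rw [hpow]
    ring

theorem tensorStmt_insert {θ μ : ℝ} (hθ0 : 0 < θ) (hμ : 0 < μ) {p : ℕ} (hp : p.Prime)
    {P : Finset ℕ} {K c : ℝ} (hK : 0 ≤ K) (hc : 0 ≤ c) (hT : TensorStmt θ μ P K)
    (hS : SPn θ μ ((p : ℝ) ^ (-(1 - θ - μ))) c) : TensorStmt θ μ (insert p P) (c * K) := by
  classical
  intro N f h z hf hh hz
  set ε : ℝ := (p : ℝ) ^ (-(1 - θ - μ)) with hε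
  have hε0 : 0 ≤ ε := Real.rpow_nonneg (Nat.cast_nonneg p) _
  set fi : ℕ → ℕ → ℝ := fun i q => if ¬ p ∣ q ∧ p ^ i * q ≤ N then f (p ^ i * q) else 0 with hfi
  set hj : ℕ → ℕ → ℝ := fun j q => if ¬ p ∣ q ∧ p ^ j * q ≤ N then h (p ^ j * q) else 0 with hhj
  have hfi0 : ∀ i q, 0 ≤ fi i q := by
    intro i q
    simp only [hfi]
    split_ifs
    · exact hf _
    · exact le_rfl
  have hhj0 : ∀ i q, 0 ≤ hj i q := by
    intro i q
    simp only [hhj]
    split_ifs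
    · exact hh _
    · exact le_rfl
  set φ : ℕ → ℝ := fun i => ∑ q ∈ Icc 1 N, fi i q with hφ
  set χ : ℕ → ℝ := fun j => ∑ r ∈ Icc 1 N, hj j r with hχ
  set ν : ℤ → ℝ := fun l => ∑ u ∈ Icc 1 N, ∑ v ∈ Icc 1 N,
    (if Nat.Coprime u v then zshift p N z l u v else 0) with hν
  have hφ0 : ∀ i, 0 ≤ φ i := fun i => Finset.sum_nonneg fun q _ => hfi0 i q
  have hχ0 : ∀ i, 0 ≤ χ i := fun i => Finset.sum_nonneg fun q _ => hhj0 i q
  have hν0 : ∀ l, 0 ≤ ν l := by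
    intro l
    refine Finset.sum_nonneg fun u _ => Finset.sum_nonneg fun v _ => ?_
    split_ifs
    · exact zshift_nonneg p N hz l u v
    · exact le_rfl
  set G : ℕ → ℕ → ℝ := fun q r =>
    if (∀ l : ℕ, l.Prime → l ∣ cofac q r * cofac r q → l ∈ insert p P) then
        (f q * h r) ^ θ * ((cofac q r : ℝ) * (cofac r q : ℝ)) ^ (-(1 - θ - μ)) *
          (z (cofac q r) (cofac r q)) ^ μ else 0 with hG
  set G' : ℕ → ℕ → ℕ → ℕ → ℝ := fun i j q r =>
    if (∀ l : ℕ, l.Prime → l ∣ cofac q r * cofac r q → l ∈ P) then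
        (fi i q * hj j r) ^ θ * ((cofac q r : ℝ) * (cofac r q : ℝ)) ^ (-(1 - θ - μ)) *
          (zshift p N z ((i : ℤ) - j) (cofac q r) (cofac r q)) ^ μ else 0 with hG'
  have hG'0 : ∀ i j q r, 0 ≤ G' i j q r := by
    intro i j q r
    simp only [hG']
    split_ifs
    · exact mul_nonneg (mul_nonneg (Real.rpow_nonneg (mul_nonneg (hfi0 _ _) (hhj0 _ _)) _)
        (Real.rpow_nonneg (by (clear * -; positivity)) _))
        (Real.rpow_nonneg (zshift_nonneg p N hz _ _ _) _)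
    · exact le_rfl
  have step1 : ∑ q ∈ Icc 1 N, ∑ r ∈ Icc 1 N, G q r
      = ∑ i ∈ range (N + 1), ∑ j ∈ range (N + 1), ∑ q ∈ Icc 1 N, ∑ r ∈ Icc 1 N,
        (if (¬ p ∣ q ∧ p ^ i * q ≤ N) ∧ (¬ p ∣ r ∧ p ^ j * r ≤ N) then
          G (p ^ i * q) (p ^ j * r) else 0) := by
    rw [sum_split_prime hp N (fun q => ∑ r ∈ Icc 1 N, G q r)]
    refine Finset.sum_congr rfl fun i _ => ?_
    rw [Finset.sum_comm]
    refine Finset.sum_congr rfl fun q _ => ?_
    by_cases h1 : ¬ p ∣ q ∧ p ^ i * q ≤ N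
    · rw [if_pos h1, sum_split_prime hp N (fun r => G (p ^ i * q) r)]
      refine Finset.sum_congr rfl fun j _ => Finset.sum_congr rfl fun r _ => ?_
      by_cases h2 : ¬ p ∣ r ∧ p ^ j * r ≤ N
      · rw [if_pos h2, if_pos ⟨h1, h2⟩]
      · rw [if_neg h2, if_neg (fun h => h2 h.2)]
    · rw [if_neg h1]
      symm
      refine Finset.sum_eq_zero fun j _ => Finset.sum_eq_zero fun r _ => ?_
      rw [if_neg (fun h => h1 h.1)]
  have step2 : ∀ i j q r : ℕ, q ∈ Icc 1 N → r ∈ Icc 1 N →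
      (if (¬ p ∣ q ∧ p ^ i * q ≤ N) ∧ (¬ p ∣ r ∧ p ^ j * r ≤ N) then
          G (p ^ i * q) (p ^ j * r) else 0) ≤ ε ^ ad i j * G' i j q r := by
    intro i j q r hq hr
    have hpos : 0 ≤ ε ^ ad i j * G' i j q r := mul_nonneg (pow_nonneg hε0 _) (hG'0 i j q r)
    split_ifs with hc1
    · obtain ⟨⟨hq1, hq2⟩, hr1, hr2⟩ := hc1
      simp only [hG]
      split_ifs with hc2
      · obtain ⟨t1, t2⟩ := tensor_term_le (μ := μ) hθ0 hp (P := P) N f h z hz hf hh i j q r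
          (Finset.mem_Icc.1 hq).1 (Finset.mem_Icc.1 hr).1 hq1 hq2 hr1 hr2 hc2
        rw [t2]
        simp only [hG']
        rw [if_pos t1]
        simp only [hfi, hhj]
        rw [if_pos ⟨hq1, hq2⟩, if_pos ⟨hr1, hr2⟩]
      · exact hpos
    · exact hpos
  have step3 : ∀ i j : ℕ, ∑ q ∈ Icc 1 N, ∑ r ∈ Icc 1 N,
      (if (¬ p ∣ q ∧ p ^ i * q ≤ N) ∧ (¬ p ∣ r ∧ p ^ j * r ≤ N) then
          G (p ^ i * q) (p ^ j * r) else 0)
      ≤ K * (ε ^ ad i j * (φ i * χ j) ^ θ * (ν ((i : ℤ) - j)) ^ μ) := by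
    intro i j
    calc _ ≤ ∑ q ∈ Icc 1 N, ∑ r ∈ Icc 1 N, ε ^ ad i j * G' i j q r :=
          Finset.sum_le_sum fun q hq => Finset.sum_le_sum fun r hr => step2 i j q r hq hr
      _ = ε ^ ad i j * ∑ q ∈ Icc 1 N, ∑ r ∈ Icc 1 N, G' i j q r := by
          simp only [Finset.mul_sum]
      _ ≤ ε ^ ad i j * (K * (φ i * χ j) ^ θ * (ν ((i : ℤ) - j)) ^ μ) := by
          refine mul_le_mul_of_nonneg_left ?_ (pow_nonneg hε0 _)
          exact hT N (fi i) (hj j) (zshift p N z ((i : ℤ) - j)) (hfi0 i) (hhj0 j)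
            (zshift_nonneg p N hz _)
      _ = _ := by ring
  have hφs : ∑ i ∈ range (N + 1), φ i = ∑ q ∈ Icc 1 N, f q := (sum_split_prime hp N f).symm
  have hχs : ∑ i ∈ range (N + 1), χ i = ∑ q ∈ Icc 1 N, h q := (sum_split_prime hp N h).symm
  have hνs : ∑ l ∈ Icc (-(N : ℤ)) N, ν l
      ≤ ∑ u ∈ Icc 1 N, ∑ v ∈ Icc 1 N, if Nat.Coprime u v then z u v else 0 :=
    sum_zshift_le hp N z hz
  have hsp := hS N φ χ ν hφ0 hχ0 hν0
  rw [hφs, hχs] at hsp
  have hFH : 0 ≤ ((∑ q ∈ Icc 1 N, f q) * ∑ r ∈ Icc 1 N, h r) ^ θ :=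
    Real.rpow_nonneg (mul_nonneg (Finset.sum_nonneg fun i _ => hf i)
      (Finset.sum_nonneg fun i _ => hh i)) _
  change ∑ q ∈ Icc 1 N, ∑ r ∈ Icc 1 N, G q r ≤ _
  rw [step1]
  calc _ ≤ ∑ i ∈ range (N + 1), ∑ j ∈ range (N + 1),
        K * (ε ^ ad i j * (φ i * χ j) ^ θ * (ν ((i : ℤ) - j)) ^ μ) :=
        Finset.sum_le_sum fun i _ => Finset.sum_le_sum fun j _ => step3 i j
    _ = K * ∑ i ∈ range (N + 1), ∑ j ∈ range (N + 1),
        ε ^ ad i j * (φ i * χ j) ^ θ * (ν ((i : ℤ) - j)) ^ μ := by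
        simp only [Finset.mul_sum]
    _ ≤ K * (c * ((∑ q ∈ Icc 1 N, f q) * ∑ r ∈ Icc 1 N, h r) ^ θ *
          (∑ l ∈ Icc (-(N : ℤ)) N, ν l) ^ μ) := mul_le_mul_of_nonneg_left hsp hK
    _ ≤ K * (c * ((∑ q ∈ Icc 1 N, f q) * ∑ r ∈ Icc 1 N, h r) ^ θ *
          (∑ u ∈ Icc 1 N, ∑ v ∈ Icc 1 N, if Nat.Coprime u v then z u v else 0) ^ μ) := by
        refine mul_le_mul_of_nonneg_left ?_ hK
        refine mul_le_mul_of_nonneg_left ?_ (mul_nonneg hc hFH)
        exact Real.rpow_le_rpow (Finset.sum_nonneg fun l _ => hν0 l) hνs hμ.le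
    _ = _ := by ring

theorem tensorStmt_primes {θ μ : ℝ} (hθ : 1 / 2 < θ) (hμ : 0 < μ)
    (c : ℕ → ℝ) (hc : ∀ p : ℕ, p.Prime → 0 ≤ c p)
    (hSP : ∀ p : ℕ, p.Prime → SPn θ μ ((p : ℝ) ^ (-(1 - θ - μ))) (c p))
    (P : Finset ℕ) (hP : ∀ p ∈ P, p.Prime) : TensorStmt θ μ P (∏ p ∈ P, c p) := by
  classical
  induction P using Finset.induction_on with
  | empty =>
    rw [Finset.prod_empty]
    exact tensorStmt_empty hθ hμ
  | insert p P hpP ih =>
    rw [Finset.prod_insert hpP]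
    have hpp := hP p (Finset.mem_insert_self p P)
    exact tensorStmt_insert (by linarith) hμ hpp
      (Finset.prod_nonneg fun q hq => hc q (hP q (Finset.mem_insert_of_mem hq)))
      (hc p hpp) (ih fun q hq => hP q (Finset.mem_insert_of_mem hq)) (hSP p hpp)

open Classical in
theorem tensor {θ μ : ℝ} (hθ : 1 / 2 < θ) (hθ1 : θ < 1) (hμ : 0 < μ) (hμ1 : μ < 1 - θ)
    (c : ℕ → ℝ) (hc : ∀ p : ℕ, p.Prime → 1 ≤ c p)
    (hSP : ∀ p : ℕ, p.Prime → SPn θ μ ((p : ℝ) ^ (-(1 - θ - μ))) (c p))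
    (Ω : ℕ → ℕ → Prop) (V N : ℕ) (f h : ℕ → ℝ) (hf : ∀ q, 0 ≤ f q) (hh : ∀ q, 0 ≤ h q) :
    ∑ q ∈ Icc 1 N, ∑ r ∈ Icc 1 N,
      (if Ω (cofac q r) (cofac r q) ∧ cofac q r ≤ V ∧ cofac r q ≤ V then
        (f q * h r) ^ θ * ((cofac q r : ℝ) * (cofac r q : ℝ)) ^ (-(1 - θ)) else 0) ≤
    (∏ p ∈ (Icc 1 V).filter Nat.Prime, c p) *
      ((∑ q ∈ Icc 1 N, f q) * ∑ r ∈ Icc 1 N, h r) ^ θ *
      (∑ u ∈ Icc 1 V, ∑ v ∈ Icc 1 V,
        if Nat.Coprime u v ∧ Ω u v then 1 / ((u : ℝ) * v) else 0) ^ μ := by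
  have hc0 : ∀ p : ℕ, p.Prime → 0 ≤ c p := fun p hp => zero_le_one.trans (hc p hp)
  set P := (Icc 1 V).filter Nat.Prime with hP
  set z : ℕ → ℕ → ℝ := fun u v => if Ω u v ∧ u ≤ V ∧ v ≤ V then 1 / ((u : ℝ) * v) else 0 with hz
  have hz0 : ∀ u v, 0 ≤ z u v := by
    intro u v
    simp only [hz]
    split_ifs
    · (clear * -; positivity)
    · exact le_rfl
  have hT := tensorStmt_primes hθ hμ c hc0 hSP P (fun p hp => (Finset.mem_filter.1 hp).2) N f h z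
    hf hh hz0
  have hK : 0 ≤ ∏ p ∈ P, c p :=
    Finset.prod_nonneg fun q hq => hc0 q (Finset.mem_filter.1 hq).2
  have hFH : 0 ≤ ((∑ q ∈ Icc 1 N, f q) * ∑ r ∈ Icc 1 N, h r) ^ θ :=
    Real.rpow_nonneg (mul_nonneg (Finset.sum_nonneg fun i _ => hf i)
      (Finset.sum_nonneg fun i _ => hh i)) _
  have hLHS : ∑ q ∈ Icc 1 N, ∑ r ∈ Icc 1 N,
      (if Ω (cofac q r) (cofac r q) ∧ cofac q r ≤ V ∧ cofac r q ≤ V then
        (f q * h r) ^ θ * ((cofac q r : ℝ) * (cofac r q : ℝ)) ^ (-(1 - θ)) else 0)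
      ≤ ∑ q ∈ Icc 1 N, ∑ r ∈ Icc 1 N,
      (if (∀ l : ℕ, l.Prime → l ∣ cofac q r * cofac r q → l ∈ P) then
        (f q * h r) ^ θ * ((cofac q r : ℝ) * (cofac r q : ℝ)) ^ (-(1 - θ - μ)) *
          (z (cofac q r) (cofac r q)) ^ μ else 0) := by
    refine Finset.sum_le_sum fun q hq => Finset.sum_le_sum fun r hr => ?_
    have hq0 : 0 < q := (Finset.mem_Icc.1 hq).1
    have hr0 : 0 < r := (Finset.mem_Icc.1 hr).1
    have hu0 : 0 < cofac q r := cofac_pos r hq0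
    have hv0 : 0 < cofac r q := cofac_pos q hr0
    by_cases hcnd : Ω (cofac q r) (cofac r q) ∧ cofac q r ≤ V ∧ cofac r q ≤ V
    · rw [if_pos hcnd, if_pos]
      · simp only [hz]
        rw [if_pos hcnd]
        have hpos : (0 : ℝ) < (cofac q r : ℝ) * (cofac r q : ℝ) := by (clear * - hu0 hv0; positivity)
        rw [one_div, Real.inv_rpow hpos.le, ← Real.rpow_neg hpos.le, mul_assoc,
          ← Real.rpow_add hpos]
        refine le_of_eq ?_
        congr 2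
        ring
      · intro l hl hd
        rw [hP, Finset.mem_filter, Finset.mem_Icc]
        refine ⟨⟨hl.one_lt.le, ?_⟩, hl⟩
        rcases hl.dvd_mul.1 hd with h1 | h1
        · exact (Nat.le_of_dvd hu0 h1).trans hcnd.2.1
        · exact (Nat.le_of_dvd hv0 h1).trans hcnd.2.2
    · rw [if_neg hcnd]
      split_ifs
      · exact mul_nonneg (mul_nonneg (Real.rpow_nonneg (mul_nonneg (hf _) (hh _)) _)
          (Real.rpow_nonneg (by positivity) _)) (Real.rpow_nonneg (hz0 _ _) _)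
      · exact le_rfl
  have hsum : ∑ u ∈ Icc 1 N, ∑ v ∈ Icc 1 N, (if Nat.Coprime u v then z u v else 0)
      ≤ ∑ u ∈ Icc 1 V, ∑ v ∈ Icc 1 V,
        if Nat.Coprime u v ∧ Ω u v then 1 / ((u : ℝ) * v) else 0 := by
    have hA : ∑ u ∈ Icc 1 N, ∑ v ∈ Icc 1 N, (if Nat.Coprime u v then z u v else 0)
        = ∑ x ∈ (Icc 1 N ×ˢ Icc 1 N).filter
          (fun x => Nat.Coprime x.1 x.2 ∧ (Ω x.1 x.2 ∧ x.1 ≤ V ∧ x.2 ≤ V)),
          1 / ((x.1 : ℝ) * x.2) := by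
      rw [← Finset.sum_product', Finset.sum_filter]
      refine Finset.sum_congr rfl fun x _ => ?_
      simp only [hz]
      by_cases h1 : Nat.Coprime x.1 x.2
      · by_cases h2 : Ω x.1 x.2 ∧ x.1 ≤ V ∧ x.2 ≤ V
        · rw [if_pos h1, if_pos h2, if_pos ⟨h1, h2⟩]
        · rw [if_pos h1, if_neg h2, if_neg (fun h3 => h2 h3.2)]
      · rw [if_neg h1, if_neg (fun h3 => h1 h3.1)]
    have hB : ∑ u ∈ Icc 1 V, ∑ v ∈ Icc 1 V,
        (if Nat.Coprime u v ∧ Ω u v then 1 / ((u : ℝ) * v) else 0)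
        = ∑ x ∈ (Icc 1 V ×ˢ Icc 1 V).filter
          (fun x => Nat.Coprime x.1 x.2 ∧ Ω x.1 x.2), 1 / ((x.1 : ℝ) * x.2) := by
      rw [← Finset.sum_product', Finset.sum_filter]
    rw [hA, hB]
    refine Finset.sum_le_sum_of_subset_of_nonneg ?_ (fun x _ _ => by (clear * -; positivity))
    intro x hx
    simp only [Finset.mem_filter, Finset.mem_product, Finset.mem_Icc] at hx ⊢
    (clear * - hx; tauto)
  refine hLHS.trans (hT.trans ?_)
  refine mul_le_mul_of_nonneg_left ?_ (mul_nonneg hK hFH)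
  refine Real.rpow_le_rpow ?_ hsum hμ.le
  refine Finset.sum_nonneg fun u _ => Finset.sum_nonneg fun v _ => ?_
  split_ifs
  · exact hz0 u v
  · exact le_rfl

end Vale.P028
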