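import Vale.Agent.P028.MathlibUsed
import Vale.Agent.P028.MDefs
import Vale.Agent.P028.MTensor
import Vale.Agent.P028.MSums

/-!
# The near theorem
-/

namespace Vale.P028

open Finset

theorem nb_distInt_eq (t : ℝ) : distInt t = ‖(t : UnitAddCircle)‖ := by
  rw [UnitAddCircle.norm_eq, distInt]

theorem nb_distInt_neg (t : ℝ) : distInt (-t) = distInt t := by
  rw [nb_distInt_eq, nb_distInt_eq, AddCircle.coe_neg, norm_neg]

theorem nb_distInt_sub_le (a b : ℝ) : distInt (a - b) ≤ distInt a + distInt b := by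
  rw [nb_distInt_eq, nb_distInt_eq, nb_distInt_eq, AddCircle.coe_sub]
  exact norm_sub_le _ _

/-- If all elements of `B` are at least `R` and `R`-separated then `(|B| + 1) R ≤ b` for any `b`
that is at least `R` beyond all the elements. -/
theorem sep_card {R : ℝ} (B : Finset ℕ) (h1 : ∀ n ∈ B, R ≤ n)
    (h2 : ∀ m ∈ B, ∀ n ∈ B, m < n → R ≤ (n : ℝ) - m) (b : ℝ) (hb : R ≤ b)
    (hbB : ∀ n ∈ B, (n : ℝ) + R ≤ b) : ((B.card : ℝ) + 1) * R ≤ b := by
  induction B using Finset.induction_on_max generalizing b with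
  | empty => simpa only [card_empty, CharP.cast_eq_zero, zero_add, one_mul] using hb
  | insert a B ha ih =>
    have haB : a ∉ B := fun h => lt_irrefl _ (ha a h)
    have h3 := ih (fun n hn => h1 n (Finset.mem_insert_of_mem hn))
      (fun m hm n hn => h2 m (Finset.mem_insert_of_mem hm) n (Finset.mem_insert_of_mem hn))
      (a : ℝ) (h1 a (Finset.mem_insert_self a B)) (fun n hn => by
        have := h2 n (Finset.mem_insert_of_mem hn) a (Finset.mem_insert_self a B) (ha n hn)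
        linarith only [this])
    have h4 := hbB a (Finset.mem_insert_self a B)
    rw [Finset.card_insert_of_notMem haB]
    push_cast
    linarith

theorem sep_sum_inv {R : ℝ} (hR : 0 < R) (B : Finset ℕ) (h1 : ∀ n ∈ B, R ≤ n)
    (h2 : ∀ m ∈ B, ∀ n ∈ B, m < n → R ≤ (n : ℝ) - m) :
    ∑ n ∈ B, 1 / (n : ℝ) ≤ (1 / R) * ∑ k ∈ range B.card, 1 / ((k : ℝ) + 1) := by
  induction B using Finset.induction_on_max with
  | empty => simp only [one_div, sum_empty, card_empty, range_zero, mul_zero, Std.le_refl]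
  | insert a B ha ih =>
    have haB : a ∉ B := fun h => lt_irrefl _ (ha a h)
    have h3 := sep_card B (fun n hn => h1 n (Finset.mem_insert_of_mem hn))
      (fun m hm n hn => h2 m (Finset.mem_insert_of_mem hm) n (Finset.mem_insert_of_mem hn))
      (a : ℝ) (h1 a (Finset.mem_insert_self a B)) (fun n hn => by
        have := h2 n (Finset.mem_insert_of_mem hn) a (Finset.mem_insert_self a B) (ha n hn)
        linarith only [this])
    have h4 := ih (fun n hn => h1 n (Finset.mem_insert_of_mem hn))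
      (fun m hm n hn => h2 m (Finset.mem_insert_of_mem hm) n (Finset.mem_insert_of_mem hn))
    rw [Finset.sum_insert haB, Finset.card_insert_of_notMem haB, Finset.sum_range_succ, mul_add]
    have h5 : 1 / (a : ℝ) ≤ 1 / R * (1 / ((B.card : ℝ) + 1)) := by
      rw [one_div_mul_one_div]
      refine one_div_le_one_div_of_le (by (clear * - hR; positivity)) ?_
      rw [mul_comm]
      exact h3
    linarith

theorem sum_inv_le_log (V : ℕ) : ∑ k ∈ range V, 1 / ((k : ℝ) + 1) ≤ 1 + Real.log V := by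
  have h := harmonic_le_one_add_log V
  unfold harmonic at h
  push_cast at h
  simpa only [one_div, ge_iff_le] using h

theorem sum_inv_Icc_le_log (V : ℕ) : ∑ k ∈ Icc 1 V, 1 / (k : ℝ) ≤ 1 + Real.log V := by
  have h := sum_inv_le_log V
  have e : ∑ k ∈ Icc 1 V, 1 / (k : ℝ) = ∑ k ∈ range V, 1 / ((k : ℝ) + 1) := by
    induction V with
    | zero => simp only [Order.lt_one_iff, Icc_eq_empty_of_lt, one_div, sum_empty, range_zero]
    | succ n ih =>
      rw [Finset.sum_Icc_succ_top (by omega), Finset.sum_range_succ, ih (sum_inv_le_log n)]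
      push_cast
      rfl
  rw [e]
  exact h

theorem bohr_gap {γ c₀ τ : ℝ} (hc₀ : 0 < c₀) (hτ : 1 ≤ τ) (hD : Dioph γ c₀ τ) {t : ℝ} (ht : 0 < t)
    {n : ℕ} (hn : 0 < n) (h : distInt (n * γ) < t) : (c₀ / t) ^ (1 / τ) ≤ n := by
  have h1 : c₀ * (n : ℝ) ^ (-τ) < t := (hD n hn).trans_lt h
  have hn0 : (0 : ℝ) < n := by exact_mod_cast hn
  have h2 : c₀ / t ≤ (n : ℝ) ^ τ := by
    rw [div_le_iff₀ ht]
    rw [Real.rpow_neg hn0.le] at h1
    have h3 : 0 < (n : ℝ) ^ τ := Real.rpow_pos_of_pos hn0 _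
    rw [← div_eq_mul_inv, div_lt_iff₀ h3] at h1
    linarith only [h1]
  have h4 : ((n : ℝ) ^ τ) ^ (1 / τ) = n := by
    rw [← Real.rpow_mul hn0.le, mul_one_div_cancel (by linarith only [hτ]), Real.rpow_one]
  rw [← h4]
  exact Real.rpow_le_rpow (by positivity) h2 (by positivity)

open Classical in
theorem bohr_inv_sum {γ c₀ τ : ℝ} (hc₀ : 0 < c₀) (hτ : 1 ≤ τ) (hD : Dioph γ c₀ τ) {s : ℝ}
    (hs : 0 < s) (V : ℕ) :
    ∑ n ∈ (Icc 1 V).filter (fun n : ℕ => distInt (n * γ) < 2 * s), 1 / (n : ℝ)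
      ≤ (4 * s / c₀) ^ (1 / τ) * (1 + Real.log V) := by
  set B := (Icc 1 V).filter (fun n : ℕ => distInt (n * γ) < 2 * s) with hB
  have hR : 0 < (c₀ / (4 * s)) ^ (1 / τ) := Real.rpow_pos_of_pos (by positivity) _
  have h1 : ∀ n ∈ B, (c₀ / (4 * s)) ^ (1 / τ) ≤ n := by
    intro n hn
    rw [hB, Finset.mem_filter, Finset.mem_Icc] at hn
    exact bohr_gap hc₀ hτ hD (by (clear * - hs; positivity)) (by omega) (by linarith only [hs, hn])
  have h2 : ∀ m ∈ B, ∀ n ∈ B, m < n → (c₀ / (4 * s)) ^ (1 / τ) ≤ (n : ℝ) - m := by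
    intro m hm n hn hmn
    rw [hB, Finset.mem_filter, Finset.mem_Icc] at hn hm
    have h3 := bohr_gap (n := n - m) hc₀ hτ hD (t := 4 * s) (by positivity) (by omega) (by
      rw [Nat.cast_sub hmn.le, sub_mul]
      refine (nb_distInt_sub_le _ _).trans_lt ?_
      linarith only [hm, hn])
    rwa [Nat.cast_sub hmn.le] at h3
  have h3 := sep_sum_inv hR B h1 h2
  refine h3.trans ?_
  have h4 : 1 / (c₀ / (4 * s)) ^ (1 / τ) = (4 * s / c₀) ^ (1 / τ) := by
    rw [one_div, ← Real.inv_rpow (by positivity), inv_div]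
  rw [h4]
  refine mul_le_mul_of_nonneg_left ?_ (Real.rpow_nonneg (by (clear * - hs hc₀; positivity)) _)
  refine le_trans ?_ (sum_inv_le_log V)
  refine Finset.sum_le_sum_of_subset_of_nonneg ?_ (fun k _ _ => by positivity)
  refine Finset.range_mono ?_
  have := Finset.card_filter_le (Icc 1 V) (fun n : ℕ => distInt (n * γ) < 2 * s)
  simpa only [ge_iff_le, Nat.card_Icc, add_tsub_cancel_right] using this

open Classical in
theorem bohr_sum {γ c₀ τ : ℝ} (hc₀ : 0 < c₀) (hτ : 1 ≤ τ) (hD : Dioph γ c₀ τ) :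
    ∃ C ≥ 0, ∀ (V : ℕ) (s : ℝ), 1 ≤ V → 0 < s → s ≤ 1 / 4 →
      ∑ u ∈ Icc 1 V, ∑ v ∈ Icc 1 V,
        (if u ≠ v ∧ distInt (((u : ℝ) - v) * γ) < 2 * s then 1 / ((u : ℝ) * v) else 0) ≤
      C * (1 + Real.log V) ^ 2 * s ^ (1 / τ) := by
  refine ⟨2 * (4 / c₀) ^ (1 / τ), by positivity, ?_⟩
  intro V s hV hs _
  have hlog : 0 ≤ Real.log V := Real.log_natCast_nonneg V
  set g : ℕ → ℝ := fun n => if distInt (n * γ) < 2 * s then 1 / (n : ℝ) else 0 with hg
  have hg0 : ∀ n, 0 ≤ g n := by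
    intro n
    simp only [hg]
    split_ifs
    · (clear * -; positivity)
    · exact le_rfl
  set G : ℝ := ∑ n ∈ Icc 1 V, g n with hG
  have hG0 : 0 ≤ G := Finset.sum_nonneg fun n _ => hg0 n
  have hGle : G ≤ (4 * s / c₀) ^ (1 / τ) * (1 + Real.log V) := by
    rw [hG]
    simp only [hg]
    rw [← Finset.sum_filter]
    exact bohr_inv_sum hc₀ hτ hD hs V
  -- shifting
  have hshift : ∀ u : ℕ, ∑ v ∈ Icc 1 V, (if u < v then g (v - u) else 0) ≤ G := by
    intro u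
    rw [← Finset.sum_filter, hG]
    have hinj : Set.InjOn (fun v : ℕ => v - u) ((Icc 1 V).filter (fun v => u < v)) := by
      intro a ha b hb hab
      simp only [Finset.coe_filter, Set.mem_ofPred_eq] at ha hb
      simp only at hab
      omega
    rw [← Finset.sum_image (f := g) hinj]
    refine Finset.sum_le_sum_of_subset_of_nonneg ?_ (fun x _ _ => hg0 x)
    intro x hx
    simp only [Finset.mem_image, Finset.mem_filter, Finset.mem_Icc] at hx ⊢
    obtain ⟨a, ha, rfl⟩ := hx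
    omega
  have hterm : ∀ u ∈ Icc 1 V, ∀ v ∈ Icc 1 V,
      (if u ≠ v ∧ distInt (((u : ℝ) - v) * γ) < 2 * s then 1 / ((u : ℝ) * v) else 0) ≤
      1 / (u : ℝ) * (if u < v then g (v - u) else 0) +
        1 / (v : ℝ) * (if v < u then g (u - v) else 0) := by
    intro u hu v hv
    have hu0 : (0 : ℝ) < u := by exact_mod_cast (Finset.mem_Icc.1 hu).1
    have hv0 : (0 : ℝ) < v := by exact_mod_cast (Finset.mem_Icc.1 hv).1
    by_cases hc : u ≠ v ∧ distInt (((u : ℝ) - v) * γ) < 2 * s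
    · rw [if_pos hc]
      rcases lt_or_gt_of_ne hc.1 with h | h
      · rw [if_pos h, if_neg (by omega), mul_zero, add_zero]
        have h1 : distInt (((v - u : ℕ) : ℝ) * γ) < 2 * s := by
          rw [Nat.cast_sub h.le, ← nb_distInt_neg]
          have e : -(((v : ℝ) - u) * γ) = ((u : ℝ) - v) * γ := by ring
          rw [e]
          exact hc.2
        simp only [hg]
        rw [if_pos h1, one_div_mul_one_div]
        refine one_div_le_one_div_of_le ?_ ?_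
        · have : (0 : ℝ) < ((v - u : ℕ) : ℝ) := by exact_mod_cast Nat.sub_pos_of_lt h
          (clear * - hu0 this; positivity)
        · refine mul_le_mul_of_nonneg_left ?_ hu0.le
          exact_mod_cast Nat.sub_le v u
      · rw [if_neg (by omega), if_pos h, mul_zero, zero_add]
        have h1 : distInt (((u - v : ℕ) : ℝ) * γ) < 2 * s := by
          rw [Nat.cast_sub h.le]
          exact hc.2
        simp only [hg]
        rw [if_pos h1, one_div_mul_one_div, mul_comm (u : ℝ)]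
        refine one_div_le_one_div_of_le ?_ ?_
        · have : (0 : ℝ) < ((u - v : ℕ) : ℝ) := by exact_mod_cast Nat.sub_pos_of_lt h
          (clear * - hv0 this; positivity)
        · refine mul_le_mul_of_nonneg_left ?_ hv0.le
          exact_mod_cast Nat.sub_le u v
    · rw [if_neg hc]
      refine add_nonneg (mul_nonneg (by (clear * - hu0; positivity)) ?_) (mul_nonneg (by (clear * - hv0; positivity)) ?_)
      · split_ifs
        · exact hg0 _
        · exact le_rfl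
      · split_ifs
        · exact hg0 _
        · exact le_rfl
  have hA : ∑ u ∈ Icc 1 V, ∑ v ∈ Icc 1 V, 1 / (u : ℝ) * (if u < v then g (v - u) else 0)
      ≤ (1 + Real.log V) * G := by
    calc ∑ u ∈ Icc 1 V, ∑ v ∈ Icc 1 V, 1 / (u : ℝ) * (if u < v then g (v - u) else 0)
        = ∑ u ∈ Icc 1 V, 1 / (u : ℝ) * ∑ v ∈ Icc 1 V, (if u < v then g (v - u) else 0) := by
          refine Finset.sum_congr rfl fun u _ => ?_
          rw [Finset.mul_sum]
      _ ≤ ∑ u ∈ Icc 1 V, 1 / (u : ℝ) * G :=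
          Finset.sum_le_sum fun u _ => mul_le_mul_of_nonneg_left (hshift u) (by (clear * -; positivity))
      _ = (∑ u ∈ Icc 1 V, 1 / (u : ℝ)) * G := by rw [Finset.sum_mul]
      _ ≤ _ := mul_le_mul_of_nonneg_right (sum_inv_Icc_le_log V) hG0
  have hB : ∑ u ∈ Icc 1 V, ∑ v ∈ Icc 1 V, 1 / (v : ℝ) * (if v < u then g (u - v) else 0)
      ≤ (1 + Real.log V) * G := by
    rw [Finset.sum_comm]
    exact hA
  calc ∑ u ∈ Icc 1 V, ∑ v ∈ Icc 1 V,
        (if u ≠ v ∧ distInt (((u : ℝ) - v) * γ) < 2 * s then 1 / ((u : ℝ) * v) else 0)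
      ≤ ∑ u ∈ Icc 1 V, ∑ v ∈ Icc 1 V, (1 / (u : ℝ) * (if u < v then g (v - u) else 0) +
        1 / (v : ℝ) * (if v < u then g (u - v) else 0)) :=
        Finset.sum_le_sum fun u hu => Finset.sum_le_sum fun v hv => hterm u hu v hv
    _ ≤ (1 + Real.log V) * G + (1 + Real.log V) * G := by
        simp only [Finset.sum_add_distrib]
        exact add_le_add hA hB
    _ ≤ (1 + Real.log V) * ((4 * s / c₀) ^ (1 / τ) * (1 + Real.log V)) +
        (1 + Real.log V) * ((4 * s / c₀) ^ (1 / τ) * (1 + Real.log V)) := by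
        have := mul_le_mul_of_nonneg_left hGle (by (clear γ c₀ τ hc₀ hτ hD hV g hg hg0 G hG hG0 hGle hshift hterm hA hB; linarith) : 0 ≤ 1 + Real.log V)
        linarith only [this]
    _ = 2 * (4 / c₀) ^ (1 / τ) * (1 + Real.log V) ^ 2 * s ^ (1 / τ) := by
        have e : (4 * s / c₀) ^ (1 / τ) = (4 / c₀) ^ (1 / τ) * s ^ (1 / τ) := by
          rw [← Real.mul_rpow (by positivity) hs.le]
          congr 1
          ring
        rw [e]
        ring

open Classical in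
/-- Passage from the pair sum to the tensor sum. -/
theorem near_step {γ s θ : ℝ} (hθ : 0 < θ) (hθ1 : θ < 1) (hs : 0 < s) (V N : ℕ) (E : ℝ)
    (hV : ∀ n : ℕ, (n : ℝ) ≤ E → n ≤ V) (ψ f : ℕ → ℝ) (hf : ∀ q, 0 ≤ f q ∧ f q ≤ ψ q)
    (Ω : ℕ → ℕ → Prop) (hΩ : ∀ u v : ℕ, Ω u v ↔ u ≠ v ∧ distInt (((u : ℝ) - v) * γ) < 2 * s) :
    psum (fun q r => Rel γ ψ s q r ∧ (cofac q r : ℝ) ≤ E ∧ (cofac r q : ℝ) ≤ E) N f f ≤
      s ^ (2 * (1 - θ)) * ∑ q ∈ Icc 1 N, ∑ r ∈ Icc 1 N,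
        (if Ω (cofac q r) (cofac r q) ∧ cofac q r ≤ V ∧ cofac r q ≤ V then
          (f q * f r) ^ θ * ((cofac q r : ℝ) * (cofac r q : ℝ)) ^ (-(1 - θ)) else 0) := by
  unfold psum
  rw [Finset.mul_sum]
  refine Finset.sum_le_sum fun q hq => ?_
  rw [Finset.mul_sum]
  refine Finset.sum_le_sum fun r hr => ?_
  have hq0 : 0 < q := (Finset.mem_Icc.1 hq).1
  have hr0 : 0 < r := (Finset.mem_Icc.1 hr).1
  have hu0 : (0 : ℝ) < cofac q r := by exact_mod_cast cofac_pos r hq0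
  have hv0 : (0 : ℝ) < cofac r q := by exact_mod_cast cofac_pos q hr0
  have hff : 0 ≤ f q * f r := mul_nonneg (hf q).1 (hf r).1
  by_cases hc : Rel γ ψ s q r ∧ (cofac q r : ℝ) ≤ E ∧ (cofac r q : ℝ) ≤ E
  · obtain ⟨⟨h1, h2, h3, h4⟩, h5, h6⟩ := hc
    rw [if_pos ⟨⟨h1, h2, h3, h4⟩, h5, h6⟩, if_pos ⟨(hΩ _ _).2 ⟨h1, h4⟩, hV _ h5, hV _ h6⟩]
    have h7 : f q * f r = (f q * f r) ^ θ * (f q * f r) ^ (1 - θ) := by
      rw [← Real.rpow_add_of_nonneg hff hθ.le (by linarith only [hθ1])]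
      rw [show θ + (1 - θ) = 1 by ring, Real.rpow_one]
    have h8 : (f q * f r) ^ (1 - θ) ≤
        s ^ (2 * (1 - θ)) * ((cofac q r : ℝ) * (cofac r q : ℝ)) ^ (-(1 - θ)) := by
      have h9 : f q * f r ≤ s ^ 2 / ((cofac q r : ℝ) * (cofac r q : ℝ)) := by
        rw [le_div_iff₀ (by (clear * - hu0 hv0; positivity))]
        have ha : (cofac r q : ℝ) * f q ≤ s := (mul_le_mul_of_nonneg_left (hf q).2 hv0.le).trans h2
        have hb : (cofac q r : ℝ) * f r ≤ s := (mul_le_mul_of_nonneg_left (hf r).2 hu0.le).trans h3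
        have hc := mul_le_mul ha hb (mul_nonneg hu0.le (hf r).1) hs.le
        calc f q * f r * ((cofac q r : ℝ) * (cofac r q : ℝ))
            = (cofac r q : ℝ) * f q * ((cofac q r : ℝ) * f r) := by ring
          _ ≤ s * s := hc
          _ = s ^ 2 := by ring
      refine (Real.rpow_le_rpow hff h9 (by linarith only [hθ1])).trans (le_of_eq ?_)
      rw [Real.div_rpow (by positivity) (by (clear * - hu0 hv0; positivity)), Real.rpow_neg (by (clear * - hu0 hv0; positivity)),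
        div_eq_mul_inv, ← Real.rpow_natCast, ← Real.rpow_mul hs.le]
      norm_num
    calc f q * f r = (f q * f r) ^ θ * (f q * f r) ^ (1 - θ) := h7
      _ ≤ (f q * f r) ^ θ *
          (s ^ (2 * (1 - θ)) * ((cofac q r : ℝ) * (cofac r q : ℝ)) ^ (-(1 - θ))) :=
          mul_le_mul_of_nonneg_left h8 (Real.rpow_nonneg hff _)
      _ = _ := by ring
  · rw [if_neg hc]
    refine mul_nonneg (Real.rpow_nonneg hs.le _) ?_
    split_ifs
    · exact mul_nonneg (Real.rpow_nonneg hff _) (Real.rpow_nonneg (by (clear * - hu0 hv0; positivity)) _)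
    · exact le_rfl

open Classical in
theorem near_of_prod (hmertens : ∀ A : ℝ, 0 ≤ A → ∃ C > 0, ∃ k ≥ 0, ∀ V : ℕ, 1 ≤ V →
      ∏ p ∈ (Icc 1 V).filter Nat.Prime, (1 + A / (p : ℝ)) ≤ C * (1 + Real.log V) ^ (k : ℝ))
    {γ c₀ τ : ℝ} (hc₀ : 0 < c₀) (hτ : 1 ≤ τ) (hD : Dioph γ c₀ τ) :
    ∃ θ ε₁ c C : ℝ, 1 / 2 < θ ∧ θ < 1 ∧ 0 < ε₁ ∧ 0 < c ∧ 0 < C ∧
      ∀ s : ℝ, 0 < s → s ≤ 1 / 4 → ∀ (N : ℕ) (ψ f : ℕ → ℝ), (∀ q, 0 ≤ f q ∧ f q ≤ ψ q) →
        psum (fun q r => Rel γ ψ s q r ∧ (cofac q r : ℝ) ≤ Real.exp (s ^ (-ε₁)) ∧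
          (cofac r q : ℝ) ≤ Real.exp (s ^ (-ε₁))) N f f ≤
        C * s ^ (1 + c) * (∑ q ∈ Icc 1 N, f q) ^ (2 * θ) := by
  have hτ0 : 0 < τ := by linarith
  set θ : ℝ := (4 * τ + 1) / (8 * τ + 1) with hθd
  set μ : ℝ := 2 * τ / (8 * τ + 1) with hμd
  have hden : 0 < 8 * τ + 1 := by linarith
  have hθ : 1 / 2 < θ := by
    rw [hθd, div_lt_div_iff₀ (by norm_num) hden]
    linarith only []
  have hθ1 : θ < 1 := by
    rw [hθd, div_lt_one hden]
    linarith only [hτ]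
  have hμ : 0 < μ := by
    rw [hμd]
    positivity
  have h1θ : 1 - θ = 4 * τ / (8 * τ + 1) := by
    rw [hθd]
    field_simp
    ring
  have hμ1 : μ < 1 - θ := by
    rw [h1θ, hμd]
    exact div_lt_div_of_pos_right (by linarith only [hτ]) hden
  have hexp : 2 * (1 - θ) + 1 / τ * μ = 1 + 1 / (8 * τ + 1) := by
    rw [h1θ, hμd]
    field_simp
    ring
  obtain ⟨A, hA, hSP⟩ := SPn_all hθ hθ1 hμ hμ1
  obtain ⟨C₁, hC₁, k, hk, hprod⟩ := hmertens A hA
  obtain ⟨C₂, hC₂, hbohr⟩ := bohr_sum hc₀ hτ hD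
  set κ : ℝ := k + 2 * μ with hκ
  have hκ0 : 0 < κ := by
    rw [hκ]
    linarith only [hμ, hk]
  set ε₁ : ℝ := 1 / (2 * (8 * τ + 1) * κ) with hε
  have hε0 : 0 < ε₁ := by
    rw [hε]
    (clear * - hτ hk; positivity)
  have hεκ : ε₁ * κ = 1 / (2 * (8 * τ + 1)) := by
    rw [hε]
    (clear * - hκ0 hτ; field_simp)
  refine ⟨θ, ε₁, 1 / (2 * (8 * τ + 1)), C₁ * (C₂ + 1) ^ μ * 2 ^ κ, hθ, hθ1, hε0, by positivity,
    by (clear * - hC₁ hC₂; positivity), ?_⟩
  intro s hs hs4 N ψ f hf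
  set E : ℝ := Real.exp (s ^ (-ε₁)) with hE
  set V : ℕ := ⌊E⌋₊ with hV
  have hE1 : 1 ≤ E := by
    rw [hE]
    exact Real.one_le_exp (Real.rpow_nonneg hs.le _)
  have hV1 : 1 ≤ V := Nat.le_floor (by simpa only [Nat.cast_one] using hE1)
  have hVE : (V : ℝ) ≤ E := Nat.floor_le (by linarith only [hE1])
  obtain ⟨Ω, hΩ⟩ : ∃ Ω : ℕ → ℕ → Prop, ∀ u v : ℕ,
      Ω u v ↔ u ≠ v ∧ distInt (((u : ℝ) - v) * γ) < 2 * s := ⟨_, fun _ _ => Iff.rfl⟩
  have hstep := near_step (γ := γ) (s := s) (θ := θ) (by linarith only [hθ]) hθ1 hs V N E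
    (fun n hn => Nat.le_floor hn) ψ f hf Ω hΩ
  refine hstep.trans ?_
  have htens := tensor hθ hθ1 hμ hμ1 (fun p => 1 + A / p)
    (fun p _ => by
      have : 0 ≤ A / (p : ℝ) := by (clear * - hA; positivity)
      linarith only [this]) hSP
    Ω V N f f
    (fun q => (hf q).1) (fun q => (hf q).1)
  have hlogV : Real.log V ≤ s ^ (-ε₁) := by
    have : Real.log V ≤ Real.log E := Real.log_le_log (by exact_mod_cast hV1) hVE
    rwa [hE, Real.log_exp] at this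
  have hsε : 1 ≤ s ^ (-ε₁) := by
    refine Real.one_le_rpow_of_pos_of_le_one_of_nonpos hs (by linarith only [hs4]) (by linarith only [hε0])
  have hL0 : 0 ≤ Real.log V := Real.log_natCast_nonneg V
  have hL1 : 1 + Real.log V ≤ 2 * s ^ (-ε₁) := by linarith only [hlogV, hsε]
  set L : ℝ := 1 + Real.log V with hL
  have hLpos : 0 < L := by linarith only [hL0]
  have hP : ∏ p ∈ (Icc 1 V).filter Nat.Prime, (1 + A / (p : ℝ)) ≤ C₁ * L ^ k := hprod V hV1
  have hP0 : 0 ≤ ∏ p ∈ (Icc 1 V).filter Nat.Prime, (1 + A / (p : ℝ)) :=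
    Finset.prod_nonneg fun p _ => by (clear * - hA; positivity)
  set T : ℝ := ∑ u ∈ Icc 1 V, ∑ v ∈ Icc 1 V,
        if Nat.Coprime u v ∧ Ω u v then 1 / ((u : ℝ) * v) else 0 with hT
  have hT0 : 0 ≤ T := by
    rw [hT]
    refine Finset.sum_nonneg fun u _ => Finset.sum_nonneg fun v _ => ?_
    split_ifs
    · (clear * -; positivity)
    · exact le_rfl
  have hTle : T ≤ (C₂ + 1) * L ^ 2 * s ^ (1 / τ) := by
    have h1 : T ≤ ∑ u ∈ Icc 1 V, ∑ v ∈ Icc 1 V,
        (if u ≠ v ∧ distInt (((u : ℝ) - v) * γ) < 2 * s then 1 / ((u : ℝ) * v) else 0) := by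
      rw [hT]
      refine Finset.sum_le_sum fun u _ => Finset.sum_le_sum fun v _ => ?_
      by_cases h2 : u ≠ v ∧ distInt (((u : ℝ) - v) * γ) < 2 * s
      · rw [if_pos h2]
        split_ifs
        · exact le_rfl
        · (clear * -; positivity)
      · rw [if_neg h2, if_neg (fun h3 => h2 ((hΩ _ _).1 h3.2))]
    refine h1.trans ((hbohr V s hV1 hs hs4).trans ?_)
    have h3 : 0 ≤ L ^ 2 * s ^ (1 / τ) := by (clear * - hs; positivity)
    nlinarith only [h3]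
  have hS0 : 0 ≤ ∑ q ∈ Icc 1 N, f q := Finset.sum_nonneg fun q _ => (hf q).1
  have hSS : ((∑ q ∈ Icc 1 N, f q) * ∑ q ∈ Icc 1 N, f q) ^ θ = (∑ q ∈ Icc 1 N, f q) ^ (2 * θ) := by
    rw [Real.mul_rpow hS0 hS0, ← Real.rpow_add_of_nonneg hS0 (by linarith only [hθ]) (by linarith only [hθ])]
    congr 1
    ring
  rw [hSS] at htens
  have hS1 : 0 ≤ (∑ q ∈ Icc 1 N, f q) ^ (2 * θ) := Real.rpow_nonneg hS0 _
  have hTμ : T ^ μ ≤ (C₂ + 1) ^ μ * L ^ (2 * μ) * s ^ (1 / τ * μ) := by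
    refine (Real.rpow_le_rpow hT0 hTle hμ.le).trans (le_of_eq ?_)
    rw [Real.mul_rpow (by (clear * - hC₂; positivity)) (by (clear * - hs; positivity)), Real.mul_rpow (by (clear * - hC₂; positivity)) (by (clear * -; positivity)),
      ← Real.rpow_mul hs.le, ← Real.rpow_natCast L 2, ← Real.rpow_mul hLpos.le]
    norm_num
  have hLκ : L ^ κ ≤ 2 ^ κ * s ^ (-(1 / (2 * (8 * τ + 1)))) := by
    refine (Real.rpow_le_rpow hLpos.le hL1 hκ0.le).trans (le_of_eq ?_)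
    rw [Real.mul_rpow (by norm_num) (Real.rpow_nonneg hs.le _), ← Real.rpow_mul hs.le, neg_mul, hεκ]
  calc s ^ (2 * (1 - θ)) * ∑ q ∈ Icc 1 N, ∑ r ∈ Icc 1 N,
        (if Ω (cofac q r) (cofac r q) ∧ cofac q r ≤ V ∧ cofac r q ≤ V then
          (f q * f r) ^ θ * ((cofac q r : ℝ) * (cofac r q : ℝ)) ^ (-(1 - θ)) else 0)
      ≤ s ^ (2 * (1 - θ)) * ((∏ p ∈ (Icc 1 V).filter Nat.Prime, (1 + A / (p : ℝ))) *
          (∑ q ∈ Icc 1 N, f q) ^ (2 * θ) * T ^ μ) :=
        mul_le_mul_of_nonneg_left htens (Real.rpow_nonneg hs.le _)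
    _ ≤ s ^ (2 * (1 - θ)) * ((C₁ * L ^ k) * (∑ q ∈ Icc 1 N, f q) ^ (2 * θ) *
          ((C₂ + 1) ^ μ * L ^ (2 * μ) * s ^ (1 / τ * μ))) := by
        refine mul_le_mul_of_nonneg_left ?_ (Real.rpow_nonneg hs.le _)
        refine mul_le_mul ?_ hTμ (Real.rpow_nonneg hT0 _) (by (clear * - hC₁ hS0; positivity))
        exact mul_le_mul_of_nonneg_right hP hS1
    _ = C₁ * (C₂ + 1) ^ μ * L ^ κ * s ^ (1 + 1 / (8 * τ + 1)) *
          (∑ q ∈ Icc 1 N, f q) ^ (2 * θ) := by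
        rw [← hexp, Real.rpow_add hs, hκ, Real.rpow_add hLpos]
        ring
    _ ≤ C₁ * (C₂ + 1) ^ μ * (2 ^ κ * s ^ (-(1 / (2 * (8 * τ + 1))))) * s ^ (1 + 1 / (8 * τ + 1)) *
          (∑ q ∈ Icc 1 N, f q) ^ (2 * θ) := by
        refine mul_le_mul_of_nonneg_right ?_ hS1
        refine mul_le_mul_of_nonneg_right ?_ (Real.rpow_nonneg hs.le _)
        exact mul_le_mul_of_nonneg_left hLκ (by (clear * - hC₁ hC₂; positivity))
    _ = C₁ * (C₂ + 1) ^ μ * 2 ^ κ * s ^ (1 + 1 / (2 * (8 * τ + 1))) *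
          (∑ q ∈ Icc 1 N, f q) ^ (2 * θ) := by
        have e : s ^ (1 + 1 / (2 * (8 * τ + 1))) =
            s ^ (-(1 / (2 * (8 * τ + 1)))) * s ^ (1 + 1 / (8 * τ + 1)) := by
          rw [← Real.rpow_add hs]
          congr 1
          field_simp
          ring
        rw [e]
        ring

theorem near {γ c₀ τ : ℝ} (hc₀ : 0 < c₀) (hτ : 1 ≤ τ) (hD : Dioph γ c₀ τ) :
    ∃ θ ε₁ c C : ℝ, 1 / 2 < θ ∧ θ < 1 ∧ 0 < ε₁ ∧ 0 < c ∧ 0 < C ∧
      ∀ s : ℝ, 0 < s → s ≤ 1 / 4 → ∀ (N : ℕ) (ψ f : ℕ → ℝ), (∀ q, 0 ≤ f q ∧ f q ≤ ψ q) →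
        psum (fun q r => Rel γ ψ s q r ∧ (cofac q r : ℝ) ≤ Real.exp (s ^ (-ε₁)) ∧
          (cofac r q : ℝ) ≤ Real.exp (s ^ (-ε₁))) N f f ≤
        C * s ^ (1 + c) * (∑ q ∈ Icc 1 N, f q) ^ (2 * θ) :=
  near_of_prod prod_one_add_div_prime_le hc₀ hτ hD

end Vale.P028
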