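import Vale.Agent.P028.MathlibUsed
import Vale.Agent.P028.MNear
import Vale.Agent.P028.AStruct

/-!
# The near theorem for all `γ`
-/

namespace Vale.P028

open Finset

/-- Passage from a bound for the sum over one variable to the double sum. -/
theorem pair_sum_le {γ s G : ℝ} (V : ℕ)
    (hGle : ∑ n ∈ Icc 1 V, (if distInt ((n : ℝ) * γ) < 2 * s then 1 / (n : ℝ) else 0) ≤ G) :
    ∑ u ∈ Icc 1 V, ∑ v ∈ Icc 1 V,
        (if u ≠ v ∧ distInt (((u : ℝ) - v) * γ) < 2 * s then 1 / ((u : ℝ) * v) else 0) ≤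
      2 * (1 + Real.log V) * G := by
  have hlog : 0 ≤ Real.log V := Real.log_natCast_nonneg V
  set g : ℕ → ℝ := fun n => if distInt (n * γ) < 2 * s then 1 / (n : ℝ) else 0 with hg
  have hg0 : ∀ n, 0 ≤ g n := by
    intro n
    simp only [hg]
    split_ifs
    · positivity
    · exact le_rfl
  have hG0 : 0 ≤ G := (Finset.sum_nonneg fun n _ => hg0 n).trans hGle
  -- shifting
  have hshift : ∀ u : ℕ, ∑ v ∈ Icc 1 V, (if u < v then g (v - u) else 0) ≤ G := by
    intro u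
    refine le_trans ?_ hGle
    rw [← Finset.sum_filter]
    have hinj : Set.InjOn (fun v : ℕ => v - u) ((Icc 1 V).filter (fun v => u < v)) := by
      intro a ha b hb hab
      simp only [Finset.coe_filter, Set.mem_ofPred_eq] at ha hb
      simp only at hab
      omega
    rw [← Finset.sum_image (f := g) hinj]
    refine Finset.sum_le_sum_of_subset_of_nonneg ?_ (fun x _ _ => hg0 x)
    intro x hx
    simp only [Finset.mem_image, Finset.mem_filter, Finset.mem_Icc] at hx ⊢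
    obtain ⟨a, ha, rfl⟩ := hx
    omega
  have hterm : ∀ u ∈ Icc 1 V, ∀ v ∈ Icc 1 V,
      (if u ≠ v ∧ distInt (((u : ℝ) - v) * γ) < 2 * s then 1 / ((u : ℝ) * v) else 0) ≤
      1 / (u : ℝ) * (if u < v then g (v - u) else 0) +
        1 / (v : ℝ) * (if v < u then g (u - v) else 0) := by
    intro u hu v hv
    have hu0 : (0 : ℝ) < u := by exact_mod_cast (Finset.mem_Icc.1 hu).1
    have hv0 : (0 : ℝ) < v := by exact_mod_cast (Finset.mem_Icc.1 hv).1
    by_cases hc : u ≠ v ∧ distInt (((u : ℝ) - v) * γ) < 2 * s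
    · rw [if_pos hc]
      rcases lt_or_gt_of_ne hc.1 with h | h
      · rw [if_pos h, if_neg (by omega), mul_zero, add_zero]
        have h1 : distInt (((v - u : ℕ) : ℝ) * γ) < 2 * s := by
          rw [Nat.cast_sub h.le, ← nb_distInt_neg]
          have e : -(((v : ℝ) - u) * γ) = ((u : ℝ) - v) * γ := by ring
          rw [e]
          exact hc.2
        simp only [hg]
        rw [if_pos h1, one_div_mul_one_div]
        refine one_div_le_one_div_of_le ?_ ?_
        · have : (0 : ℝ) < ((v - u : ℕ) : ℝ) := by exact_mod_cast Nat.sub_pos_of_lt h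
          positivity
        · refine mul_le_mul_of_nonneg_left ?_ hu0.le
          exact_mod_cast Nat.sub_le v u
      · rw [if_neg (by omega), if_pos h, mul_zero, zero_add]
        have h1 : distInt (((u - v : ℕ) : ℝ) * γ) < 2 * s := by
          rw [Nat.cast_sub h.le]
          exact hc.2
        simp only [hg]
        rw [if_pos h1, one_div_mul_one_div, mul_comm (u : ℝ)]
        refine one_div_le_one_div_of_le ?_ ?_
        · have : (0 : ℝ) < ((u - v : ℕ) : ℝ) := by exact_mod_cast Nat.sub_pos_of_lt h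
          positivity
        · refine mul_le_mul_of_nonneg_left ?_ hv0.le
          exact_mod_cast Nat.sub_le u v
    · rw [if_neg hc]
      refine add_nonneg (mul_nonneg (by positivity) ?_) (mul_nonneg (by positivity) ?_)
      · split_ifs
        · exact hg0 _
        · exact le_rfl
      · split_ifs
        · exact hg0 _
        · exact le_rfl
  have hA : ∑ u ∈ Icc 1 V, ∑ v ∈ Icc 1 V, 1 / (u : ℝ) * (if u < v then g (v - u) else 0)
      ≤ (1 + Real.log V) * G := by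
    calc ∑ u ∈ Icc 1 V, ∑ v ∈ Icc 1 V, 1 / (u : ℝ) * (if u < v then g (v - u) else 0)
        = ∑ u ∈ Icc 1 V, 1 / (u : ℝ) * ∑ v ∈ Icc 1 V, (if u < v then g (v - u) else 0) := by
          refine Finset.sum_congr rfl fun u _ => ?_
          rw [Finset.mul_sum]
      _ ≤ ∑ u ∈ Icc 1 V, 1 / (u : ℝ) * G :=
          Finset.sum_le_sum fun u _ => mul_le_mul_of_nonneg_left (hshift u) (by positivity)
      _ = (∑ u ∈ Icc 1 V, 1 / (u : ℝ)) * G := by rw [Finset.sum_mul]
      _ ≤ _ := mul_le_mul_of_nonneg_right (sum_inv_Icc_le_log V) hG0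
  have hB : ∑ u ∈ Icc 1 V, ∑ v ∈ Icc 1 V, 1 / (v : ℝ) * (if v < u then g (u - v) else 0)
      ≤ (1 + Real.log V) * G := by
    rw [Finset.sum_comm]
    exact hA
  calc ∑ u ∈ Icc 1 V, ∑ v ∈ Icc 1 V,
        (if u ≠ v ∧ distInt (((u : ℝ) - v) * γ) < 2 * s then 1 / ((u : ℝ) * v) else 0)
      ≤ ∑ u ∈ Icc 1 V, ∑ v ∈ Icc 1 V, (1 / (u : ℝ) * (if u < v then g (v - u) else 0) +
        1 / (v : ℝ) * (if v < u then g (u - v) else 0)) :=
        Finset.sum_le_sum fun u hu => Finset.sum_le_sum fun v hv => hterm u hu v hv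
    _ ≤ (1 + Real.log V) * G + (1 + Real.log V) * G := by
        simp only [Finset.sum_add_distrib]
        exact add_le_add hA hB
    _ = _ := by ring

/-- Separation at a good scale. -/
theorem good_sep {γ s : ℝ} (hs : 0 < s) (hgood : ∀ B : ℕ, ¬ BadAt γ s B) {n : ℕ} (hn : 0 < n)
    (h : distInt (n * γ) < 4 * s) : s ^ (-(1 / 4) : ℝ) ≤ n := by
  classical
  have hex : ∃ h : ℕ, 0 < h ∧ distInt (h * γ) ≤ 4 * s := ⟨n, hn, h.le⟩
  set B := Nat.find hex with hB
  have hB1 := Nat.find_spec hex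
  rw [← hB] at hB1
  have hfirst : First γ s B := by
    refine ⟨hB1.1, hB1.2, ?_⟩
    intro m hm hmB
    have := Nat.find_min hex hmB
    push Not at this
    exact this hm
  have hnb := hgood B
  have h1 : ¬ ((B : ℝ) ^ 4 * s ≤ 1) := fun h2 => hnb ⟨hfirst, h2⟩
  push Not at h1
  have hBn : B ≤ n := Nat.find_min' hex ⟨hn, h.le⟩
  have hBn' : (B : ℝ) ≤ n := by exact_mod_cast hBn
  have h2 : s⁻¹ ≤ (B : ℝ) ^ 4 := by
    rw [inv_le_iff_one_le_mul₀ hs]
    exact h1.le
  calc s ^ (-(1 / 4) : ℝ) = (s⁻¹) ^ (1 / 4 : ℝ) := by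
        rw [Real.rpow_neg hs.le, Real.inv_rpow hs.le]
    _ ≤ ((B : ℝ) ^ 4) ^ (1 / 4 : ℝ) := Real.rpow_le_rpow (by positivity) h2 (by norm_num)
    _ = B := by
        rw [← Real.rpow_natCast, ← Real.rpow_mul (Nat.cast_nonneg _)]
        norm_num
    _ ≤ n := hBn'

/-- Sum over the hits at a good scale. -/
theorem good_inv_sum {γ s : ℝ} (hs : 0 < s) (hgood : ∀ B : ℕ, ¬ BadAt γ s B) (V : ℕ) :
    ∑ n ∈ Icc 1 V, (if distInt ((n : ℝ) * γ) < 2 * s then 1 / (n : ℝ) else 0) ≤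
      s ^ (1 / 4 : ℝ) * (1 + Real.log V) := by
  classical
  rw [← Finset.sum_filter]
  set B := (Icc 1 V).filter (fun n : ℕ => distInt ((n : ℝ) * γ) < 2 * s) with hB
  have hR : 0 < s ^ (-(1 / 4) : ℝ) := Real.rpow_pos_of_pos hs _
  have h1 : ∀ n ∈ B, s ^ (-(1 / 4) : ℝ) ≤ n := by
    intro n hn
    rw [hB, Finset.mem_filter, Finset.mem_Icc] at hn
    exact good_sep hs hgood (by omega) (by linarith only [hn.2, hs])
  have h2 : ∀ m ∈ B, ∀ n ∈ B, m < n → s ^ (-(1 / 4) : ℝ) ≤ (n : ℝ) - m := by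
    intro m hm n hn hmn
    rw [hB, Finset.mem_filter, Finset.mem_Icc] at hn hm
    have h3 := good_sep (n := n - m) hs hgood (by omega) (by
      rw [Nat.cast_sub hmn.le, sub_mul]
      refine (nb_distInt_sub_le _ _).trans_lt ?_
      linarith only [hn.2, hm.2])
    rwa [Nat.cast_sub hmn.le] at h3
  refine (sep_sum_inv hR B h1 h2).trans ?_
  have h4 : 1 / s ^ (-(1 / 4) : ℝ) = s ^ (1 / 4 : ℝ) := by
    rw [Real.rpow_neg hs.le, one_div, inv_inv]
  rw [h4]
  refine mul_le_mul_of_nonneg_left ?_ (Real.rpow_nonneg hs.le _)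
  refine le_trans ?_ (sum_inv_le_log V)
  refine Finset.sum_le_sum_of_subset_of_nonneg ?_ (fun k _ _ => by positivity)
  refine Finset.range_mono ?_
  have := Finset.card_filter_le (Icc 1 V) (fun n : ℕ => distInt ((n : ℝ) * γ) < 2 * s)
  simpa using this

/-- Structure of the hits at a bad scale. -/
theorem bad_dvd {γ s : ℝ} {B h : ℕ} (hs : 0 < s) (hs2 : s ≤ 1 / 1000) (hB : BadAt γ s B)
    (hβh : 4 * distInt (B * γ) * h ≤ 1) (hh : distInt (h * γ) < 4 * s) :
    B ∣ h ∧ (h : ℝ) * distInt (B * γ) < 4 * s * B := by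
  have hg := hB.gcd_eq_one hs hs2
  have hm := hB.mul_le hs hs2
  have hB0 : 0 < B := hB.1.1
  have hBR : (0 : ℝ) < B := by exact_mod_cast hB0
  set A := round ((B : ℝ) * γ) with hA
  set m := round ((h : ℝ) * γ) with hmdef
  have hβ : distInt (B * γ) = |(B : ℝ) * γ - A| := rfl
  have hhd : distInt (h * γ) = |(h : ℝ) * γ - m| := rfl
  have hh0 : (0 : ℝ) ≤ h := Nat.cast_nonneg _
  have key : ((h * A - B * m : ℤ) : ℝ) = B * ((h : ℝ) * γ - m) - h * ((B : ℝ) * γ - A) := by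
    push_cast
    ring
  have habs : |((h * A - B * m : ℤ) : ℝ)| < 1 := by
    rw [key]
    calc |(B : ℝ) * ((h : ℝ) * γ - m) - h * ((B : ℝ) * γ - A)|
        ≤ |(B : ℝ) * ((h : ℝ) * γ - m)| + |(h : ℝ) * ((B : ℝ) * γ - A)| := abs_sub _ _
      _ = B * distInt (h * γ) + h * distInt (B * γ) := by
          rw [abs_mul, abs_mul, abs_of_pos hBR, abs_of_nonneg hh0, hβ, hhd]
      _ < B * (4 * s) + 1 / 4 := by
          have h1 := mul_lt_mul_of_pos_left hh hBR
          linarith only [h1, hβh]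
      _ ≤ 1 := by linarith only [hm]
  have hzero : (h * A - B * m : ℤ) = 0 := by
    rw [← Int.cast_abs] at habs
    have h1 : |(h * A - B * m : ℤ)| < 1 := by exact_mod_cast habs
    exact Int.abs_lt_one_iff.1 h1
  constructor
  · have h2 : (B : ℤ) ∣ A * h := ⟨m, by linarith only [hzero]⟩
    have h3 : (B : ℤ) ∣ h :=
      (Int.isCoprime_iff_gcd_eq_one.mpr hg).symm.dvd_of_dvd_mul_left h2
    exact_mod_cast h3
  · rw [hzero] at key
    have h4 : (h : ℝ) * ((B : ℝ) * γ - A) = B * ((h : ℝ) * γ - m) := by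
      push_cast at key
      linarith only [key]
    have h5 : (h : ℝ) * distInt (B * γ) = B * distInt (h * γ) := by
      have := congrArg abs h4
      rwa [abs_mul, abs_mul, abs_of_pos hBR, abs_of_nonneg hh0] at this
    rw [h5]
    have h1 := mul_lt_mul_of_pos_left hh hBR
    linarith only [h1]

/-- Number of hits in a block at a bad scale. -/
theorem bad_card {γ s : ℝ} {B : ℕ} (hs : 0 < s) (hs2 : s ≤ 1 / 1000) (hB : BadAt γ s B)
    (hβ : 0 < distInt (B * γ)) {L : ℕ} (hL : 4 * distInt (B * γ) * L ≤ 1) (v : ℕ) (a : ℕ)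
    (S : Finset ℕ) (hS1 : ∀ u ∈ S, a ≤ u ∧ u < a + L)
    (hS2 : ∀ u ∈ S, distInt (((u : ℝ) - v) * γ) < 2 * s) :
    (S.card : ℝ) ≤ 4 * s / distInt (B * γ) + 1 := by
  classical
  have hB0 : 0 < B := hB.1.1
  have hBR : (0 : ℝ) < B := by exact_mod_cast hB0
  rcases S.eq_empty_or_nonempty with h | h
  · rw [h]
    simp only [Finset.card_empty, Nat.cast_zero]
    positivity
  set m := S.min' h with hm
  have hmS : m ∈ S := S.min'_mem h
  have hdiff : ∀ u ∈ S, m ≤ u := fun u hu => S.min'_le u hu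
  have hdv : ∀ u ∈ S, B ∣ u - m ∧ ((u - m : ℕ) : ℝ) * distInt (B * γ) < 4 * s * B := by
    intro u hu
    have h1 := hdiff u hu
    refine bad_dvd hs hs2 hB ?_ ?_
    · have h2 := hS1 u hu
      have h3 := hS1 m hmS
      have h4 : ((u - m : ℕ) : ℝ) ≤ L := by
        have : u - m ≤ L := by omega
        exact_mod_cast this
      exact (mul_le_mul_of_nonneg_left h4 (by positivity)).trans hL
    · rw [Nat.cast_sub h1]
      have e : ((u : ℝ) - m) * γ = ((u : ℝ) - v) * γ - ((m : ℝ) - v) * γ := by ring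
      rw [e]
      refine (nb_distInt_sub_le _ _).trans_lt ?_
      linarith only [hS2 u hu, hS2 m hmS]
  have hinj : Set.InjOn (fun u => (u - m) / B) S := by
    intro u hu w hw huw
    simp only at huw
    obtain ⟨k, hk⟩ := (hdv u hu).1
    obtain ⟨l, hl⟩ := (hdv w hw).1
    rw [hk, hl, Nat.mul_div_cancel_left _ hB0, Nat.mul_div_cancel_left _ hB0] at huw
    have h1 := hdiff u hu
    have h2 := hdiff w hw
    rw [huw] at hk
    omega
  have hcard : S.card = (S.image (fun u => (u - m) / B)).card := (Finset.card_image_of_injOn hinj).symm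
  have hsub : S.image (fun u => (u - m) / B) ⊆ range ⌈4 * s / distInt (B * γ)⌉₊ := by
    intro k hk
    obtain ⟨u, hu, rfl⟩ := Finset.mem_image.1 hk
    obtain ⟨⟨k, hk'⟩, h2⟩ := hdv u hu
    rw [hk', Nat.mul_div_cancel_left _ hB0, Finset.mem_range, Nat.lt_ceil, lt_div_iff₀ hβ]
    rw [hk'] at h2
    push_cast at h2
    have h3 : (B : ℝ) * ((k : ℝ) * distInt (B * γ)) < B * (4 * s) := by linarith only [h2]
    exact lt_of_mul_lt_mul_left h3 hBR.le
  have h1 := Finset.card_le_card hsub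
  rw [Finset.card_range, ← hcard] at h1
  have h2 : (⌈4 * s / distInt (B * γ)⌉₊ : ℝ) < 4 * s / distInt (B * γ) + 1 :=
    Nat.ceil_lt_add_one (by positivity)
  have h3 : (S.card : ℝ) ≤ ⌈4 * s / distInt (B * γ)⌉₊ := by exact_mod_cast h1
  linarith only [h2, h3]

/-- Sum over the far hits at a bad scale. -/
theorem bad_inv_sum {γ s : ℝ} {B : ℕ} (hs : 0 < s) (hs2 : s ≤ 1 / 1000) (hB : BadAt γ s B)
    (v V : ℕ) :
    ∑ u ∈ Icc 1 V, (if distInt (((u : ℝ) - v) * γ) < 2 * s ∧ 1 ≤ 4 * distInt (B * γ) * (u : ℝ)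
      then 1 / (u : ℝ) else 0) ≤ 64 * s * (1 + Real.log V) := by
  classical
  have hlog : 0 ≤ Real.log V := Real.log_natCast_nonneg V
  set β := distInt (B * γ) with hβd
  have hβ0 : 0 ≤ β := abs_nonneg _
  rcases hβ0.eq_or_lt with h | hβ
  · rw [← h]
    have : ∀ u ∈ Icc 1 V, (if distInt (((u : ℝ) - v) * γ) < 2 * s ∧ 1 ≤ 4 * 0 * (u : ℝ)
        then 1 / (u : ℝ) else 0) = 0 := by
      intro u _
      rw [if_neg]
      rintro ⟨_, h2⟩
      norm_num at h2
    rw [Finset.sum_eq_zero this]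
    positivity
  have hβs : β ≤ 4 * s := hB.1.2.1
  rw [← Finset.sum_filter]
  set T := (Icc 1 V).filter (fun u : ℕ => distInt (((u : ℝ) - v) * γ) < 2 * s ∧
    1 ≤ 4 * β * (u : ℝ)) with hT
  set L := ⌊1 / (4 * β)⌋₊ with hL
  have hx : (2 : ℝ) ≤ 1 / (4 * β) := by
    rw [le_div_iff₀ (by positivity)]
    linarith only [hβs, hs2]
  have hL1 : (L : ℝ) ≤ 1 / (4 * β) := Nat.floor_le (by positivity)
  have hL2 : 1 / (4 * β) < L + 1 := Nat.lt_floor_add_one _
  have hL3 : 1 / (8 * β) ≤ L := by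
    have e : 1 / (8 * β) = 1 / (4 * β) / 2 := by
      field_simp
      ring
    rw [e]
    linarith only [hx, hL2]
  have hLpos : (0 : ℝ) < L := lt_of_lt_of_le (by positivity) hL3
  have hL0 : 0 < L := by exact_mod_cast hLpos
  have hL4 : 4 * β * L ≤ 1 := by
    rw [le_div_iff₀ (by positivity)] at hL1
    linarith only [hL1]
  have hmaps : ∀ u ∈ T, u / L ∈ Icc 1 V := by
    intro u hu
    rw [hT, Finset.mem_filter, Finset.mem_Icc] at hu
    rw [Finset.mem_Icc]
    constructor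
    · rw [Nat.le_div_iff_mul_le hL0, one_mul]
      have h1 : (L : ℝ) ≤ u := by
        refine hL1.trans ?_
        rw [div_le_iff₀ (by positivity)]
        linarith only [hu.2.2]
      exact_mod_cast h1
    · exact (Nat.div_le_self u L).trans hu.1.2
  rw [← Finset.sum_fiberwise_of_maps_to hmaps]
  have hblock : ∀ j ∈ Icc 1 V, ∑ u ∈ T.filter (fun u => u / L = j), 1 / (u : ℝ) ≤
      64 * s * (1 / (j : ℝ)) := by
    intro j hj
    have hj1 : 1 ≤ j := (Finset.mem_Icc.1 hj).1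
    have hjR : (0 : ℝ) < j := by exact_mod_cast hj1
    have hmem : ∀ u ∈ T.filter (fun u => u / L = j), j * L ≤ u ∧ u < j * L + L := by
      intro u hu
      have h1 := (Finset.mem_filter.1 hu).2
      have h2 := Nat.div_add_mod u L
      have h3 := Nat.mod_lt u hL0
      rw [h1, mul_comm] at h2
      omega
    have hcard := bad_card hs hs2 hB hβ (L := L) hL4 v (j * L)
      (T.filter (fun u => u / L = j)) hmem (fun u hu => by
        have h1 := (Finset.mem_filter.1 hu).1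
        rw [hT, Finset.mem_filter] at h1
        exact h1.2.1)
    have hcard2 : ((T.filter (fun u => u / L = j)).card : ℝ) ≤ 8 * s / β := by
      have h1 : 1 ≤ 4 * s / β := by
        rw [le_div_iff₀ hβ]
        linarith only [hβs]
      have h2 : 8 * s / β = 4 * s / β + 4 * s / β := by ring
      rw [h2]
      rw [← hβd] at hcard
      linarith only [hcard, h1]
    calc ∑ u ∈ T.filter (fun u => u / L = j), 1 / (u : ℝ)
        ≤ ∑ u ∈ T.filter (fun u => u / L = j), 1 / ((j : ℝ) * L) := by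
          refine Finset.sum_le_sum fun u hu => ?_
          refine one_div_le_one_div_of_le (by positivity) ?_
          exact_mod_cast (hmem u hu).1
      _ = ((T.filter (fun u => u / L = j)).card : ℝ) * (1 / ((j : ℝ) * L)) := by
          rw [Finset.sum_const, nsmul_eq_mul]
      _ ≤ 8 * s / β * (1 / ((j : ℝ) * (1 / (8 * β)))) := by
          refine mul_le_mul hcard2 ?_ (by positivity) (by positivity)
          refine one_div_le_one_div_of_le (by positivity) ?_
          exact mul_le_mul_of_nonneg_left hL3 hjR.le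
      _ = 64 * s * (1 / (j : ℝ)) := by
          field_simp
          ring
  calc ∑ j ∈ Icc 1 V, ∑ u ∈ T.filter (fun u => u / L = j), 1 / (u : ℝ)
      ≤ ∑ j ∈ Icc 1 V, 64 * s * (1 / (j : ℝ)) := Finset.sum_le_sum hblock
    _ = 64 * s * ∑ j ∈ Icc 1 V, 1 / (j : ℝ) := by rw [Finset.mul_sum]
    _ ≤ _ := mul_le_mul_of_nonneg_left (sum_inv_Icc_le_log V) (by positivity)

/-- The far pair sum. -/
theorem far_sum {γ s : ℝ} (hs : 0 < s) (hs2 : s ≤ 1 / 1000) (V : ℕ)
    (Ω : ℕ → ℕ → Prop) [DecidableRel Ω] (hΩ : ∀ u v : ℕ,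
      Ω u v ↔ (u ≠ v ∧ distInt (((u : ℝ) - v) * γ) < 2 * s) ∧ Far γ s u v) :
    ∑ u ∈ Icc 1 V, ∑ v ∈ Icc 1 V, (if Ω u v then 1 / ((u : ℝ) * v) else 0) ≤
      128 * (1 + Real.log V) ^ 2 * s ^ (1 / 4 : ℝ) := by
  classical
  have hlog : 0 ≤ Real.log V := Real.log_natCast_nonneg V
  have hs4 : 0 ≤ s ^ (1 / 4 : ℝ) := Real.rpow_nonneg hs.le _
  by_cases hgood : ∀ B : ℕ, ¬ BadAt γ s B
  · have h1 := pair_sum_le (γ := γ) (s := s) V (good_inv_sum hs hgood V)
    refine le_trans (Finset.sum_le_sum fun u _ => Finset.sum_le_sum fun v _ => ?_)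
      (h1.trans ?_)
    · by_cases h2 : Ω u v
      · rw [if_pos h2, if_pos ((hΩ u v).1 h2).1]
      · rw [if_neg h2]
        split_ifs
        · positivity
        · exact le_rfl
    · have h3 : 0 ≤ (1 + Real.log V) ^ 2 * s ^ (1 / 4 : ℝ) := by positivity
      linarith only [h3]
  · push Not at hgood
    obtain ⟨B, hB⟩ := hgood
    have hss : s ≤ s ^ (1 / 4 : ℝ) := by
      calc s = s ^ (1 : ℝ) := (Real.rpow_one s).symm
        _ ≤ s ^ (1 / 4 : ℝ) :=
          Real.rpow_le_rpow_of_exponent_ge hs (by linarith only [hs2]) (by norm_num)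
    have hA : ∑ v ∈ Icc 1 V, ∑ u ∈ Icc 1 V, 1 / (v : ℝ) *
        (if distInt (((u : ℝ) - v) * γ) < 2 * s ∧ 1 ≤ 4 * distInt (B * γ) * (u : ℝ)
          then 1 / (u : ℝ) else 0) ≤ (1 + Real.log V) * (64 * s * (1 + Real.log V)) := by
      calc ∑ v ∈ Icc 1 V, ∑ u ∈ Icc 1 V, 1 / (v : ℝ) *
          (if distInt (((u : ℝ) - v) * γ) < 2 * s ∧ 1 ≤ 4 * distInt (B * γ) * (u : ℝ)
            then 1 / (u : ℝ) else 0)
          = ∑ v ∈ Icc 1 V, 1 / (v : ℝ) * ∑ u ∈ Icc 1 V,
          (if distInt (((u : ℝ) - v) * γ) < 2 * s ∧ 1 ≤ 4 * distInt (B * γ) * (u : ℝ)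
            then 1 / (u : ℝ) else 0) := by
            refine Finset.sum_congr rfl fun v _ => ?_
            rw [Finset.mul_sum]
        _ ≤ ∑ v ∈ Icc 1 V, 1 / (v : ℝ) * (64 * s * (1 + Real.log V)) :=
            Finset.sum_le_sum fun v _ =>
              mul_le_mul_of_nonneg_left (bad_inv_sum hs hs2 hB v V) (by positivity)
        _ = (∑ v ∈ Icc 1 V, 1 / (v : ℝ)) * (64 * s * (1 + Real.log V)) := by
            rw [Finset.sum_mul]
        _ ≤ _ := mul_le_mul_of_nonneg_right (sum_inv_Icc_le_log V) (by positivity)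
    have hterm : ∀ u ∈ Icc 1 V, ∀ v ∈ Icc 1 V, (if Ω u v then 1 / ((u : ℝ) * v) else 0) ≤
        1 / (v : ℝ) * (if distInt (((u : ℝ) - v) * γ) < 2 * s ∧
          1 ≤ 4 * distInt (B * γ) * (u : ℝ) then 1 / (u : ℝ) else 0) +
        1 / (u : ℝ) * (if distInt (((v : ℝ) - u) * γ) < 2 * s ∧
          1 ≤ 4 * distInt (B * γ) * (v : ℝ) then 1 / (v : ℝ) else 0) := by
      intro u _ v _
      have h0 : 0 ≤ 1 / (v : ℝ) * (if distInt (((u : ℝ) - v) * γ) < 2 * s ∧
          1 ≤ 4 * distInt (B * γ) * (u : ℝ) then 1 / (u : ℝ) else 0) := by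
        refine mul_nonneg (by positivity) ?_
        split_ifs
        · positivity
        · exact le_rfl
      have h0' : 0 ≤ 1 / (u : ℝ) * (if distInt (((v : ℝ) - u) * γ) < 2 * s ∧
          1 ≤ 4 * distInt (B * γ) * (v : ℝ) then 1 / (v : ℝ) else 0) := by
        refine mul_nonneg (by positivity) ?_
        split_ifs
        · positivity
        · exact le_rfl
      by_cases h2 : Ω u v
      · rw [if_pos h2]
        obtain ⟨⟨_, h3⟩, h4⟩ := (hΩ u v).1 h2
        have h5 := h4 B hB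
        rcases le_total (u : ℝ) (v : ℝ) with h | h
        · rw [max_eq_right h] at h5
          have h6 : distInt (((v : ℝ) - u) * γ) < 2 * s := by
            rw [← nb_distInt_neg]
            have e : -(((v : ℝ) - u) * γ) = ((u : ℝ) - v) * γ := by ring
            rw [e]
            exact h3
          rw [if_pos (⟨h6, h5⟩ : distInt (((v : ℝ) - u) * γ) < 2 * s ∧
            1 ≤ 4 * distInt (B * γ) * (v : ℝ)), one_div_mul_one_div]
          linarith only [h0]
        · rw [max_eq_left h] at h5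
          rw [if_pos (⟨h3, h5⟩ : distInt (((u : ℝ) - v) * γ) < 2 * s ∧
            1 ≤ 4 * distInt (B * γ) * (u : ℝ)), one_div_mul_one_div, mul_comm (v : ℝ)]
          linarith only [h0']
      · rw [if_neg h2]
        linarith only [h0, h0']
    calc ∑ u ∈ Icc 1 V, ∑ v ∈ Icc 1 V, (if Ω u v then 1 / ((u : ℝ) * v) else 0)
        ≤ ∑ u ∈ Icc 1 V, ∑ v ∈ Icc 1 V, (1 / (v : ℝ) *
          (if distInt (((u : ℝ) - v) * γ) < 2 * s ∧
            1 ≤ 4 * distInt (B * γ) * (u : ℝ) then 1 / (u : ℝ) else 0) +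
          1 / (u : ℝ) * (if distInt (((v : ℝ) - u) * γ) < 2 * s ∧
            1 ≤ 4 * distInt (B * γ) * (v : ℝ) then 1 / (v : ℝ) else 0)) :=
          Finset.sum_le_sum fun u hu => Finset.sum_le_sum fun v hv => hterm u hu v hv
      _ ≤ (1 + Real.log V) * (64 * s * (1 + Real.log V)) +
          (1 + Real.log V) * (64 * s * (1 + Real.log V)) := by
          simp only [Finset.sum_add_distrib]
          refine add_le_add ?_ hA
          rw [Finset.sum_comm]
          exact hA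
      _ = 128 * (1 + Real.log V) ^ 2 * s := by ring
      _ ≤ _ := mul_le_mul_of_nonneg_left hss (by positivity)

open Classical in
/-- Passage from the pair sum to the tensor sum, far version. -/
theorem far_step {γ s θ : ℝ} (hθ : 0 < θ) (hθ1 : θ < 1) (hs : 0 < s) (V N : ℕ)
    (ψ f : ℕ → ℝ) (hf : ∀ q, 0 ≤ f q ∧ f q ≤ ψ q)
    (Ω : ℕ → ℕ → Prop) (hΩ : ∀ u v : ℕ,
      Ω u v ↔ (u ≠ v ∧ distInt (((u : ℝ) - v) * γ) < 2 * s) ∧ Far γ s u v) :
    psum (fun q r => Rel γ ψ s q r ∧ Far γ s (cofac q r) (cofac r q) ∧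
        cofac q r ≤ V ∧ cofac r q ≤ V) N f f ≤
      s ^ (2 * (1 - θ)) * ∑ q ∈ Icc 1 N, ∑ r ∈ Icc 1 N,
        (if Ω (cofac q r) (cofac r q) ∧ cofac q r ≤ V ∧ cofac r q ≤ V then
          (f q * f r) ^ θ * ((cofac q r : ℝ) * (cofac r q : ℝ)) ^ (-(1 - θ)) else 0) := by
  unfold psum
  rw [Finset.mul_sum]
  refine Finset.sum_le_sum fun q hq => ?_
  rw [Finset.mul_sum]
  refine Finset.sum_le_sum fun r hr => ?_
  have hq0 : 0 < q := (Finset.mem_Icc.1 hq).1
  have hr0 : 0 < r := (Finset.mem_Icc.1 hr).1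
  have hu0 : (0 : ℝ) < cofac q r := by exact_mod_cast cofac_pos r hq0
  have hv0 : (0 : ℝ) < cofac r q := by exact_mod_cast cofac_pos q hr0
  have hff : 0 ≤ f q * f r := mul_nonneg (hf q).1 (hf r).1
  by_cases hc : Rel γ ψ s q r ∧ Far γ s (cofac q r) (cofac r q) ∧
      cofac q r ≤ V ∧ cofac r q ≤ V
  · obtain ⟨⟨h1, h2, h3, h4⟩, h45, h5, h6⟩ := hc
    rw [if_pos ⟨⟨h1, h2, h3, h4⟩, h45, h5, h6⟩, if_pos ⟨(hΩ _ _).2 ⟨⟨h1, h4⟩, h45⟩, h5, h6⟩]
    have h7 : f q * f r = (f q * f r) ^ θ * (f q * f r) ^ (1 - θ) := by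
      rw [← Real.rpow_add_of_nonneg hff hθ.le (by linarith only [hθ1])]
      rw [show θ + (1 - θ) = 1 by ring, Real.rpow_one]
    have h8 : (f q * f r) ^ (1 - θ) ≤
        s ^ (2 * (1 - θ)) * ((cofac q r : ℝ) * (cofac r q : ℝ)) ^ (-(1 - θ)) := by
      have h9 : f q * f r ≤ s ^ 2 / ((cofac q r : ℝ) * (cofac r q : ℝ)) := by
        rw [le_div_iff₀ (by positivity)]
        have ha : (cofac r q : ℝ) * f q ≤ s := (mul_le_mul_of_nonneg_left (hf q).2 hv0.le).trans h2
        have hb : (cofac q r : ℝ) * f r ≤ s := (mul_le_mul_of_nonneg_left (hf r).2 hu0.le).trans h3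
        have hc := mul_le_mul ha hb (mul_nonneg hu0.le (hf r).1) hs.le
        calc f q * f r * ((cofac q r : ℝ) * (cofac r q : ℝ))
            = (cofac r q : ℝ) * f q * ((cofac q r : ℝ) * f r) := by ring
          _ ≤ s * s := hc
          _ = s ^ 2 := by ring
      refine (Real.rpow_le_rpow hff h9 (by linarith only [hθ1])).trans (le_of_eq ?_)
      rw [Real.div_rpow (by positivity) (by positivity), Real.rpow_neg (by positivity),
        div_eq_mul_inv, ← Real.rpow_natCast, ← Real.rpow_mul hs.le]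
      norm_num
    calc f q * f r = (f q * f r) ^ θ * (f q * f r) ^ (1 - θ) := h7
      _ ≤ (f q * f r) ^ θ *
          (s ^ (2 * (1 - θ)) * ((cofac q r : ℝ) * (cofac r q : ℝ)) ^ (-(1 - θ))) :=
          mul_le_mul_of_nonneg_left h8 (Real.rpow_nonneg hff _)
      _ = _ := by ring
  · rw [if_neg hc]
    refine mul_nonneg (Real.rpow_nonneg hs.le _) ?_
    split_ifs
    · exact mul_nonneg (Real.rpow_nonneg hff _) (Real.rpow_nonneg (by positivity) _)
    · exact le_rfl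

open Classical in
/-- The near theorem for every real `γ`. -/
theorem nearG : ∃ C > 0, ∃ k ≥ (0 : ℝ), ∀ (γ s : ℝ), 0 < s → s ≤ 1 / 1000 →
    ∀ (V N : ℕ) (ψ f : ℕ → ℝ), 1 ≤ V → (∀ q, 0 ≤ f q ∧ f q ≤ ψ q) →
      psum (fun q r => Rel γ ψ s q r ∧ Far γ s (cofac q r) (cofac r q) ∧
          cofac q r ≤ V ∧ cofac r q ≤ V) N f f ≤
        C * (1 + Real.log V) ^ k * s ^ (33 / 32 : ℝ) * (∑ q ∈ Icc 1 N, f q) ^ (33 / 32 : ℝ) := by
  have hθ : (1 / 2 : ℝ) < 33 / 64 := by norm_num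
  have hθ1 : (33 / 64 : ℝ) < 1 := by norm_num
  have hμ : (0 : ℝ) < 1 / 4 := by norm_num
  have hμ1 : (1 / 4 : ℝ) < 1 - 33 / 64 := by norm_num
  obtain ⟨A, hA, hSP⟩ := SPn_all hθ hθ1 hμ hμ1
  obtain ⟨C₁, hC₁, k, hk, hprod⟩ := prod_one_add_div_prime_le A hA
  refine ⟨C₁ * 128 ^ (1 / 4 : ℝ), by positivity, (k : ℝ) + 1 / 2, by positivity, ?_⟩
  intro γ s hs hs2 V N ψ f hV1 hf
  obtain ⟨Ω, hΩ⟩ : ∃ Ω : ℕ → ℕ → Prop, ∀ u v : ℕ,
      Ω u v ↔ (u ≠ v ∧ distInt (((u : ℝ) - v) * γ) < 2 * s) ∧ Far γ s u v :=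
    ⟨_, fun _ _ => Iff.rfl⟩
  refine (far_step (θ := 33 / 64) (by norm_num) hθ1 hs V N ψ f hf Ω hΩ).trans ?_
  have htens := tensor hθ hθ1 hμ hμ1 (fun p => 1 + A / p)
    (fun p _ => by
      have : 0 ≤ A / (p : ℝ) := by positivity
      linarith only [this]) hSP
    Ω V N f f
    (fun q => (hf q).1) (fun q => (hf q).1)
  have hL0 : 0 ≤ Real.log V := Real.log_natCast_nonneg V
  set L : ℝ := 1 + Real.log V with hL
  have hLpos : 0 < L := by linarith only [hL0]
  have hP : ∏ p ∈ (Icc 1 V).filter Nat.Prime, (1 + A / (p : ℝ)) ≤ C₁ * L ^ (k : ℝ) := hprod V hV1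
  have hP0 : 0 ≤ ∏ p ∈ (Icc 1 V).filter Nat.Prime, (1 + A / (p : ℝ)) :=
    Finset.prod_nonneg fun p _ => by positivity
  set T : ℝ := ∑ u ∈ Icc 1 V, ∑ v ∈ Icc 1 V,
        if Nat.Coprime u v ∧ Ω u v then 1 / ((u : ℝ) * v) else 0 with hT
  have hT0 : 0 ≤ T := by
    rw [hT]
    refine Finset.sum_nonneg fun u _ => Finset.sum_nonneg fun v _ => ?_
    split_ifs
    · positivity
    · exact le_rfl
  have hTle : T ≤ 128 * L ^ 2 * s ^ (1 / 4 : ℝ) := by
    refine le_trans ?_ (far_sum hs hs2 V Ω hΩ)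
    rw [hT]
    refine Finset.sum_le_sum fun u _ => Finset.sum_le_sum fun v _ => ?_
    by_cases h2 : Ω u v
    · rw [if_pos h2]
      split_ifs
      · exact le_rfl
      · positivity
    · rw [if_neg h2, if_neg (fun h3 => h2 h3.2)]
  have hS0 : 0 ≤ ∑ q ∈ Icc 1 N, f q := Finset.sum_nonneg fun q _ => (hf q).1
  have hSS : ((∑ q ∈ Icc 1 N, f q) * ∑ q ∈ Icc 1 N, f q) ^ (33 / 64 : ℝ) =
      (∑ q ∈ Icc 1 N, f q) ^ (33 / 32 : ℝ) := by
    rw [Real.mul_rpow hS0 hS0, ← Real.rpow_add_of_nonneg hS0 (by norm_num) (by norm_num)]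
    norm_num
  rw [hSS] at htens
  have hS1 : 0 ≤ (∑ q ∈ Icc 1 N, f q) ^ (33 / 32 : ℝ) := Real.rpow_nonneg hS0 _
  have hTμ : T ^ (1 / 4 : ℝ) ≤ 128 ^ (1 / 4 : ℝ) * L ^ (1 / 2 : ℝ) * s ^ (1 / 16 : ℝ) := by
    refine (Real.rpow_le_rpow hT0 hTle hμ.le).trans (le_of_eq ?_)
    rw [Real.mul_rpow (by positivity) (by positivity), Real.mul_rpow (by positivity) (by positivity),
      ← Real.rpow_mul hs.le, ← Real.rpow_natCast L 2, ← Real.rpow_mul hLpos.le]
    norm_num
  calc s ^ (2 * (1 - 33 / 64 : ℝ)) * ∑ q ∈ Icc 1 N, ∑ r ∈ Icc 1 N,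
        (if Ω (cofac q r) (cofac r q) ∧ cofac q r ≤ V ∧ cofac r q ≤ V then
          (f q * f r) ^ (33 / 64 : ℝ) *
            ((cofac q r : ℝ) * (cofac r q : ℝ)) ^ (-(1 - 33 / 64 : ℝ)) else 0)
      ≤ s ^ (2 * (1 - 33 / 64 : ℝ)) * ((∏ p ∈ (Icc 1 V).filter Nat.Prime, (1 + A / (p : ℝ))) *
          (∑ q ∈ Icc 1 N, f q) ^ (33 / 32 : ℝ) * T ^ (1 / 4 : ℝ)) :=
        mul_le_mul_of_nonneg_left htens (Real.rpow_nonneg hs.le _)
    _ ≤ s ^ (2 * (1 - 33 / 64 : ℝ)) * ((C₁ * L ^ (k : ℝ)) *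
          (∑ q ∈ Icc 1 N, f q) ^ (33 / 32 : ℝ) *
          (128 ^ (1 / 4 : ℝ) * L ^ (1 / 2 : ℝ) * s ^ (1 / 16 : ℝ))) := by
        refine mul_le_mul_of_nonneg_left ?_ (Real.rpow_nonneg hs.le _)
        refine mul_le_mul ?_ hTμ (Real.rpow_nonneg hT0 _) (by positivity)
        exact mul_le_mul_of_nonneg_right hP hS1
    _ = _ := by
        have e1 : s ^ (33 / 32 : ℝ) = s ^ (2 * (1 - 33 / 64 : ℝ)) * s ^ (1 / 16 : ℝ) := by
          rw [← Real.rpow_add hs]
          norm_num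
        rw [e1, Real.rpow_add hLpos]
        ring

end Vale.P028
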