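import Vale.Agent.P028.MathlibUsed
import Vale.Agent.P028.AStruct
import Vale.Agent.P028.MSift

/-!
# Definitions for Theorem B (every real `γ`, loss `(log log q)^ε`)
-/

namespace Vale.P028

open Finset MeasureTheory

/-- The denominator used to sift `q` (with `x = min (ψ q) s₁`): the largest bad `B` with
`B ^ 4 * x ≤ 1`, and `1` if there is none. -/
noncomputable def Bsel (γ s₁ x : ℝ) : ℕ :=
  by classical exact max 1 (Nat.findGreatest (fun B => Bad γ s₁ B ∧ (B : ℝ) ^ 4 * x ≤ 1) ⌊1 / x⌋₊)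

/-- The numerator going with `B`. -/
noncomputable def Anum (γ : ℝ) (B : ℕ) : ℤ := round ((B : ℝ) * γ)

/-- The sifted set of `q`. -/
def GB (γ ρ : ℝ) (q B : ℕ) (A : ℤ) : Set ℝ :=
  GS γ q ρ (fun al => Int.gcd (al * B + A) q = 1)

/-- The weight of `q`. -/
noncomputable def cB (q B : ℕ) : ℝ := ∏ p ∈ q.primeFactors.filter (fun p => p ∣ B), (1 - 1 / (p : ℝ))

/-- The linear form of a sheet. -/
def nt (u v B₁ : ℕ) (A₁ : ℤ) (B₂ : ℕ) (A₂ t : ℤ) : ℤ :=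
  B₁ * B₂ * t - u * B₁ * A₂ + v * B₂ * A₁

open Classical in
/-- The cost of the sheet `t` (`u, v` are the cofactors, `g` the gcd). -/
noncomputable def Kt (g u v B₁ : ℕ) (A₁ : ℤ) (B₂ : ℕ) (A₂ t : ℤ) : ℝ :=
  if (∀ p ∈ u.primeFactors, ¬ p ∣ B₁ → ¬ (p : ℤ) ∣ B₁ * t + v * A₁) ∧
      (∀ p ∈ v.primeFactors, ¬ p ∣ B₂ → ¬ (p : ℤ) ∣ B₂ * t - u * A₂) then
    (∏ p ∈ u.primeFactors.filter (fun p => ¬ p ∣ B₁), (1 - 1 / (p : ℝ))⁻¹) *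
    (∏ p ∈ v.primeFactors.filter (fun p => ¬ p ∣ B₂), (1 - 1 / (p : ℝ))⁻¹) *
    ∏ p ∈ g.primeFactors.filter (fun p => ¬ p ∣ u ∧ ¬ p ∣ v ∧ ¬ p ∣ B₁ ∧ ¬ p ∣ B₂ ∧
      (p : ℤ) ∣ nt u v B₁ A₁ B₂ A₂ t), (1 - 1 / (p : ℝ))⁻¹
  else 0

/-- The sheets of a pair with cofactors `u, v` at distance `D`. -/
noncomputable def sheets (γ : ℝ) (u v : ℕ) (D : ℝ) : Finset ℤ :=
  (Finset.Icc ⌊((u : ℝ) - v) * γ - 2 * D⌋ ⌈((u : ℝ) - v) * γ + 2 * D⌉).filter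
    (fun t => |(t : ℝ) - ((u : ℝ) - v) * γ| < 2 * D)

/-- `D = max (v ρ₁) (u ρ₂)`. -/
noncomputable def Dpr (u v : ℕ) (ρ₁ ρ₂ : ℝ) : ℝ := max ((v : ℝ) * ρ₁) ((u : ℝ) * ρ₂)

end Vale.P028
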