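import Vale.Agent.P028.MathlibUsed
import Vale.Agent.P028.MDefs
attribute [-instance] ProperSMul.toContinuousSMul IsTopologicalTorsor.toContinuousSMul IdemSemiring.toCanonicallyOrderedAdd IdemSemiring.toMulLeftMono IdemSemiring.toMulRightMono AddQuantale.instAddLeftMono AddQuantale.instAddRightMono Quantale.instMulLeftMono Quantale.instMulRightMono FiniteDimensional.rclike_to_real IsScalarTower.complexToReal FiniteDimensional.complexToReal

/-!
# From level sets `D ≤ s` to the second moment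
-/

namespace Vale.P028

open Finset

theorem psum_nonneg (R : ℕ → ℕ → Prop) (N : ℕ) (f h : ℕ → ℝ) (hf : ∀ q, 0 ≤ f q)
    (hh : ∀ q, 0 ≤ h q) : 0 ≤ psum R N f h := by
  classical
  unfold psum
  refine sum_nonneg fun q _ => sum_nonneg fun r _ => ?_
  split_ifs
  · exact mul_nonneg (hf q) (hh r)
  · exact le_rfl

theorem psum_mono (R R' : ℕ → ℕ → Prop) (N : ℕ) (f h f' h' : ℕ → ℝ)
    (hf' : ∀ q, 0 ≤ f' q) (hh' : ∀ q, 0 ≤ h' q)
    (H : ∀ q ∈ Icc 1 N, ∀ r ∈ Icc 1 N, R q r → f q * h r ≠ 0 →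
      R' q r ∧ f q * h r ≤ f' q * h' r) : psum R N f h ≤ psum R' N f' h' := by
  classical
  unfold psum
  refine sum_le_sum fun q hq => sum_le_sum fun r hr => ?_
  by_cases h0 : f q * h r = 0
  · have h1 : 0 ≤ (if R' q r then f' q * h' r else 0) := by
      split_ifs
      · exact mul_nonneg (hf' q) (hh' r)
      · exact le_rfl
    rw [h0]
    simpa only [ite_self, ge_iff_le] using h1
  · by_cases hR : R q r
    · obtain ⟨h1, h2⟩ := H q hq r hr hR h0
      rw [if_pos hR, if_pos h1]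
      exact h2
    · rw [if_neg hR]
      split_ifs
      · exact mul_nonneg (hf' q) (hh' r)
      · exact le_rfl

theorem psum_or_le (R R₁ R₂ : ℕ → ℕ → Prop) (N : ℕ) (f h : ℕ → ℝ) (hf : ∀ q, 0 ≤ f q)
    (hh : ∀ q, 0 ≤ h q) (H : ∀ q r, R q r → R₁ q r ∨ R₂ q r) :
    psum R N f h ≤ psum R₁ N f h + psum R₂ N f h := by
  classical
  unfold psum
  rw [← sum_add_distrib]
  refine sum_le_sum fun q _ => ?_
  rw [← sum_add_distrib]
  refine sum_le_sum fun r _ => ?_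
  have h0 := mul_nonneg (hf q) (hh r)
  by_cases hR : R q r
  · rcases H q r hR with h1 | h1
    · rw [if_pos hR, if_pos h1]
      split_ifs <;> linarith only [h0]
    · rw [if_pos hR, if_pos h1]
      split_ifs <;> linarith
  · rw [if_neg hR]
    split_ifs <;> linarith

theorem sum_le_psum (R : ℕ → ℕ → Prop) (N : ℕ) (f h : ℕ → ℝ) (hf : ∀ q, 0 ≤ f q)
    (hh : ∀ q, 0 ≤ h q) (T : Finset (ℕ × ℕ))
    (hT : ∀ p ∈ T, p.1 ∈ Icc 1 N ∧ p.2 ∈ Icc 1 N ∧ R p.1 p.2) :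
    ∑ p ∈ T, f p.1 * h p.2 ≤ psum R N f h := by
  classical
  unfold psum
  rw [← sum_product' (f := fun q r => if R q r then f q * h r else 0)]
  have h1 : ∑ p ∈ T, f p.1 * h p.2 = ∑ p ∈ T, (if R p.1 p.2 then f p.1 * h p.2 else 0) := by
    refine sum_congr rfl fun p hp => ?_
    rw [if_pos (hT p hp).2.2]
  rw [h1]
  refine sum_le_sum_of_subset_of_nonneg ?_ ?_
  · intro p hp
    rw [mem_product]
    exact ⟨(hT p hp).1, (hT p hp).2.1⟩
  · intro p _ _
    split_ifs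
    · exact mul_nonneg (hf _) (hh _)
    · exact le_rfl

theorem eq_of_cofac_eq {q r : ℕ} (h : cofac q r = cofac r q) : q = r := by
  unfold cofac at h
  have h1 := Nat.div_mul_cancel (Nat.gcd_dvd_left q r)
  have h2 := Nat.div_mul_cancel (Nat.gcd_dvd_left r q)
  rw [Nat.gcd_comm r q] at h2 h
  calc q = q / q.gcd r * q.gcd r := h1.symm
    _ = r / q.gcd r * q.gcd r := by rw [h]
    _ = r := h2

theorem distInt_le_of_int {t ε : ℝ} (m : ℤ) (h : |(m : ℝ) - t| < ε) : distInt t < ε := by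
  unfold distInt
  have h1 := round_le t m
  rw [abs_sub_comm] at h
  linarith

theorem distInt_neg (t : ℝ) : distInt (-t) = distInt t := by
  unfold distInt
  apply le_antisymm
  · have h1 := round_le (-t) (-(round t))
    push_cast at h1
    have : |-t - -(round t : ℝ)| = |t - round t| := by
      rw [show -t - -(round t : ℝ) = -(t - round t) by ring, abs_neg]
    rw [this] at h1
    exact h1
  · have h1 := round_le t (-(round (-t)))
    push_cast at h1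
    have : |t - -(round (-t) : ℝ)| = |-t - round (-t)| := by
      rw [show t - -(round (-t) : ℝ) = -(-t - round (-t)) by ring, abs_neg]
    rw [this] at h1
    exact h1

/-- Dyadic summation over the levels. -/
theorem dyadic_sum {γ : ℝ} {ψ f : ℕ → ℝ} {N : ℕ} {C c : ℝ} (hC : 0 ≤ C) (hc : 0 < c)
    (S : Finset ℕ) (hS : ∀ q ∈ S, 0 < q ∧ q ≤ N ∧ 0 < ψ q) (hf0 : ∀ q, 0 ≤ f q)
    (hf : ∀ q, f q ≤ ψ q)
    (hyp : ∀ s : ℝ, 0 < s → s ≤ 1 / 4 →
      psum (fun q r => Rel γ ψ s q r ∧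
        s / 2 < max ((cofac r q : ℝ) * ψ q) ((cofac q r : ℝ) * ψ r)) N f f ≤
        C * s ^ (1 + c) * ∑ q ∈ Icc 1 N, f q)
    (T : Finset (ℕ × ℕ)) (hT : ∀ p ∈ T, p.1 ∈ S ∧ p.2 ∈ S ∧ DD p.1 p.2 (ψ p.1) (ψ p.2) < 1 / 4 ∧
        ∃ m : ℤ, |(m : ℝ) - (((p.2 / Nat.gcd p.1 p.2 : ℕ) : ℝ) - (p.1 / Nat.gcd p.1 p.2 : ℕ)) * γ|
          < 2 * DD p.1 p.2 (ψ p.1) (ψ p.2)) :
    ∑ p ∈ T, f p.1 * f p.2 / DD p.1 p.2 (ψ p.1) (ψ p.2) ≤
      (1 + 2 * C / (1 - (1 / 2 : ℝ) ^ c)) * ∑ q ∈ Icc 1 N, f q := by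
  classical
  set F : ℝ := ∑ q ∈ Icc 1 N, f q with hF
  have hF0 : 0 ≤ F := sum_nonneg fun q _ => hf0 q
  have hDpos : ∀ p ∈ T, 0 < DD p.1 p.2 (ψ p.1) (ψ p.2) := by
    intro p hp
    obtain ⟨h1, h2, _⟩ := hT p hp
    rw [DD_eq _ _ (hS _ h1).1]
    apply lt_max_of_lt_left
    apply mul_pos _ (hS _ h1).2.2
    have : 0 < p.2 / Nat.gcd p.1 p.2 :=
      Nat.div_pos (Nat.gcd_le_right _ (hS _ h2).1) (Nat.gcd_pos_of_pos_left _ (hS _ h1).1)
    exact_mod_cast this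
  set T₁ := T.filter (fun p => p.1 = p.2) with hT₁
  set T₂ := T.filter (fun p => ¬ p.1 = p.2) with hT₂
  have hsplit : ∑ p ∈ T, f p.1 * f p.2 / DD p.1 p.2 (ψ p.1) (ψ p.2) =
      ∑ p ∈ T₁, f p.1 * f p.2 / DD p.1 p.2 (ψ p.1) (ψ p.2) +
      ∑ p ∈ T₂, f p.1 * f p.2 / DD p.1 p.2 (ψ p.1) (ψ p.2) :=
    (sum_filter_add_sum_filter_not T (fun p => p.1 = p.2) _).symm
  -- diagonal
  have hdiag : ∑ p ∈ T₁, f p.1 * f p.2 / DD p.1 p.2 (ψ p.1) (ψ p.2) ≤ F := by
    have h1 : ∑ p ∈ T₁, f p.1 * f p.2 / DD p.1 p.2 (ψ p.1) (ψ p.2) ≤ ∑ p ∈ T₁, f p.1 := by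
      refine sum_le_sum fun p hp => ?_
      rw [hT₁, mem_filter] at hp
      obtain ⟨hpT, hpe⟩ := hp
      obtain ⟨h1, h2, _⟩ := hT p hpT
      have hq := (hS _ h1).1
      have hψ := (hS _ h1).2.2
      have e : DD p.1 p.2 (ψ p.1) (ψ p.2) = ψ p.1 := by
        rw [DD_eq _ _ hq, ← hpe, Nat.gcd_self, Nat.div_self hq]
        simp
      rw [e, ← hpe, div_le_iff₀ hψ]
      exact mul_le_mul_of_nonneg_left (hf _) (hf0 _)
    have h2 : ∑ p ∈ T₁, f p.1 ≤ F := by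
      have hinj : Set.InjOn (Prod.fst : ℕ × ℕ → ℕ) (T₁ : Set (ℕ × ℕ)) := by
        intro p hp p' hp' he
        rw [mem_coe, hT₁, mem_filter] at hp hp'
        ext
        · exact he
        · rw [← hp.2, ← hp'.2]; exact he
      rw [← sum_image (f := f) (g := Prod.fst) hinj]
      refine sum_le_sum_of_subset_of_nonneg ?_ fun q _ _ => hf0 q
      intro q hq
      rw [mem_image] at hq
      obtain ⟨p, hp, rfl⟩ := hq
      rw [hT₁, mem_filter] at hp
      have := hS _ (hT p hp.1).1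
      rw [mem_Icc]
      exact ⟨this.1, this.2.1⟩
    exact h1.trans h2
  -- off-diagonal
  have hj : ∀ p ∈ T₂, ∃ j : ℕ, 2 ≤ j ∧ (1 / 2 : ℝ) ^ (j + 1) < DD p.1 p.2 (ψ p.1) (ψ p.2) ∧
      DD p.1 p.2 (ψ p.1) (ψ p.2) ≤ (1 / 2 : ℝ) ^ j := by
    intro p hp
    rw [hT₂, mem_filter] at hp
    obtain ⟨h1, h2, h3, _⟩ := hT p hp.1
    obtain ⟨j, hj1, hj2⟩ := exists_nat_pow_near_of_lt_one (hDpos p hp.1) (by linarith only [h3])
      (by norm_num : (0 : ℝ) < 1 / 2) (by norm_num : (1 / 2 : ℝ) < 1)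
    refine ⟨j, ?_, hj1, hj2⟩
    by_contra hlt
    push Not at hlt
    have h4 : (1 / 2 : ℝ) ^ 2 ≤ (1 / 2 : ℝ) ^ (j + 1) :=
      pow_le_pow_of_le_one (by norm_num) (by norm_num) (by omega)
    norm_num at h4
    norm_num at hj1 h3
    linarith only [h4, hj1, h3]
  choose! jj hjj2 hjj3 hjj4 using hj
  have hoff : ∑ p ∈ T₂, f p.1 * f p.2 / DD p.1 p.2 (ψ p.1) (ψ p.2) ≤
      2 * C / (1 - (1 / 2 : ℝ) ^ c) * F := by
    obtain ⟨J, hJ⟩ : ∃ J : ℕ, ∀ p ∈ T₂, jj p < J := by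
      refine ⟨(T₂.sup jj) + 1, fun p hp => ?_⟩
      have := le_sup (f := jj) hp
      omega
    have h1 : ∑ p ∈ T₂, f p.1 * f p.2 / DD p.1 p.2 (ψ p.1) (ψ p.2) =
        ∑ j ∈ range J, ∑ p ∈ T₂ with jj p = j, f p.1 * f p.2 / DD p.1 p.2 (ψ p.1) (ψ p.2) :=
      (sum_fiberwise_of_maps_to (fun p hp => mem_range.mpr (hJ p hp)) _).symm
    have hc1 : (1 / 2 : ℝ) ^ c < 1 := Real.rpow_lt_one (by norm_num) (by norm_num) hc
    have hc0 : 0 < (1 / 2 : ℝ) ^ c := Real.rpow_pos_of_pos (by norm_num) _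
    have h2 : ∀ j ∈ range J, ∑ p ∈ T₂ with jj p = j,
        f p.1 * f p.2 / DD p.1 p.2 (ψ p.1) (ψ p.2) ≤ 2 * C * F * ((1 / 2 : ℝ) ^ c) ^ j := by
      intro j _
      by_cases hj2 : 2 ≤ j
      · set s : ℝ := (1 / 2 : ℝ) ^ j with hs
        have hs0 : 0 < s := by positivity
        have hs4 : s ≤ 1 / 4 := by
          have : (1 / 2 : ℝ) ^ j ≤ (1 / 2 : ℝ) ^ 2 :=
            pow_le_pow_of_le_one (by norm_num) (by norm_num) hj2
          rw [hs]; norm_num at this ⊢; linarith only [this]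
        have h3 : ∑ p ∈ T₂ with jj p = j, f p.1 * f p.2 / DD p.1 p.2 (ψ p.1) (ψ p.2) ≤
            (2 / s) * ∑ p ∈ T₂ with jj p = j, f p.1 * f p.2 := by
          rw [mul_sum]
          refine sum_le_sum fun p hp => ?_
          rw [mem_filter] at hp
          have h4 := hjj3 p hp.1
          rw [hp.2, pow_succ, ← hs] at h4
          have h5 := mul_nonneg (hf0 p.1) (hf0 p.2)
          rw [div_le_iff₀ (by linarith only [hs0, h4])]
          calc f p.1 * f p.2 = 2 / s * (f p.1 * f p.2) * (s * (1 / 2)) := by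
                (clear * - hs0; field_simp)
            _ ≤ 2 / s * (f p.1 * f p.2) * DD p.1 p.2 (ψ p.1) (ψ p.2) := by
                (clear * - h4 h5; gcongr)
        have h6 : ∑ p ∈ T₂ with jj p = j, f p.1 * f p.2 ≤ C * s ^ (1 + c) * F := by
          refine le_trans ?_ (hyp s hs0 hs4)
          refine sum_le_psum _ N f f hf0 hf0 _ ?_
          intro p hp
          rw [mem_filter] at hp
          obtain ⟨hp1, hp2⟩ := hp
          have hD1 := hjj3 p hp1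
          have hD2 := hjj4 p hp1
          rw [hp2] at hD1 hD2
          rw [← hs] at hD2
          rw [pow_succ, ← hs] at hD1
          rw [hT₂, mem_filter] at hp1
          obtain ⟨h7, h8, h9, m, hm⟩ := hT p hp1.1
          have hq := hS _ h7
          have hr := hS _ h8
          have hD := DD_eq p.1 p.2 hq.1 (ψ p.1) (ψ p.2)
          have hcv : cofac p.2 p.1 = p.2 / Nat.gcd p.1 p.2 := by
            unfold cofac; rw [Nat.gcd_comm]
          have hcu : cofac p.1 p.2 = p.1 / Nat.gcd p.1 p.2 := rfl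
          rw [← hcv, ← hcu] at hD hm
          refine ⟨mem_Icc.mpr ⟨hq.1, hq.2.1⟩, mem_Icc.mpr ⟨hr.1, hr.2.1⟩, ⟨?_, ?_, ?_, ?_⟩, ?_⟩
          · intro he
            exact hp1.2 (eq_of_cofac_eq he)
          · exact (le_max_left _ _).trans (hD ▸ hD2)
          · exact (le_max_right _ _).trans (hD ▸ hD2)
          · have h10 := distInt_le_of_int m hm
            have e : ((cofac p.1 p.2 : ℝ) - (cofac p.2 p.1 : ℝ)) * γ
                = -(((cofac p.2 p.1 : ℝ) - (cofac p.1 p.2 : ℝ)) * γ) := by ring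
            rw [e, distInt_neg]
            linarith only [hD2, h10]
          · rw [← hD]; linarith only [hD1]
        have h11 : s ^ (1 + c) = s * ((1 / 2 : ℝ) ^ c) ^ j := by
          rw [Real.rpow_add hs0, Real.rpow_one, hs, ← Real.rpow_natCast, ← Real.rpow_natCast,
            ← Real.rpow_mul (by norm_num), ← Real.rpow_mul (by norm_num), mul_comm (j : ℝ) c]
        calc ∑ p ∈ T₂ with jj p = j, f p.1 * f p.2 / DD p.1 p.2 (ψ p.1) (ψ p.2)
            ≤ (2 / s) * ∑ p ∈ T₂ with jj p = j, f p.1 * f p.2 := h3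
          _ ≤ (2 / s) * (C * s ^ (1 + c) * F) := by (clear * - h6; gcongr)
          _ = 2 * C * F * ((1 / 2 : ℝ) ^ c) ^ j := by
              rw [h11]; (clear * - hs0; field_simp)
      · have h3 : (T₂.filter (fun p => jj p = j)) = ∅ := by
          rw [filter_eq_empty_iff]
          intro p hp he
          exact hj2 (he ▸ hjj2 p hp)
        rw [h3, sum_empty]
        (clear * - hC hF0; positivity)
    rw [h1]
    calc ∑ j ∈ range J, ∑ p ∈ T₂ with jj p = j, f p.1 * f p.2 / DD p.1 p.2 (ψ p.1) (ψ p.2)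
        ≤ ∑ j ∈ range J, 2 * C * F * ((1 / 2 : ℝ) ^ c) ^ j := sum_le_sum h2
      _ = 2 * C * F * ∑ j ∈ range J, ((1 / 2 : ℝ) ^ c) ^ j := (mul_sum _ _ _).symm
      _ ≤ 2 * C * F * (1 - (1 / 2 : ℝ) ^ c)⁻¹ := by
          have h12 : ∑ j ∈ range J, ((1 / 2 : ℝ) ^ c) ^ j ≤ (1 - (1 / 2 : ℝ) ^ c)⁻¹ := by
            rw [← tsum_geometric_of_lt_one hc0.le hc1]
            exact (summable_geometric_of_lt_one hc0.le hc1).sum_le_tsum _
              (fun j _ => by positivity)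
          (clear * - h12 hC hF0; gcongr)
      _ = 2 * C / (1 - (1 / 2 : ℝ) ^ c) * F := by ring
  rw [hsplit]
  calc _ ≤ F + 2 * C / (1 - (1 / 2 : ℝ) ^ c) * F := add_le_add hdiag hoff
    _ = _ := by ring

end Vale.P028
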