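import Vale.Agent.P028.MathlibUsed
import Vale.Agent.P028.MDefs

/-!
# Base case: the maximal vertex trick
-/

namespace Vale.P028

open Finset

open Classical in
theorem max_vertex (E : ℕ → ℕ → Prop) (N : ℕ) (f h : ℕ → ℝ) (hf : ∀ q, 0 ≤ f q)
    (hh : ∀ r, 0 ≤ h r) (hΛ : 0 < psum E N f h) (hF : 0 < ∑ q ∈ Icc 1 N, f q)
    (hH : 0 < ∑ r ∈ Icc 1 N, h r) :
    ∃ q₀ r₀ : ℕ, 0 < q₀ ∧ 0 < r₀ ∧ E q₀ r₀ ∧
      psum E N f h / (4 * ∑ r ∈ Icc 1 N, h r) ≤ ∑ q ∈ Icc 1 q₀, (if E q r₀ then f q else 0) ∧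
      psum E N f h / (4 * ∑ q ∈ Icc 1 N, f q) ≤ ∑ r ∈ Icc 1 r₀, (if E q₀ r then h r else 0) := by
  set Λ := psum E N f h with hΛdef
  set F := ∑ q ∈ Icc 1 N, f q with hFdef
  set H := ∑ r ∈ Icc 1 N, h r with hHdef
  set e : ℕ → ℕ → ℝ := fun q r => if E q r then f q * h r else 0 with he
  have he0 : ∀ q r, 0 ≤ e q r := by
    intro q r
    simp only [he]
    split_ifs
    · exact mul_nonneg (hf q) (hh r)
    · exact le_refl _
  set Φ : Finset ℕ × Finset ℕ → ℝ := fun S =>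
    ∑ q ∈ S.1, ∑ r ∈ S.2, e q r - Λ / (4 * F) * ∑ q ∈ S.1, f q - Λ / (4 * H) * ∑ r ∈ S.2, h r
    with hΦ
  obtain ⟨⟨A, B⟩, hmem, hmax⟩ := Finset.exists_max_image
    ((Icc 1 N).powerset ×ˢ (Icc 1 N).powerset) Φ
    ⟨(Icc 1 N, Icc 1 N), by simp⟩
  rw [mem_product, mem_powerset, mem_powerset] at hmem
  obtain ⟨hA, hB⟩ := hmem
  simp only at hA hB
  have hval : Λ / 2 ≤ Φ (A, B) := by
    have h1 := hmax (Icc 1 N, Icc 1 N) (by simp)
    have h2 : Φ (Icc 1 N, Icc 1 N) = Λ / 2 := by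
      simp only [hΦ]
      have h3 : ∑ q ∈ Icc 1 N, ∑ r ∈ Icc 1 N, e q r = Λ := by
        rw [hΛdef]; rfl
      rw [h3, ← hFdef, ← hHdef]
      field_simp
      ring
    linarith only [h1, h2]
  have hc1 : 0 < Λ / (4 * F) := by (clear * - hΛ hF; positivity)
  have hc2 : 0 < Λ / (4 * H) := by (clear * - hΛ hH; positivity)
  have hfA : 0 ≤ ∑ q ∈ A, f q := sum_nonneg fun q _ => hf q
  have hhB : 0 ≤ ∑ r ∈ B, h r := sum_nonneg fun r _ => hh r
  have hpos : 0 < ∑ q ∈ A, ∑ r ∈ B, e q r := by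
    have h1 : Φ (A, B) = ∑ q ∈ A, ∑ r ∈ B, e q r - Λ / (4 * F) * ∑ q ∈ A, f q
      - Λ / (4 * H) * ∑ r ∈ B, h r := rfl
    have h2 := mul_nonneg hc1.le hfA
    have h3 := mul_nonneg hc2.le hhB
    linarith only [hΛ, hval, h2, h3]
  -- degrees
  have hdegA : ∀ q ∈ A, 0 < f q → Λ / (4 * F) ≤ ∑ r ∈ B, if E q r then h r else 0 := by
    intro q hq hfq
    have h1 := hmax (A.erase q, B) (by
      rw [mem_product, mem_powerset, mem_powerset]
      exact ⟨(erase_subset _ _).trans hA, hB⟩)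
    have h2 : ∑ q' ∈ A, ∑ r ∈ B, e q' r = ∑ r ∈ B, e q r + ∑ q' ∈ A.erase q, ∑ r ∈ B, e q' r :=
      (add_sum_erase A _ hq).symm
    have h3 : ∑ q' ∈ A, f q' = f q + ∑ q' ∈ A.erase q, f q' := (add_sum_erase A _ hq).symm
    have h4 : ∑ r ∈ B, e q r = f q * ∑ r ∈ B, if E q r then h r else 0 := by
      rw [mul_sum]
      refine sum_congr rfl fun r _ => ?_
      simp only [he]
      split_ifs <;> simp
    simp only [hΦ] at h1
    rw [h2, h3, h4] at h1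
    have h5 : f q * (Λ / (4 * F)) ≤ f q * ∑ r ∈ B, if E q r then h r else 0 := by
      nlinarith only [h1]
    exact le_of_mul_le_mul_left h5 hfq
  have hdegB : ∀ r ∈ B, 0 < h r → Λ / (4 * H) ≤ ∑ q ∈ A, if E q r then f q else 0 := by
    intro r hr hhr
    have h1 := hmax (A, B.erase r) (by
      rw [mem_product, mem_powerset, mem_powerset]
      exact ⟨hA, (erase_subset _ _).trans hB⟩)
    have h2 : ∑ q ∈ A, ∑ r' ∈ B, e q r' = ∑ q ∈ A, e q r + ∑ q ∈ A, ∑ r' ∈ B.erase r, e q r' := by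
      rw [← sum_add_distrib]
      exact sum_congr rfl fun q _ => (add_sum_erase B _ hr).symm
    have h3 : ∑ r' ∈ B, h r' = h r + ∑ r' ∈ B.erase r, h r' := (add_sum_erase B _ hr).symm
    have h4 : ∑ q ∈ A, e q r = h r * ∑ q ∈ A, if E q r then f q else 0 := by
      rw [mul_sum]
      refine sum_congr rfl fun q _ => ?_
      simp only [he]
      split_ifs
      · ring
      · ring
    simp only [hΦ] at h1
    rw [h2, h3, h4] at h1
    have h5 : h r * (Λ / (4 * H)) ≤ h r * ∑ q ∈ A, if E q r then f q else 0 := by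
      nlinarith only [h1]
    exact le_of_mul_le_mul_left h5 hhr
  -- the maximal vertices
  have hprop : ∀ q r, 0 < e q r → E q r ∧ 0 < f q ∧ 0 < h r := by
    intro q r h1
    simp only [he] at h1
    split_ifs at h1 with h2
    · refine ⟨h2, ?_, ?_⟩
      · rcases (hf q).lt_or_eq with h3 | h3
        · exact h3
        · rw [← h3, zero_mul] at h1; exact absurd h1 (lt_irrefl _)
      · rcases (hh r).lt_or_eq with h3 | h3
        · exact h3
        · rw [← h3, mul_zero] at h1; exact absurd h1 (lt_irrefl _)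
    · exact absurd h1 (lt_irrefl _)
  have hprop' : ∀ q r, E q r → 0 < f q → 0 < h r → 0 < e q r := by
    intro q r h1 h2 h3
    simp only [he]
    rw [if_pos h1]
    exact mul_pos h2 h3
  set S := B.filter (fun r => ∃ q ∈ A, 0 < e q r) with hS
  have hSne : S.Nonempty := by
    by_contra hne
    rw [not_nonempty_iff_eq_empty] at hne
    have : ∑ q ∈ A, ∑ r ∈ B, e q r = 0 := by
      refine sum_eq_zero fun q hq => sum_eq_zero fun r hr => ?_
      by_contra h1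
      have h2 : 0 < e q r := lt_of_le_of_ne (he0 q r) (Ne.symm h1)
      have h3 : r ∈ S := by rw [hS, mem_filter]; exact ⟨hr, q, hq, h2⟩
      rw [hne] at h3
      exact absurd h3 (notMem_empty r)
    linarith only [hpos, this]
  obtain ⟨r₀, hr₀S, hr₀max⟩ := S.exists_max_image (fun r => r) hSne
  rw [hS, mem_filter] at hr₀S
  obtain ⟨hr₀B, q₁, hq₁A, hq₁⟩ := hr₀S
  set T := A.filter (fun q => 0 < e q r₀) with hT
  obtain ⟨q₀, hq₀T, hq₀max⟩ := T.exists_max_image (fun q => q)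
    ⟨q₁, by rw [hT, mem_filter]; exact ⟨hq₁A, hq₁⟩⟩
  rw [hT, mem_filter] at hq₀T
  obtain ⟨hq₀A, hq₀⟩ := hq₀T
  obtain ⟨hE₀, hfq₀, hhr₀⟩ := hprop q₀ r₀ hq₀
  have hq₀1 : 0 < q₀ := (mem_Icc.mp (hA hq₀A)).1
  have hr₀1 : 0 < r₀ := (mem_Icc.mp (hB hr₀B)).1
  refine ⟨q₀, r₀, hq₀1, hr₀1, hE₀, ?_, ?_⟩
  · refine (hdegB r₀ hr₀B hhr₀).trans ?_
    calc ∑ q ∈ A, (if E q r₀ then f q else 0)
        = ∑ q ∈ A.filter (fun q => E q r₀ ∧ 0 < f q), (if E q r₀ then f q else 0) := by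
          symm
          apply sum_subset (filter_subset _ _)
          intro q hq hq2
          rw [mem_filter, not_and_or, not_and_or] at hq2
          rcases hq2 with h1 | h1 | h1
          · exact absurd hq h1
          · rw [if_neg h1]
          · have : f q = 0 := le_antisymm (not_lt.mp h1) (hf q)
            rw [this]; simp
      _ ≤ ∑ q ∈ Icc 1 q₀, (if E q r₀ then f q else 0) := by
          apply sum_le_sum_of_subset_of_nonneg
          · intro q hq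
            rw [mem_filter] at hq
            rw [mem_Icc]
            refine ⟨(mem_Icc.mp (hA hq.1)).1, ?_⟩
            apply hq₀max q
            rw [hT, mem_filter]
            exact ⟨hq.1, hprop' q r₀ hq.2.1 hq.2.2 hhr₀⟩
          · intro q _ _
            split_ifs
            · exact hf q
            · exact le_refl _
  · refine (hdegA q₀ hq₀A hfq₀).trans ?_
    calc ∑ r ∈ B, (if E q₀ r then h r else 0)
        = ∑ r ∈ B.filter (fun r => E q₀ r ∧ 0 < h r), (if E q₀ r then h r else 0) := by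
          symm
          apply sum_subset (filter_subset _ _)
          intro r hr hr2
          rw [mem_filter, not_and_or, not_and_or] at hr2
          rcases hr2 with h1 | h1 | h1
          · exact absurd hr h1
          · rw [if_neg h1]
          · have : h r = 0 := le_antisymm (not_lt.mp h1) (hh r)
            rw [this]; simp
      _ ≤ ∑ r ∈ Icc 1 r₀, (if E q₀ r then h r else 0) := by
          apply sum_le_sum_of_subset_of_nonneg
          · intro r hr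
            rw [mem_filter] at hr
            rw [mem_Icc]
            refine ⟨(mem_Icc.mp (hB hr.1)).1, ?_⟩
            apply hr₀max r
            rw [hS, mem_filter]
            exact ⟨hr.1, q₀, hq₀A, hprop' q₀ r hr.2.1 hfq₀ hr.2.2⟩
          · intro r _ _
            split_ifs
            · exact hh r
            · exact le_refl _

theorem edge_empty {Ω : ℕ → ℕ → Prop} {a b : ℕ} {ψ₁ ψ₂ : ℕ → ℝ} {s₁ s₂ : ℝ} {q r : ℕ}
    (_hq : 0 < q) (h : Edge Ω ∅ a b ψ₁ ψ₂ s₁ s₂ q r) :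
    Ω (a * q) (b * r) ∧ (b : ℝ) * (r : ℝ) * ψ₁ q ≤ s₁ ∧ (a : ℝ) * (q : ℝ) * ψ₂ r ≤ s₂ := by
  obtain ⟨h1, h2, h3, h4⟩ := h
  have hg : Nat.gcd q r = 1 := by
    by_contra hne
    obtain ⟨p, hp, hpd⟩ := Nat.exists_prime_and_dvd hne
    exact absurd (h1 p hp hpd) (notMem_empty p)
  have hg' : Nat.gcd r q = 1 := by rw [Nat.gcd_comm]; exact hg
  have e1 : cofac q r = q := by unfold cofac; rw [hg, Nat.div_one]
  have e2 : cofac r q = r := by unfold cofac; rw [hg', Nat.div_one]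
  rw [e1, e2] at h2
  rw [e2] at h3
  rw [e1] at h4
  exact ⟨h2, h3, h4⟩

open Classical in
theorem base_trick (Ω : ℕ → ℕ → Prop) {θ : ℝ} (hθ : 1 / 2 < θ) (hθ1 : θ < 1) (δ : ℝ) (hδ : 0 ≤ δ)
    (a b : ℕ) (ha : 0 < a) (hb : 0 < b)
    (hdens : ∀ q₀ r₀ : ℕ, 0 < q₀ → 0 < r₀ → Ω (a * q₀) (b * r₀) →
      (((Icc 1 q₀).filter (fun m => Ω (a * m) (b * r₀))).card : ℝ) *
        (((Icc 1 r₀).filter (fun n => Ω (a * q₀) (b * n))).card : ℝ) ≤ δ * q₀ * r₀)
    (ψ₁ ψ₂ f h : ℕ → ℝ) (s₁ s₂ : ℝ) (N : ℕ) (hs₁ : 0 < s₁) (hs₂ : 0 < s₂)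
    (hf : ∀ q, 0 ≤ f q ∧ f q ≤ ψ₁ q) (hh : ∀ r, 0 ≤ h r ∧ h r ≤ ψ₂ r) :
    Lam Ω ∅ a b ψ₁ ψ₂ s₁ s₂ N f h ≤
      (16 * s₁ * s₂ * δ / (a * b)) ^ (1 - θ) *
        ((∑ q ∈ Icc 1 N, f q) * ∑ r ∈ Icc 1 N, h r) ^ θ := by
  have ha0 : (0 : ℝ) < a := by exact_mod_cast ha
  have hb0 : (0 : ℝ) < b := by exact_mod_cast hb
  set Z : ℝ := 16 * s₁ * s₂ * δ / (a * b) with hZ
  have hZ0 : 0 ≤ Z := by (clear * - hs₁ hs₂ hδ ha hb; positivity)
  set F := ∑ q ∈ Icc 1 N, f q with hFdef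
  set H := ∑ r ∈ Icc 1 N, h r with hHdef
  have hF0 : 0 ≤ F := sum_nonneg fun q _ => (hf q).1
  have hH0 : 0 ≤ H := sum_nonneg fun r _ => (hh r).1
  set Λ := Lam Ω ∅ a b ψ₁ ψ₂ s₁ s₂ N f h with hΛdef
  have hRHS : 0 ≤ Z ^ (1 - θ) * (F * H) ^ θ :=
    mul_nonneg (Real.rpow_nonneg hZ0 _) (Real.rpow_nonneg (mul_nonneg hF0 hH0) _)
  have hΛle : Λ ≤ F * H := by
    rw [hΛdef, Lam, psum, hFdef, hHdef, sum_mul_sum]
    refine sum_le_sum fun q _ => sum_le_sum fun r _ => ?_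
    split_ifs
    · exact le_refl _
    · exact mul_nonneg (hf q).1 (hh r).1
  rcases le_or_gt Λ 0 with hΛ | hΛ
  · exact hΛ.trans hRHS
  have hFH : 0 < F * H := lt_of_lt_of_le hΛ hΛle
  have hF : 0 < F := by
    rcases hF0.lt_or_eq with h1 | h1
    · exact h1
    · rw [← h1, zero_mul] at hFH; exact absurd hFH (lt_irrefl _)
  have hH : 0 < H := by
    rcases hH0.lt_or_eq with h1 | h1
    · exact h1
    · rw [← h1, mul_zero] at hFH; exact absurd hFH (lt_irrefl _)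
  obtain ⟨q₀, r₀, hq₀, hr₀, hE, h1, h2⟩ := max_vertex (Edge Ω ∅ a b ψ₁ ψ₂ s₁ s₂) N f h
    (fun q => (hf q).1) (fun r => (hh r).1) hΛ hF hH
  have hq0 : (0 : ℝ) < q₀ := by exact_mod_cast hq₀
  have hr0 : (0 : ℝ) < r₀ := by exact_mod_cast hr₀
  have hΩ := (edge_empty hq₀ hE).1
  have h3 : ∑ q ∈ Icc 1 q₀, (if Edge Ω ∅ a b ψ₁ ψ₂ s₁ s₂ q r₀ then f q else 0) ≤
      (((Icc 1 q₀).filter (fun m => Ω (a * m) (b * r₀))).card : ℝ) * (s₁ / (b * r₀)) := by
    rw [← nsmul_eq_mul, ← sum_const, sum_filter]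
    refine sum_le_sum fun q hq => ?_
    have hq1 : 0 < q := (mem_Icc.mp hq).1
    by_cases h4 : Edge Ω ∅ a b ψ₁ ψ₂ s₁ s₂ q r₀
    · obtain ⟨h5, h6, h7⟩ := edge_empty hq1 h4
      rw [if_pos h4, if_pos h5, le_div_iff₀ (by (clear * - hb hr₀; positivity))]
      calc f q * (b * r₀) ≤ ψ₁ q * (b * r₀) :=
            mul_le_mul_of_nonneg_right (hf q).2 (by positivity)
        _ = b * r₀ * ψ₁ q := by ring
        _ ≤ s₁ := h6
    · rw [if_neg h4]
      split_ifs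
      · (clear * - hs₁ hb hr₀; positivity)
      · exact le_refl _
  have h4 : ∑ r ∈ Icc 1 r₀, (if Edge Ω ∅ a b ψ₁ ψ₂ s₁ s₂ q₀ r then h r else 0) ≤
      (((Icc 1 r₀).filter (fun n => Ω (a * q₀) (b * n))).card : ℝ) * (s₂ / (a * q₀)) := by
    rw [← nsmul_eq_mul, ← sum_const, sum_filter]
    refine sum_le_sum fun r hr => ?_
    by_cases h4 : Edge Ω ∅ a b ψ₁ ψ₂ s₁ s₂ q₀ r
    · obtain ⟨h5, h6, h7⟩ := edge_empty hq₀ h4
      rw [if_pos h4, if_pos h5, le_div_iff₀ (by (clear * - ha hq₀; positivity))]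
      calc h r * (a * q₀) ≤ ψ₂ r * (a * q₀) :=
            mul_le_mul_of_nonneg_right (hh r).2 (by positivity)
        _ = a * q₀ * ψ₂ r := by ring
        _ ≤ s₂ := h7
    · rw [if_neg h4]
      split_ifs
      · (clear * - hs₂ ha hq₀; positivity)
      · exact le_refl _
  have h5 := h1.trans h3
  have h6 := h2.trans h4
  have h7 := hdens q₀ r₀ hq₀ hr₀ hΩ
  set c₁ : ℝ := (((Icc 1 q₀).filter (fun m => Ω (a * m) (b * r₀))).card : ℝ) with hc₁
  set c₂ : ℝ := (((Icc 1 r₀).filter (fun n => Ω (a * q₀) (b * n))).card : ℝ) with hc₂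
  have hc₁0 : 0 ≤ c₁ := Nat.cast_nonneg _
  have hc₂0 : 0 ≤ c₂ := Nat.cast_nonneg _
  have h8 : Λ / (4 * H) * (Λ / (4 * F)) ≤ c₁ * (s₁ / (b * r₀)) * (c₂ * (s₂ / (a * q₀))) :=
    mul_le_mul h5 h6 (by (clear * - hΛ hF; positivity)) (by (clear * - hs₁ hb hr₀; positivity))
  have h9 : c₁ * (s₁ / (b * r₀)) * (c₂ * (s₂ / (a * q₀))) ≤ s₁ * s₂ * δ / (a * b) := by
    have : c₁ * (s₁ / (b * r₀)) * (c₂ * (s₂ / (a * q₀)))
        = (c₁ * c₂) * (s₁ * s₂ / (a * b * q₀ * r₀)) := by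
      (clear * - hq₀ ha hs₂ hr₀ hb hs₁; field_simp)
    rw [this]
    calc (c₁ * c₂) * (s₁ * s₂ / (a * b * q₀ * r₀))
        ≤ (δ * q₀ * r₀) * (s₁ * s₂ / (a * b * q₀ * r₀)) :=
          mul_le_mul_of_nonneg_right h7 (by (clear * - hs₁ hs₂ ha hb hq₀ hr₀; positivity))
      _ = s₁ * s₂ * δ / (a * b) := by (clear * - hq₀ hr₀ hb ha hs₂ hs₁; field_simp)
  have h10 : Λ ^ 2 ≤ Z * (F * H) := by
    have h11 := h8.trans h9
    have h12 : Λ / (4 * H) * (Λ / (4 * F)) = Λ ^ 2 / (16 * (F * H)) := by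
      field_simp
      ring
    rw [h12, div_le_iff₀ (by (clear * - hF hH; positivity))] at h11
    rw [hZ]
    calc Λ ^ 2 ≤ s₁ * s₂ * δ / (a * b) * (16 * (F * H)) := h11
      _ = 16 * s₁ * s₂ * δ / (a * b) * (F * H) := by ring
  calc Λ = (Λ ^ 2) ^ (1 - θ) * Λ ^ (2 * θ - 1) := by
        rw [← Real.rpow_natCast Λ 2, ← Real.rpow_mul hΛ.le, ← Real.rpow_add hΛ]
        norm_num
        rw [show 2 * (1 - θ) + (2 * θ - 1) = 1 by ring, Real.rpow_one]
    _ ≤ (Z * (F * H)) ^ (1 - θ) * (F * H) ^ (2 * θ - 1) := by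
        apply mul_le_mul
        · exact Real.rpow_le_rpow (by (clear * - hΛ; positivity)) h10 (by linarith only [hθ1])
        · exact Real.rpow_le_rpow hΛ.le hΛle (by linarith only [hθ])
        · exact Real.rpow_nonneg hΛ.le _
        · exact Real.rpow_nonneg (mul_nonneg hZ0 hFH.le) _
    _ = Z ^ (1 - θ) * (F * H) ^ θ := by
        rw [Real.mul_rpow hZ0 hFH.le, mul_assoc, ← Real.rpow_add hFH]
        congr 2
        ring

end Vale.P028
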