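import Vale.Agent.P028.MathlibUsed
import Vale.Agent.P028.MDefs
import Vale.Agent.P028.OneDim

/-!
# Single prime inequalities
-/

namespace Vale.P028

open Finset

theorem ad_eq_natAbs (i j : ℕ) : ad i j = ((i : ℤ) - j).natAbs := by
  unfold ad
  omega

theorem ad_comm' (i j : ℕ) : ad i j = ad j i := by
  unfold ad
  (clear * -; omega)

theorem ad_self' (i : ℕ) : ad i i = 0 := by
  unfold ad
  omega

/-- Row sums of the kernel `b^|i-j|` off the diagonal. -/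
theorem sum_ad_off {b : ℝ} (hb : 0 ≤ b) (hb1 : b < 1) (i : ℕ) (J : Finset ℕ)
    (hJ : ∀ j ∈ J, j ≠ i) : ∑ j ∈ J, b ^ ad i j ≤ 2 * (b / (1 - b)) := by
  have h := sum_pow_int_le hb hb1 (J.image (fun j : ℕ => (i : ℤ) - j)) (by
    intro d hd
    obtain ⟨j, hj, rfl⟩ := Finset.mem_image.1 hd
    have := hJ j hj
    omega)
  rw [Finset.sum_image (by
    intro a _ b _ hab
    simp only at hab
    omega)] at h
  simpa only [ad_eq_natAbs, ge_iff_le] using h

theorem sum_ad_lt {b : ℝ} (hb : 0 ≤ b) (hb1 : b < 1) (k : ℕ) :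
    ∑ j ∈ range k, b ^ ad k j ≤ b / (1 - b) := by
  have h := sum_pow_nat_le hb hb1 ((range k).image (fun j : ℕ => k - j)) (by
    intro d hd
    obtain ⟨j, hj, rfl⟩ := Finset.mem_image.1 hd
    have := Finset.mem_range.1 hj
    omega)
  rw [Finset.sum_image (by
    intro a ha b hb' hab
    simp only [Finset.coe_range, Set.mem_Iio] at ha hb'
    simp only at hab
    omega)] at h
  refine le_trans (le_of_eq ?_) h
  refine Finset.sum_congr rfl fun j hj => ?_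
  have := Finset.mem_range.1 hj
  congr 1
  unfold ad
  omega

theorem sum_ad_all {b : ℝ} (hb : 0 ≤ b) (hb1 : b < 1) (i : ℕ) (J : Finset ℕ) :
    ∑ j ∈ J, b ^ ad i j ≤ (1 + b) / (1 - b) := by
  have h1 : (1 + b) / (1 - b) = 1 + 2 * (b / (1 - b)) := by
    have : (1 - b) ≠ 0 := by linarith only [hb1]
    field_simp
    ring
  rw [h1]
  by_cases hi : i ∈ J
  · rw [← Finset.add_sum_erase J _ hi, ad_self', pow_zero]
    have := sum_ad_off hb hb1 i (J.erase i) (fun j hj => Finset.ne_of_mem_erase hj)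
    linarith only [this]
  · have := sum_ad_off hb hb1 i J (fun j hj h => hi (h ▸ hj))
    linarith

/-- Two sequences, normalised version with an arbitrary bound for the row sums. -/
theorem bilin_norm {θ b K : ℝ} (hθ : 1 / 2 ≤ θ) (hb : 0 ≤ b) (I J : Finset ℕ)
    (R : ℕ → ℕ → Prop) [DecidableRel R] (φ χ : ℕ → ℝ) (hφ : ∀ i, 0 ≤ φ i) (hχ : ∀ i, 0 ≤ χ i)
    (hφ1 : ∑ i ∈ I, φ i ≤ 1) (hχ1 : ∑ j ∈ J, χ j ≤ 1)
    (h1 : ∀ i ∈ I, ∑ j ∈ J, (if R i j then b ^ ad i j else 0) ≤ K)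
    (h2 : ∀ j ∈ J, ∑ i ∈ I, (if R i j then b ^ ad i j else 0) ≤ K) (hK : 0 ≤ K) :
    ∑ i ∈ I, ∑ j ∈ J, (if R i j then b ^ ad i j * (φ i * χ j) ^ θ else 0) ≤ K := by
  have hterm : ∀ i ∈ I, ∀ j ∈ J, (if R i j then b ^ ad i j * (φ i * χ j) ^ θ else 0) ≤
      φ i / 2 * (if R i j then b ^ ad i j else 0) + χ j / 2 * (if R i j then b ^ ad i j else 0) := by
    intro i hi j hj
    split_ifs
    · have hφi : φ i ≤ 1 := (Finset.single_le_sum (fun i _ => hφ i) hi).trans hφ1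
      have hχj : χ j ≤ 1 := (Finset.single_le_sum (fun i _ => hχ i) hj).trans hχ1
      have e1 : (φ i) ^ (2 * θ) ≤ φ i := by
        rcases (hφ i).eq_or_lt with h | h
        · rw [← h, Real.zero_rpow (by linarith only [hθ])]
        · calc (φ i) ^ (2 * θ) ≤ (φ i) ^ (1 : ℝ) :=
              Real.rpow_le_rpow_of_exponent_ge h hφi (by linarith)
            _ = φ i := Real.rpow_one _
      have e2 : (χ j) ^ (2 * θ) ≤ χ j := by
        rcases (hχ j).eq_or_lt with h | h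
        · rw [← h, Real.zero_rpow (by linarith only [hθ])]
        · calc (χ j) ^ (2 * θ) ≤ (χ j) ^ (1 : ℝ) :=
              Real.rpow_le_rpow_of_exponent_ge h hχj (by linarith)
            _ = χ j := Real.rpow_one _
      have e3 : (φ i * χ j) ^ θ ≤ (φ i) ^ (2 * θ) / 2 + (χ j) ^ (2 * θ) / 2 := by
        rw [Real.mul_rpow (hφ i) (hχ j)]
        have a1 : (φ i) ^ (2 * θ) = ((φ i) ^ θ) ^ 2 := by
          rw [← Real.rpow_natCast, ← Real.rpow_mul (hφ i)]
          norm_num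
          ring_nf
        have a2 : (χ j) ^ (2 * θ) = ((χ j) ^ θ) ^ 2 := by
          rw [← Real.rpow_natCast, ← Real.rpow_mul (hχ j)]
          norm_num
          ring_nf
        rw [a1, a2]
        nlinarith only [sq_nonneg ((φ i) ^ θ - (χ j) ^ θ)]
      have e4 : 0 ≤ b ^ ad i j := pow_nonneg hb _
      have e5 : (φ i * χ j) ^ θ ≤ φ i / 2 + χ j / 2 := by linarith only [e1, e2, e3]
      have := mul_le_mul_of_nonneg_left e5 e4
      linarith
    · simp
  calc ∑ i ∈ I, ∑ j ∈ J, (if R i j then b ^ ad i j * (φ i * χ j) ^ θ else 0)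
      ≤ ∑ i ∈ I, ∑ j ∈ J, (φ i / 2 * (if R i j then b ^ ad i j else 0)
        + χ j / 2 * (if R i j then b ^ ad i j else 0)) :=
        Finset.sum_le_sum fun i hi => Finset.sum_le_sum fun j hj => hterm i hi j hj
    _ = ∑ i ∈ I, φ i / 2 * ∑ j ∈ J, (if R i j then b ^ ad i j else 0)
        + ∑ j ∈ J, χ j / 2 * ∑ i ∈ I, (if R i j then b ^ ad i j else 0) := by
        simp only [Finset.sum_add_distrib]
        congr 1
        · refine Finset.sum_congr rfl fun i _ => ?_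
          rw [Finset.mul_sum]
        · rw [Finset.sum_comm]
          refine Finset.sum_congr rfl fun j _ => ?_
          rw [Finset.mul_sum]
    _ ≤ ∑ i ∈ I, φ i / 2 * K + ∑ j ∈ J, χ j / 2 * K := by
        refine add_le_add (Finset.sum_le_sum fun i hi => ?_) (Finset.sum_le_sum fun j hj => ?_)
        · exact mul_le_mul_of_nonneg_left (h1 i hi) (by have := hφ i; linarith only [this])
        · exact mul_le_mul_of_nonneg_left (h2 j hj) (by have := hχ j; linarith)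
    _ = (∑ i ∈ I, φ i) / 2 * K + (∑ j ∈ J, χ j) / 2 * K := by
        rw [← Finset.sum_mul, ← Finset.sum_mul, Finset.sum_div, Finset.sum_div]
    _ ≤ 1 / 2 * K + 1 / 2 * K := by
        refine add_le_add ?_ ?_
        · exact mul_le_mul_of_nonneg_right (by linarith only [hφ1]) hK
        · exact mul_le_mul_of_nonneg_right (by linarith only [hχ1]) hK
    _ = K := by ring

/-- General version for all pairs. -/
theorem bilin_all {θ b : ℝ} (hθ : 1 / 2 ≤ θ) (hb : 0 ≤ b) (hb1 : b < 1) (I J : Finset ℕ)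
    (φ χ : ℕ → ℝ) (hφ : ∀ i, 0 ≤ φ i) (hχ : ∀ i, 0 ≤ χ i) :
    ∑ i ∈ I, ∑ j ∈ J, b ^ ad i j * (φ i * χ j) ^ θ ≤
      (1 + b) / (1 - b) * ((∑ i ∈ I, φ i) * ∑ j ∈ J, χ j) ^ θ := by
  have hθ0 : θ ≠ 0 := by linarith
  have hK : 0 ≤ (1 + b) / (1 - b) := div_nonneg (by linarith only [hb]) (by linarith only [hb1])
  rcases (Finset.sum_nonneg fun i (_ : i ∈ I) => hφ i).eq_or_lt with h | h
  · have h0 : ∀ i ∈ I, φ i = 0 := (Finset.sum_eq_zero_iff_of_nonneg (fun i _ => hφ i)).1 h.symm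
    rw [← h, zero_mul, Real.zero_rpow hθ0, mul_zero]
    refine le_of_eq (Finset.sum_eq_zero fun i hi => Finset.sum_eq_zero fun j _ => ?_)
    rw [h0 i hi, zero_mul, Real.zero_rpow hθ0, mul_zero]
  rcases (Finset.sum_nonneg fun i (_ : i ∈ J) => hχ i).eq_or_lt with h' | h'
  · have h0 : ∀ i ∈ J, χ i = 0 := (Finset.sum_eq_zero_iff_of_nonneg (fun i _ => hχ i)).1 h'.symm
    rw [← h', mul_zero, Real.zero_rpow hθ0, mul_zero]
    refine le_of_eq (Finset.sum_eq_zero fun i _ => Finset.sum_eq_zero fun j hj => ?_)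
    rw [h0 j hj, mul_zero, Real.zero_rpow hθ0, mul_zero]
  set Φ := ∑ i ∈ I, φ i with hΦ
  set X := ∑ j ∈ J, χ j with hX
  have hmain := bilin_norm hθ hb I J (fun _ _ => True) (fun i => φ i / Φ) (fun j => χ j / X)
    (fun i => div_nonneg (hφ i) h.le) (fun j => div_nonneg (hχ j) h'.le)
    (by rw [← Finset.sum_div, div_self h.ne']) (by rw [← Finset.sum_div, div_self h'.ne'])
    (K := (1 + b) / (1 - b))
    (by
      intro i _
      simpa only [↓reduceIte] using sum_ad_all hb hb1 i J)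
    (by
      intro j _
      have := sum_ad_all hb hb1 j I
      simpa only [↓reduceIte, ad_comm', ge_iff_le] using this) hK
  simp only [if_true] at hmain
  have hpos : 0 < Φ * X := mul_pos h h'
  have hscale : ∀ i j, b ^ ad i j * (φ i * χ j) ^ θ
      = (Φ * X) ^ θ * (b ^ ad i j * (φ i / Φ * (χ j / X)) ^ θ) := by
    intro i j
    have e : φ i * χ j = (Φ * X) * (φ i / Φ * (χ j / X)) := by
      (clear * - h h'; field_simp)
    rw [e, Real.mul_rpow hpos.le (mul_nonneg (div_nonneg (hφ i) h.le) (div_nonneg (hχ j) h'.le))]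
    have e2 : Φ * X * (φ i / Φ * (χ j / X)) / (Φ * X) = φ i / Φ * (χ j / X) := by
      (clear * - h' h; field_simp)
    ring
  calc ∑ i ∈ I, ∑ j ∈ J, b ^ ad i j * (φ i * χ j) ^ θ
      = ∑ i ∈ I, ∑ j ∈ J, (Φ * X) ^ θ * (b ^ ad i j * (φ i / Φ * (χ j / X)) ^ θ) := by
        refine Finset.sum_congr rfl fun i _ => Finset.sum_congr rfl fun j _ => hscale i j
    _ = (Φ * X) ^ θ * ∑ i ∈ I, ∑ j ∈ J, b ^ ad i j * (φ i / Φ * (χ j / X)) ^ θ := by
        simp only [Finset.mul_sum]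
    _ ≤ (Φ * X) ^ θ * ((1 + b) / (1 - b)) :=
        mul_le_mul_of_nonneg_left hmain (Real.rpow_nonneg hpos.le _)
    _ = _ := mul_comm _ _

theorem SP_large {θ b x : ℝ} (hθ : 1 / 2 < θ) (hθ1 : θ < 1) (hb : 0 ≤ b) (hb1 : b < 1)
    (hx : 0 ≤ x) (hx1 : x ≤ 1) : SP θ b x ((1 + b) / (1 - b)) := by
  intro N φ χ hφ hχ
  exact Or.inl (bilin_all hθ.le hb hb1 _ _ φ χ hφ hχ)

/-- Hoelder inequality for one row. -/
theorem holder_row {θ B : ℝ} (hθ : 0 < θ) (hθ1 : θ < 1) (hB : 0 ≤ B) (k : ℕ) (J : Finset ℕ)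
    (χ : ℕ → ℝ) (hχ : ∀ i, 0 ≤ χ i) :
    ∑ j ∈ J, (B ^ (1 - θ)) ^ ad k j * (χ j) ^ θ ≤
      (∑ j ∈ J, χ j) ^ θ * (∑ j ∈ J, B ^ ad k j) ^ (1 - θ) := by
  have hpq : (1 / θ).HolderConjugate (1 / (1 - θ)) :=
    Real.holderConjugate_one_div hθ (by linarith) (by ring)
  have h := Real.inner_le_Lp_mul_Lq_of_nonneg (s := J) (f := fun j => (χ j) ^ θ)
    (g := fun j => (B ^ (1 - θ)) ^ ad k j) hpq (fun j _ => Real.rpow_nonneg (hχ j) _)
    (fun j _ => pow_nonneg (Real.rpow_nonneg hB _) _)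
  have e1 : ∀ j, ((χ j) ^ θ) ^ (1 / θ) = χ j := by
    intro j
    rw [← Real.rpow_mul (hχ j), mul_one_div_cancel hθ.ne', Real.rpow_one]
  have e2 : ∀ j, ((B ^ (1 - θ)) ^ ad k j) ^ (1 / (1 - θ)) = B ^ ad k j := by
    intro j
    rw [← Real.rpow_natCast, ← Real.rpow_mul hB, ← Real.rpow_mul hB]
    have : (1 - θ) * (ad k j : ℝ) * (1 / (1 - θ)) = (ad k j : ℝ) := by
      have : (1 - θ) ≠ 0 := by linarith only [hθ1]
      field_simp
    rw [this, Real.rpow_natCast]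
  simp only [e1, e2, one_div_one_div] at h
  refine le_trans (le_of_eq ?_) h
  refine Finset.sum_congr rfl fun j _ => ?_
  ring

/-- Splitting a double sum along row and column `k`. -/
theorem split_cross {r : Finset ℕ} {k : ℕ} (hk : k ∈ r) (T : ℕ → ℕ → ℝ) :
    ∑ i ∈ r, ∑ j ∈ r, T i j = T k k + ∑ j ∈ r.erase k, T k j + ∑ i ∈ r.erase k, T i k +
      ∑ i ∈ r.erase k, ∑ j ∈ r.erase k, T i j := by
  rw [← Finset.add_sum_erase r _ hk, ← Finset.add_sum_erase r _ hk]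
  have : ∑ i ∈ r.erase k, ∑ j ∈ r, T i j
      = ∑ i ∈ r.erase k, (T i k + ∑ j ∈ r.erase k, T i j) := by
    refine Finset.sum_congr rfl fun i _ => ?_
    rw [Finset.add_sum_erase r _ hk]
  rw [this, Finset.sum_add_distrib]
  ring

theorem bern {θ t : ℝ} (hθ : 0 ≤ θ) (hθ1 : θ ≤ 1) (ht : t ≤ 1) : (1 - t) ^ θ ≤ 1 - θ * t := by
  have h := rpow_one_add_le_one_add_mul_self (s := -t) (by linarith) hθ hθ1
  calc (1 - t) ^ θ = (1 + -t) ^ θ := by ring_nf
    _ ≤ 1 + θ * -t := h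
    _ = _ := by ring

/-- Main estimate of the exact sum around the index `k`. -/
theorem exact_le {θ B : ℝ} (hθ : 1 / 2 < θ) (hθ1 : θ < 1) (hB : 0 < B) (hB2 : B ≤ 1 / 2)
    (hb2 : B ^ (1 - θ) ≤ 1 / 2) (N : ℕ) (φ χ : ℕ → ℝ) (hφ : ∀ i, 0 ≤ φ i) (hχ : ∀ i, 0 ≤ χ i)
    (hφ1 : ∑ i ∈ range (N + 1), φ i = 1) (hχ1 : ∑ i ∈ range (N + 1), χ i = 1) {k : ℕ}
    (hk : k ∈ range (N + 1)) :
    ∑ i ∈ range (N + 1), ∑ j ∈ range (N + 1), (B ^ (1 - θ)) ^ ad i j * (φ i * χ j) ^ θ ≤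
      (φ k) ^ θ * (χ k) ^ θ + 2 * B ^ (1 - θ) * ((1 - φ k) ^ θ + (1 - χ k) ^ θ) +
        3 * ((1 - φ k) * (1 - χ k)) ^ θ := by
  set r := range (N + 1) with hr
  set b := B ^ (1 - θ) with hb
  have hb0 : 0 < b := Real.rpow_pos_of_pos hB _
  have hξ : ∑ i ∈ r.erase k, φ i = 1 - φ k := by
    rw [← hφ1, ← Finset.add_sum_erase r _ hk]; ring
  have hζ : ∑ i ∈ r.erase k, χ i = 1 - χ k := by
    rw [← hχ1, ← Finset.add_sum_erase r _ hk]; ring
  have hφk : φ k ≤ 1 := by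
    rw [← hφ1]; exact Finset.single_le_sum (fun i _ => hφ i) hk
  have hχk : χ k ≤ 1 := by
    rw [← hχ1]; exact Finset.single_le_sum (fun i _ => hχ i) hk
  have hK : (1 + b) / (1 - b) ≤ 3 := by
    rw [div_le_iff₀ (by linarith only [hb2])]; linarith only [hb2]
  have hKB : (∑ j ∈ r.erase k, B ^ ad k j) ^ (1 - θ) ≤ 2 * b := by
    have h1 := sum_ad_off hB.le (by linarith only [hB2] : B < 1) k (r.erase k)
      (fun j hj => Finset.ne_of_mem_erase hj)
    have h2 : 2 * (B / (1 - B)) ≤ 4 * B := by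
      have : B / (1 - B) ≤ 2 * B := by
        rw [div_le_iff₀ (by linarith only [hB2])]
        nlinarith only [hB, hB2]
      linarith only [this]
    have h0 : 0 ≤ ∑ j ∈ r.erase k, B ^ ad k j := Finset.sum_nonneg fun j _ => by (clear * - hB; positivity)
    calc (∑ j ∈ r.erase k, B ^ ad k j) ^ (1 - θ) ≤ (4 * B) ^ (1 - θ) :=
          Real.rpow_le_rpow h0 (h1.trans h2) (by linarith only [hθ1])
      _ = 4 ^ (1 - θ) * b := by rw [Real.mul_rpow (by norm_num) hB.le]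
      _ ≤ 2 * b := by
          refine mul_le_mul_of_nonneg_right ?_ hb0.le
          calc (4 : ℝ) ^ (1 - θ) ≤ (4 : ℝ) ^ (1 / 2 : ℝ) :=
                Real.rpow_le_rpow_of_exponent_le (by norm_num) (by linarith only [hθ])
            _ = 2 := by
                rw [← Real.sqrt_eq_rpow, show (4 : ℝ) = 2 ^ 2 by norm_num,
                  Real.sqrt_sq (by norm_num)]
  rw [split_cross hk]
  have t1 : b ^ ad k k * (φ k * χ k) ^ θ = (φ k) ^ θ * (χ k) ^ θ := by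
    rw [ad_self', pow_zero, one_mul, Real.mul_rpow (hφ k) (hχ k)]
  have t2 : ∑ j ∈ r.erase k, b ^ ad k j * (φ k * χ j) ^ θ ≤ 2 * b * (1 - χ k) ^ θ := by
    calc ∑ j ∈ r.erase k, b ^ ad k j * (φ k * χ j) ^ θ
        ≤ ∑ j ∈ r.erase k, b ^ ad k j * (χ j) ^ θ := by
          refine Finset.sum_le_sum fun j _ => mul_le_mul_of_nonneg_left ?_ (by (clear * - hB; positivity))
          exact Real.rpow_le_rpow (mul_nonneg (hφ k) (hχ j))
            (mul_le_of_le_one_left (hχ j) hφk) (by linarith only [hθ])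
      _ ≤ (∑ j ∈ r.erase k, χ j) ^ θ * (∑ j ∈ r.erase k, B ^ ad k j) ^ (1 - θ) :=
          holder_row (by linarith only [hθ]) hθ1 hB.le k _ χ hχ
      _ ≤ (1 - χ k) ^ θ * (2 * b) := by
          rw [hζ]
          exact mul_le_mul_of_nonneg_left hKB (Real.rpow_nonneg (by linarith only [hχk]) _)
      _ = _ := by ring
  have t3 : ∑ i ∈ r.erase k, b ^ ad i k * (φ i * χ k) ^ θ ≤ 2 * b * (1 - φ k) ^ θ := by
    calc ∑ i ∈ r.erase k, b ^ ad i k * (φ i * χ k) ^ θ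
        ≤ ∑ i ∈ r.erase k, b ^ ad k i * (φ i) ^ θ := by
          refine Finset.sum_le_sum fun i _ => ?_
          rw [ad_comm' i k]
          refine mul_le_mul_of_nonneg_left ?_ (by (clear * - hB; positivity))
          exact Real.rpow_le_rpow (mul_nonneg (hφ i) (hχ k))
            (mul_le_of_le_one_right (hφ i) hχk) (by linarith only [hθ])
      _ ≤ (∑ j ∈ r.erase k, φ j) ^ θ * (∑ j ∈ r.erase k, B ^ ad k j) ^ (1 - θ) :=
          holder_row (by linarith only [hθ]) hθ1 hB.le k _ φ hφ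
      _ ≤ (1 - φ k) ^ θ * (2 * b) := by
          rw [hξ]
          exact mul_le_mul_of_nonneg_left hKB (Real.rpow_nonneg (by linarith only [hφk]) _)
      _ = _ := by ring
  have t4 : ∑ i ∈ r.erase k, ∑ j ∈ r.erase k, b ^ ad i j * (φ i * χ j) ^ θ ≤
      3 * ((1 - φ k) * (1 - χ k)) ^ θ := by
    have h := bilin_all hθ.le hb0.le (by linarith only [hb2] : b < 1) (r.erase k) (r.erase k) φ χ hφ hχ
    rw [hξ, hζ] at h
    refine h.trans (mul_le_mul_of_nonneg_right hK (Real.rpow_nonneg ?_ _))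
    exact mul_nonneg (by linarith only [hφk]) (by linarith only [hχk])
  rw [t1]
  linarith only [t2, t3, t4]

/-- Estimate of the cells outside the `L`-shaped cell `k`. -/
theorem lcell_le {θ B : ℝ} (hθ : 1 / 2 < θ) (hθ1 : θ < 1) (hB : 0 < B) (hB2 : B ≤ 1 / 2)
    (hb2 : B ^ (1 - θ) ≤ 1 / 2) (N : ℕ) (φ χ : ℕ → ℝ) (hφ : ∀ i, 0 ≤ φ i) (hχ : ∀ i, 0 ≤ χ i)
    (hφ1 : ∑ i ∈ range (N + 1), φ i = 1) (hχ1 : ∑ i ∈ range (N + 1), χ i = 1) {k : ℕ}
    (hk : k ∈ range (N + 1)) :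
    ∑ i ∈ range (N + 1), ∑ j ∈ range (N + 1),
      (if min i j = k then 0 else (B ^ (1 - θ)) ^ ad i j * (φ i * χ j) ^ θ) ≤
      (1 + 2 * B) * B ^ (1 - θ) * ((∑ i ∈ range k, φ i) ^ θ + (∑ i ∈ range k, χ i) ^ θ) +
        3 * ((1 - φ k) * (1 - χ k)) ^ θ := by
  set r := range (N + 1) with hr
  set b := B ^ (1 - θ) with hb
  have hb0 : 0 < b := Real.rpow_pos_of_pos hB _
  have hξ : ∑ i ∈ r.erase k, φ i = 1 - φ k := by
    rw [← hφ1, ← Finset.add_sum_erase r _ hk]; ring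
  have hζ : ∑ i ∈ r.erase k, χ i = 1 - χ k := by
    rw [← hχ1, ← Finset.add_sum_erase r _ hk]; ring
  have hφk : φ k ≤ 1 := by
    rw [← hφ1]; exact Finset.single_le_sum (fun i _ => hφ i) hk
  have hχk : χ k ≤ 1 := by
    rw [← hχ1]; exact Finset.single_le_sum (fun i _ => hχ i) hk
  have hK : (1 + b) / (1 - b) ≤ 3 := by
    rw [div_le_iff₀ (by linarith only [hb2])]; linarith only [hb2]
  have hkN : k < N + 1 := Finset.mem_range.1 hk
  have hKB : (∑ j ∈ range k, B ^ ad k j) ^ (1 - θ) ≤ (1 + 2 * B) * b := by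
    have h1 := sum_ad_lt hB.le (by linarith only [hB2] : B < 1) k
    have h2 : B / (1 - B) ≤ (1 + 2 * B) * B := by
      rw [div_le_iff₀ (by linarith only [hB2])]
      nlinarith only [mul_nonneg (mul_nonneg hB.le hB.le) (by linarith : 0 ≤ 1 - 2 * B)]
    have h0 : 0 ≤ ∑ j ∈ range k, B ^ ad k j := Finset.sum_nonneg fun j _ => by positivity
    calc (∑ j ∈ range k, B ^ ad k j) ^ (1 - θ) ≤ ((1 + 2 * B) * B) ^ (1 - θ) :=
          Real.rpow_le_rpow h0 (h1.trans h2) (by linarith only [hθ1])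
      _ = (1 + 2 * B) ^ (1 - θ) * b := by rw [Real.mul_rpow (by linarith only [hB]) hB.le]
      _ ≤ (1 + 2 * B) * b := by
          refine mul_le_mul_of_nonneg_right ?_ hb0.le
          calc (1 + 2 * B) ^ (1 - θ) ≤ (1 + 2 * B) ^ (1 : ℝ) :=
                Real.rpow_le_rpow_of_exponent_le (by linarith only [hB]) (by linarith only [hθ])
            _ = 1 + 2 * B := Real.rpow_one _
  have hT0 : ∀ i j, 0 ≤ b ^ ad i j * (φ i * χ j) ^ θ := fun i j =>
    mul_nonneg (by positivity) (Real.rpow_nonneg (mul_nonneg (hφ i) (hχ j)) _)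
  rw [split_cross hk (fun i j => if min i j = k then 0 else b ^ ad i j * (φ i * χ j) ^ θ)]
  have t1 : (if min k k = k then (0 : ℝ) else b ^ ad k k * (φ k * χ k) ^ θ) = 0 := by simp
  have t2 : ∑ j ∈ r.erase k, (if min k j = k then (0 : ℝ) else b ^ ad k j * (φ k * χ j) ^ θ) ≤
      (1 + 2 * B) * b * (∑ i ∈ range k, χ i) ^ θ := by
    calc ∑ j ∈ r.erase k, (if min k j = k then (0 : ℝ) else b ^ ad k j * (φ k * χ j) ^ θ)
        ≤ ∑ j ∈ range k, b ^ ad k j * (χ j) ^ θ := by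
          have e : ∑ j ∈ r.erase k, (if min k j = k then (0 : ℝ) else
              b ^ ad k j * (φ k * χ j) ^ θ)
              = ∑ j ∈ (r.erase k).filter (fun j => j < k), b ^ ad k j * (φ k * χ j) ^ θ := by
            rw [Finset.sum_filter]
            refine Finset.sum_congr rfl fun j hj => ?_
            have hjk : j ≠ k := Finset.ne_of_mem_erase hj
            by_cases hlt : j < k
            · rw [if_neg (by (clear * - hlt; omega)), if_pos hlt]
            · rw [if_pos (by omega), if_neg hlt]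
          rw [e]
          have hsub : (r.erase k).filter (fun j => j < k) ⊆ range k := by
            intro j hj
            exact Finset.mem_range.2 (Finset.mem_filter.1 hj).2
          refine (Finset.sum_le_sum_of_subset_of_nonneg hsub
            (fun j _ _ => hT0 k j)).trans ?_
          refine Finset.sum_le_sum fun j _ => mul_le_mul_of_nonneg_left ?_ (by positivity)
          exact Real.rpow_le_rpow (mul_nonneg (hφ k) (hχ j))
            (mul_le_of_le_one_left (hχ j) hφk) (by linarith only [hθ])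
      _ ≤ (∑ j ∈ range k, χ j) ^ θ * (∑ j ∈ range k, B ^ ad k j) ^ (1 - θ) :=
          holder_row (by linarith only [hθ]) hθ1 hB.le k _ χ hχ
      _ ≤ (∑ j ∈ range k, χ j) ^ θ * ((1 + 2 * B) * b) :=
          mul_le_mul_of_nonneg_left hKB
            (Real.rpow_nonneg (Finset.sum_nonneg fun i _ => hχ i) _)
      _ = _ := by ring
  have t3 : ∑ i ∈ r.erase k, (if min i k = k then (0 : ℝ) else b ^ ad i k * (φ i * χ k) ^ θ) ≤
      (1 + 2 * B) * b * (∑ i ∈ range k, φ i) ^ θ := by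
    calc ∑ i ∈ r.erase k, (if min i k = k then (0 : ℝ) else b ^ ad i k * (φ i * χ k) ^ θ)
        ≤ ∑ i ∈ range k, b ^ ad k i * (φ i) ^ θ := by
          have e : ∑ i ∈ r.erase k, (if min i k = k then (0 : ℝ) else
              b ^ ad i k * (φ i * χ k) ^ θ)
              = ∑ i ∈ (r.erase k).filter (fun i => i < k), b ^ ad i k * (φ i * χ k) ^ θ := by
            rw [Finset.sum_filter]
            refine Finset.sum_congr rfl fun i hi => ?_
            have hik : i ≠ k := Finset.ne_of_mem_erase hi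
            by_cases hlt : i < k
            · rw [if_neg (by (clear * - hlt; omega)), if_pos hlt]
            · rw [if_pos (by omega), if_neg hlt]
          rw [e]
          have hsub : (r.erase k).filter (fun i => i < k) ⊆ range k := by
            intro i hi
            exact Finset.mem_range.2 (Finset.mem_filter.1 hi).2
          refine (Finset.sum_le_sum_of_subset_of_nonneg hsub
            (fun i _ _ => hT0 i k)).trans ?_
          refine Finset.sum_le_sum fun i _ => ?_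
          rw [ad_comm' i k]
          refine mul_le_mul_of_nonneg_left ?_ (by (clear * - hB; positivity))
          exact Real.rpow_le_rpow (mul_nonneg (hφ i) (hχ k))
            (mul_le_of_le_one_right (hφ i) hχk) (by linarith only [hθ])
      _ ≤ (∑ j ∈ range k, φ j) ^ θ * (∑ j ∈ range k, B ^ ad k j) ^ (1 - θ) :=
          holder_row (by linarith only [hθ]) hθ1 hB.le k _ φ hφ
      _ ≤ (∑ j ∈ range k, φ j) ^ θ * ((1 + 2 * B) * b) :=
          mul_le_mul_of_nonneg_left hKB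
            (Real.rpow_nonneg (Finset.sum_nonneg fun i _ => hφ i) _)
      _ = _ := by ring
  have t4 : ∑ i ∈ r.erase k, ∑ j ∈ r.erase k,
      (if min i j = k then (0 : ℝ) else b ^ ad i j * (φ i * χ j) ^ θ) ≤
      3 * ((1 - φ k) * (1 - χ k)) ^ θ := by
    have h := bilin_all hθ.le hb0.le (by linarith only [hb2] : b < 1) (r.erase k) (r.erase k) φ χ hφ hχ
    rw [hξ, hζ] at h
    refine le_trans (Finset.sum_le_sum fun i _ => Finset.sum_le_sum fun j _ => ?_)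
      (h.trans (mul_le_mul_of_nonneg_right hK (Real.rpow_nonneg
        (mul_nonneg (by linarith only [hφk]) (by linarith only [hχk])) _)))
    split_ifs
    · exact hT0 i j
    · exact le_rfl
  rw [t1]
  linarith only [t2, t3, t4]

/-- If the exact sum exceeds one then there is a common index carrying almost all the mass. -/
theorem exists_peak {θ b : ℝ} (hθ : 1 / 2 < θ) (hθ1 : θ < 1) (hb0 : 0 ≤ b) (hb2 : b ≤ 1 / 4)
    (N : ℕ) (φ χ : ℕ → ℝ) (hφ : ∀ i, 0 ≤ φ i) (hχ : ∀ i, 0 ≤ χ i)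
    (hφ1 : ∑ i ∈ range (N + 1), φ i = 1) (hχ1 : ∑ i ∈ range (N + 1), χ i = 1)
    (hS : 1 < ∑ i ∈ range (N + 1), ∑ j ∈ range (N + 1), b ^ ad i j * (φ i * χ j) ^ θ) :
    ∃ k ∈ range (N + 1), 1 - φ k ≤ 1 / (θ - 1 / 2) * (4 * b) ∧
      1 - χ k ≤ 1 / (θ - 1 / 2) * (4 * b) := by
  set r := range (N + 1) with hr
  have hne : r.Nonempty := ⟨0, by simp only [hr, mem_range, lt_add_iff_pos_left, Order.lt_add_one_iff, zero_le]⟩
  obtain ⟨k, hk, hmax⟩ := Finset.exists_max_image r (fun i => φ i * χ i) hne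
  refine ⟨k, hk, ?_⟩
  have hφk : φ k ≤ 1 := by
    rw [← hφ1]; exact Finset.single_le_sum (fun i _ => hφ i) hk
  have hχk : χ k ≤ 1 := by
    rw [← hχ1]; exact Finset.single_le_sum (fun i _ => hχ i) hk
  have hm0 : 0 ≤ φ k * χ k := mul_nonneg (hφ k) (hχ k)
  -- splitting into diagonal and off-diagonal part
  have hsplit : ∑ i ∈ r, ∑ j ∈ r, b ^ ad i j * (φ i * χ j) ^ θ
      = ∑ i ∈ r, (φ i * χ i) ^ θ +
        ∑ i ∈ r, ∑ j ∈ r, (if i ≠ j then b ^ ad i j * (φ i * χ j) ^ θ else 0) := by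
    rw [← Finset.sum_add_distrib]
    refine Finset.sum_congr rfl fun i hi => ?_
    rw [← Finset.add_sum_erase r _ hi, ← Finset.add_sum_erase r (fun j => if i ≠ j then
      b ^ ad i j * (φ i * χ j) ^ θ else 0) hi]
    simp only [ad_self', pow_zero, one_mul, ne_eq, not_true_eq_false, if_false, zero_add]
    congr 1
    refine Finset.sum_congr rfl fun j hj => ?_
    rw [if_pos (Finset.ne_of_mem_erase hj).symm]
  have hoff : ∑ i ∈ r, ∑ j ∈ r, (if i ≠ j then b ^ ad i j * (φ i * χ j) ^ θ else 0) ≤ 4 * b := by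
    have hK : 2 * (b / (1 - b)) ≤ 4 * b := by
      have : b / (1 - b) ≤ 2 * b := by
        rw [div_le_iff₀ (by linarith only [hb2])]
        nlinarith only [hb0, hb2]
      linarith only [this]
    refine bilin_norm hθ.le hb0 r r (fun i j => i ≠ j) φ χ hφ hχ hφ1.le hχ1.le ?_ ?_
      (by linarith only [hb0])
    · intro i _
      rw [← Finset.sum_filter]
      refine (sum_ad_off hb0 (by linarith only [hb2]) i _ ?_).trans hK
      intro j hj
      exact (Finset.mem_filter.1 hj).2.symm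
    · intro j _
      rw [← Finset.sum_filter]
      have := (sum_ad_off hb0 (by linarith only [hb2]) j (r.filter (fun i => i ≠ j)) ?_).trans hK
      · simpa only [ne_eq, ad_comm', ge_iff_le] using this
      · intro i hi
        exact (Finset.mem_filter.1 hi).2
  have hdiag : ∑ i ∈ r, (φ i * χ i) ^ θ ≤ (φ k * χ k) ^ (θ - 1 / 2) := by
    calc ∑ i ∈ r, (φ i * χ i) ^ θ
        ≤ ∑ i ∈ r, (φ k * χ k) ^ (θ - 1 / 2) * ((φ i + χ i) / 2) := by
          refine Finset.sum_le_sum fun i hi => ?_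
          have h0 : 0 ≤ φ i * χ i := mul_nonneg (hφ i) (hχ i)
          have e : (φ i * χ i) ^ θ = (φ i * χ i) ^ (θ - 1 / 2) * (φ i * χ i) ^ (1 / 2 : ℝ) := by
            rw [← Real.rpow_add_of_nonneg h0 (by linarith only [hθ]) (by norm_num)]
            congr 1
            ring
          rw [e]
          refine mul_le_mul (Real.rpow_le_rpow h0 (hmax i hi) (by linarith only [hθ])) ?_
            (Real.rpow_nonneg h0 _) (Real.rpow_nonneg hm0 _)
          rw [← Real.sqrt_eq_rpow]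
          refine Real.sqrt_le_iff.2 ⟨by have := hφ i; have := hχ i; (clear θ b hθ hθ1 hb0 hb2 N r hφ1 hχ1 hS hr hne k hk hmax hφk hχk hm0 hsplit hoff hi h0 e; linarith), ?_⟩
          nlinarith only [sq_nonneg (φ i - χ i)]
      _ = (φ k * χ k) ^ (θ - 1 / 2) := by
          rw [← Finset.mul_sum, ← Finset.sum_div, Finset.sum_add_distrib, hφ1, hχ1]
          norm_num
  have hbig : 1 - 4 * b ≤ (φ k * χ k) ^ (θ - 1 / 2) := by
    rw [hsplit] at hS
    linarith only [hS, hoff, hdiag]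
  have hr1 : 1 ≤ 1 / (θ - 1 / 2) := by
    rw [le_div_iff₀ (by linarith only [hθ])]
    linarith only [hθ1]
  have hm : 1 - 1 / (θ - 1 / 2) * (4 * b) ≤ φ k * χ k := by
    have h1 := one_add_mul_self_le_rpow_one_add (s := -(4 * b)) (by linarith only [hb2]) hr1
    have h2 : (1 - 4 * b) ^ (1 / (θ - 1 / 2)) ≤ φ k * χ k := by
      calc (1 - 4 * b) ^ (1 / (θ - 1 / 2))
          ≤ ((φ k * χ k) ^ (θ - 1 / 2)) ^ (1 / (θ - 1 / 2)) :=
            Real.rpow_le_rpow (by linarith only [hb2]) hbig (by linarith only [hr1])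
        _ = φ k * χ k := by
            rw [← Real.rpow_mul hm0, mul_one_div_cancel (by linarith only [hθ]), Real.rpow_one]
    have e : (1 : ℝ) + -(4 * b) = 1 - 4 * b := by ring
    rw [e] at h1
    linarith only [h1, h2]
  constructor
  · have : φ k * χ k ≤ φ k := mul_le_of_le_one_right (hφ k) hχk
    linarith only [hm, this]
  · have : φ k * χ k ≤ χ k := mul_le_of_le_one_left (hχ k) hφk
    linarith only [hm, this]

/-- Numerical inequality when the mass off the peak is not too small. -/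
theorem num_far {θ B b ξ ζ C₁ T₀ : ℝ} (hθ : 1 / 2 < θ) (hθ1 : θ < 1) (hB : 0 < B)
    (hb : b = B ^ (1 - θ)) (hC₁ : 0 < C₁) (hC : C₁ ^ (1 - θ) = 16 / (3 * θ))
    (hT1 : T₀ ≤ 1) (hTθ : T₀ ^ (2 * θ - 1) ≤ θ / 8)
    (hξ : 0 ≤ ξ) (hξT : ξ ≤ T₀) (hζ : 0 ≤ ζ) (hζT : ζ ≤ T₀) (hmax : C₁ * B ≤ max ξ ζ) :
    (1 - ξ) ^ θ * (1 - ζ) ^ θ + 2 * b * (ξ ^ θ + ζ ^ θ) + 3 * (ξ * ζ) ^ θ ≤ 1 := by
  have hb0 : 0 < b := by
    rw [hb]; exact Real.rpow_pos_of_pos hB _
  have hξ1 : ξ ≤ 1 := hξT.trans hT1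
  have hζ1 : ζ ≤ 1 := hζT.trans hT1
  set m := max ξ ζ with hm
  have hm0 : 0 < m := lt_of_lt_of_le (by (clear * - hC₁ hB; positivity)) hmax
  have hT0 : 0 ≤ T₀ := hξ.trans hξT
  have b1 : (1 - ξ) ^ θ ≤ 1 - θ * ξ := bern (by linarith only [hθ]) hθ1.le hξ1
  have b2 : (1 - ζ) ^ θ ≤ 1 - θ * ζ := bern (by linarith only [hθ]) hθ1.le hζ1
  have hθξ : θ * ξ ≤ 1 := by nlinarith only [hθ1, hT1, hξT, hθ]
  have hθζ : θ * ζ ≤ 1 := by nlinarith only [hθ1, hT1, hζT, hθ]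
  have b3 : (1 - ξ) ^ θ * (1 - ζ) ^ θ ≤ (1 - θ * ξ) * (1 - θ * ζ) :=
    mul_le_mul b1 b2 (Real.rpow_nonneg (by linarith only [hT1, hζT]) _) (by linarith only [hθξ])
  have hξζ0 : 0 ≤ ξ * ζ := mul_nonneg hξ hζ
  have hξζ1 : ξ * ζ ≤ 1 := by nlinarith only [hT1, hξT, hξ, hζT]
  have b4 : ξ * ζ ≤ (ξ * ζ) ^ θ := by
    rcases hξζ0.eq_or_lt with h | h
    · rw [← h, Real.zero_rpow (by linarith only [hθ])]
    · calc ξ * ζ = (ξ * ζ) ^ (1 : ℝ) := (Real.rpow_one _).symm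
        _ ≤ (ξ * ζ) ^ θ := Real.rpow_le_rpow_of_exponent_ge h hξζ1 hθ1.le
  have b5 : θ ^ 2 * (ξ * ζ) ≤ (ξ * ζ) ^ θ := by
    have : θ ^ 2 ≤ 1 := by nlinarith only [hθ1, hθ]
    nlinarith only [b4, hξζ0, this]
  have b6 : 4 * (ξ * ζ) ^ θ ≤ θ / 4 * (ξ + ζ) := by
    have hw0 : 0 ≤ (ξ + ζ) / 2 := by linarith only [hξ, hζ]
    have hwT : (ξ + ζ) / 2 ≤ T₀ := by linarith only [hξT, hζT]
    have e1 : (ξ * ζ) ^ θ ≤ ((ξ + ζ) / 2) ^ (2 * θ) := by
      calc (ξ * ζ) ^ θ ≤ (((ξ + ζ) / 2) ^ 2) ^ θ :=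
            Real.rpow_le_rpow hξζ0 (by nlinarith only [sq_nonneg (ξ - ζ)]) (by linarith only [hθ])
        _ = ((ξ + ζ) / 2) ^ (2 * θ) := by
            rw [← Real.rpow_natCast, ← Real.rpow_mul hw0]
            norm_num
    have e2 : ((ξ + ζ) / 2) ^ (2 * θ) = (ξ + ζ) / 2 * ((ξ + ζ) / 2) ^ (2 * θ - 1) := by
      rcases hw0.eq_or_lt with h | h
      · rw [← h, Real.zero_rpow (by linarith only [hθ]), zero_mul]
      · nth_rewrite 2 [← Real.rpow_one ((ξ + ζ) / 2)]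
        rw [← Real.rpow_add h]
        congr 1
        ring
    have e3 : ((ξ + ζ) / 2) ^ (2 * θ - 1) ≤ θ / 8 :=
      (Real.rpow_le_rpow hw0 hwT (by linarith only [hθ])).trans hTθ
    have e4 := mul_le_mul_of_nonneg_left e3 hw0
    rw [e2] at e1
    linarith only [e1, e4]
  have b7 : 2 * b * (ξ ^ θ + ζ ^ θ) ≤ 3 * θ / 4 * (ξ + ζ) := by
    have hbm : b ≤ m ^ (1 - θ) * (3 * θ / 16) := by
      have h1 : C₁ ^ (1 - θ) * b ≤ m ^ (1 - θ) := by
        rw [hb, ← Real.mul_rpow hC₁.le hB.le]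
        exact Real.rpow_le_rpow (by (clear * - hC₁ hB; positivity)) hmax (by linarith only [hθ1])
      rw [hC] at h1
      have h2 : 16 / (3 * θ) * b * (3 * θ / 16) = b := by
        have : θ ≠ 0 := by linarith only [hθ]
        (clear * - this hb0; field_simp)
      calc b = 16 / (3 * θ) * b * (3 * θ / 16) := h2.symm
        _ ≤ m ^ (1 - θ) * (3 * θ / 16) := mul_le_mul_of_nonneg_right h1 (by linarith only [hθ])
    have hξm : ξ ^ θ ≤ m ^ θ := Real.rpow_le_rpow hξ (le_max_left _ _) (by linarith only [hθ])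
    have hζm : ζ ^ θ ≤ m ^ θ := Real.rpow_le_rpow hζ (le_max_right _ _) (by linarith only [hθ])
    have hmm : m ^ (1 - θ) * m ^ θ = m := by
      rw [← Real.rpow_add hm0]
      simp
    have hmθ : 0 ≤ m ^ θ := Real.rpow_nonneg hm0.le _
    have hmle : m ≤ ξ + ζ := max_le (by linarith only [hζ]) (by linarith only [hξ])
    calc 2 * b * (ξ ^ θ + ζ ^ θ) ≤ 2 * b * (m ^ θ + m ^ θ) :=
          mul_le_mul_of_nonneg_left (by linarith only [hξm, hζm]) (by linarith only [hb0])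
      _ = 4 * (b * m ^ θ) := by ring
      _ ≤ 4 * (m ^ (1 - θ) * (3 * θ / 16) * m ^ θ) := by
          have := mul_le_mul_of_nonneg_right hbm hmθ
          linarith only [this]
      _ = 3 * θ / 4 * (m ^ (1 - θ) * m ^ θ) := by ring
      _ = 3 * θ / 4 * m := by rw [hmm]
      _ ≤ 3 * θ / 4 * (ξ + ζ) := mul_le_mul_of_nonneg_left hmle (by linarith only [hθ])
  nlinarith only [b3, b5, b6, b7]

/-- Numerical inequality for the `L`-shaped cell `k ≥ 1`. -/
theorem num_near {θ B b x ξ ζ ξ' ζ' C₁ : ℝ} (hθ : 1 / 2 < θ) (hθ1 : θ < 1) (hB : 0 < B)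
    (hB2 : B ≤ 1 / 2) (hb : b = B ^ (1 - θ)) (hC₁ : 1 ≤ C₁) (hx : 0 ≤ x) (hxB : x ≤ B)
    (hξ : 0 ≤ ξ) (hζ : 0 ≤ ζ) (hξC : ξ ≤ C₁ * B) (hζC : ζ ≤ C₁ * B)
    (hξ'0 : 0 ≤ ξ') (hζ'0 : 0 ≤ ζ') (hξ' : ξ' ≤ ξ) (hζ' : ζ' ≤ ζ) (hξ1 : ξ ≤ 1) (hζ1 : ζ ≤ 1) :
    (1 - x) ^ (2 * (1 - θ)) * ((1 - ξ') * (1 - ζ')) ^ θ +
      ((1 + 2 * B) * b * (ξ' ^ θ + ζ' ^ θ) + 3 * (ξ * ζ) ^ θ) ≤
      1 + 2 * (1 - θ) * (B - x) + 14 * C₁ ^ 2 * B ^ (2 * θ) := by
  have hb0 : 0 < b := by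
    rw [hb]; exact Real.rpow_pos_of_pos hB _
  have hξ'1 : ξ' ≤ 1 := hξ'.trans hξ1
  have hζ'1 : ζ' ≤ 1 := hζ'.trans hζ1
  have hx1 : x ≤ 1 := by linarith only [hB2, hxB]
  have b0 : (1 - x) ^ (2 * (1 - θ)) ≤ 1 - 2 * (1 - θ) * x :=
    bern (by linarith only [hθ1]) (by linarith only [hθ]) hx1
  have b1 : (1 - ξ') ^ θ ≤ 1 - θ * ξ' := bern (by linarith only [hθ]) hθ1.le hξ'1
  have b2 : (1 - ζ') ^ θ ≤ 1 - θ * ζ' := bern (by linarith only [hθ]) hθ1.le hζ'1
  have hθξ : θ * ξ' ≤ 1 := by nlinarith only [hθ1, hξ', hξ1, hθ]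
  have hθζ : θ * ζ' ≤ 1 := by nlinarith only [hθ1, hζ', hζ1, hθ]
  have b3 : ((1 - ξ') * (1 - ζ')) ^ θ ≤ (1 - θ * ξ') * (1 - θ * ζ') := by
    rw [Real.mul_rpow (by linarith only [hξ', hξ1]) (by linarith only [hζ', hζ1])]
    exact mul_le_mul b1 b2 (Real.rpow_nonneg (by linarith only [hζ', hζ1]) _) (by linarith only [hθξ])
  have hax : 2 * (1 - θ) * x ≤ 1 := by nlinarith only [hB2, hxB, hθ, hx]
  have b4 : (1 - x) ^ (2 * (1 - θ)) * ((1 - ξ') * (1 - ζ')) ^ θ ≤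
      (1 - 2 * (1 - θ) * x) * ((1 - θ * ξ') * (1 - θ * ζ')) :=
    mul_le_mul b0 b3 (Real.rpow_nonneg (mul_nonneg (by linarith only [hξ', hξ1]) (by linarith only [hζ', hζ1])) _) (by linarith only [hax])
  -- expansion of the product
  set a := 2 * (1 - θ) * x with ha
  set e := θ * ξ' with he
  set f := θ * ζ' with hf
  have ha0 : 0 ≤ a := by
    rw [ha]
    have : 0 ≤ 1 - θ := by linarith only [hθ1]
    (clear * - hθ1 hx; positivity)
  have he0 : 0 ≤ e := by rw [he]; (clear * - hθ hξ'0; positivity)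
  have hf0 : 0 ≤ f := by rw [hf]; (clear * - hθ hζ'0; positivity)
  have haB : a ≤ B := by
    rw [ha]
    calc 2 * (1 - θ) * x ≤ 1 * x := mul_le_mul_of_nonneg_right (by linarith only [hθ]) hx
      _ ≤ B := by linarith only [hxB]
  have heB : e ≤ C₁ * B := by
    rw [he]
    calc θ * ξ' ≤ 1 * ξ' := mul_le_mul_of_nonneg_right hθ1.le hξ'0
      _ ≤ C₁ * B := by linarith only [hξC, hξ']
  have hfB : f ≤ C₁ * B := by
    rw [hf]
    calc θ * ζ' ≤ 1 * ζ' := mul_le_mul_of_nonneg_right hθ1.le hζ'0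
      _ ≤ C₁ * B := by linarith only [hζC, hζ']
  have hC0 : 0 ≤ C₁ * B := by (clear * - hC₁ hB; positivity)
  have b5 : (1 - a) * ((1 - e) * (1 - f)) ≤ 1 - a - e - f + 3 * C₁ ^ 2 * B ^ 2 := by
    have h1 : a * e ≤ B * (C₁ * B) := mul_le_mul haB heB he0 hB.le
    have h2 : a * f ≤ B * (C₁ * B) := mul_le_mul haB hfB hf0 hB.le
    have h3 : e * f ≤ C₁ * B * (C₁ * B) := mul_le_mul heB hfB hf0 hC0
    have h4 : 0 ≤ a * e * f := mul_nonneg (mul_nonneg ha0 he0) hf0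
    have h5 : B * (C₁ * B) ≤ C₁ ^ 2 * B ^ 2 := by
      have h6 : C₁ ≤ C₁ ^ 2 := by nlinarith only [hC₁]
      have h7 : 0 ≤ B ^ 2 := by positivity
      have h8 := mul_le_mul_of_nonneg_right h6 h7
      calc B * (C₁ * B) = C₁ * B ^ 2 := by ring
        _ ≤ _ := h8
    have h6 : (1 - a) * ((1 - e) * (1 - f)) = 1 - a - e - f + (a * e + a * f + e * f)
        - a * e * f := by ring
    have h7 : C₁ * B * (C₁ * B) = C₁ ^ 2 * B ^ 2 := by ring
    rw [h6]
    linarith only [h1, h2, h3, h4, h5]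
  -- weighted AM-GM
  have hag : ∀ t : ℝ, 0 ≤ t → b * t ^ θ ≤ (1 - θ) * B + θ * t := by
    intro t ht
    have := Real.geom_mean_le_arith_mean2_weighted (w₁ := 1 - θ) (w₂ := θ) (by linarith only [hθ1])
      (by linarith only [hθ]) hB.le ht (by ring)
    rw [hb]
    exact this
  have g1 := hag ξ' hξ'0
  have g2 := hag ζ' hζ'0
  have hBB : 0 ≤ B ^ 2 := by positivity
  have b6 : (1 + 2 * B) * b * (ξ' ^ θ + ζ' ^ θ) ≤
      2 * (1 - θ) * B + e + f + 8 * C₁ ^ 2 * B ^ 2 := by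
    have h1 : (1 + 2 * B) * b * (ξ' ^ θ + ζ' ^ θ) = (1 + 2 * B) * (b * ξ' ^ θ + b * ζ' ^ θ) := by
      ring
    have h2 : b * ξ' ^ θ + b * ζ' ^ θ ≤ 2 * (1 - θ) * B + e + f := by
      rw [he, hf]
      linarith only [g1, g2]
    have h3 : 2 * (1 - θ) * B + e + f ≤ 3 * (C₁ * B) := by
      have h6 : 2 * (1 - θ) * B ≤ 1 * B := mul_le_mul_of_nonneg_right (by linarith only [hθ]) hB.le
      have h7 : 1 * B ≤ C₁ * B := mul_le_mul_of_nonneg_right hC₁ hB.le
      linarith only [heB, hfB, h6, h7]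
    have h4 : 2 * B * (b * ξ' ^ θ + b * ζ' ^ θ) ≤ 2 * B * (3 * (C₁ * B)) :=
      mul_le_mul_of_nonneg_left (h2.trans h3) (by linarith only [hB])
    have h5 : 2 * B * (3 * (C₁ * B)) ≤ 8 * C₁ ^ 2 * B ^ 2 := by
      have h6 : C₁ ≤ C₁ ^ 2 := by nlinarith only [hC₁]
      have h7 : 0 ≤ B ^ 2 := by positivity
      have h8 := mul_le_mul_of_nonneg_right h6 h7
      have h9 : 0 ≤ C₁ ^ 2 * B ^ 2 := by positivity
      calc 2 * B * (3 * (C₁ * B)) = 6 * (C₁ * B ^ 2) := by ring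
        _ ≤ 6 * (C₁ ^ 2 * B ^ 2) := by linarith only [h8]
        _ ≤ 8 * (C₁ ^ 2 * B ^ 2) := by linarith only [h9]
        _ = _ := by ring
    rw [h1]
    linarith only [g1, g2, h4, h5]
  have hB1 : B ≤ 1 := by linarith only [hB2]
  have b7 : B ^ 2 ≤ B ^ (2 * θ) := by
    rw [← Real.rpow_natCast]
    exact Real.rpow_le_rpow_of_exponent_ge hB hB1 (by push_cast; linarith only [hθ1])
  have b8 : (ξ * ζ) ^ θ ≤ C₁ ^ 2 * B ^ (2 * θ) := by
    calc (ξ * ζ) ^ θ ≤ ((C₁ * B) * (C₁ * B)) ^ θ :=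
          Real.rpow_le_rpow (mul_nonneg hξ hζ) (mul_le_mul hξC hζC hζ hC0) (by linarith only [hθ])
      _ = (C₁ * B) ^ (2 * θ) := by
          rw [Real.mul_rpow hC0 hC0, ← Real.rpow_add (by positivity)]
          congr 1
          ring
      _ = C₁ ^ (2 * θ) * B ^ (2 * θ) := Real.mul_rpow (by linarith only [hC₁]) hB.le
      _ ≤ C₁ ^ 2 * B ^ (2 * θ) := by
          refine mul_le_mul_of_nonneg_right ?_ (Real.rpow_nonneg hB.le _)
          rw [← Real.rpow_natCast]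
          exact Real.rpow_le_rpow_of_exponent_le hC₁ (by push_cast; linarith only [hθ1])
  have hCC : 0 ≤ C₁ ^ 2 := by positivity
  have b9 : 11 * C₁ ^ 2 * B ^ 2 ≤ 11 * C₁ ^ 2 * B ^ (2 * θ) :=
    mul_le_mul_of_nonneg_left b7 (by positivity)
  have e0 : 2 * (1 - θ) * (B - x) = 2 * (1 - θ) * B - a := by rw [ha]; ring
  rw [e0]
  linarith only [b4, b5, b6, b8, b9]

/-- Normalised form of `SP_small`. -/
theorem SP_norm_small {θ : ℝ} (hθ : 1 / 2 < θ) (hθ1 : θ < 1) :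
    ∃ B₀ > 0, ∃ C ≥ 0, B₀ < 1 ∧ ∀ B x : ℝ, 0 < B → B ≤ B₀ → 0 ≤ x → x ≤ B →
      ∀ (N : ℕ) (φ χ : ℕ → ℝ), (∀ i, 0 ≤ φ i) → (∀ i, 0 ≤ χ i) →
      ∑ i ∈ range (N + 1), φ i = 1 → ∑ i ∈ range (N + 1), χ i = 1 →
      (∑ i ∈ range (N + 1), ∑ j ∈ range (N + 1), (B ^ (1 - θ)) ^ ad i j * (φ i * χ j) ^ θ ≤ 1) ∨
      ∃ k ≤ N, (if k = 0 then (1 : ℝ) else (1 - x) ^ (2 * (1 - θ))) *
          ((∑ i ∈ Icc k N, φ i) * ∑ j ∈ Icc k N, χ j) ^ θ
        + ∑ i ∈ range (N + 1), ∑ j ∈ range (N + 1),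
            (if min i j = k then 0 else (B ^ (1 - θ)) ^ ad i j * (φ i * χ j) ^ θ)
        ≤ 1 + 2 * (1 - θ) * (B - x) + C * B ^ (2 * θ) := by
  have hlam : 0 < 1 - θ := by linarith only [hθ1]
  set C₁ : ℝ := (16 / (3 * θ)) ^ (1 / (1 - θ)) with hC₁
  have h16 : 1 ≤ 16 / (3 * θ) := by
    rw [le_div_iff₀ (by linarith only [hθ])]
    linarith only [hθ1]
  have hC1 : 1 ≤ C₁ := Real.one_le_rpow h16 (by positivity)
  have hCθ : C₁ ^ (1 - θ) = 16 / (3 * θ) := by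
    rw [hC₁, ← Real.rpow_mul (by linarith only [h16]), one_div_mul_cancel hlam.ne', Real.rpow_one]
  set T₀ : ℝ := min 1 ((θ / 8) ^ (1 / (2 * θ - 1))) with hT₀
  have h2θ : 0 < 2 * θ - 1 := by linarith only [hθ]
  have hT0 : 0 < T₀ := lt_min one_pos (Real.rpow_pos_of_pos (by linarith only [hθ]) _)
  have hT1 : T₀ ≤ 1 := min_le_left _ _
  have hTθ : T₀ ^ (2 * θ - 1) ≤ θ / 8 := by
    calc T₀ ^ (2 * θ - 1) ≤ ((θ / 8) ^ (1 / (2 * θ - 1))) ^ (2 * θ - 1) :=
          Real.rpow_le_rpow hT0.le (min_le_right _ _) h2θ.le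
      _ = θ / 8 := by
          rw [← Real.rpow_mul (by linarith only [hθ]), one_div_mul_cancel h2θ.ne', Real.rpow_one]
  set ρ : ℝ := 1 / (θ - 1 / 2) with hρ
  have hρ0 : 0 < ρ := by
    rw [hρ]
    have : 0 < θ - 1 / 2 := by linarith only [hθ]
    positivity
  set β : ℝ := min (1 / 4) (T₀ / (4 * ρ)) with hβ
  have hβ0 : 0 < β := lt_min (by norm_num) (by positivity)
  have hβ4 : β ≤ 1 / 4 := min_le_left _ _
  have hβT : ρ * (4 * β) ≤ T₀ := by
    have h : β ≤ T₀ / (4 * ρ) := min_le_right _ _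
    rw [le_div_iff₀ (by positivity)] at h
    linarith only [h]
  have hβ1 : β ^ (1 / (1 - θ)) ≤ 1 / 2 := by
    calc β ^ (1 / (1 - θ)) ≤ β ^ (1 : ℝ) := by
          refine Real.rpow_le_rpow_of_exponent_ge hβ0 (by linarith only [hβ4]) ?_
          rw [le_div_iff₀ hlam]
          linarith only [hθ]
      _ ≤ 1 / 2 := by
          rw [Real.rpow_one]
          linarith only [hβ4]
  refine ⟨β ^ (1 / (1 - θ)), Real.rpow_pos_of_pos hβ0 _, 14 * C₁ ^ 2, by positivity,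
    by linarith only [hβ1], ?_⟩
  intro B x hB hBB hx hxB N φ χ hφ hχ hφ1 hχ1
  have hB2 : B ≤ 1 / 2 := hBB.trans hβ1
  have hbβ : B ^ (1 - θ) ≤ β := by
    calc B ^ (1 - θ) ≤ (β ^ (1 / (1 - θ))) ^ (1 - θ) := Real.rpow_le_rpow hB.le hBB hlam.le
      _ = β := by rw [← Real.rpow_mul hβ0.le, one_div_mul_cancel hlam.ne', Real.rpow_one]
  have hb0 : 0 < B ^ (1 - θ) := Real.rpow_pos_of_pos hB _
  by_cases hS : ∑ i ∈ range (N + 1), ∑ j ∈ range (N + 1),
      (B ^ (1 - θ)) ^ ad i j * (φ i * χ j) ^ θ ≤ 1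
  · exact Or.inl hS
  push Not at hS
  obtain ⟨k, hk, hk1, hk2⟩ := exists_peak hθ hθ1 hb0.le (hbβ.trans hβ4) N φ χ hφ hχ hφ1 hχ1 hS
  have hφk : φ k ≤ 1 := by
    rw [← hφ1]; exact Finset.single_le_sum (fun i _ => hφ i) hk
  have hχk : χ k ≤ 1 := by
    rw [← hχ1]; exact Finset.single_le_sum (fun i _ => hχ i) hk
  have hξT : 1 - φ k ≤ T₀ := by
    refine hk1.trans (le_trans ?_ hβT)
    exact mul_le_mul_of_nonneg_left (by linarith only [hbβ]) hρ0.le
  have hζT : 1 - χ k ≤ T₀ := by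
    refine hk2.trans (le_trans ?_ hβT)
    exact mul_le_mul_of_nonneg_left (by linarith only [hbβ]) hρ0.le
  by_cases hmax : C₁ * B ≤ max (1 - φ k) (1 - χ k)
  · exfalso
    have h1 := exact_le hθ hθ1 hB hB2 (by linarith only [hβ4, hbβ]) N φ χ hφ hχ hφ1 hχ1 hk
    have h2 := num_far (ξ := 1 - φ k) (ζ := 1 - χ k) hθ hθ1 hB rfl (by linarith only [hC1]) hCθ hT1 hTθ
      (by linarith only [hφk]) hξT (by linarith only [hχk]) hζT hmax
    have e1 : 1 - (1 - φ k) = φ k := by ring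
    have e2 : 1 - (1 - χ k) = χ k := by ring
    rw [e1, e2] at h2
    linarith only [hS, h1, h2]
  push Not at hmax
  have hm1 : 1 - φ k ≤ C₁ * B := (le_max_left _ _).trans hmax.le
  have hm2 : 1 - χ k ≤ C₁ * B := (le_max_right _ _).trans hmax.le
  right
  have hkN : k ≤ N := by
    have := Finset.mem_range.1 hk
    (clear * - this; omega)
  refine ⟨k, hkN, ?_⟩
  have hL := lcell_le hθ hθ1 hB hB2 (by linarith only [hβ4, hbβ]) N φ χ hφ hχ hφ1 hχ1 hk
  have hnb : ∀ ψ : ℕ → ℝ, (∀ i, 0 ≤ ψ i) → ∑ i ∈ range (N + 1), ψ i = 1 →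
      ∑ i ∈ Icc k N, ψ i = 1 - ∑ i ∈ range k, ψ i ∧ ∑ i ∈ range k, ψ i ≤ 1 - ψ k := by
    intro ψ hψ hψ1
    have h1 : ∑ i ∈ range k, ψ i + ∑ i ∈ Icc k N, ψ i = 1 := by
      rw [← hψ1, ← Finset.sum_union]
      · refine Finset.sum_congr ?_ fun _ _ => rfl
        ext i
        simp only [mem_union, mem_range, mem_Icc]
        omega
      · rw [Finset.disjoint_left]
        intro i hi hi'
        rw [Finset.mem_range] at hi
        rw [Finset.mem_Icc] at hi'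
        omega
    have h2 : ψ k ≤ ∑ i ∈ Icc k N, ψ i :=
      Finset.single_le_sum (fun i _ => hψ i) (Finset.mem_Icc.2 ⟨le_rfl, hkN⟩)
    constructor <;> linarith only [h1, h2]
  obtain ⟨p1, p2⟩ := hnb φ hφ hφ1
  obtain ⟨p3, p4⟩ := hnb χ hχ hχ1
  have q1 : 0 ≤ ∑ i ∈ range k, φ i := Finset.sum_nonneg fun i _ => hφ i
  have q2 : 0 ≤ ∑ i ∈ range k, χ i := Finset.sum_nonneg fun i _ => hχ i
  have hn := num_near (x := x) (ξ := 1 - φ k) (ζ := 1 - χ k) (ξ' := ∑ i ∈ range k, φ i)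
    (ζ' := ∑ i ∈ range k, χ i) hθ hθ1 hB hB2 rfl hC1 hx hxB (by linarith only [hφk]) (by linarith only [hχk]) hm1 hm2
    q1 q2 p2 p4 (by have := hφ k; linarith only [hT1, hξT]) (by have := hχ k; linarith only [hT1, hζT])
  rw [p1, p3]
  by_cases hk0 : k = 0
  · rw [if_pos hk0]
    subst hk0
    simp only [Finset.range_zero, Finset.sum_empty, sub_zero, mul_one, Real.one_rpow] at hL ⊢
    have hn' := num_near (x := x) (ξ := 1 - φ 0) (ζ := 1 - χ 0) (ξ' := 0) (ζ' := 0) hθ hθ1 hB hB2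
      rfl hC1 hx hxB (by linarith only [hφk]) (by linarith only [hχk]) hm1 hm2
      le_rfl le_rfl (by linarith only [hφk]) (by linarith only [hχk]) (by have := hφ 0; linarith only [hT1, hξT])
      (by have := hχ 0; linarith only [hT1, hζT])
    have h0 : (0 : ℝ) ^ θ = 0 := Real.zero_rpow (by linarith only [hθ])
    rw [h0] at hL
    have b8 : 3 * ((1 - φ 0) * (1 - χ 0)) ^ θ ≤ 14 * C₁ ^ 2 * B ^ (2 * θ) := by
      have hC0 : 0 ≤ C₁ * B := by positivity
      have h3 : ((1 - φ 0) * (1 - χ 0)) ^ θ ≤ C₁ ^ 2 * B ^ (2 * θ) := by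
        calc ((1 - φ 0) * (1 - χ 0)) ^ θ ≤ ((C₁ * B) * (C₁ * B)) ^ θ :=
              Real.rpow_le_rpow (mul_nonneg (by linarith only [hφk]) (by linarith only [hχk]))
                (mul_le_mul hm1 hm2 (by linarith only [hχk]) hC0) (by linarith only [hθ])
          _ = (C₁ * B) ^ (2 * θ) := by
              rw [Real.mul_rpow hC0 hC0, ← Real.rpow_add (by (clear * - hθ hB; positivity))]
              congr 1
              ring
          _ = C₁ ^ (2 * θ) * B ^ (2 * θ) := Real.mul_rpow (by linarith only [hC1]) hB.le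
          _ ≤ C₁ ^ 2 * B ^ (2 * θ) := by
              refine mul_le_mul_of_nonneg_right ?_ (Real.rpow_nonneg hB.le _)
              rw [← Real.rpow_natCast]
              exact Real.rpow_le_rpow_of_exponent_le hC1 (by push_cast; linarith only [hθ1])
      have h4 : 0 ≤ C₁ ^ 2 * B ^ (2 * θ) := by positivity
      linarith only [h3, h4]
    have h5 : 0 ≤ 2 * (1 - θ) * (B - x) := mul_nonneg (by linarith only [hθ1]) (by linarith only [hxB])
    linarith only [hL, b8, h5]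
  · rw [if_neg hk0]
    linarith only [hL, hn]

theorem SP_small {θ : ℝ} (hθ : 1 / 2 < θ) (hθ1 : θ < 1) :
    ∃ B₀ > 0, ∃ C ≥ 0, B₀ < 1 ∧ ∀ B x : ℝ, 0 < B → B ≤ B₀ → 0 ≤ x → x ≤ B →
      SP θ (B ^ (1 - θ)) x (1 + 2 * (1 - θ) * (B - x) + C * B ^ (2 * θ)) := by
  obtain ⟨B₀, hB₀, C, hC, hB₀1, hmain⟩ := SP_norm_small hθ hθ1
  refine ⟨B₀, hB₀, C, hC, hB₀1, ?_⟩
  intro B x hB hBB hx hxB N φ χ hφ hχ
  have hθ0 : θ ≠ 0 := by (clear * - hθ hθ1; linarith)
  set c : ℝ := 1 + 2 * (1 - θ) * (B - x) + C * B ^ (2 * θ) with hc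
  have hc1 : 1 ≤ c := by
    have h1 : 0 ≤ 2 * (1 - θ) * (B - x) := mul_nonneg (by linarith only [hθ1]) (by linarith only [hxB])
    have h2 : 0 ≤ C * B ^ (2 * θ) := mul_nonneg hC (Real.rpow_nonneg hB.le _)
    linarith only [h1, h2]
  set Φ := ∑ i ∈ range (N + 1), φ i with hΦ
  set X := ∑ i ∈ range (N + 1), χ i with hX
  have hΦ0 : 0 ≤ Φ := Finset.sum_nonneg fun i _ => hφ i
  have hX0 : 0 ≤ X := Finset.sum_nonneg fun i _ => hχ i
  rcases hΦ0.eq_or_lt with h | h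
  · left
    have h0 : ∀ i ∈ range (N + 1), φ i = 0 :=
      (Finset.sum_eq_zero_iff_of_nonneg (fun i _ => hφ i)).1 h.symm
    rw [← h, zero_mul, Real.zero_rpow hθ0, mul_zero]
    refine le_of_eq (Finset.sum_eq_zero fun i hi => Finset.sum_eq_zero fun j _ => ?_)
    rw [h0 i hi, zero_mul, Real.zero_rpow hθ0, mul_zero]
  rcases hX0.eq_or_lt with h' | h'
  · left
    have h0 : ∀ i ∈ range (N + 1), χ i = 0 :=
      (Finset.sum_eq_zero_iff_of_nonneg (fun i _ => hχ i)).1 h'.symm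
    rw [← h', mul_zero, Real.zero_rpow hθ0, mul_zero]
    refine le_of_eq (Finset.sum_eq_zero fun i _ => Finset.sum_eq_zero fun j hj => ?_)
    rw [h0 j hj, mul_zero, Real.zero_rpow hθ0, mul_zero]
  have hpos : 0 < Φ * X := mul_pos h h'
  have hP : 0 ≤ (Φ * X) ^ θ := Real.rpow_nonneg hpos.le _
  have hscale : ∀ i j, (φ i * χ j) ^ θ = (Φ * X) ^ θ * (φ i / Φ * (χ j / X)) ^ θ := by
    intro i j
    rw [← Real.mul_rpow hpos.le (mul_nonneg (div_nonneg (hφ i) h.le) (div_nonneg (hχ j) h'.le))]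
    congr 1
    (clear * - h h'; field_simp)
  rcases hmain B x hB hBB hx hxB N (fun i => φ i / Φ) (fun j => χ j / X)
    (fun i => div_nonneg (hφ i) h.le) (fun j => div_nonneg (hχ j) h'.le)
    (by rw [← Finset.sum_div]; exact div_self h.ne')
    (by rw [← Finset.sum_div]; exact div_self h'.ne') with hA | ⟨k, hkN, hA⟩
  · left
    calc ∑ i ∈ range (N + 1), ∑ j ∈ range (N + 1), (B ^ (1 - θ)) ^ ad i j * (φ i * χ j) ^ θ
        = (Φ * X) ^ θ * ∑ i ∈ range (N + 1), ∑ j ∈ range (N + 1),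
          (B ^ (1 - θ)) ^ ad i j * (φ i / Φ * (χ j / X)) ^ θ := by
          rw [Finset.mul_sum]
          refine Finset.sum_congr rfl fun i _ => ?_
          rw [Finset.mul_sum]
          refine Finset.sum_congr rfl fun j _ => ?_
          rw [hscale i j]
          ring
      _ ≤ (Φ * X) ^ θ * 1 := mul_le_mul_of_nonneg_left hA hP
      _ ≤ (Φ * X) ^ θ * c := mul_le_mul_of_nonneg_left hc1 hP
      _ = _ := mul_comm _ _
  · right
    refine ⟨k, hkN, ?_⟩
    have e1 : ((∑ i ∈ Icc k N, φ i) * ∑ j ∈ Icc k N, χ j) ^ θ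
        = (Φ * X) ^ θ * ((∑ i ∈ Icc k N, φ i / Φ) * ∑ j ∈ Icc k N, χ j / X) ^ θ := by
      rw [← Real.mul_rpow hpos.le (mul_nonneg
        (Finset.sum_nonneg fun i _ => div_nonneg (hφ i) h.le)
        (Finset.sum_nonneg fun i _ => div_nonneg (hχ i) h'.le)),
        ← Finset.sum_div, ← Finset.sum_div]
      congr 1
      (clear * - h h'; field_simp)
    have e2 : ∑ i ∈ range (N + 1), ∑ j ∈ range (N + 1),
        (if min i j = k then 0 else (B ^ (1 - θ)) ^ ad i j * (φ i * χ j) ^ θ)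
        = (Φ * X) ^ θ * ∑ i ∈ range (N + 1), ∑ j ∈ range (N + 1),
          (if min i j = k then 0 else (B ^ (1 - θ)) ^ ad i j * (φ i / Φ * (χ j / X)) ^ θ) := by
      rw [Finset.mul_sum]
      refine Finset.sum_congr rfl fun i _ => ?_
      rw [Finset.mul_sum]
      refine Finset.sum_congr rfl fun j _ => ?_
      split_ifs
      · rw [mul_zero]
      · rw [hscale i j]
        ring
    rw [e1, e2]
    calc _ = (Φ * X) ^ θ * ((if k = 0 then (1 : ℝ) else (1 - x) ^ (2 * (1 - θ))) *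
          ((∑ i ∈ Icc k N, φ i / Φ) * ∑ j ∈ Icc k N, χ j / X) ^ θ
        + ∑ i ∈ range (N + 1), ∑ j ∈ range (N + 1),
            (if min i j = k then 0 else
              (B ^ (1 - θ)) ^ ad i j * (φ i / Φ * (χ j / X)) ^ θ)) := by ring
      _ ≤ (Φ * X) ^ θ * c := mul_le_mul_of_nonneg_left hA hP
      _ = _ := mul_comm _ _

end Vale.P028
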