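import Vale.Agent.P028.MathlibUsed
import Vale.Agent.P028.MDefs

/-!
# Theorem L: induction over the primes of `P`
-/

namespace Vale.P028

open Finset

theorem psum_le_psum {R R' : ℕ → ℕ → Prop} {N : ℕ} {f h f' h' : ℕ → ℝ}
    (hf : ∀ q, 0 ≤ f' q) (hh : ∀ r, 0 ≤ h' r)
    (hR : ∀ q r, 0 < q → 0 < r → R q r → f q * h r ≤ f' q * h' r ∧ (R' q r ∨ f' q * h' r = 0)) :
    psum R N f h ≤ psum R' N f' h' := by
  classical
  unfold psum
  refine sum_le_sum fun q hq => sum_le_sum fun r hr => ?_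
  have hq0 : 0 < q := (mem_Icc.mp hq).1
  have hr0 : 0 < r := (mem_Icc.mp hr).1
  by_cases h1 : R q r
  · obtain ⟨h2, h3⟩ := hR q r hq0 hr0 h1
    rw [if_pos h1]
    rcases h3 with h3 | h3
    · rwa [if_pos h3]
    · split_ifs
      · exact h2
      · linarith only [h2, h3]
  · rw [if_neg h1]
    split_ifs
    · exact mul_nonneg (hf q) (hh r)
    · exact le_refl _

theorem sum_reindex (p k N : ℕ) (hp : 0 < p) (G : ℕ → ℝ) (hG : ∀ q, ¬ p ^ k ∣ q → G q = 0) :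
    ∑ q ∈ Icc 1 N, G q = ∑ q' ∈ Icc 1 N, if p ^ k * q' ≤ N then G (p ^ k * q') else 0 := by
  have hpk : 0 < p ^ k := pow_pos hp k
  have h1 : ∑ q ∈ Icc 1 N, G q = ∑ q ∈ (Icc 1 N).filter (fun q => p ^ k ∣ q), G q := by
    rw [Finset.sum_filter]
    refine sum_congr rfl fun q _ => ?_
    split_ifs with h
    · rfl
    · exact hG q h
  rw [← Finset.sum_filter, h1]
  symm
  refine Finset.sum_nbij' (fun q' => p ^ k * q') (fun q => q / p ^ k) ?_ ?_ ?_ ?_ ?_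
  · intro q hq
    simp only [mem_filter, mem_Icc] at hq ⊢
    exact ⟨⟨Nat.mul_pos hpk hq.1.1, hq.2⟩, dvd_mul_right _ _⟩
  · intro q hq
    simp only [mem_filter, mem_Icc] at hq ⊢
    obtain ⟨⟨h2, h3⟩, m, rfl⟩ := hq
    rw [Nat.mul_div_cancel_left _ hpk]
    refine ⟨⟨Nat.pos_of_mul_pos_left h2 |> fun h => ?_, ?_⟩, h3⟩
    · rcases Nat.eq_zero_or_pos m with h0 | h0
      · subst h0; simp only [mul_zero, nonpos_iff_eq_zero, one_ne_zero] at h2
      · exact h0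
    · exact le_trans (Nat.le_mul_of_pos_left m hpk) h3
  · intro q _
    exact Nat.mul_div_cancel_left _ hpk
  · intro q hq
    simp only [mem_filter] at hq
    exact Nat.mul_div_cancel' hq.2
  · intro q _
    rfl

theorem psum_reindex (p i j N : ℕ) (hp : 0 < p) (R : ℕ → ℕ → Prop) (f h : ℕ → ℝ)
    (hR : ∀ q r, 0 < q → 0 < r → R q r → p ^ i ∣ q ∧ p ^ j ∣ r) :
    psum R N f h = psum (fun q r => R (p ^ i * q) (p ^ j * r)) N
      (fun q => if p ^ i * q ≤ N then f (p ^ i * q) else 0)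
      (fun r => if p ^ j * r ≤ N then h (p ^ j * r) else 0) := by
  classical
  unfold psum
  have h1 : ∑ q ∈ Icc 1 N, ∑ r ∈ Icc 1 N, (if R q r then f q * h r else 0)
      = ∑ q ∈ Icc 1 N, if 0 < q then ∑ r ∈ Icc 1 N, (if R q r then f q * h r else 0) else 0 := by
    refine sum_congr rfl fun q hq => ?_
    have hq0 : 0 < q := (mem_Icc.mp hq).1
    rw [if_pos hq0]
  rw [h1, sum_reindex p i N hp]
  · refine sum_congr rfl fun q hq => ?_
    have hq0 : 0 < q := (mem_Icc.mp hq).1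
    split_ifs with h2 h3
    · have h4 : ∑ r ∈ Icc 1 N, (if R (p ^ i * q) r then f (p ^ i * q) * h r else 0)
          = ∑ r ∈ Icc 1 N, if 0 < r then (if R (p ^ i * q) r then f (p ^ i * q) * h r else 0)
              else 0 := by
        refine sum_congr rfl fun r hr => ?_
        have hr0 : 0 < r := (mem_Icc.mp hr).1
        rw [if_pos hr0]
      rw [h4, sum_reindex p j N hp]
      · refine sum_congr rfl fun r hr => ?_
        have hr0 : 0 < r := (mem_Icc.mp hr).1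
        have h5 : 0 < p ^ j * r := Nat.mul_pos (pow_pos hp j) hr0
        simp only [h5, if_true]
        split_ifs <;> simp
      · intro r hr
        split_ifs with h5 h6
        · exact absurd (hR _ _ h3 h5 h6).2 hr
        · rfl
        · rfl
    · exact absurd (Nat.mul_pos (pow_pos hp i) hq0) h3
    · symm
      apply sum_eq_zero
      intro r _
      simp only [h2, ↓reduceIte, mul_ite, zero_mul, mul_zero, ite_self]
  · intro q hq
    split_ifs with h2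
    · apply sum_eq_zero
      intro r hr
      split_ifs with h6
      · exact absurd (hR _ _ h2 (mem_Icc.mp hr).1 h6).1 hq
      · rfl
    · rfl

theorem cofac_exact {p : ℕ} (hp : p.Prime) (i j q r : ℕ) (hq : ¬ p ∣ q) (hr : ¬ p ∣ r) :
    Nat.gcd (p ^ i * q) (p ^ j * r) = p ^ min i j * Nat.gcd q r ∧
    cofac (p ^ i * q) (p ^ j * r) = p ^ (i - j) * cofac q r := by
  have hq' : ∀ k, Nat.Coprime (p ^ k) q := fun k =>
    Nat.Coprime.pow_left k ((Nat.Prime.coprime_iff_not_dvd hp).mpr hq)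
  have hr' : ∀ k, Nat.Coprime (p ^ k) r := fun k =>
    Nat.Coprime.pow_left k ((Nat.Prime.coprime_iff_not_dvd hp).mpr hr)
  have hg : Nat.gcd (p ^ i * q) (p ^ j * r) = p ^ min i j * Nat.gcd q r := by
    rcases le_total i j with h | h
    · obtain ⟨l, rfl⟩ := Nat.exists_eq_add_of_le h
      rw [min_eq_left h, pow_add, mul_assoc, Nat.gcd_mul_left]
      congr 1
      exact Nat.Coprime.gcd_mul_left_cancel_right _ (hq' l).symm.symm
    · obtain ⟨l, rfl⟩ := Nat.exists_eq_add_of_le h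
      rw [min_eq_right h, pow_add, mul_assoc, Nat.gcd_mul_left]
      congr 1
      exact Nat.Coprime.gcd_mul_left_cancel _ (hr' l)
  refine ⟨hg, ?_⟩
  unfold cofac
  rw [hg]
  rcases le_total i j with h | h
  · rw [min_eq_left h, Nat.sub_eq_zero_of_le h, pow_zero, one_mul,
      Nat.mul_div_mul_left _ _ (pow_pos hp.pos i)]
  · obtain ⟨l, rfl⟩ := Nat.exists_eq_add_of_le h
    rw [min_eq_right h, pow_add, mul_assoc, Nat.mul_div_mul_left _ _ (pow_pos hp.pos j),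
      Nat.add_sub_cancel_left, Nat.mul_div_assoc _ (Nat.gcd_dvd_left q r)]

theorem edge_exact {Ω : ℕ → ℕ → Prop} {P : Finset ℕ} {a b p : ℕ} {ψ₁ ψ₂ : ℕ → ℝ} {s₁ s₂ : ℝ}
    (hp : p.Prime) {i j q r : ℕ} (hq : ¬ p ∣ q) (hr : ¬ p ∣ r)
    (h : Edge Ω (insert p P) a b ψ₁ ψ₂ s₁ s₂ (p ^ i * q) (p ^ j * r)) :
    Edge Ω P (a * p ^ (i - j)) (b * p ^ (j - i)) (fun q => ψ₁ (p ^ i * q))
      (fun r => ψ₂ (p ^ j * r)) s₁ s₂ q r := by
  obtain ⟨h1, h2, h3, h4⟩ := h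
  obtain ⟨hg, hc⟩ := cofac_exact hp i j q r hq hr
  obtain ⟨-, hc'⟩ := cofac_exact hp j i r q hr hq
  rw [hc, hc'] at h2
  rw [hc'] at h3
  rw [hc] at h4
  refine ⟨?_, ?_, ?_, ?_⟩
  · intro p' hp' hd
    have h5 := h1 p' hp' (by rw [hg]; exact Dvd.dvd.mul_left hd _)
    rcases mem_insert.mp h5 with h6 | h6
    · subst h6
      exact absurd (dvd_trans hd (Nat.gcd_dvd_left q r)) hq
    · exact h6
  · rwa [mul_assoc, mul_assoc]
  · push_cast at h3 ⊢
    rwa [mul_assoc (b : ℝ)]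
  · push_cast at h4 ⊢
    rwa [mul_assoc (a : ℝ)]

theorem edge_L {Ω : ℕ → ℕ → Prop} {P : Finset ℕ} {a b p : ℕ} {ψ₁ ψ₂ : ℕ → ℝ} {s₁ s₂ t : ℝ}
    (hp : p.Prime) {k q r : ℕ} (hg : ¬ p ∣ Nat.gcd q r) (ht : 0 ≤ t)
    (h : Edge Ω (insert p P) a b ψ₁ ψ₂ s₁ s₂ (p ^ k * q) (p ^ k * r)) :
    Edge Ω P a b (fun q => t * ψ₁ (p ^ k * q))
      (fun r => t * ψ₂ (p ^ k * r)) (t * s₁) (t * s₂) q r := by
  obtain ⟨h1, h2, h3, h4⟩ := h
  have hpk : 0 < p ^ k := pow_pos hp.pos k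
  have hc : cofac (p ^ k * q) (p ^ k * r) = cofac q r := by
    unfold cofac
    rw [Nat.gcd_mul_left, Nat.mul_div_mul_left _ _ hpk]
  have hc' : cofac (p ^ k * r) (p ^ k * q) = cofac r q := by
    unfold cofac
    rw [Nat.gcd_mul_left, Nat.mul_div_mul_left _ _ hpk]
  rw [hc, hc'] at h2
  rw [hc'] at h3
  rw [hc] at h4
  refine ⟨?_, h2, ?_, ?_⟩
  · intro p' hp' hd
    have h5 := h1 p' hp' (by rw [Nat.gcd_mul_left]; exact Dvd.dvd.mul_left hd _)
    rcases mem_insert.mp h5 with h6 | h6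
    · subst h6
      exact absurd hd hg
    · exact h6
  · calc (b : ℝ) * (cofac r q : ℝ) * (t * ψ₁ (p ^ k * q))
        = t * ((b : ℝ) * (cofac r q : ℝ) * ψ₁ (p ^ k * q)) := by ring
      _ ≤ t * s₁ := mul_le_mul_of_nonneg_left h3 ht
  · calc (a : ℝ) * (cofac q r : ℝ) * (t * ψ₂ (p ^ k * r))
        = t * ((a : ℝ) * (cofac q r : ℝ) * ψ₂ (p ^ k * r)) := by ring
      _ ≤ t * s₂ := mul_le_mul_of_nonneg_left h4 ht

/-- the weight `∏_{p ∈ P, p ∣ q} (1 - x p)`. -/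
noncomputable def wt (x : ℕ → ℝ) (P : Finset ℕ) (q : ℕ) : ℝ := ∏ p ∈ P with p ∣ q, (1 - x p)

theorem wt_insert {x : ℕ → ℝ} {p : ℕ} {P : Finset ℕ} (hpP : p ∉ P) (q : ℕ) :
    wt x (insert p P) q = (if p ∣ q then (1 - x p) else 1) * wt x P q := by
  unfold wt
  rw [filter_insert]
  split_ifs with h
  · rw [prod_insert]
    simp [hpP]
  · rw [one_mul]

theorem wt_mul_pow {x : ℕ → ℝ} {p : ℕ} {P : Finset ℕ} (hP : ∀ p' ∈ P, p'.Prime) (hp : p.Prime)
    (hpP : p ∉ P) (i q : ℕ) : wt x P (p ^ i * q) = wt x P q := by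
  unfold wt
  congr 1
  refine filter_congr fun p' hp' => ?_
  have hne : p' ≠ p := fun h => hpP (h ▸ hp')
  constructor
  · intro h
    rcases (Nat.Prime.dvd_mul (hP p' hp')).mp h with h1 | h1
    · exact absurd ((Nat.prime_dvd_prime_iff_eq (hP p' hp') hp).mp
        ((hP p' hp').dvd_of_dvd_pow h1)) hne
    · exact h1
  · intro h
    exact Dvd.dvd.mul_left h _

theorem wt_nonneg {x : ℕ → ℝ} {P : Finset ℕ} (hx : ∀ p ∈ P, x p < 1) (q : ℕ) :
    0 ≤ wt x P q := by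
  unfold wt
  refine prod_nonneg fun p hp => ?_
  have := hx p (mem_filter.mp hp).1
  linarith

/-- the conclusion of Theorem L. -/
def LBound (Ω : ℕ → ℕ → Prop) (θ : ℝ) (K : ℕ → ℕ → ℝ) (P : Finset ℕ) (x : ℕ → ℝ) (M : ℝ) :
    Prop :=
  ∀ (a b : ℕ), 0 < a → 0 < b → ∀ (ψ₁ ψ₂ f h : ℕ → ℝ) (s₁ s₂ : ℝ) (N : ℕ), 0 < s₁ → 0 < s₂ →
      (∀ q, 0 ≤ ψ₁ q) → (∀ q, 0 ≤ ψ₂ q) →
      (∀ q, 0 ≤ f q ∧ f q ≤ ψ₁ q * wt x P q) →
      (∀ r, 0 ≤ h r ∧ h r ≤ ψ₂ r * wt x P r) →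
      Lam Ω P a b ψ₁ ψ₂ s₁ s₂ N f h ≤
        M * (s₁ * s₂) ^ (1 - θ) * K a b *
          ((∑ q ∈ Icc 1 N, f q) * ∑ r ∈ Icc 1 N, h r) ^ θ

theorem fac_mul {p : ℕ} (hp : p.Prime) (i : ℕ) {q : ℕ} (hq : 0 < q) :
    (p ^ i * q).factorization p = i + q.factorization p := by
  rw [Nat.factorization_mul (pow_pos hp.pos i).ne' hq.ne', hp.factorization_pow]
  simp only [Finsupp.coe_add, Pi.add_apply, Finsupp.single_eq_same, Nat.add_left_cancel_iff]

theorem fac_eq_zero {p : ℕ} (hp : p.Prime) {q : ℕ} (hq : 0 < q) :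
    q.factorization p = 0 ↔ ¬ p ∣ q := by
  rw [Nat.factorization_eq_zero_iff]
  constructor
  · rintro (h | h | h)
    · exact absurd hp h
    · exact h
    · omega
  · intro h
    exact Or.inr (Or.inl h)

theorem pow_dvd_of_le {p k q : ℕ} (h : k ≤ q.factorization p) : p ^ k ∣ q :=
  dvd_trans (pow_dvd_pow p h) (Nat.ordProj_dvd q p)

theorem exact_cell {Ω : ℕ → ℕ → Prop} {θ : ℝ} {K : ℕ → ℕ → ℝ} {P : Finset ℕ} (hP : ∀ p ∈ P, p.Prime)
    {x : ℕ → ℝ} {M : ℝ} (hM : 0 ≤ M) (ih : LBound Ω θ K P x M) {p : ℕ} (hp : p.Prime)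
    (hpP : p ∉ P) (hxp : 0 ≤ x p ∧ x p < 1) (hx : ∀ p ∈ P, x p < 1) {Bp : ℝ} (hB : 0 ≤ Bp)
    (hgrow1 : ∀ a b l, 0 < a → 0 < b → K (a * p ^ l) b ≤ Bp ^ l * K a b)
    (hgrow2 : ∀ a b l, 0 < a → 0 < b → K a (b * p ^ l) ≤ Bp ^ l * K a b)
    {a b : ℕ} (ha : 0 < a) (hb : 0 < b) {ψ₁ ψ₂ f h : ℕ → ℝ} {s₁ s₂ : ℝ} {N : ℕ} (hs₁ : 0 < s₁)
    (hs₂ : 0 < s₂) (hψ₁ : ∀ q, 0 ≤ ψ₁ q) (hψ₂ : ∀ q, 0 ≤ ψ₂ q)
    (hf : ∀ q, 0 ≤ f q ∧ f q ≤ ψ₁ q * wt x (insert p P) q)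
    (hh : ∀ r, 0 ≤ h r ∧ h r ≤ ψ₂ r * wt x (insert p P) r) (i j : ℕ) :
    psum (fun q r => Edge Ω (insert p P) a b ψ₁ ψ₂ s₁ s₂ q r ∧ q.factorization p = i ∧
        r.factorization p = j) N f h ≤
      M * (s₁ * s₂) ^ (1 - θ) * K a b * (Bp ^ ad i j *
        ((∑ q ∈ Icc 1 N, if q.factorization p = i then f q else 0) *
          ∑ r ∈ Icc 1 N, if r.factorization p = j then h r else 0) ^ θ) := by
  have hw : ∀ k q, wt x (insert p P) (p ^ k * q) ≤ wt x P q := by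
    intro k q
    rw [wt_insert hpP, wt_mul_pow hP hp hpP]
    have h0 := wt_nonneg hx q
    split_ifs
    · nlinarith only [hxp, h0]
    · rw [one_mul]
  have hsum : ∀ (g : ℕ → ℝ) (i : ℕ), ∑ q ∈ Icc 1 N, (if q.factorization p = i then g q else 0)
      = ∑ q ∈ Icc 1 N, (if ¬ p ∣ q ∧ p ^ i * q ≤ N then g (p ^ i * q) else 0) := by
    intro g i
    rw [sum_reindex p i N hp.pos]
    · refine sum_congr rfl fun q hq => ?_
      have hq0 : 0 < q := (mem_Icc.mp hq).1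
      rw [fac_mul hp i hq0]
      have e := fac_eq_zero hp hq0
      by_cases h1 : p ∣ q
      · have : q.factorization p ≠ 0 := fun h2 => (e.mp h2) h1
        simp only [Nat.add_eq_left, this, ↓reduceIte, ite_self, h1, not_true_eq_false, false_and]
      · have : q.factorization p = 0 := e.mpr h1
        simp only [this, add_zero, ↓reduceIte, h1, not_false_eq_true, true_and]
    · intro q hq
      rw [if_neg]
      intro h1
      exact hq (pow_dvd_of_le h1.ge)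
  rw [hsum f i, hsum h j]
  set f' : ℕ → ℝ := fun q => if ¬ p ∣ q ∧ p ^ i * q ≤ N then f (p ^ i * q) else 0 with hf'
  set h' : ℕ → ℝ := fun r => if ¬ p ∣ r ∧ p ^ j * r ≤ N then h (p ^ j * r) else 0 with hh'
  have hf'0 : ∀ q, 0 ≤ f' q ∧ f' q ≤ ψ₁ (p ^ i * q) * wt x P q := by
    intro q
    simp only [hf']
    split_ifs with h1
    · exact ⟨(hf _).1, (hf _).2.trans (mul_le_mul_of_nonneg_left (hw i q) (hψ₁ _))⟩
    · exact ⟨le_refl _, mul_nonneg (hψ₁ _) (wt_nonneg hx q)⟩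
  have hh'0 : ∀ r, 0 ≤ h' r ∧ h' r ≤ ψ₂ (p ^ j * r) * wt x P r := by
    intro r
    simp only [hh']
    split_ifs with h1
    · exact ⟨(hh _).1, (hh _).2.trans (mul_le_mul_of_nonneg_left (hw j r) (hψ₂ _))⟩
    · exact ⟨le_refl _, mul_nonneg (hψ₂ _) (wt_nonneg hx r)⟩
  have key := ih (a * p ^ (i - j)) (b * p ^ (j - i)) (Nat.mul_pos ha (pow_pos hp.pos _))
    (Nat.mul_pos hb (pow_pos hp.pos _)) (fun q => ψ₁ (p ^ i * q)) (fun r => ψ₂ (p ^ j * r))
    f' h' s₁ s₂ N hs₁ hs₂ (fun q => hψ₁ _) (fun r => hψ₂ _) hf'0 hh'0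
  have h1 : psum (fun q r => Edge Ω (insert p P) a b ψ₁ ψ₂ s₁ s₂ q r ∧ q.factorization p = i ∧
        r.factorization p = j) N f h ≤ Lam Ω P (a * p ^ (i - j)) (b * p ^ (j - i))
          (fun q => ψ₁ (p ^ i * q)) (fun r => ψ₂ (p ^ j * r)) s₁ s₂ N f' h' := by
    rw [psum_reindex p i j N hp.pos]
    · refine psum_le_psum (fun q => (hf'0 q).1) (fun r => (hh'0 r).1) ?_
      intro q r hq hr ⟨h2, h3, h4⟩
      rw [fac_mul hp i hq] at h3
      rw [fac_mul hp j hr] at h4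
      have h5 : ¬ p ∣ q := (fac_eq_zero hp hq).mp (by omega)
      have h6 : ¬ p ∣ r := (fac_eq_zero hp hr).mp (by (clear * - h4; omega))
      refine ⟨?_, Or.inl (edge_exact hp h5 h6 h2)⟩
      simp only [hf', hh', h5, h6, not_false_eq_true, true_and]
      exact le_refl _
    · intro q r _ _ ⟨_, h3, h4⟩
      exact ⟨pow_dvd_of_le h3.ge, pow_dvd_of_le h4.ge⟩
  have h2 : K (a * p ^ (i - j)) (b * p ^ (j - i)) ≤ Bp ^ ad i j * K a b := by
    have h3 := hgrow1 a (b * p ^ (j - i)) (i - j) ha (Nat.mul_pos hb (pow_pos hp.pos _))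
    have h4 := hgrow2 a b (j - i) ha hb
    calc K (a * p ^ (i - j)) (b * p ^ (j - i)) ≤ Bp ^ (i - j) * K a (b * p ^ (j - i)) := h3
      _ ≤ Bp ^ (i - j) * (Bp ^ (j - i) * K a b) :=
          mul_le_mul_of_nonneg_left h4 (pow_nonneg hB _)
      _ = Bp ^ ad i j * K a b := by unfold ad; rw [pow_add]; ring
  have hS : 0 ≤ ((∑ q ∈ Icc 1 N, f' q) * ∑ r ∈ Icc 1 N, h' r) ^ θ :=
    Real.rpow_nonneg (mul_nonneg (sum_nonneg fun q _ => (hf'0 q).1)
      (sum_nonneg fun r _ => (hh'0 r).1)) _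
  have hA : 0 ≤ M * (s₁ * s₂) ^ (1 - θ) :=
    mul_nonneg hM (Real.rpow_nonneg (mul_nonneg hs₁.le hs₂.le) _)
  calc _ ≤ _ := h1
    _ ≤ _ := key
    _ ≤ M * (s₁ * s₂) ^ (1 - θ) * (Bp ^ ad i j * K a b) *
        ((∑ q ∈ Icc 1 N, f' q) * ∑ r ∈ Icc 1 N, h' r) ^ θ :=
      mul_le_mul_of_nonneg_right (mul_le_mul_of_nonneg_left h2 hA) hS
    _ = _ := by ring

theorem L_cell {Ω : ℕ → ℕ → Prop} {θ : ℝ} {K : ℕ → ℕ → ℝ}
    {P : Finset ℕ} (hP : ∀ p ∈ P, p.Prime)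
    {x : ℕ → ℝ} {M : ℝ} (ih : LBound Ω θ K P x M) {p : ℕ} (hp : p.Prime)
    (hpP : p ∉ P) (hxp : 0 ≤ x p ∧ x p < 1) (hx : ∀ p ∈ P, x p < 1)
    {a b : ℕ} (ha : 0 < a) (hb : 0 < b) {ψ₁ ψ₂ f h : ℕ → ℝ} {s₁ s₂ : ℝ} {N : ℕ} (hs₁ : 0 < s₁)
    (hs₂ : 0 < s₂) (hψ₁ : ∀ q, 0 ≤ ψ₁ q) (hψ₂ : ∀ q, 0 ≤ ψ₂ q)
    (hf : ∀ q, 0 ≤ f q ∧ f q ≤ ψ₁ q * wt x (insert p P) q)
    (hh : ∀ r, 0 ≤ h r ∧ h r ≤ ψ₂ r * wt x (insert p P) r) (k : ℕ) :
    psum (fun q r => Edge Ω (insert p P) a b ψ₁ ψ₂ s₁ s₂ q r ∧ min (q.factorization p)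
        (r.factorization p) = k) N f h ≤
      M * (s₁ * s₂) ^ (1 - θ) * K a b * ((if k = 0 then (1 : ℝ) else (1 - x p) ^ (2 * (1 - θ))) *
        ((∑ q ∈ Icc 1 N, if k ≤ q.factorization p then f q else 0) *
          ∑ r ∈ Icc 1 N, if k ≤ r.factorization p then h r else 0) ^ θ) := by
  set t : ℝ := if k = 0 then 1 else 1 - x p with ht
  have ht0 : 0 < t := by
    rw [ht]; split_ifs
    · exact one_pos
    · linarith only [hxp]
  have ht1 : (if k = 0 then (1 : ℝ) else (1 - x p) ^ (2 * (1 - θ))) = t ^ (2 * (1 - θ)) := by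
    rw [ht]; split_ifs
    · rw [Real.one_rpow]
    · rfl
  have hw : ∀ q, wt x (insert p P) (p ^ k * q) ≤ t * wt x P q := by
    intro q
    rw [wt_insert hpP, wt_mul_pow hP hp hpP, ht]
    have h0 := wt_nonneg hx q
    split_ifs with h1 h2 h3
    · nlinarith only [hxp, h0]
    · exact le_refl _
    · exact le_refl _
    · exact absurd (Dvd.dvd.mul_right (dvd_pow_self p h3) q) h1
  have hsum : ∀ (g : ℕ → ℝ), ∑ q ∈ Icc 1 N, (if k ≤ q.factorization p then g q else 0)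
      = ∑ q ∈ Icc 1 N, (if p ^ k * q ≤ N then g (p ^ k * q) else 0) := by
    intro g
    rw [sum_reindex p k N hp.pos]
    · refine sum_congr rfl fun q hq => ?_
      have hq0 : 0 < q := (mem_Icc.mp hq).1
      rw [fac_mul hp k hq0, if_pos (Nat.le_add_right k (q.factorization p))]
    · intro q hq
      rw [if_neg]
      intro h1
      exact hq (pow_dvd_of_le h1)
  rw [hsum f, hsum h, ht1]
  have hf'0 : ∀ q, 0 ≤ (if p ^ k * q ≤ N then f (p ^ k * q) else 0) ∧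
      (if p ^ k * q ≤ N then f (p ^ k * q) else 0) ≤ (t * ψ₁ (p ^ k * q)) * wt x P q := by
    intro q
    split_ifs with h1
    · refine ⟨(hf _).1, (hf _).2.trans ?_⟩
      have := mul_le_mul_of_nonneg_left (hw q) (hψ₁ (p ^ k * q))
      linarith only [this]
    · exact ⟨le_refl _, mul_nonneg (mul_nonneg ht0.le (hψ₁ _)) (wt_nonneg hx q)⟩
  have hh'0 : ∀ r, 0 ≤ (if p ^ k * r ≤ N then h (p ^ k * r) else 0) ∧
      (if p ^ k * r ≤ N then h (p ^ k * r) else 0) ≤ (t * ψ₂ (p ^ k * r)) * wt x P r := by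
    intro r
    split_ifs with h1
    · refine ⟨(hh _).1, (hh _).2.trans ?_⟩
      have := mul_le_mul_of_nonneg_left (hw r) (hψ₂ (p ^ k * r))
      linarith only [this]
    · exact ⟨le_refl _, mul_nonneg (mul_nonneg ht0.le (hψ₂ _)) (wt_nonneg hx r)⟩
  have key := ih a b ha hb (fun q => t * ψ₁ (p ^ k * q)) (fun r => t * ψ₂ (p ^ k * r))
    (fun q => if p ^ k * q ≤ N then f (p ^ k * q) else 0)
    (fun r => if p ^ k * r ≤ N then h (p ^ k * r) else 0) (t * s₁) (t * s₂) N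
    (mul_pos ht0 hs₁) (mul_pos ht0 hs₂) (fun q => mul_nonneg ht0.le (hψ₁ _))
    (fun r => mul_nonneg ht0.le (hψ₂ _)) hf'0 hh'0
  have h1 : psum (fun q r => Edge Ω (insert p P) a b ψ₁ ψ₂ s₁ s₂ q r ∧ min (q.factorization p)
        (r.factorization p) = k) N f h ≤ Lam Ω P a b (fun q => t * ψ₁ (p ^ k * q))
          (fun r => t * ψ₂ (p ^ k * r)) (t * s₁) (t * s₂) N
          (fun q => if p ^ k * q ≤ N then f (p ^ k * q) else 0)
          (fun r => if p ^ k * r ≤ N then h (p ^ k * r) else 0) := by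
    rw [psum_reindex p k k N hp.pos]
    · refine psum_le_psum (fun q => (hf'0 q).1) (fun r => (hh'0 r).1) ?_
      intro q r hq hr ⟨h2, h3⟩
      rw [fac_mul hp k hq, fac_mul hp k hr] at h3
      refine ⟨le_refl _, Or.inl (edge_L hp ?_ ht0.le h2)⟩
      intro h4
      have h5 : q.factorization p ≠ 0 := fun h => (fac_eq_zero hp hq).mp h
        (dvd_trans h4 (Nat.gcd_dvd_left q r))
      have h6 : r.factorization p ≠ 0 := fun h => (fac_eq_zero hp hr).mp h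
        (dvd_trans h4 (Nat.gcd_dvd_right q r))
      omega
    · intro q r _ _ ⟨_, h3⟩
      exact ⟨pow_dvd_of_le (h3 ▸ min_le_left _ _), pow_dvd_of_le (h3 ▸ min_le_right _ _)⟩
  have h2 : (t * s₁ * (t * s₂)) ^ (1 - θ) = t ^ (2 * (1 - θ)) * (s₁ * s₂) ^ (1 - θ) := by
    have : t * s₁ * (t * s₂) = t ^ (2 : ℕ) * (s₁ * s₂) := by ring
    rw [this, Real.mul_rpow (pow_nonneg ht0.le 2) (mul_nonneg hs₁.le hs₂.le),
      ← Real.rpow_natCast t 2, ← Real.rpow_mul ht0.le]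
    norm_num
  rw [h2] at key
  calc _ ≤ _ := h1
    _ ≤ _ := key
    _ = _ := by ring

open Classical in
theorem cells_weighted (R : ℕ → ℕ → Prop) (N p : ℕ) (f h : ℕ → ℝ) (w : ℕ → ℕ → ℝ) :
    ∑ i ∈ range (N + 1), ∑ j ∈ range (N + 1), w i j *
      psum (fun q r => R q r ∧ q.factorization p = i ∧ r.factorization p = j) N f h =
    ∑ q ∈ Icc 1 N, ∑ r ∈ Icc 1 N, if R q r then
      w (q.factorization p) (r.factorization p) * (f q * h r) else 0 := by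
  unfold psum
  simp only [mul_sum]
  have h1 : ∀ (T : ℕ → ℕ → ℕ → ℕ → ℝ), ∑ i ∈ range (N + 1), ∑ j ∈ range (N + 1),
      ∑ q ∈ Icc 1 N, ∑ r ∈ Icc 1 N, T i j q r = ∑ q ∈ Icc 1 N, ∑ r ∈ Icc 1 N,
      ∑ i ∈ range (N + 1), ∑ j ∈ range (N + 1), T i j q r := by
    intro T
    have h2 : ∀ i ∈ range (N + 1), ∑ j ∈ range (N + 1), ∑ q ∈ Icc 1 N, ∑ r ∈ Icc 1 N, T i j q r
        = ∑ q ∈ Icc 1 N, ∑ r ∈ Icc 1 N, ∑ j ∈ range (N + 1), T i j q r := by
      intro i _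
      rw [sum_comm]
      refine sum_congr rfl fun q _ => ?_
      rw [sum_comm]
    rw [sum_congr rfl h2, sum_comm]
    refine sum_congr rfl fun q _ => ?_
    rw [sum_comm]
  rw [h1]
  refine sum_congr rfl fun q hq => sum_congr rfl fun r hr => ?_
  have hq0 : q ≠ 0 := by have := (mem_Icc.mp hq).1; omega
  have hr0 : r ≠ 0 := by have := (mem_Icc.mp hr).1; omega
  have h2 : q.factorization p ∈ range (N + 1) := by
    have := Nat.factorization_lt p hq0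
    have := (mem_Icc.mp hq).2
    rw [mem_range]; omega
  have h3 : r.factorization p ∈ range (N + 1) := by
    have := Nat.factorization_lt p hr0
    have := (mem_Icc.mp hr).2
    rw [mem_range]; omega
  rw [sum_eq_single_of_mem _ h2, sum_eq_single_of_mem _ h3]
  · by_cases h4 : R q r
    · simp [h4]
    · simp [h4]
  · intro j _ hj
    rw [if_neg, mul_zero]
    rintro ⟨_, _, h5⟩
    exact hj h5.symm
  · intro i _ hi
    apply sum_eq_zero
    intro j _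
    rw [if_neg, mul_zero]
    rintro ⟨_, h5, _⟩
    exact hi h5.symm

theorem psum_eq_cells (R : ℕ → ℕ → Prop) (N p : ℕ) (f h : ℕ → ℝ) :
    psum R N f h = ∑ i ∈ range (N + 1), ∑ j ∈ range (N + 1),
      psum (fun q r => R q r ∧ q.factorization p = i ∧ r.factorization p = j) N f h := by
  classical
  have h1 := cells_weighted R N p f h (fun _ _ => 1)
  simp only [one_mul] at h1
  rw [h1]
  unfold psum
  refine sum_congr rfl fun q _ => sum_congr rfl fun r _ => ?_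
  split_ifs <;> rfl

theorem psum_eq_L (R : ℕ → ℕ → Prop) (N p k : ℕ) (f h : ℕ → ℝ) :
    psum R N f h = psum (fun q r => R q r ∧ min (q.factorization p) (r.factorization p) = k) N f h
      + ∑ i ∈ range (N + 1), ∑ j ∈ range (N + 1), if min i j = k then 0 else
      psum (fun q r => R q r ∧ q.factorization p = i ∧ r.factorization p = j) N f h := by
  classical
  have h1 := cells_weighted R N p f h (fun i j => if min i j = k then 0 else 1)
  have h2 : ∑ i ∈ range (N + 1), ∑ j ∈ range (N + 1), (if min i j = k then 0 else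
      psum (fun q r => R q r ∧ q.factorization p = i ∧ r.factorization p = j) N f h) =
      ∑ i ∈ range (N + 1), ∑ j ∈ range (N + 1), (if min i j = k then (0 : ℝ) else 1) *
      psum (fun q r => R q r ∧ q.factorization p = i ∧ r.factorization p = j) N f h := by
    refine sum_congr rfl fun q _ => sum_congr rfl fun r _ => ?_
    split_ifs <;> simp
  rw [h2, h1]
  unfold psum
  rw [← sum_add_distrib]
  refine sum_congr rfl fun q _ => ?_
  rw [← sum_add_distrib]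
  refine sum_congr rfl fun r _ => ?_
  by_cases h3 : R q r
  · by_cases h4 : min (q.factorization p) (r.factorization p) = k
    · simp only [h3, ↓reduceIte, h4, and_self, zero_mul, add_zero]
    · simp only [h3, ↓reduceIte, h4, and_false, one_mul, zero_add]
  · simp only [h3, ↓reduceIte, false_and, add_zero]

theorem sum_cells (N p : ℕ) (f : ℕ → ℝ) (k : ℕ) :
    ∑ i ∈ Icc k N, ∑ q ∈ Icc 1 N, (if q.factorization p = i then f q else 0) =
      ∑ q ∈ Icc 1 N, if k ≤ q.factorization p then f q else 0 := by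
  rw [sum_comm]
  refine sum_congr rfl fun q hq => ?_
  have hq0 : q ≠ 0 := by have := (mem_Icc.mp hq).1; omega
  have h2 := Nat.factorization_lt p hq0
  have h3 := (mem_Icc.mp hq).2
  rw [sum_ite_eq]
  by_cases h : k ≤ q.factorization p
  · rw [if_pos h, if_pos]
    rw [mem_Icc]; omega
  · rw [if_neg h, if_neg]
    rw [mem_Icc]; omega

theorem theoremL (Ω : ℕ → ℕ → Prop) {θ : ℝ} (_hθ : 1 / 2 < θ) (_hθ1 : θ < 1) (K : ℕ → ℕ → ℝ)
    (hK0 : ∀ a b, 0 ≤ K a b) (hbase : BaseBound Ω θ K) (P : Finset ℕ) (hP : ∀ p ∈ P, p.Prime)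
    (B x c : ℕ → ℝ) (hb : ∀ p ∈ P, 0 ≤ B p) (hx : ∀ p ∈ P, 0 ≤ x p ∧ x p < 1)
    (hc : ∀ p ∈ P, 0 ≤ c p)
    (hgrow1 : ∀ p ∈ P, ∀ a b l, 0 < a → 0 < b → K (a * p ^ l) b ≤ B p ^ l * K a b)
    (hgrow2 : ∀ p ∈ P, ∀ a b l, 0 < a → 0 < b → K a (b * p ^ l) ≤ B p ^ l * K a b)
    (hSP : ∀ p ∈ P, SP θ (B p) (x p) (c p)) :
    ∀ (a b : ℕ), 0 < a → 0 < b → ∀ (ψ₁ ψ₂ f h : ℕ → ℝ) (s₁ s₂ : ℝ) (N : ℕ), 0 < s₁ → 0 < s₂ →
      (∀ q, 0 ≤ ψ₁ q) → (∀ q, 0 ≤ ψ₂ q) →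
      (∀ q, 0 ≤ f q ∧ f q ≤ ψ₁ q * ∏ p ∈ P with p ∣ q, (1 - x p)) →
      (∀ r, 0 ≤ h r ∧ h r ≤ ψ₂ r * ∏ p ∈ P with p ∣ r, (1 - x p)) →
      Lam Ω P a b ψ₁ ψ₂ s₁ s₂ N f h ≤
        (∏ p ∈ P, c p) * (s₁ * s₂) ^ (1 - θ) * K a b *
          ((∑ q ∈ Icc 1 N, f q) * ∑ r ∈ Icc 1 N, h r) ^ θ := by
  change LBound Ω θ K P x (∏ p ∈ P, c p)
  induction P using Finset.induction_on with
  | empty =>
    intro a b ha hb' ψ₁ ψ₂ f h s₁ s₂ N hs₁ hs₂ hψ₁ hψ₂ hf hh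
    have h1 := hbase a b ha hb' ψ₁ ψ₂ f h s₁ s₂ N hs₁ hs₂
      (fun q => ⟨(hf q).1, by simpa only [wt, filter_empty, prod_empty, mul_one] using (hf q).2⟩)
      (fun q => ⟨(hh q).1, by simpa only [wt, filter_empty, prod_empty, mul_one] using (hh q).2⟩)
    rw [prod_empty, one_mul]
    exact h1
  | insert p P hpP ih =>
    have hmem : ∀ p' ∈ P, p' ∈ insert p P := fun p' h => mem_insert_of_mem h
    have hself : p ∈ insert p P := mem_insert_self p P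
    have ih' := ih (fun p' h => hP p' (hmem p' h)) (fun p' h => hb p' (hmem p' h))
      (fun p' h => hx p' (hmem p' h)) (fun p' h => hc p' (hmem p' h))
      (fun p' h => hgrow1 p' (hmem p' h)) (fun p' h => hgrow2 p' (hmem p' h))
      (fun p' h => hSP p' (hmem p' h))
    have hM : 0 ≤ ∏ p ∈ P, c p := prod_nonneg fun p' h => hc p' (hmem p' h)
    have hxP : ∀ p' ∈ P, x p' < 1 := fun p' h => (hx p' (hmem p' h)).2
    intro a b ha hb' ψ₁ ψ₂ f h s₁ s₂ N hs₁ hs₂ hψ₁ hψ₂ hf hh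
    rw [prod_insert hpP]
    have hcell := fun i j => exact_cell (fun p' h => hP p' (hmem p' h)) hM ih'
      (hP p hself) hpP (hx p hself) hxP (hb p hself) (hgrow1 p hself) (hgrow2 p hself) ha hb'
      hs₁ hs₂ hψ₁ hψ₂ hf hh (N := N) i j
    have hL := fun k => L_cell (fun p' h => hP p' (hmem p' h)) ih'
      (hP p hself) hpP (hx p hself) hxP ha hb' hs₁ hs₂ hψ₁ hψ₂ hf hh (N := N) k
    set φ : ℕ → ℝ := fun i => ∑ q ∈ Icc 1 N, if q.factorization p = i then f q else 0 with hφ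
    set χ : ℕ → ℝ := fun j => ∑ r ∈ Icc 1 N, if r.factorization p = j then h r else 0 with hχ
    have hφ0 : ∀ i, 0 ≤ φ i := by
      intro i
      refine sum_nonneg fun q _ => ?_
      split_ifs
      · exact (hf q).1
      · exact le_refl _
    have hχ0 : ∀ i, 0 ≤ χ i := by
      intro i
      refine sum_nonneg fun q _ => ?_
      split_ifs
      · exact (hh q).1
      · exact le_refl _
    have hφs : ∀ k, ∑ i ∈ Icc k N, φ i = ∑ q ∈ Icc 1 N, if k ≤ q.factorization p then f q else 0 :=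
      fun k => sum_cells N p f k
    have hχs : ∀ k, ∑ i ∈ Icc k N, χ i = ∑ q ∈ Icc 1 N, if k ≤ q.factorization p then h q else 0 :=
      fun k => sum_cells N p h k
    have hφt : ∑ i ∈ range (N + 1), φ i = ∑ q ∈ Icc 1 N, f q := by
      rw [Nat.range_succ_eq_Icc_zero, hφs 0]
      simp only [zero_le, ↓reduceIte]
    have hχt : ∑ i ∈ range (N + 1), χ i = ∑ q ∈ Icc 1 N, h q := by
      rw [Nat.range_succ_eq_Icc_zero, hχs 0]
      simp only [zero_le, ↓reduceIte]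
    have hA : 0 ≤ (∏ p ∈ P, c p) * (s₁ * s₂) ^ (1 - θ) * K a b :=
      mul_nonneg (mul_nonneg hM (Real.rpow_nonneg (mul_nonneg hs₁.le hs₂.le) _)) (hK0 a b)
    have goal : ∀ T : ℝ, Lam Ω (insert p P) a b ψ₁ ψ₂ s₁ s₂ N f h ≤
        ((∏ p ∈ P, c p) * (s₁ * s₂) ^ (1 - θ) * K a b) * T →
        T ≤ c p * ((∑ i ∈ range (N + 1), φ i) * ∑ j ∈ range (N + 1), χ j) ^ θ →
        Lam Ω (insert p P) a b ψ₁ ψ₂ s₁ s₂ N f h ≤
          c p * (∏ p ∈ P, c p) * (s₁ * s₂) ^ (1 - θ) * K a b *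
          ((∑ q ∈ Icc 1 N, f q) * ∑ r ∈ Icc 1 N, h r) ^ θ := by
      intro T h1 h2
      rw [hφt, hχt] at h2
      calc _ ≤ _ := h1
        _ ≤ ((∏ p ∈ P, c p) * (s₁ * s₂) ^ (1 - θ) * K a b) *
            (c p * ((∑ q ∈ Icc 1 N, f q) * ∑ r ∈ Icc 1 N, h r) ^ θ) :=
          mul_le_mul_of_nonneg_left h2 hA
        _ = _ := by ring
    rcases hSP p hself N φ χ hφ0 hχ0 with hs | ⟨k, hk, hs⟩
    · refine goal _ ?_ hs
      unfold Lam
      rw [psum_eq_cells _ N p, mul_sum]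
      refine sum_le_sum fun i _ => ?_
      rw [mul_sum]
      exact sum_le_sum fun j _ => hcell i j
    · refine goal _ ?_ hs
      unfold Lam
      rw [psum_eq_L _ N p k, mul_add]
      refine add_le_add ?_ ?_
      · rw [hφs, hχs]
        exact hL k
      · rw [mul_sum]
        refine sum_le_sum fun i _ => ?_
        rw [mul_sum]
        refine sum_le_sum fun j _ => ?_
        split_ifs
        · rw [mul_zero]
        · exact hcell i j

end Vale.P028
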