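import Vale.Agent.P028.MathlibUsed
import Vale.Agent.P028.MDyadic
import Vale.Agent.P028.MTheoremL
import Vale.Agent.P028.MSP
import Vale.Agent.P028.MBase

/-!
# The lossless bound with weights `φ(q)/q`
-/

namespace Vale.P028

open Finset

open Classical in
theorem card_filter_cl (p : ℕ → Prop) (n : ℕ) : (((Icc 1 n).filter p).card : ℝ) ≤ n := by
  refine le_trans (b := ((Icc 1 n).card : ℝ)) ?_ (by simp only [Nat.card_Icc, add_tsub_cancel_right, Std.le_refl])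
  exact Nat.cast_le.2 (card_filter_le _ _)

/-- the totient weight is at most the product over the primes of `P` dividing `q` -/
theorem totient_weight_le (P : Finset ℕ) (hP : ∀ p ∈ P, p.Prime) (q : ℕ) :
    ((q.totient : ℝ) / q) ≤ ∏ p ∈ P with p ∣ q, (1 - 1 / (p : ℝ)) := by
  have hfac : ∀ p : ℕ, p.Prime → 0 ≤ 1 - 1 / (p : ℝ) := by
    intro p hp
    have h2 := hp.two_le
    have h2' : (2 : ℝ) ≤ p := by exact_mod_cast h2
    have : 1 / (p : ℝ) ≤ 1 / 2 := one_div_le_one_div_of_le (by norm_num) h2'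
    linarith
  rcases Nat.eq_zero_or_pos q with rfl | hq
  · simp only [Nat.totient_zero, Nat.cast_zero, div_zero]
    exact prod_nonneg fun p hp => hfac p (hP p (mem_filter.1 hp).1)
  · have hq' : (0 : ℝ) < q := by exact_mod_cast hq
    have h1 : (q.totient : ℚ) = q * ∏ p ∈ q.primeFactors, (1 - (p : ℚ)⁻¹) :=
      Nat.totient_eq_mul_prod_factors q
    have h2 : (q.totient : ℝ) = q * ∏ p ∈ q.primeFactors, (1 - 1 / (p : ℝ)) := by
      have h3 : ((q.totient : ℚ) : ℝ) = ((q * ∏ p ∈ q.primeFactors, (1 - (p : ℚ)⁻¹) : ℚ) : ℝ) := by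
        rw [h1]
      push_cast at h3
      simpa only [one_div] using h3
    rw [h2, mul_div_cancel_left₀ _ hq'.ne']
    have hsub : (P.filter (fun p => p ∣ q)) ⊆ q.primeFactors := by
      intro p hp
      rw [mem_filter] at hp
      exact Nat.mem_primeFactors.2 ⟨hP p hp.1, hp.2, hq.ne'⟩
    refine prod_le_prod_of_subset_of_le_one hsub ?_ ?_
    · intro p hp
      exact hfac p (Nat.prime_of_mem_primeFactors hp)
    · intro p hp _
      have : 0 ≤ 1 / (p : ℝ) := by (clear * -; positivity)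
      linarith only [this]

/-- a product over a set of primes of `1 + C p^{-2θ}` (or bounded for small `p`) is bounded -/
theorem prod_bounded {θ B₀ C M : ℝ} (hθ : 1 / 2 < θ) (hB₀ : 0 < B₀) (hC : 0 ≤ C) (hM : 1 ≤ M)
    (c : ℕ → ℝ) (hc0 : ∀ p : ℕ, p.Prime → 0 ≤ c p)
    (hc1 : ∀ p : ℕ, p.Prime → 1 / (p : ℝ) ≤ B₀ → c p ≤ 1 + C * (1 / (p : ℝ)) ^ (2 * θ))
    (hc2 : ∀ p : ℕ, p.Prime → ¬ 1 / (p : ℝ) ≤ B₀ → c p ≤ M) :
    ∃ K > 0, ∀ P : Finset ℕ, (∀ p ∈ P, p.Prime) → ∏ p ∈ P, c p ≤ K := by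
  set n₀ : ℕ := ⌈1 / B₀⌉₊ with hn₀
  set d₁ : ℕ → ℝ := fun n => if n < n₀ + 1 then Real.log M else 0 with hd₁
  set d₂ : ℕ → ℝ := fun n => C * (1 / (n : ℝ) ^ (2 * θ)) with hd₂
  have hs₁ : Summable d₁ := by
    refine summable_of_ne_finset_zero (s := range (n₀ + 1)) ?_
    intro n hn
    simp only [hd₁]
    rw [if_neg]
    simpa only [Order.lt_add_one_iff, not_le, mem_range] using hn
  have hs₂ : Summable d₂ := by
    refine Summable.mul_left _ ?_
    exact Real.summable_one_div_nat_rpow.2 (by linarith only [hθ])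
  have hlogM : 0 ≤ Real.log M := Real.log_nonneg hM
  have hd₁0 : ∀ n, 0 ≤ d₁ n := by
    intro n
    simp only [hd₁]
    split_ifs
    · exact hlogM
    · exact le_rfl
  have hd₂0 : ∀ n, 0 ≤ d₂ n := by
    intro n
    simp only [hd₂]
    (clear * - hC; positivity)
  have hs : Summable (fun n => d₁ n + d₂ n) := hs₁.add hs₂
  refine ⟨Real.exp (∑' n, (d₁ n + d₂ n)), Real.exp_pos _, ?_⟩
  intro P hP
  have hle : ∀ p ∈ P, c p ≤ Real.exp (d₁ p + d₂ p) := by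
    intro p hp
    have hpp := hP p hp
    have hp0 : (0 : ℝ) < p := by exact_mod_cast hpp.pos
    by_cases h : 1 / (p : ℝ) ≤ B₀
    · refine (hc1 p hpp h).trans ?_
      have h1 : (1 / (p : ℝ)) ^ (2 * θ) = 1 / (p : ℝ) ^ (2 * θ) := by
        rw [Real.div_rpow zero_le_one hp0.le, Real.one_rpow]
      rw [h1]
      have h2 : d₂ p ≤ d₁ p + d₂ p := by linarith only [hd₁0 p]
      have h3 := Real.add_one_le_exp (d₂ p)
      have h4 : Real.exp (d₂ p) ≤ Real.exp (d₁ p + d₂ p) := Real.exp_le_exp.2 h2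
      have h5 : d₂ p = C * (1 / (p : ℝ) ^ (2 * θ)) := rfl
      linarith only [h3, h4]
    · refine (hc2 p hpp h).trans ?_
      push Not at h
      have h1 : (p : ℝ) < 1 / B₀ := by
        rw [lt_div_iff₀ hB₀]
        rw [lt_div_iff₀ hp0] at h
        linarith only [h]
      have h2 : p < n₀ + 1 := by
        have : (p : ℝ) < n₀ := lt_of_lt_of_le h1 (Nat.le_ceil _)
        have h3 : p < n₀ := by exact_mod_cast this
        omega
      have h3 : d₁ p = Real.log M := by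
        simp only [hd₁]
        rw [if_pos h2]
      calc M = Real.exp (Real.log M) := (Real.exp_log (by linarith only [hM])).symm
        _ ≤ Real.exp (d₁ p + d₂ p) := by
          apply Real.exp_le_exp.2
          rw [h3]
          linarith only [hd₂0 p]
  calc ∏ p ∈ P, c p ≤ ∏ p ∈ P, Real.exp (d₁ p + d₂ p) :=
        prod_le_prod (fun p hp => hc0 p (hP p hp)) hle
    _ = Real.exp (∑ p ∈ P, (d₁ p + d₂ p)) := (Real.exp_sum _ _).symm
    _ ≤ Real.exp (∑' n, (d₁ n + d₂ n)) := by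
        apply Real.exp_le_exp.2
        exact hs.sum_le_tsum P (fun n _ => add_nonneg (hd₁0 n) (hd₂0 n))

/-- `T1`: lossless bound with weights `φ(q)/q`. -/
theorem T1 {θ : ℝ} (hθ : 1 / 2 < θ) (hθ1 : θ < 1) :
    ∃ C > 0, ∀ (ψ₁ ψ₂ f h : ℕ → ℝ) (s₁ s₂ : ℝ) (N : ℕ), 0 < s₁ → 0 < s₂ →
      (∀ q, 0 ≤ ψ₁ q) → (∀ q, 0 ≤ ψ₂ q) →
      (∀ q, 0 ≤ f q ∧ f q ≤ ψ₁ q * (q.totient / q)) →
      (∀ r, 0 ≤ h r ∧ h r ≤ ψ₂ r * (r.totient / r)) →
      psum (fun q r => (cofac r q : ℝ) * ψ₁ q ≤ s₁ ∧ (cofac q r : ℝ) * ψ₂ r ≤ s₂) N f h ≤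
        C * (s₁ * s₂) ^ (1 - θ) * ((∑ q ∈ Icc 1 N, f q) * ∑ r ∈ Icc 1 N, h r) ^ θ := by
  classical
  obtain ⟨B₀, hB₀, C, hC, hB₀1, hSPs⟩ := SP_small hθ hθ1
  have hl0 : 0 < 1 - θ := by (clear * - hθ1; linarith)
  -- the growth factor
  set B : ℕ → ℝ := fun p => (1 / (p : ℝ)) ^ (1 - θ) with hB
  set x : ℕ → ℝ := fun p => 1 / (p : ℝ) with hx
  set c : ℕ → ℝ := fun p => if 1 / (p : ℝ) ≤ B₀ then 1 + C * (1 / (p : ℝ)) ^ (2 * θ)
    else (1 + B p) / (1 - B p) with hc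
  have hpinv : ∀ p : ℕ, p.Prime → 0 < 1 / (p : ℝ) ∧ 1 / (p : ℝ) ≤ 1 / 2 := by
    intro p hp
    have h2' : (2 : ℝ) ≤ p := by exact_mod_cast hp.two_le
    exact ⟨by (clear * - h2'; positivity), one_div_le_one_div_of_le (by norm_num) h2'⟩
  have hBp : ∀ p : ℕ, p.Prime → 0 ≤ B p ∧ B p ≤ (1 / 2 : ℝ) ^ (1 - θ) := by
    intro p hp
    obtain ⟨h1, h2⟩ := hpinv p hp
    exact ⟨by simp only [hB]; (clear * - h1; positivity), Real.rpow_le_rpow h1.le h2 hl0.le⟩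
  set b₂ : ℝ := (1 / 2 : ℝ) ^ (1 - θ) with hb₂
  have hb₂1 : b₂ < 1 := Real.rpow_lt_one (by (clear * -; norm_num)) (by norm_num) hl0
  have hb₂0 : 0 < b₂ := by positivity
  have hSP : ∀ p : ℕ, p.Prime → SP θ (B p) (x p) (c p) := by
    intro p hp
    obtain ⟨h1, h2⟩ := hpinv p hp
    obtain ⟨h3, h4⟩ := hBp p hp
    by_cases h : 1 / (p : ℝ) ≤ B₀
    · have h5 := hSPs (1 / (p : ℝ)) (1 / (p : ℝ)) h1 h h1.le le_rfl
      have h6 : c p = 1 + 2 * (1 - θ) * (1 / (p : ℝ) - 1 / (p : ℝ)) +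
          C * (1 / (p : ℝ)) ^ (2 * θ) := by
        simp only [hc]
        rw [if_pos h]
        ring
      rw [h6]
      exact h5
    · have h6 : c p = (1 + B p) / (1 - B p) := by
        simp only [hc]
        rw [if_neg h]
      rw [h6]
      exact SP_large hθ hθ1 h3 (lt_of_le_of_lt h4 hb₂1) h1.le (by simp only [hx]; linarith only [h2])
  have hc0 : ∀ p : ℕ, p.Prime → 0 ≤ c p := by
    intro p hp
    obtain ⟨h3, h4⟩ := hBp p hp
    simp only [hc]
    split_ifs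
    · (clear * - hC; positivity)
    · apply div_nonneg <;> linarith only [h3, hb₂1, h4]
  obtain ⟨K₀, hK₀, hprod⟩ := prod_bounded (M := (1 + b₂) / (1 - b₂)) hθ hB₀ hC (by
      rw [le_div_iff₀ (by linarith only [hb₂1])]
      linarith only [hb₂0]) c hc0 (by
      intro p hp h
      simp only [hc]
      rw [if_pos h]) (by
      intro p hp h
      obtain ⟨h3, h4⟩ := hBp p hp
      simp only [hc]
      rw [if_neg h]
      apply div_le_div₀ <;> linarith only [h4, hb₂0, hb₂1])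
  set K : ℕ → ℕ → ℝ := fun a b => (16 / ((a : ℝ) * b)) ^ (1 - θ) with hK
  have hKgrow : ∀ p : ℕ, p.Prime → ∀ a b l : ℕ, 0 < a → 0 < b →
      (16 / (((a * p ^ l : ℕ) : ℝ) * b)) ^ (1 - θ) ≤ B p ^ l * (16 / ((a : ℝ) * b)) ^ (1 - θ) := by
    intro p hp a b l ha hb
    have ha' : (0 : ℝ) < a := by exact_mod_cast ha
    have hb' : (0 : ℝ) < b := by exact_mod_cast hb
    have hp' : (0 : ℝ) < p := by exact_mod_cast hp.pos
    have h1 : (16 / (((a * p ^ l : ℕ) : ℝ) * b)) = (1 / (p : ℝ)) ^ l * (16 / ((a : ℝ) * b)) := by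
      push_cast
      rw [one_div, inv_pow]
      field_simp
    rw [h1, Real.mul_rpow (by (clear * - hp'; positivity)) (by (clear * - ha hb; positivity))]
    apply le_of_eq
    congr 1
    simp only [hB]
    rw [← Real.rpow_natCast, ← Real.rpow_natCast, ← Real.rpow_mul (by (clear * - hp'; positivity)),
      ← Real.rpow_mul (by (clear * - hp'; positivity)), mul_comm]
  have hK0 : ∀ a b, 0 ≤ K a b := by
    intro a b
    simp only [hK]
    (clear * -; positivity)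
  have hbase : BaseBound (fun _ _ => True) θ K := by
    intro a b ha hb ψ₁ ψ₂ f h s₁ s₂ N hs₁ hs₂ hf hh
    have ha' : (0 : ℝ) < a := by exact_mod_cast ha
    have hb' : (0 : ℝ) < b := by exact_mod_cast hb
    have h1 := base_trick (fun _ _ => True) hθ hθ1 1 zero_le_one a b ha hb (by
      intro q₀ r₀ hq₀ hr₀ _
      rw [one_mul]
      refine mul_le_mul ?_ ?_ (by (clear * -; positivity)) (by (clear * - hq₀; positivity))
      · exact card_filter_cl _ _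
      · exact card_filter_cl _ _) ψ₁ ψ₂ f h s₁ s₂ N hs₁ hs₂ hf hh
    refine h1.trans (le_of_eq ?_)
    congr 1
    simp only [hK]
    rw [← Real.mul_rpow (by (clear * - hs₁ hs₂; positivity)) (by (clear * - ha hb; positivity))]
    congr 1
    (clear * - hb ha hs₂ hs₁; field_simp)
  refine ⟨K₀ * (16 : ℝ) ^ (1 - θ), by positivity, ?_⟩
  intro ψ₁ ψ₂ f h s₁ s₂ N hs₁ hs₂ hψ₁ hψ₂ hf hh
  set P : Finset ℕ := (Icc 1 N).filter Nat.Prime with hPdef
  have hP : ∀ p ∈ P, p.Prime := fun p hp => (mem_filter.1 hp).2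
  have hF0 : 0 ≤ ∑ q ∈ Icc 1 N, f q := sum_nonneg fun q _ => (hf q).1
  have hH0 : 0 ≤ ∑ q ∈ Icc 1 N, h q := sum_nonneg fun q _ => (hh q).1
  have hL := theoremL (fun _ _ => True) hθ hθ1 K hK0 hbase P hP B x c
    (fun p hp => (hBp p (hP p hp)).1)
    (fun p hp => ⟨(hpinv p (hP p hp)).1.le, by
      have := (hpinv p (hP p hp)).2
      simp only [hx]
      linarith only [this]⟩)
    (fun p hp => hc0 p (hP p hp))
    (fun p hp a b l ha hb => hKgrow p (hP p hp) a b l ha hb)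
    (fun p hp a b l ha hb => by
      have := hKgrow p (hP p hp) b a l hb ha
      simp only [hK]
      rw [mul_comm (a : ℝ) (b : ℝ), mul_comm (a : ℝ) ((b * p ^ l : ℕ) : ℝ)]
      exact this)
    (fun p hp => hSP p (hP p hp)) 1 1 one_pos one_pos ψ₁ ψ₂ f h s₁ s₂ N hs₁ hs₂ hψ₁ hψ₂
    (fun q => ⟨(hf q).1, (hf q).2.trans
      (mul_le_mul_of_nonneg_left (totient_weight_le P hP q) (hψ₁ q))⟩)
    (fun q => ⟨(hh q).1, (hh q).2.trans
      (mul_le_mul_of_nonneg_left (totient_weight_le P hP q) (hψ₂ q))⟩)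
  have hmono : psum (fun q r => (cofac r q : ℝ) * ψ₁ q ≤ s₁ ∧ (cofac q r : ℝ) * ψ₂ r ≤ s₂) N f h ≤
      Lam (fun _ _ => True) P 1 1 ψ₁ ψ₂ s₁ s₂ N f h := by
    unfold Lam
    refine psum_mono _ _ N f h f h (fun q => (hf q).1) (fun q => (hh q).1) ?_
    intro q hq r hr hqr _
    refine ⟨⟨?_, trivial, ?_, ?_⟩, le_rfl⟩
    · intro p hp hpd
      rw [mem_Icc] at hq
      have h1 : p ∣ q := hpd.trans (Nat.gcd_dvd_left q r)
      have h2 : p ≤ q := Nat.le_of_dvd (by (clear * - hq; omega)) h1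
      simp only [hPdef, mem_filter, mem_Icc]
      exact ⟨⟨hp.one_lt.le, by omega⟩, hp⟩
    · simpa only [Nat.cast_one, one_mul] using hqr.1
    · simpa only [Nat.cast_one, one_mul] using hqr.2
  refine hmono.trans (hL.trans ?_)
  have hK11 : K 1 1 = (16 : ℝ) ^ (1 - θ) := by
    simp only [hK]
    norm_num
  rw [hK11]
  have h1 := hprod P hP
  have h2 : 0 ≤ (s₁ * s₂) ^ (1 - θ) := by (clear * - hs₁ hs₂; positivity)
  have h3 : 0 ≤ ((∑ q ∈ Icc 1 N, f q) * ∑ r ∈ Icc 1 N, h r) ^ θ := by (clear * - hF0 hH0; positivity)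
  calc (∏ p ∈ P, c p) * (s₁ * s₂) ^ (1 - θ) * (16 : ℝ) ^ (1 - θ) *
        ((∑ q ∈ Icc 1 N, f q) * ∑ r ∈ Icc 1 N, h r) ^ θ
      = (∏ p ∈ P, c p) * ((s₁ * s₂) ^ (1 - θ) * (16 : ℝ) ^ (1 - θ) *
        ((∑ q ∈ Icc 1 N, f q) * ∑ r ∈ Icc 1 N, h r) ^ θ) := by ring
    _ ≤ K₀ * ((s₁ * s₂) ^ (1 - θ) * (16 : ℝ) ^ (1 - θ) *
        ((∑ q ∈ Icc 1 N, f q) * ∑ r ∈ Icc 1 N, h r) ^ θ) :=
        mul_le_mul_of_nonneg_right h1 (by (clear * - hs₁ hs₂ hF0 hH0; positivity))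
    _ = K₀ * (16 : ℝ) ^ (1 - θ) * (s₁ * s₂) ^ (1 - θ) *
        ((∑ q ∈ Icc 1 N, f q) * ∑ r ∈ Icc 1 N, h r) ^ θ := by ring

end Vale.P028
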