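import Vale.Agent.P028.MathlibUsed
import Vale.Agent.P028.MT1
import Vale.Agent.P028.MDyadic
import Vale.Agent.P028.MTensor

set_option linter.all false

/-!
# Variants of `T1`: divisibility conditions on the cofactors, weights, anatomy
-/

namespace Vale.P028

open Finset

theorem bt_totient_div_eq {q : ℕ} (hq : 0 < q) :
    (q.totient : ℝ) / q = ∏ p ∈ q.primeFactors, (1 - 1 / (p : ℝ)) := by
  have hq' : (0 : ℝ) < q := by exact_mod_cast hq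
  have h1 : (q.totient : ℚ) = q * ∏ p ∈ q.primeFactors, (1 - (p : ℚ)⁻¹) :=
    Nat.totient_eq_mul_prod_factors q
  have h2 : (q.totient : ℝ) = q * ∏ p ∈ q.primeFactors, (1 - 1 / (p : ℝ)) := by
    have h3 : ((q.totient : ℚ) : ℝ) = ((q * ∏ p ∈ q.primeFactors, (1 - (p : ℚ)⁻¹) : ℚ) : ℝ) := by
      rw [h1]
    push_cast at h3
    simpa only [one_div] using h3
  rw [h2, mul_div_cancel_left₀ _ hq'.ne']

theorem bt_one_sub_inv {p : ℕ} (hp : p.Prime) : 0 < 1 - 1 / (p : ℝ) ∧ 1 - 1 / (p : ℝ) ≤ 1 := by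
  have h2' : (2 : ℝ) ≤ p := by exact_mod_cast hp.two_le
  have h3 : 1 / (p : ℝ) ≤ 1 / 2 := one_div_le_one_div_of_le (by norm_num) h2'
  have h4 : 0 ≤ 1 / (p : ℝ) := by (clear * - h2'; positivity)
  constructor <;> linarith only [h3, h4]

/-- `φ(dq)/(dq) ≤ φ(q)/q`. -/
theorem bt_totient_mul_le {d q : ℕ} (hd : 0 < d) :
    (((d * q).totient : ℝ) / ((d * q : ℕ) : ℝ)) ≤ (q.totient : ℝ) / q := by
  rcases Nat.eq_zero_or_pos q with rfl | hq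
  · simp
  rw [bt_totient_div_eq (Nat.mul_pos hd hq), bt_totient_div_eq hq]
  refine prod_le_prod_of_subset_of_le_one (Nat.primeFactors_mono (Dvd.intro_left d rfl)
    (Nat.mul_pos hd hq).ne') ?_ ?_
  · intro p hp
    exact (bt_one_sub_inv (Nat.prime_of_mem_primeFactors hp)).1.le
  · intro p hp _
    exact (bt_one_sub_inv (Nat.prime_of_mem_primeFactors hp)).2

/-- the cofactors after removing `d₁ ∣ u`, `d₂ ∣ v`. -/
theorem bt_cofac_dvd {q r d₁ d₂ : ℕ} (hq : 0 < q) (hr : 0 < r)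
    (h1 : d₁ ∣ cofac q r) (h2 : d₂ ∣ cofac r q) :
    ∃ q' r' : ℕ, 0 < q' ∧ 0 < r' ∧ q = d₁ * q' ∧ r = d₂ * r' ∧
      cofac q r = d₁ * cofac q' r' ∧ cofac r q = d₂ * cofac r' q' := by
  obtain ⟨u, hu⟩ := h1
  obtain ⟨v, hv⟩ := h2
  set g := Nat.gcd q r with hg
  have hg0 : 0 < g := Nat.gcd_pos_of_pos_left _ hq
  have hq1 : g * cofac q r = q := gcd_mul_cofac q r
  have hr1 : g * cofac r q = r := by
    have := gcd_mul_cofac r q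
    rwa [Nat.gcd_comm] at this
  have hcop : Nat.Coprime (cofac q r) (cofac r q) := cofac_coprime hq
  have hu0 : 0 < u := by
    rcases Nat.eq_zero_or_pos u with rfl | h
    · rw [mul_zero] at hu
      rw [hu, mul_zero] at hq1
      omega
    · exact h
  have hv0 : 0 < v := by
    rcases Nat.eq_zero_or_pos v with rfl | h
    · rw [mul_zero] at hv
      rw [hv, mul_zero] at hr1
      omega
    · exact h
  have hcop' : Nat.Coprime u v := by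
    rw [hu, hv] at hcop
    exact (hcop.coprime_mul_left).coprime_mul_left_right
  refine ⟨g * u, g * v, Nat.mul_pos hg0 hu0, Nat.mul_pos hg0 hv0, ?_, ?_, ?_, ?_⟩
  · rw [← hq1, hu]; ring
  · rw [← hr1, hv]; ring
  · have h3 : Nat.gcd (g * u) (g * v) = g := by
      rw [Nat.gcd_mul_left, hcop'.gcd_eq_one, mul_one]
    have h4 : cofac (g * u) (g * v) = u := by
      unfold cofac
      rw [h3, Nat.mul_div_cancel_left _ hg0]
    rw [h4, hu]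
  · have h3 : Nat.gcd (g * v) (g * u) = g := by
      rw [Nat.gcd_mul_left, hcop'.symm.gcd_eq_one, mul_one]
    have h4 : cofac (g * v) (g * u) = v := by
      unfold cofac
      rw [h3, Nat.mul_div_cancel_left _ hg0]
    rw [h4, hv]

/-- `f(d q)`, supported on `d q ≤ N` -/
noncomputable def btshift (d N : ℕ) (f : ℕ → ℝ) (q : ℕ) : ℝ := if d * q ≤ N then f (d * q) else 0

theorem bt_sum_btshift_le {d : ℕ} (hd : 0 < d) (N : ℕ) (f : ℕ → ℝ) (hf : ∀ q, 0 ≤ f q) :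
    ∑ q ∈ Icc 1 N, btshift d N f q ≤ ∑ q ∈ Icc 1 N, f q := by
  classical
  have h1 : ∑ q ∈ Icc 1 N, btshift d N f q = ∑ q ∈ (Icc 1 N).filter (fun q => d * q ≤ N), f (d * q) := by
    rw [sum_filter]
    rfl
  rw [h1]
  have h2 : ∑ q ∈ (Icc 1 N).filter (fun q => d * q ≤ N), f (d * q) =
      ∑ m ∈ ((Icc 1 N).filter (fun q => d * q ≤ N)).image (fun q => d * q), f m := by
    rw [sum_image]
    intro a _ b _ hab
    exact Nat.eq_of_mul_eq_mul_left hd hab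
  rw [h2]
  refine sum_le_sum_of_subset_of_nonneg ?_ (fun q _ _ => hf q)
  intro m hm
  rw [mem_image] at hm
  obtain ⟨q, hq, rfl⟩ := hm
  rw [mem_filter, mem_Icc] at hq
  rw [mem_Icc]
  exact ⟨Nat.mul_pos hd hq.1.1, hq.2⟩

/-- `T1` with divisibility conditions on the cofactors. -/
theorem T1_dvd {θ : ℝ} (hθ : 1 / 2 < θ) (hθ1 : θ < 1) :
    ∃ C > 0, ∀ (d₁ d₂ : ℕ), 0 < d₁ → 0 < d₂ → ∀ (ψ₁ ψ₂ f h : ℕ → ℝ) (s₁ s₂ : ℝ) (N : ℕ),
      0 < s₁ → 0 < s₂ → (∀ q, 0 ≤ ψ₁ q) → (∀ q, 0 ≤ ψ₂ q) →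
      (∀ q, 0 ≤ f q ∧ f q ≤ ψ₁ q * (q.totient / q)) →
      (∀ r, 0 ≤ h r ∧ h r ≤ ψ₂ r * (r.totient / r)) →
      psum (fun q r => d₁ ∣ cofac q r ∧ d₂ ∣ cofac r q ∧ (cofac r q : ℝ) * ψ₁ q ≤ s₁ ∧
          (cofac q r : ℝ) * ψ₂ r ≤ s₂) N f h ≤
        C * (s₁ * s₂) ^ (1 - θ) * ((∑ q ∈ Icc 1 N, f q) * ∑ r ∈ Icc 1 N, h r) ^ θ *
          (((d₁ : ℝ) ^ (-(1 - θ))) * ((d₂ : ℝ) ^ (-(1 - θ)))) := by
  classical
  obtain ⟨C, hC, hT⟩ := T1 hθ hθ1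
  refine ⟨C, hC, ?_⟩
  intro d₁ d₂ hd₁ hd₂ ψ₁ ψ₂ f h s₁ s₂ N hs₁ hs₂ hψ₁ hψ₂ hf hh
  have hd₁' : (0 : ℝ) < d₁ := by exact_mod_cast hd₁
  have hd₂' : (0 : ℝ) < d₂ := by exact_mod_cast hd₂
  -- the new sequences
  have hf' : ∀ q, 0 ≤ btshift d₁ N f q ∧
      btshift d₁ N f q ≤ (fun q => ψ₁ (d₁ * q)) q * (q.totient / q) := by
    intro q
    unfold btshift
    split_ifs
    · refine ⟨(hf _).1, (hf _).2.trans ?_⟩
      exact mul_le_mul_of_nonneg_left (bt_totient_mul_le hd₁) (hψ₁ _)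
    · exact ⟨le_rfl, mul_nonneg (hψ₁ _) (by (clear * -; positivity))⟩
  have hh' : ∀ q, 0 ≤ btshift d₂ N h q ∧
      btshift d₂ N h q ≤ (fun q => ψ₂ (d₂ * q)) q * (q.totient / q) := by
    intro q
    unfold btshift
    split_ifs
    · refine ⟨(hh _).1, (hh _).2.trans ?_⟩
      exact mul_le_mul_of_nonneg_left (bt_totient_mul_le hd₂) (hψ₂ _)
    · exact ⟨le_rfl, mul_nonneg (hψ₂ _) (by (clear * -; positivity))⟩
  have key := hT (fun q => ψ₁ (d₁ * q)) (fun q => ψ₂ (d₂ * q)) (btshift d₁ N f) (btshift d₂ N h)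
    (s₁ / d₂) (s₂ / d₁) N (by positivity) (by positivity) (fun q => hψ₁ _) (fun q => hψ₂ _) hf' hh'
  -- the sum is at most the new sum
  have hle : psum (fun q r => d₁ ∣ cofac q r ∧ d₂ ∣ cofac r q ∧ (cofac r q : ℝ) * ψ₁ q ≤ s₁ ∧
          (cofac q r : ℝ) * ψ₂ r ≤ s₂) N f h ≤
      psum (fun q r => (cofac r q : ℝ) * (fun q => ψ₁ (d₁ * q)) q ≤ s₁ / d₂ ∧
        (cofac q r : ℝ) * (fun q => ψ₂ (d₂ * q)) r ≤ s₂ / d₁) N
        (btshift d₁ N f) (btshift d₂ N h) := by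
    unfold psum
    rw [← sum_product', ← sum_product']
    set A : ℕ × ℕ → ℝ := fun z => if (d₁ ∣ cofac z.1 z.2 ∧ d₂ ∣ cofac z.2 z.1 ∧
      (cofac z.2 z.1 : ℝ) * ψ₁ z.1 ≤ s₁ ∧ (cofac z.1 z.2 : ℝ) * ψ₂ z.2 ≤ s₂) then
        f z.1 * h z.2 else 0 with hA
    set A' : ℕ × ℕ → ℝ := fun z => if ((cofac z.2 z.1 : ℝ) * ψ₁ (d₁ * z.1) ≤ s₁ / d₂ ∧
      (cofac z.1 z.2 : ℝ) * ψ₂ (d₂ * z.2) ≤ s₂ / d₁) then
        btshift d₁ N f z.1 * btshift d₂ N h z.2 else 0 with hA'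
    refine le_trans (le_of_eq (sum_congr rfl (g := A) fun z _ => ?_))
      (le_trans (?_ : ∑ z ∈ Icc 1 N ×ˢ Icc 1 N, A z ≤ ∑ z ∈ Icc 1 N ×ˢ Icc 1 N, A' z)
        (le_of_eq (sum_congr rfl (f := A') fun z _ => ?_)))
    · simp only [hA]
      congr
    swap
    · simp only [hA']
      congr
    have hA'0 : ∀ z, 0 ≤ A' z := by
      intro z
      simp only [hA']
      split_ifs
      · exact mul_nonneg (hf' _).1 (hh' _).1
      · exact le_rfl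
    -- injection on the support
    have h1 : ∑ z ∈ Icc 1 N ×ˢ Icc 1 N, A z =
        ∑ z ∈ (Icc 1 N ×ˢ Icc 1 N).filter (fun z => A z ≠ 0), A z := by
      rw [sum_filter_ne_zero]
    rw [h1]
    have h2 : ∑ z ∈ (Icc 1 N ×ˢ Icc 1 N).filter (fun z => A z ≠ 0), A z ≤
        ∑ z ∈ ((Icc 1 N ×ˢ Icc 1 N).filter (fun z => A z ≠ 0)).image
          (fun z => ((z.1 / d₁, z.2 / d₂) : ℕ × ℕ)), A' z := by
      have hprop : ∀ z ∈ (Icc 1 N ×ˢ Icc 1 N).filter (fun z => A z ≠ 0),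
          d₁ * (z.1 / d₁) = z.1 ∧ d₂ * (z.2 / d₂) = z.2 ∧
          A z = A' (z.1 / d₁, z.2 / d₂) := by
        intro z hz
        rw [mem_filter, mem_product, mem_Icc, mem_Icc] at hz
        obtain ⟨⟨⟨hz1, hz2⟩, hz3, hz4⟩, hz5⟩ := hz
        have hcond : (d₁ ∣ cofac z.1 z.2 ∧ d₂ ∣ cofac z.2 z.1 ∧
            (cofac z.2 z.1 : ℝ) * ψ₁ z.1 ≤ s₁ ∧ (cofac z.1 z.2 : ℝ) * ψ₂ z.2 ≤ s₂) := by
          by_contra hne
          exact hz5 (by simp only [hA]; rw [if_neg hne])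
        obtain ⟨q', r', hq', hr', hq, hr, hu, hv⟩ := bt_cofac_dvd (by omega) (by omega)
          hcond.1 hcond.2.1
        have e1 : z.1 / d₁ = q' := by rw [hq]; exact Nat.mul_div_cancel_left _ hd₁
        have e2 : z.2 / d₂ = r' := by rw [hr]; exact Nat.mul_div_cancel_left _ hd₂
        refine ⟨by rw [e1, hq], by rw [e2, hr], ?_⟩
        rw [e1, e2]
        have hc3 := hcond.2.2.1
        have hc4 := hcond.2.2.2
        rw [hv] at hc3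
        rw [hu] at hc4
        simp only [hA, hA']
        rw [if_pos hcond, if_pos]
        · unfold btshift
          rw [← hq, ← hr, if_pos hz2, if_pos hz4]
        · rw [← hq, ← hr]
          push_cast at hc3 hc4
          constructor
          · rw [le_div_iff₀ hd₂']
            linarith only [hc3]
          · rw [le_div_iff₀ hd₁']
            linarith only [hc4]
      rw [sum_image]
      · exact le_of_eq (sum_congr rfl fun z hz => (hprop z hz).2.2)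
      · intro z hz w hw hzw
        obtain ⟨a1, a2, -⟩ := hprop z hz
        obtain ⟨b1, b2, -⟩ := hprop w hw
        simp only [Prod.mk.injEq] at hzw
        rw [Prod.ext_iff]
        constructor
        · rw [← a1, ← b1, hzw.1]
        · rw [← a2, ← b2, hzw.2]
    refine h2.trans ?_
    refine sum_le_sum_of_subset_of_nonneg ?_ (fun z _ _ => hA'0 z)
    intro w hw
    rw [mem_image] at hw
    obtain ⟨z, hz, rfl⟩ := hw
    rw [mem_filter, mem_product, mem_Icc, mem_Icc] at hz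
    obtain ⟨⟨⟨hz1, hz2⟩, hz3, hz4⟩, hz5⟩ := hz
    have hcond : (d₁ ∣ cofac z.1 z.2 ∧ d₂ ∣ cofac z.2 z.1 ∧
        (cofac z.2 z.1 : ℝ) * ψ₁ z.1 ≤ s₁ ∧ (cofac z.1 z.2 : ℝ) * ψ₂ z.2 ≤ s₂) := by
      by_contra hne
      exact hz5 (by simp only [hA]; rw [if_neg hne])
    obtain ⟨q', r', hq', hr', hq, hr, -, -⟩ := bt_cofac_dvd (by omega) (by omega)
      hcond.1 hcond.2.1
    have e1 : z.1 / d₁ = q' := by rw [hq]; exact Nat.mul_div_cancel_left _ hd₁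
    have e2 : z.2 / d₂ = r' := by rw [hr]; exact Nat.mul_div_cancel_left _ hd₂
    rw [mem_product, mem_Icc, mem_Icc]
    simp only
    refine ⟨⟨by rw [e1]; exact hq', (Nat.div_le_self _ _).trans hz2⟩,
      by rw [e2]; exact hr', (Nat.div_le_self _ _).trans hz4⟩
  refine hle.trans (key.trans ?_)
  have hF := bt_sum_btshift_le hd₁ N f (fun q => (hf q).1)
  have hH := bt_sum_btshift_le hd₂ N h (fun q => (hh q).1)
  have hF0 : 0 ≤ ∑ q ∈ Icc 1 N, btshift d₁ N f q := sum_nonneg fun q _ => (hf' q).1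
  have hH0 : 0 ≤ ∑ q ∈ Icc 1 N, btshift d₂ N h q := sum_nonneg fun q _ => (hh' q).1
  have hFF0 : 0 ≤ ∑ q ∈ Icc 1 N, f q := sum_nonneg fun q _ => (hf q).1
  have h3 : ((∑ q ∈ Icc 1 N, btshift d₁ N f q) * ∑ r ∈ Icc 1 N, btshift d₂ N h r) ^ θ ≤
      ((∑ q ∈ Icc 1 N, f q) * ∑ r ∈ Icc 1 N, h r) ^ θ := by
    apply Real.rpow_le_rpow (by (clear * - hF0 hH0; positivity)) _ (by linarith only [hθ])
    exact mul_le_mul hF hH hH0 hFF0
  have h4 : (s₁ / d₂ * (s₂ / d₁)) ^ (1 - θ) =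
      (s₁ * s₂) ^ (1 - θ) * (((d₁ : ℝ) ^ (-(1 - θ))) * ((d₂ : ℝ) ^ (-(1 - θ)))) := by
    rw [show s₁ / d₂ * (s₂ / d₁) = (s₁ * s₂) * ((d₁ : ℝ)⁻¹ * (d₂ : ℝ)⁻¹) by
      (clear * - hd₁ hs₂ hd₂ hs₁; field_simp)]
    rw [Real.mul_rpow (by (clear * - hs₁ hs₂; positivity)) (by positivity),
      Real.mul_rpow (inv_nonneg.2 hd₁'.le) (inv_nonneg.2 hd₂'.le),
      Real.inv_rpow hd₁'.le, Real.inv_rpow hd₂'.le, Real.rpow_neg hd₁'.le,
      Real.rpow_neg hd₂'.le]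
  rw [h4]
  calc C * ((s₁ * s₂) ^ (1 - θ) * (((d₁ : ℝ) ^ (-(1 - θ))) * ((d₂ : ℝ) ^ (-(1 - θ))))) *
        ((∑ q ∈ Icc 1 N, btshift d₁ N f q) * ∑ r ∈ Icc 1 N, btshift d₂ N h r) ^ θ
      ≤ C * ((s₁ * s₂) ^ (1 - θ) * (((d₁ : ℝ) ^ (-(1 - θ))) * ((d₂ : ℝ) ^ (-(1 - θ))))) *
        ((∑ q ∈ Icc 1 N, f q) * ∑ r ∈ Icc 1 N, h r) ^ θ := by
        refine mul_le_mul_of_nonneg_left h3 (by (clear * - hC hs₁ hs₂ hd₁ hd₂; positivity))
    _ = _ := by ring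

theorem bt_prod_expand (P : Finset ℕ) (hP : ∀ p ∈ P, p.Prime) (κ : ℕ → ℝ) (u : ℕ) :
    ∏ p ∈ P with p ∣ u, (1 + κ p) =
      ∑ D ∈ P.powerset, if (∏ p ∈ D, p) ∣ u then ∏ p ∈ D, κ p else 0 := by
  classical
  rw [prod_one_add, ← sum_filter]
  refine sum_congr ?_ fun _ _ => rfl
  ext D
  rw [mem_powerset, mem_filter, mem_powerset]
  constructor
  · intro h
    refine ⟨fun p hp => (mem_filter.1 (h hp)).1, ?_⟩
    exact prod_primes_dvd u (fun p hp => (hP p (mem_filter.1 (h hp)).1).prime)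
      (fun p hp => (mem_filter.1 (h hp)).2)
  · rintro ⟨h1, h2⟩ p hp
    exact mem_filter.2 ⟨h1 hp, (dvd_prod_of_mem _ hp).trans h2⟩

/-- `T1` with multiplicative weights on the cofactors. -/
theorem T1_weighted {θ : ℝ} (hθ : 1 / 2 < θ) (hθ1 : θ < 1) :
    ∃ C > 0, ∀ (P : Finset ℕ), (∀ p ∈ P, p.Prime) → ∀ κ : ℕ → ℝ, (∀ p ∈ P, 0 ≤ κ p) →
      ∀ (ψ₁ ψ₂ f h : ℕ → ℝ) (s₁ s₂ : ℝ) (N : ℕ),
      0 < s₁ → 0 < s₂ → (∀ q, 0 ≤ ψ₁ q) → (∀ q, 0 ≤ ψ₂ q) →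
      (∀ q, 0 ≤ f q ∧ f q ≤ ψ₁ q * (q.totient / q)) →
      (∀ r, 0 ≤ h r ∧ h r ≤ ψ₂ r * (r.totient / r)) →
      ∑ q ∈ Icc 1 N, ∑ r ∈ Icc 1 N,
        (if (cofac r q : ℝ) * ψ₁ q ≤ s₁ ∧ (cofac q r : ℝ) * ψ₂ r ≤ s₂ then
          f q * h r * ((∏ p ∈ P with p ∣ cofac q r, (1 + κ p)) *
            ∏ p ∈ P with p ∣ cofac r q, (1 + κ p)) else 0) ≤
        C * (s₁ * s₂) ^ (1 - θ) * ((∑ q ∈ Icc 1 N, f q) * ∑ r ∈ Icc 1 N, h r) ^ θ *
          (∏ p ∈ P, (1 + κ p * (p : ℝ) ^ (-(1 - θ)))) ^ 2 := by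
  classical
  obtain ⟨C, hC, hT⟩ := T1_dvd hθ hθ1
  refine ⟨C, hC, ?_⟩
  intro P hP κ hκ ψ₁ ψ₂ f h s₁ s₂ N hs₁ hs₂ hψ₁ hψ₂ hf hh
  have hF0 : 0 ≤ ∑ q ∈ Icc 1 N, f q := sum_nonneg fun q _ => (hf q).1
  have hH0 : 0 ≤ ∑ q ∈ Icc 1 N, h q := sum_nonneg fun q _ => (hh q).1
  have hκD : ∀ D ∈ P.powerset, 0 ≤ ∏ p ∈ D, κ p := fun D hD =>
    prod_nonneg fun p hp => hκ p (mem_powerset.1 hD hp)
  have hDpos : ∀ D ∈ P.powerset, 0 < ∏ p ∈ D, p := fun D hD =>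
    prod_pos fun p hp => (hP p (mem_powerset.1 hD hp)).pos
  -- expand
  have h1 : ∀ q r : ℕ, (if (cofac r q : ℝ) * ψ₁ q ≤ s₁ ∧ (cofac q r : ℝ) * ψ₂ r ≤ s₂ then
          f q * h r * ((∏ p ∈ P with p ∣ cofac q r, (1 + κ p)) *
            ∏ p ∈ P with p ∣ cofac r q, (1 + κ p)) else 0) =
      ∑ D₁ ∈ P.powerset, ∑ D₂ ∈ P.powerset, ((∏ p ∈ D₁, κ p) * ∏ p ∈ D₂, κ p) *
        (if (∏ p ∈ D₁, p) ∣ cofac q r ∧ (∏ p ∈ D₂, p) ∣ cofac r q ∧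
          (cofac r q : ℝ) * ψ₁ q ≤ s₁ ∧ (cofac q r : ℝ) * ψ₂ r ≤ s₂ then f q * h r else 0) := by
    intro q r
    rw [bt_prod_expand P hP κ, bt_prod_expand P hP κ, sum_mul_sum]
    by_cases hc : (cofac r q : ℝ) * ψ₁ q ≤ s₁ ∧ (cofac q r : ℝ) * ψ₂ r ≤ s₂
    · rw [if_pos hc, mul_sum]
      refine sum_congr rfl fun D₁ _ => ?_
      rw [mul_sum]
      refine sum_congr rfl fun D₂ _ => ?_
      by_cases h1 : (∏ p ∈ D₁, p) ∣ cofac q r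
      · by_cases h2 : (∏ p ∈ D₂, p) ∣ cofac r q
        · rw [if_pos h1, if_pos h2, if_pos ⟨h1, h2, hc⟩]
          ring
        · rw [if_pos h1, if_neg h2, if_neg (fun h => h2 h.2.1)]
          ring
      · have h3 : ¬ ((∏ p ∈ D₁, p) ∣ cofac q r ∧ (∏ p ∈ D₂, p) ∣ cofac r q ∧
          (cofac r q : ℝ) * ψ₁ q ≤ s₁ ∧ (cofac q r : ℝ) * ψ₂ r ≤ s₂) := fun h => h1 h.1
        rw [if_neg h1, if_neg h3]
        ring
    · rw [if_neg hc]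
      symm
      refine sum_eq_zero fun D₁ _ => sum_eq_zero fun D₂ _ => ?_
      rw [if_neg (fun h => hc h.2.2), mul_zero]
  have h2 : ∑ q ∈ Icc 1 N, ∑ r ∈ Icc 1 N,
        (if (cofac r q : ℝ) * ψ₁ q ≤ s₁ ∧ (cofac q r : ℝ) * ψ₂ r ≤ s₂ then
          f q * h r * ((∏ p ∈ P with p ∣ cofac q r, (1 + κ p)) *
            ∏ p ∈ P with p ∣ cofac r q, (1 + κ p)) else 0) =
      ∑ D₁ ∈ P.powerset, ∑ D₂ ∈ P.powerset, ((∏ p ∈ D₁, κ p) * ∏ p ∈ D₂, κ p) *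
        psum (fun q r => (∏ p ∈ D₁, p) ∣ cofac q r ∧ (∏ p ∈ D₂, p) ∣ cofac r q ∧
          (cofac r q : ℝ) * ψ₁ q ≤ s₁ ∧ (cofac q r : ℝ) * ψ₂ r ≤ s₂) N f h := by
    have e1 : ∀ D₁ D₂ : Finset ℕ, psum (fun q r => (∏ p ∈ D₁, p) ∣ cofac q r ∧
          (∏ p ∈ D₂, p) ∣ cofac r q ∧
          (cofac r q : ℝ) * ψ₁ q ≤ s₁ ∧ (cofac q r : ℝ) * ψ₂ r ≤ s₂) N f h =
        ∑ q ∈ Icc 1 N, ∑ r ∈ Icc 1 N, (if (∏ p ∈ D₁, p) ∣ cofac q r ∧
          (∏ p ∈ D₂, p) ∣ cofac r q ∧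
          (cofac r q : ℝ) * ψ₁ q ≤ s₁ ∧ (cofac q r : ℝ) * ψ₂ r ≤ s₂ then f q * h r else 0) := by
      intro D₁ D₂
      unfold psum
      refine sum_congr rfl fun q _ => sum_congr rfl fun r _ => ?_
      congr
    simp only [h1, e1]
    simp only [mul_sum]
    calc ∑ q ∈ Icc 1 N, ∑ r ∈ Icc 1 N, ∑ D₁ ∈ P.powerset, ∑ D₂ ∈ P.powerset,
          ((∏ p ∈ D₁, κ p) * ∏ p ∈ D₂, κ p) *
          (if (∏ p ∈ D₁, p) ∣ cofac q r ∧ (∏ p ∈ D₂, p) ∣ cofac r q ∧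
          (cofac r q : ℝ) * ψ₁ q ≤ s₁ ∧ (cofac q r : ℝ) * ψ₂ r ≤ s₂ then f q * h r else 0)
        = ∑ q ∈ Icc 1 N, ∑ D₁ ∈ P.powerset, ∑ r ∈ Icc 1 N, ∑ D₂ ∈ P.powerset,
          ((∏ p ∈ D₁, κ p) * ∏ p ∈ D₂, κ p) *
          (if (∏ p ∈ D₁, p) ∣ cofac q r ∧ (∏ p ∈ D₂, p) ∣ cofac r q ∧
          (cofac r q : ℝ) * ψ₁ q ≤ s₁ ∧ (cofac q r : ℝ) * ψ₂ r ≤ s₂ then f q * h r else 0) := by
          refine sum_congr rfl fun q _ => ?_
          rw [sum_comm]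
      _ = ∑ D₁ ∈ P.powerset, ∑ q ∈ Icc 1 N, ∑ r ∈ Icc 1 N, ∑ D₂ ∈ P.powerset,
          ((∏ p ∈ D₁, κ p) * ∏ p ∈ D₂, κ p) *
          (if (∏ p ∈ D₁, p) ∣ cofac q r ∧ (∏ p ∈ D₂, p) ∣ cofac r q ∧
          (cofac r q : ℝ) * ψ₁ q ≤ s₁ ∧ (cofac q r : ℝ) * ψ₂ r ≤ s₂ then f q * h r else 0) :=
          sum_comm
      _ = _ := by
          refine sum_congr rfl fun D₁ _ => ?_
          rw [sum_comm (s := P.powerset)]
          refine sum_congr rfl fun q _ => ?_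
          rw [sum_comm]
  rw [h2]
  set X : ℝ := C * (s₁ * s₂) ^ (1 - θ) * ((∑ q ∈ Icc 1 N, f q) * ∑ r ∈ Icc 1 N, h r) ^ θ with hX
  have h3 : ∀ D₁ ∈ P.powerset, ∀ D₂ ∈ P.powerset, ((∏ p ∈ D₁, κ p) * ∏ p ∈ D₂, κ p) *
        psum (fun q r => (∏ p ∈ D₁, p) ∣ cofac q r ∧ (∏ p ∈ D₂, p) ∣ cofac r q ∧
          (cofac r q : ℝ) * ψ₁ q ≤ s₁ ∧ (cofac q r : ℝ) * ψ₂ r ≤ s₂) N f h ≤
      X * ((∏ p ∈ D₁, (κ p * (p : ℝ) ^ (-(1 - θ)))) * ∏ p ∈ D₂, (κ p * (p : ℝ) ^ (-(1 - θ)))) := by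
    intro D₁ hD₁ D₂ hD₂
    have h4 := hT (∏ p ∈ D₁, p) (∏ p ∈ D₂, p) (hDpos D₁ hD₁) (hDpos D₂ hD₂) ψ₁ ψ₂ f h s₁ s₂ N
      hs₁ hs₂ hψ₁ hψ₂ hf hh
    have e2 : ∀ D : Finset ℕ, (((∏ p ∈ D, p : ℕ) : ℝ)) ^ (-(1 - θ)) =
        ∏ p ∈ D, (p : ℝ) ^ (-(1 - θ)) := by
      intro D
      rw [Nat.cast_prod, Real.finsetProd_rpow]
      intro p _
      (clear * -; positivity)
    rw [e2, e2] at h4
    calc ((∏ p ∈ D₁, κ p) * ∏ p ∈ D₂, κ p) * _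
        ≤ ((∏ p ∈ D₁, κ p) * ∏ p ∈ D₂, κ p) * (X * ((∏ p ∈ D₁, (p : ℝ) ^ (-(1 - θ))) *
          ∏ p ∈ D₂, (p : ℝ) ^ (-(1 - θ)))) := by
          refine mul_le_mul_of_nonneg_left h4 (mul_nonneg (hκD D₁ hD₁) (hκD D₂ hD₂))
      _ = _ := by
          rw [prod_mul_distrib, prod_mul_distrib]
          ring
  refine (sum_le_sum fun D₁ hD₁ => sum_le_sum fun D₂ hD₂ => h3 D₁ hD₁ D₂ hD₂).trans (le_of_eq ?_)
  rw [sq, prod_one_add, sum_mul_sum, mul_sum]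
  refine sum_congr rfl fun D₁ _ => ?_
  rw [mul_sum]


/-! ### anatomy -/

/-- the weight `∏_{p ∣ n} (1 - 1/p)^{-A} * exp (t * ∑_{p ∣ n, p > t} 1/p)`. -/
noncomputable def btW (A : ℕ) (t : ℝ) (n : ℕ) : ℝ :=
  ∏ p ∈ n.primeFactors, ((1 - 1 / (p : ℝ))⁻¹ ^ A * Real.exp (if t < p then t / p else 0))

theorem btW_eq (A : ℕ) (t : ℝ) (n : ℕ) :
    btW A t n = (∏ p ∈ n.primeFactors, (1 - 1 / (p : ℝ))⁻¹) ^ A *
      Real.exp (t * ∑ p ∈ n.primeFactors.filter (fun p : ℕ => t < (p : ℝ)), 1 / (p : ℝ)) := by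
  unfold btW
  rw [prod_mul_distrib, prod_pow, ← Real.exp_sum, ← sum_filter, mul_sum]
  have h1 : ∑ p ∈ n.primeFactors.filter (fun p : ℕ => t < (p : ℝ)), t / (p : ℝ) =
      ∑ p ∈ n.primeFactors.filter (fun p : ℕ => t < (p : ℝ)), t * (1 / (p : ℝ)) :=
    sum_congr rfl fun p _ => by ring
  rw [h1]

theorem btW_mul {A : ℕ} {t : ℝ} {u v : ℕ} (h : Nat.Coprime u v) :
    btW A t (u * v) = btW A t u * btW A t v := by
  unfold btW
  rw [Nat.Coprime.primeFactors_mul h, prod_union (Nat.Coprime.disjoint_primeFactors h)]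

theorem bt_rpow_le_half (K a : ℝ) (hK : 0 ≤ K) (ha : 0 ≤ a) (ha1 : a < 1) :
    ∃ C' : ℝ, 0 ≤ C' ∧ ∀ t : ℝ, 1 ≤ t → K * t ^ a ≤ t / 2 + C' := by
  set T : ℝ := max 1 ((2 * K) ^ (1 / (1 - a))) with hT
  have h1a : 0 < 1 - a := by linarith only [ha1]
  refine ⟨K * T ^ a, by (clear * - hK; positivity), ?_⟩
  intro t ht
  by_cases h : T ≤ t
  · have h1 : (2 * K) ^ (1 / (1 - a)) ≤ t := (le_max_right _ _).trans h
    have h2 : 2 * K ≤ t ^ (1 - a) := by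
      have h3 : ((2 * K) ^ (1 / (1 - a))) ^ (1 - a) ≤ t ^ (1 - a) :=
        Real.rpow_le_rpow (by (clear * - hK; positivity)) h1 h1a.le
      rwa [← Real.rpow_mul (by positivity), one_div, inv_mul_cancel₀ h1a.ne', Real.rpow_one] at h3
    have h4 : t ^ (1 - a) * t ^ a = t := by
      rw [← Real.rpow_add (by linarith only [ht])]
      simp
    have h5 : 0 ≤ t ^ a := by positivity
    have h6 : 0 ≤ K * T ^ a := by positivity
    have h7 : 2 * K * t ^ a ≤ t := by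
      calc 2 * K * t ^ a ≤ t ^ (1 - a) * t ^ a := by (clear * - h2 ht; gcongr)
        _ = t := h4
    linarith only [h7, h6]
  · push Not at h
    have h1 : t ^ a ≤ T ^ a := Real.rpow_le_rpow (by linarith only [ht]) h.le ha
    have h2 : K * t ^ a ≤ K * T ^ a := mul_le_mul_of_nonneg_left h1 hK
    linarith only [ht, h2]

theorem bt_kappa_le (A : ℕ) {t : ℝ} (ht : 1 ≤ t) {p : ℕ} (hp : p.Prime) :
    0 ≤ (1 - 1 / (p : ℝ))⁻¹ ^ A * Real.exp (if t < p then t / p else 0) - 1 ∧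
    (1 - 1 / (p : ℝ))⁻¹ ^ A * Real.exp (if t < p then t / p else 0) - 1 ≤
      (4 : ℝ) ^ (A + 1) * (1 / p + if t < p then t / p else 0) := by
  have hp2 : (2 : ℝ) ≤ p := by exact_mod_cast hp.two_le
  have hp0 : (0 : ℝ) < p := by linarith
  set x : ℝ := 1 / (p : ℝ) with hx
  have hx0 : 0 < x := by (clear * - hp2; positivity)
  have hx2 : x ≤ 1 / 2 := one_div_le_one_div_of_le (by norm_num) hp2
  set y : ℝ := if t < p then t / (p : ℝ) else 0 with hy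
  have hy0 : 0 ≤ y := by
    rw [hy]
    split_ifs
    · (clear * - ht hp2; positivity)
    · exact le_rfl
  have hy1 : y ≤ 1 := by
    rw [hy]
    split_ifs with h
    · rw [div_le_one hp0]
      exact h.le
    · norm_num
  have h1 : 1 ≤ (1 - x)⁻¹ := (one_le_inv₀ (by linarith only [hx2])).2 (by linarith only [hx0])
  have h2 : (1 - x)⁻¹ ≤ 1 + 2 * x := by
    rw [inv_le_iff_one_le_mul₀ (by linarith only [hx2])]
    nlinarith only [hx2, hx0]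
  have h3 : 1 ≤ (1 - x)⁻¹ ^ A := one_le_pow₀ h1
  have h4 : (1 - x)⁻¹ ^ A ≤ 1 + 4 ^ A * x := by
    have h5 : ∀ n : ℕ, (1 + 2 * x) ^ n ≤ 1 + 4 ^ n * x := by
      intro n
      induction n with
      | zero => simp only [pow_zero, one_mul, le_add_iff_nonneg_right]; exact hx0.le
      | succ n ih =>
        rw [pow_succ, pow_succ]
        have h6 : (1 : ℝ) ≤ 4 ^ n := one_le_pow₀ (by norm_num)
        calc (1 + 2 * x) ^ n * (1 + 2 * x) ≤ (1 + 4 ^ n * x) * (1 + 2 * x) := by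
              gcongr
          _ = 1 + 4 ^ n * x + 2 * x + 2 * 4 ^ n * x * x := by ring
          _ ≤ 1 + 4 ^ n * 4 * x := by nlinarith only [mul_pos (by linarith : (0:ℝ) < 4 ^ n) hx0, h6, hx2, hx0]
    calc (1 - x)⁻¹ ^ A ≤ (1 + 2 * x) ^ A := by (clear * - h1 h2; gcongr)
      _ ≤ _ := h5 A
  have h5 : 1 ≤ Real.exp y := Real.one_le_exp hy0
  have h6 : Real.exp y ≤ 1 + 2 * y := by
    have h7 := Real.abs_exp_sub_one_le (x := y) (by rw [abs_of_nonneg hy0]; exact hy1)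
    rw [abs_of_nonneg hy0] at h7
    have h8 := le_abs_self (Real.exp y - 1)
    linarith only [h7, h8]
  constructor
  · nlinarith only [h5, h3]
  · have h7 : (1 : ℝ) ≤ 4 ^ A := one_le_pow₀ (by norm_num)
    calc (1 - x)⁻¹ ^ A * Real.exp y - 1 ≤ (1 + 4 ^ A * x) * (1 + 2 * y) - 1 := by
          (clear * - h4 h6 hp2; gcongr)
      _ = 4 ^ A * x + 2 * y + 2 * 4 ^ A * (x * y) := by ring
      _ ≤ 4 ^ A * x + 2 * y + 2 * 4 ^ A * x := by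
          have : x * y ≤ x := by nlinarith only [hy1, hx0]
          have h8 : 2 * (4 : ℝ) ^ A * (x * y) ≤ 2 * 4 ^ A * x := by (clear * - this; gcongr)
          linarith only [h8]
      _ ≤ (4 : ℝ) ^ (A + 1) * (x + y) := by
          rw [pow_succ]
          linarith only [mul_nonneg (by linarith : (0:ℝ) ≤ 4 ^ A) hx0.le, mul_nonneg (by linarith : (0:ℝ) ≤ 4 ^ A - 1) hy0, hy0]

theorem bt_prod_le {θ : ℝ} (_hθ : 1 / 2 < θ) (hθ1 : θ < 1) (A : ℕ) :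
    ∃ C > 0, ∀ t : ℝ, 1 ≤ t → ∀ P : Finset ℕ, (∀ p ∈ P, p.Prime) →
      (∏ p ∈ P, (1 + ((1 - 1 / (p : ℝ))⁻¹ ^ A * Real.exp (if t < p then t / p else 0) - 1) *
        (p : ℝ) ^ (-(1 - θ)))) ^ 2 ≤ C * Real.exp (t / 2) := by
  set l : ℝ := 1 - θ with hl
  have hl0 : 0 < l := by linarith only [hθ1]
  have hs₁ : Summable (fun n : ℕ => 1 / (n : ℝ) ^ (1 + l)) :=
    Real.summable_one_div_nat_rpow.2 (by linarith only [hθ1])
  have hs₂ : Summable (fun n : ℕ => 1 / (n : ℝ) ^ (1 + l / 2)) :=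
    Real.summable_one_div_nat_rpow.2 (by linarith only [hθ1])
  set T₁ := ∑' n : ℕ, 1 / (n : ℝ) ^ (1 + l) with hT₁
  set T₂ := ∑' n : ℕ, 1 / (n : ℝ) ^ (1 + l / 2) with hT₂
  have hT₁0 : 0 ≤ T₁ := tsum_nonneg fun n => by (clear * -; positivity)
  have hT₂0 : 0 ≤ T₂ := tsum_nonneg fun n => by positivity
  obtain ⟨C', hC', hb⟩ := bt_rpow_le_half (2 * 4 ^ (A + 1) * T₂) (1 - l / 2) (by (clear * -; positivity))
    (by linarith only [_hθ]) (by linarith only [hθ1])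
  refine ⟨Real.exp (2 * 4 ^ (A + 1) * T₁ + C'), Real.exp_pos _, ?_⟩
  intro t ht P hP
  have ht0 : 0 < t := by linarith only [ht]
  have hterm : ∀ p ∈ P, ((1 - 1 / (p : ℝ))⁻¹ ^ A * Real.exp (if t < p then t / p else 0) - 1) *
        (p : ℝ) ^ (-l) ≤ 4 ^ (A + 1) * (1 / (p : ℝ) ^ (1 + l)) +
          4 ^ (A + 1) * t ^ (1 - l / 2) * (1 / (p : ℝ) ^ (1 + l / 2)) := by
    intro p hp
    have hp0 : (0 : ℝ) < p := by exact_mod_cast (hP p hp).pos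
    have h1 := (bt_kappa_le A ht (hP p hp)).2
    have h2 : 0 ≤ (p : ℝ) ^ (-l) := by (clear * - hp0; positivity)
    have h3 := mul_le_mul_of_nonneg_right h1 h2
    refine h3.trans ?_
    have e1 : (1 / (p : ℝ)) * (p : ℝ) ^ (-l) = 1 / (p : ℝ) ^ (1 + l) := by
      rw [Real.rpow_add hp0, Real.rpow_one, Real.rpow_neg hp0.le]
      (clear * - hp0; field_simp)
    have e2 : (if t < (p : ℝ) then t / (p : ℝ) else 0) * (p : ℝ) ^ (-l) ≤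
        t ^ (1 - l / 2) * (1 / (p : ℝ) ^ (1 + l / 2)) := by
      split_ifs with h
      · have h4 : t ^ (l / 2) ≤ (p : ℝ) ^ (l / 2) :=
          Real.rpow_le_rpow ht0.le h.le (by linarith only [hθ1])
        have h5 : t = t ^ (1 - l / 2) * t ^ (l / 2) := by
          rw [← Real.rpow_add ht0]
          simp
        have h6 : (p : ℝ) ^ (l / 2) * (1 / (p : ℝ)) * (p : ℝ) ^ (-l) =
            1 / (p : ℝ) ^ (1 + l / 2) := by
          rw [one_div, ← Real.rpow_neg_one, ← Real.rpow_add hp0, ← Real.rpow_add hp0, one_div,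
            ← Real.rpow_neg hp0.le]
          congr 1
          ring
        calc t / (p : ℝ) * (p : ℝ) ^ (-l)
            = t ^ (1 - l / 2) * (t ^ (l / 2) * (1 / (p : ℝ)) * (p : ℝ) ^ (-l)) := by
              conv_lhs => rw [h5]
              ring
          _ ≤ t ^ (1 - l / 2) * ((p : ℝ) ^ (l / 2) * (1 / (p : ℝ)) * (p : ℝ) ^ (-l)) := by
              (clear * - h4 hp0 ht; gcongr)
          _ = _ := by rw [h6]
      · rw [zero_mul]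
        (clear * - ht hp0; positivity)
    calc 4 ^ (A + 1) * (1 / (p : ℝ) + if t < (p : ℝ) then t / (p : ℝ) else 0) * (p : ℝ) ^ (-l)
        = 4 ^ (A + 1) * ((1 / (p : ℝ)) * (p : ℝ) ^ (-l)) +
          4 ^ (A + 1) * ((if t < (p : ℝ) then t / (p : ℝ) else 0) * (p : ℝ) ^ (-l)) := by ring
      _ ≤ 4 ^ (A + 1) * (1 / (p : ℝ) ^ (1 + l)) +
          4 ^ (A + 1) * (t ^ (1 - l / 2) * (1 / (p : ℝ) ^ (1 + l / 2))) := by
          rw [e1]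
          (clear * - e2; gcongr)
      _ = _ := by ring
  have hterm0 : ∀ p ∈ P, 0 ≤ ((1 - 1 / (p : ℝ))⁻¹ ^ A *
      Real.exp (if t < p then t / p else 0) - 1) * (p : ℝ) ^ (-l) := by
    intro p hp
    exact mul_nonneg (bt_kappa_le A ht (hP p hp)).1 (by (clear * -; positivity))
  have hprod : ∏ p ∈ P, (1 + ((1 - 1 / (p : ℝ))⁻¹ ^ A *
      Real.exp (if t < p then t / p else 0) - 1) * (p : ℝ) ^ (-l)) ≤
      Real.exp (4 ^ (A + 1) * T₁ + 4 ^ (A + 1) * t ^ (1 - l / 2) * T₂) := by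
    calc ∏ p ∈ P, (1 + ((1 - 1 / (p : ℝ))⁻¹ ^ A *
        Real.exp (if t < p then t / p else 0) - 1) * (p : ℝ) ^ (-l))
        ≤ ∏ p ∈ P, Real.exp (4 ^ (A + 1) * (1 / (p : ℝ) ^ (1 + l)) +
          4 ^ (A + 1) * t ^ (1 - l / 2) * (1 / (p : ℝ) ^ (1 + l / 2))) := by
          refine prod_le_prod ?_ ?_
          · intro p hp
            have := hterm0 p hp
            linarith only [this]
          · intro p hp
            have h1 := hterm p hp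
            have h2 := Real.add_one_le_exp (4 ^ (A + 1) * (1 / (p : ℝ) ^ (1 + l)) +
              4 ^ (A + 1) * t ^ (1 - l / 2) * (1 / (p : ℝ) ^ (1 + l / 2)))
            linarith only [h2, h1]
      _ = Real.exp (∑ p ∈ P, (4 ^ (A + 1) * (1 / (p : ℝ) ^ (1 + l)) +
          4 ^ (A + 1) * t ^ (1 - l / 2) * (1 / (p : ℝ) ^ (1 + l / 2)))) := by
          rw [Real.exp_sum]
      _ ≤ _ := by
          apply Real.exp_le_exp.2
          rw [sum_add_distrib, ← mul_sum, ← mul_sum]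
          have h1 : ∑ p ∈ P, 1 / (p : ℝ) ^ (1 + l) ≤ T₁ :=
            hs₁.sum_le_tsum P (fun n _ => by (clear * -; positivity))
          have h2 : ∑ p ∈ P, 1 / (p : ℝ) ^ (1 + l / 2) ≤ T₂ :=
            hs₂.sum_le_tsum P (fun n _ => by (clear * -; positivity))
          gcongr
  have hprod0 : 0 ≤ ∏ p ∈ P, (1 + ((1 - 1 / (p : ℝ))⁻¹ ^ A *
      Real.exp (if t < p then t / p else 0) - 1) * (p : ℝ) ^ (-l)) := by
    refine prod_nonneg fun p hp => ?_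
    have := hterm0 p hp
    linarith only [this]
  calc (∏ p ∈ P, (1 + ((1 - 1 / (p : ℝ))⁻¹ ^ A *
      Real.exp (if t < p then t / p else 0) - 1) * (p : ℝ) ^ (-l))) ^ 2
      ≤ (Real.exp (4 ^ (A + 1) * T₁ + 4 ^ (A + 1) * t ^ (1 - l / 2) * T₂)) ^ 2 :=
        pow_le_pow_left₀ hprod0 hprod 2
    _ = Real.exp (2 * 4 ^ (A + 1) * T₁ + 2 * 4 ^ (A + 1) * T₂ * t ^ (1 - l / 2)) := by
        rw [← Real.exp_nat_mul]
        congr 1
        push_cast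
        ring
    _ ≤ Real.exp (2 * 4 ^ (A + 1) * T₁ + (t / 2 + C')) := by
        apply Real.exp_le_exp.2
        have := hb t ht
        linarith only [this]
    _ = _ := by
        rw [← Real.exp_add]
        congr 1
        ring

/-- `T1` with the weights `btW`. -/
theorem T1_btW {θ : ℝ} (hθ : 1 / 2 < θ) (hθ1 : θ < 1) (A : ℕ) :
    ∃ C > 0, ∀ t : ℝ, 1 ≤ t → ∀ (ψ₁ ψ₂ f h : ℕ → ℝ) (s₁ s₂ : ℝ) (N : ℕ),
      0 < s₁ → 0 < s₂ → (∀ q, 0 ≤ ψ₁ q) → (∀ q, 0 ≤ ψ₂ q) →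
      (∀ q, 0 ≤ f q ∧ f q ≤ ψ₁ q * (q.totient / q)) →
      (∀ r, 0 ≤ h r ∧ h r ≤ ψ₂ r * (r.totient / r)) →
      ∑ q ∈ Icc 1 N, ∑ r ∈ Icc 1 N,
        (if (cofac r q : ℝ) * ψ₁ q ≤ s₁ ∧ (cofac q r : ℝ) * ψ₂ r ≤ s₂ then
          f q * h r * btW A t (cofac q r * cofac r q) else 0) ≤
        C * Real.exp (t / 2) * (s₁ * s₂) ^ (1 - θ) *
          ((∑ q ∈ Icc 1 N, f q) * ∑ r ∈ Icc 1 N, h r) ^ θ := by
  classical
  obtain ⟨C, hC, hT⟩ := T1_weighted hθ hθ1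
  obtain ⟨C₁, hC₁, hP₁⟩ := bt_prod_le hθ hθ1 A
  refine ⟨C * C₁, by positivity, ?_⟩
  intro t ht ψ₁ ψ₂ f h s₁ s₂ N hs₁ hs₂ hψ₁ hψ₂ hf hh
  have hF0 : 0 ≤ ∑ q ∈ Icc 1 N, f q := sum_nonneg fun q _ => (hf q).1
  have hH0 : 0 ≤ ∑ q ∈ Icc 1 N, h q := sum_nonneg fun q _ => (hh q).1
  set P : Finset ℕ := (Icc 1 N).filter Nat.Prime with hPdef
  have hP : ∀ p ∈ P, p.Prime := fun p hp => (mem_filter.1 hp).2
  set κ : ℕ → ℝ := fun p => (1 - 1 / (p : ℝ))⁻¹ ^ A * Real.exp (if t < p then t / p else 0) - 1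
    with hκ
  have h1 := hT P hP κ (fun p hp => (bt_kappa_le A ht (hP p hp)).1) ψ₁ ψ₂ f h s₁ s₂ N hs₁ hs₂
    hψ₁ hψ₂ hf hh
  have hfil : ∀ u : ℕ, 0 < u → u ≤ N → P.filter (fun p => p ∣ u) = u.primeFactors := by
    intro u hu huN
    ext p
    rw [mem_filter, mem_filter, mem_Icc, Nat.mem_primeFactors]
    constructor
    · rintro ⟨⟨_, h2⟩, h3⟩
      exact ⟨h2, h3, hu.ne'⟩
    · rintro ⟨h2, h3, _⟩
      exact ⟨⟨⟨h2.pos, (Nat.le_of_dvd hu h3).trans huN⟩, h2⟩, h3⟩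
  have h2 : ∑ q ∈ Icc 1 N, ∑ r ∈ Icc 1 N,
        (if (cofac r q : ℝ) * ψ₁ q ≤ s₁ ∧ (cofac q r : ℝ) * ψ₂ r ≤ s₂ then
          f q * h r * btW A t (cofac q r * cofac r q) else 0) =
      ∑ q ∈ Icc 1 N, ∑ r ∈ Icc 1 N,
        (if (cofac r q : ℝ) * ψ₁ q ≤ s₁ ∧ (cofac q r : ℝ) * ψ₂ r ≤ s₂ then
          f q * h r * ((∏ p ∈ P with p ∣ cofac q r, (1 + κ p)) *
            ∏ p ∈ P with p ∣ cofac r q, (1 + κ p)) else 0) := by
    refine sum_congr rfl fun q hq => sum_congr rfl fun r hr => ?_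
    rw [mem_Icc] at hq hr
    have hu0 : 0 < cofac q r := cofac_pos r (by omega)
    have hv0 : 0 < cofac r q := cofac_pos q (by omega)
    have huN : cofac q r ≤ N := (cofac_le r (by omega)).trans hq.2
    have hvN : cofac r q ≤ N := (cofac_le q (by omega)).trans hr.2
    rw [hfil _ hu0 huN, hfil _ hv0 hvN, btW_mul (cofac_coprime (by omega))]
    have e1 : ∀ n : ℕ, btW A t n = ∏ p ∈ n.primeFactors, (1 + κ p) := by
      intro n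
      unfold btW
      refine prod_congr rfl fun p _ => ?_
      simp only [hκ]
      ring
    rw [e1, e1]
  rw [h2]
  refine h1.trans ?_
  have h3 := hP₁ t ht P hP
  have h4 : 0 ≤ C * (s₁ * s₂) ^ (1 - θ) *
      ((∑ q ∈ Icc 1 N, f q) * ∑ r ∈ Icc 1 N, h r) ^ θ := by (clear * - hC hs₁ hs₂ hF0 hH0; positivity)
  calc C * (s₁ * s₂) ^ (1 - θ) * ((∑ q ∈ Icc 1 N, f q) * ∑ r ∈ Icc 1 N, h r) ^ θ *
        (∏ p ∈ P, (1 + κ p * (p : ℝ) ^ (-(1 - θ)))) ^ 2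
      ≤ C * (s₁ * s₂) ^ (1 - θ) * ((∑ q ∈ Icc 1 N, f q) * ∑ r ∈ Icc 1 N, h r) ^ θ *
        (C₁ * Real.exp (t / 2)) := mul_le_mul_of_nonneg_left h3 h4
    _ = _ := by ring

/-- `T1` with the cost `∏_{p ∣ uv} (1 - 1/p)^{-A}`. -/
theorem T1_cost {θ : ℝ} (hθ : 1 / 2 < θ) (hθ1 : θ < 1) (A : ℕ) :
    ∃ C > 0, ∀ (ψ₁ ψ₂ f h : ℕ → ℝ) (s₁ s₂ : ℝ) (N : ℕ),
      0 < s₁ → 0 < s₂ → (∀ q, 0 ≤ ψ₁ q) → (∀ q, 0 ≤ ψ₂ q) →
      (∀ q, 0 ≤ f q ∧ f q ≤ ψ₁ q * (q.totient / q)) →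
      (∀ r, 0 ≤ h r ∧ h r ≤ ψ₂ r * (r.totient / r)) →
      ∑ q ∈ Icc 1 N, ∑ r ∈ Icc 1 N,
        (if (cofac r q : ℝ) * ψ₁ q ≤ s₁ ∧ (cofac q r : ℝ) * ψ₂ r ≤ s₂ then
          f q * h r * (∏ p ∈ (cofac q r * cofac r q).primeFactors, (1 - 1 / (p : ℝ))⁻¹) ^ A
          else 0) ≤
        C * (s₁ * s₂) ^ (1 - θ) *
          ((∑ q ∈ Icc 1 N, f q) * ∑ r ∈ Icc 1 N, h r) ^ θ := by
  obtain ⟨C, hC, hT⟩ := T1_btW hθ hθ1 A
  refine ⟨C * Real.exp (1 / 2), by positivity, ?_⟩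
  intro ψ₁ ψ₂ f h s₁ s₂ N hs₁ hs₂ hψ₁ hψ₂ hf hh
  refine le_trans ?_ (hT 1 le_rfl ψ₁ ψ₂ f h s₁ s₂ N hs₁ hs₂ hψ₁ hψ₂ hf hh)
  refine sum_le_sum fun q _ => sum_le_sum fun r _ => ?_
  split_ifs
  · refine mul_le_mul_of_nonneg_left ?_ (mul_nonneg (hf q).1 (hh r).1)
    rw [btW_eq]
    have h1 : 0 ≤ (∏ p ∈ (cofac q r * cofac r q).primeFactors, (1 - 1 / (p : ℝ))⁻¹) ^ A := by
      refine pow_nonneg (prod_nonneg fun p hp => ?_) _
      exact inv_nonneg.2 (bt_one_sub_inv (Nat.prime_of_mem_primeFactors hp)).1.le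
    refine le_mul_of_one_le_right h1 (Real.one_le_exp ?_)
    (clear * -; positivity)
  · exact le_rfl

/-- `T1` with the anatomy condition `∑_{p ∣ uv, p > t} 1/p ≥ 1` (and the cost). -/
theorem T1_anatomy {θ : ℝ} (hθ : 1 / 2 < θ) (hθ1 : θ < 1) (A : ℕ) :
    ∃ C > 0, ∀ t : ℝ, 1 ≤ t → ∀ (ψ₁ ψ₂ f h : ℕ → ℝ) (s₁ s₂ : ℝ) (N : ℕ),
      0 < s₁ → 0 < s₂ → (∀ q, 0 ≤ ψ₁ q) → (∀ q, 0 ≤ ψ₂ q) →
      (∀ q, 0 ≤ f q ∧ f q ≤ ψ₁ q * (q.totient / q)) →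
      (∀ r, 0 ≤ h r ∧ h r ≤ ψ₂ r * (r.totient / r)) →
      ∑ q ∈ Icc 1 N, ∑ r ∈ Icc 1 N,
        (if ((cofac r q : ℝ) * ψ₁ q ≤ s₁ ∧ (cofac q r : ℝ) * ψ₂ r ≤ s₂) ∧
          1 ≤ ∑ p ∈ (cofac q r * cofac r q).primeFactors.filter
            (fun p : ℕ => t < (p : ℝ)), 1 / (p : ℝ) then
          f q * h r * (∏ p ∈ (cofac q r * cofac r q).primeFactors, (1 - 1 / (p : ℝ))⁻¹) ^ A
          else 0) ≤
        C * Real.exp (-(t / 2)) * (s₁ * s₂) ^ (1 - θ) *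
          ((∑ q ∈ Icc 1 N, f q) * ∑ r ∈ Icc 1 N, h r) ^ θ := by
  obtain ⟨C, hC, hT⟩ := T1_btW hθ hθ1 A
  refine ⟨C, hC, ?_⟩
  intro t ht ψ₁ ψ₂ f h s₁ s₂ N hs₁ hs₂ hψ₁ hψ₂ hf hh
  have key := hT t ht ψ₁ ψ₂ f h s₁ s₂ N hs₁ hs₂ hψ₁ hψ₂ hf hh
  have h1 : ∑ q ∈ Icc 1 N, ∑ r ∈ Icc 1 N,
        (if ((cofac r q : ℝ) * ψ₁ q ≤ s₁ ∧ (cofac q r : ℝ) * ψ₂ r ≤ s₂) ∧
          1 ≤ ∑ p ∈ (cofac q r * cofac r q).primeFactors.filter
            (fun p : ℕ => t < (p : ℝ)), 1 / (p : ℝ) then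
          f q * h r * (∏ p ∈ (cofac q r * cofac r q).primeFactors, (1 - 1 / (p : ℝ))⁻¹) ^ A
          else 0) ≤
      Real.exp (-t) * ∑ q ∈ Icc 1 N, ∑ r ∈ Icc 1 N,
        (if (cofac r q : ℝ) * ψ₁ q ≤ s₁ ∧ (cofac q r : ℝ) * ψ₂ r ≤ s₂ then
          f q * h r * btW A t (cofac q r * cofac r q) else 0) := by
    rw [mul_sum]
    refine sum_le_sum fun q _ => ?_
    rw [mul_sum]
    refine sum_le_sum fun r _ => ?_
    have hfh : 0 ≤ f q * h r := mul_nonneg (hf q).1 (hh r).1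
    have hcost : 0 ≤ (∏ p ∈ (cofac q r * cofac r q).primeFactors, (1 - 1 / (p : ℝ))⁻¹) ^ A := by
      refine pow_nonneg (prod_nonneg fun p hp => ?_) _
      exact inv_nonneg.2 (bt_one_sub_inv (Nat.prime_of_mem_primeFactors hp)).1.le
    by_cases hc : (cofac r q : ℝ) * ψ₁ q ≤ s₁ ∧ (cofac q r : ℝ) * ψ₂ r ≤ s₂
    · by_cases he : 1 ≤ ∑ p ∈ (cofac q r * cofac r q).primeFactors.filter
            (fun p : ℕ => t < (p : ℝ)), 1 / (p : ℝ)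
      · rw [if_pos ⟨hc, he⟩, if_pos hc, btW_eq]
        have h2 : Real.exp t ≤ Real.exp (t * ∑ p ∈ (cofac q r * cofac r q).primeFactors.filter
            (fun p : ℕ => t < (p : ℝ)), 1 / (p : ℝ)) := by
          apply Real.exp_le_exp.2
          nlinarith only [he, ht]
        have h3 : 1 ≤ Real.exp (-t) * Real.exp (t * ∑ p ∈ (cofac q r * cofac r q).primeFactors.filter
            (fun p : ℕ => t < (p : ℝ)), 1 / (p : ℝ)) := by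
          calc (1 : ℝ) = Real.exp (-t) * Real.exp t := by rw [← Real.exp_add]; simp
            _ ≤ _ := by (clear * - h2; gcongr)
        set E := Real.exp (t * ∑ p ∈ (cofac q r * cofac r q).primeFactors.filter
            (fun p : ℕ => t < (p : ℝ)), 1 / (p : ℝ)) with hE
        set K := (∏ p ∈ (cofac q r * cofac r q).primeFactors, (1 - 1 / (p : ℝ))⁻¹) ^ A with hK
        calc f q * h r * K = (f q * h r * K) * 1 := by ring
          _ ≤ (f q * h r * K) * (Real.exp (-t) * E) := by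
              exact mul_le_mul_of_nonneg_left h3 (mul_nonneg hfh hcost)
          _ = Real.exp (-t) * (f q * h r * (K * E)) := by ring
      · rw [if_neg (fun h => he h.2), if_pos hc, btW_eq]
        (clear * - hfh hcost; positivity)
    · rw [if_neg (fun h => hc h.1), if_neg hc, mul_zero]
  refine h1.trans ?_
  calc Real.exp (-t) * _ ≤ Real.exp (-t) * (C * Real.exp (t / 2) * (s₁ * s₂) ^ (1 - θ) *
          ((∑ q ∈ Icc 1 N, f q) * ∑ r ∈ Icc 1 N, h r) ^ θ) := by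
        gcongr
    _ = C * (Real.exp (-t) * Real.exp (t / 2)) * (s₁ * s₂) ^ (1 - θ) *
          ((∑ q ∈ Icc 1 N, f q) * ∑ r ∈ Icc 1 N, h r) ^ θ := by ring
    _ = _ := by
        rw [← Real.exp_add]
        congr 4
        ring

end Vale.P028
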