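import Vale.Agent.P028.MathlibUsed
import Vale.Agent.P028.BDefs
import Vale.Agent.P028.BT1
import Vale.Agent.P013.Mertens
attribute [-instance] ProperSMul.toContinuousSMul IsTopologicalTorsor.toContinuousSMul IdemSemiring.toCanonicallyOrderedAdd IdemSemiring.toMulLeftMono IdemSemiring.toMulRightMono AddQuantale.instAddLeftMono AddQuantale.instAddRightMono Quantale.instMulLeftMono Quantale.instMulRightMono FiniteDimensional.rclike_to_real IsScalarTower.complexToReal FiniteDimensional.complexToReal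

set_option linter.all false

/-!
# The selected bad denominator, products over prime factors, `T1div`
-/

namespace Vale.P028

open Finset MeasureTheory

/-- `T1` with a divisibility condition on the cofactor. -/
theorem T1div {θ : ℝ} (hθ : 1 / 2 < θ) (hθ1 : θ < 1) :
    ∃ C > 0, ∀ (ψ₁ ψ₂ f h : ℕ → ℝ) (s₁ s₂ : ℝ) (N d e : ℕ), 0 < s₁ → 0 < s₂ → 0 < d → 0 < e →
      (∀ q, 0 ≤ ψ₁ q) → (∀ q, 0 ≤ ψ₂ q) →
      (∀ q, 0 ≤ f q ∧ f q ≤ ψ₁ q * (q.totient / q)) →
      (∀ r, 0 ≤ h r ∧ h r ≤ ψ₂ r * (r.totient / r)) →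
      psum (fun q r => d ∣ cofac q r ∧ e ∣ cofac r q ∧
        (cofac r q : ℝ) * ψ₁ q ≤ s₁ ∧ (cofac q r : ℝ) * ψ₂ r ≤ s₂) N f h ≤
        C * (s₁ * s₂ / (d * e)) ^ (1 - θ) * ((∑ q ∈ Icc 1 N, f q) * ∑ r ∈ Icc 1 N, h r) ^ θ := by
  obtain ⟨C, hC, hT⟩ := T1_dvd hθ hθ1
  refine ⟨C, hC, ?_⟩
  intro ψ₁ ψ₂ f h s₁ s₂ N d e hs₁ hs₂ hd he hψ₁ hψ₂ hf hh
  have hd' : (0 : ℝ) < d := by exact_mod_cast hd
  have he' : (0 : ℝ) < e := by exact_mod_cast he
  refine (hT d e hd he ψ₁ ψ₂ f h s₁ s₂ N hs₁ hs₂ hψ₁ hψ₂ hf hh).trans (le_of_eq ?_)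
  have h1 : (s₁ * s₂ / (d * e)) ^ (1 - θ) =
      (s₁ * s₂) ^ (1 - θ) * (((d : ℝ) ^ (-(1 - θ))) * ((e : ℝ) ^ (-(1 - θ)))) := by
    rw [show s₁ * s₂ / (d * e) = (s₁ * s₂) * ((d : ℝ)⁻¹ * (e : ℝ)⁻¹) by field_simp]
    rw [Real.mul_rpow (by positivity) (by positivity),
      Real.mul_rpow (inv_nonneg.2 hd'.le) (inv_nonneg.2 he'.le),
      Real.inv_rpow hd'.le, Real.inv_rpow he'.le, Real.rpow_neg hd'.le, Real.rpow_neg he'.le]
  rw [h1]
  ring

/-! ### the selected denominator -/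

theorem Bsel_spec (γ s₁ x : ℝ) : Bsel γ s₁ x = 1 ∨
    (Bad γ s₁ (Bsel γ s₁ x) ∧ (Bsel γ s₁ x : ℝ) ^ 4 * x ≤ 1) := by
  classical
  unfold Bsel
  set F := Nat.findGreatest (fun B => Bad γ s₁ B ∧ (B : ℝ) ^ 4 * x ≤ 1) ⌊1 / x⌋₊ with hF
  by_cases h : F ≤ 1
  · left
    have : max 1 F = 1 := max_eq_left h
    convert this
  · right
    have h1 : max 1 F = F := max_eq_right (by omega)
    have h2 := Nat.findGreatest_of_ne_zero (m := F) (n := ⌊1 / x⌋₊)
      (P := fun B => Bad γ s₁ B ∧ (B : ℝ) ^ 4 * x ≤ 1) hF.symm (by omega)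
    have h3 : Bad γ s₁ (max 1 F) ∧ ((max 1 F : ℕ) : ℝ) ^ 4 * x ≤ 1 := by rw [h1]; exact h2
    convert h3

theorem Bsel_ge {γ s₁ x : ℝ} (hx : 0 < x) {B : ℕ} (hB : Bad γ s₁ B) (hBx : (B : ℝ) ^ 4 * x ≤ 1) :
    B ≤ Bsel γ s₁ x := by
  classical
  have hB1 : B ≤ ⌊1 / x⌋₊ := by
    apply Nat.le_floor
    rw [le_div_iff₀ hx]
    have hB0 : (1 : ℝ) ≤ B := by
      obtain ⟨s, _, _, h⟩ := hB
      exact_mod_cast h.1.1
    have h1 : (B : ℝ) ≤ (B : ℝ) ^ 4 := le_self_pow₀ hB0 (by norm_num)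
    calc (B : ℝ) * x ≤ (B : ℝ) ^ 4 * x := by gcongr
      _ ≤ 1 := hBx
  have h2 : B ≤ Nat.findGreatest (fun B => Bad γ s₁ B ∧ (B : ℝ) ^ 4 * x ≤ 1) ⌊1 / x⌋₊ :=
    Nat.le_findGreatest hB1 ⟨hB, hBx⟩
  have h3 := h2.trans (le_max_right 1 _)
  unfold Bsel
  convert h3

/-- the selected denominator: elementary properties. -/
theorem Bsel_pos (γ s₁ x : ℝ) : 0 < Bsel γ s₁ x := by
  unfold Bsel
  exact lt_of_lt_of_le one_pos (le_max_left _ _)

theorem Bsel_coprime {γ s₁ x : ℝ} (hs₁ : s₁ ≤ 1 / 1000) :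
    IsCoprime (Bsel γ s₁ x : ℤ) (Anum γ (Bsel γ s₁ x)) := by
  rcases Bsel_spec γ s₁ x with h | ⟨⟨s, hs, hss, hb⟩, -⟩
  · rw [h]
    exact isCoprime_one_left
  · have h1 := hb.gcd_eq_one hs (hss.trans hs₁)
    unfold Anum
    exact (Int.isCoprime_iff_gcd_eq_one.mpr h1).symm

theorem Bsel_pow_le {γ s₁ x : ℝ} (_hx : 0 < x) (hx1 : x ≤ 1) :
    (Bsel γ s₁ x : ℝ) ^ 4 * x ≤ 1 := by
  rcases Bsel_spec γ s₁ x with h | ⟨-, h⟩
  · rw [h]
    simpa using hx1
  · exact h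

theorem Bad.pos {γ s₁ : ℝ} {B : ℕ} (h : Bad γ s₁ B) : 0 < B := by
  obtain ⟨s, _, _, h⟩ := h
  exact h.1.1

/-- two different selected denominators -/
theorem Bsel_ratio {γ s₁ x y : ℝ} (hs : 0 < s₁) (hs₁ : s₁ ≤ 1 / 1000) (hx : 0 < x) (hx1 : x ≤ s₁)
    (hy : 0 < y) (hy1 : y ≤ s₁) (hlt : Bsel γ s₁ x < Bsel γ s₁ y) :
    3 / 16 * s₁ ^ (-(1 / 4 : ℝ)) ≤
      (Bsel γ s₁ y / Nat.gcd (Bsel γ s₁ x) (Bsel γ s₁ y) : ℕ) := by
  set a := Bsel γ s₁ x with ha
  set b := Bsel γ s₁ y with hb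
  have ha0 : 0 < a := Bsel_pos γ s₁ x
  have hb0 : 0 < b := Bsel_pos γ s₁ y
  have ha1 : (1 : ℝ) ≤ a := by exact_mod_cast ha0
  have hbR : (0 : ℝ) < b := by exact_mod_cast hb0
  have hs1 : s₁ ≤ 1 := by linarith only [hs₁]
  have hbb : Bad γ s₁ b := by
    rcases Bsel_spec γ s₁ y with h | ⟨h, -⟩
    · omega
    · exact h
  have hsq : 1 ≤ s₁ ^ (-(1 / 4 : ℝ)) :=
    Real.one_le_rpow_of_pos_of_le_one_of_nonpos hs hs1 (by norm_num)
  -- `b > s₁ ^ (-1/4)`
  have hb1 : s₁ ^ (-(1 / 4 : ℝ)) ≤ b := by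
    have h1 : ¬ ((b : ℝ) ^ 4 * x ≤ 1) := fun h => absurd (Bsel_ge hx hbb h) (by omega)
    push Not at h1
    have h2 : 1 < (b : ℝ) ^ 4 * s₁ := lt_of_lt_of_le h1 (by gcongr)
    have h3 : s₁⁻¹ ≤ (b : ℝ) ^ 4 := by
      rw [inv_le_iff_one_le_mul₀ hs]
      exact h2.le
    have h4 : s₁ ^ (-(1 / 4 : ℝ)) = (s₁⁻¹) ^ (1 / 4 : ℝ) := by
      rw [Real.rpow_neg hs.le, Real.inv_rpow hs.le]
    rw [h4]
    calc (s₁⁻¹) ^ (1 / 4 : ℝ) ≤ ((b : ℝ) ^ 4) ^ (1 / 4 : ℝ) :=
          Real.rpow_le_rpow (by positivity) h3 (by norm_num)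
      _ = b := by
          rw [← Real.rpow_natCast, ← Real.rpow_mul hbR.le]
          norm_num
  -- the gcd
  have hg : Nat.gcd a b ∣ b := Nat.gcd_dvd_right a b
  have hg0 : 0 < Nat.gcd a b := Nat.gcd_pos_of_pos_left _ ha0
  have hgR : (0 : ℝ) < (Nat.gcd a b : ℕ) := by exact_mod_cast hg0
  have hga : ((Nat.gcd a b : ℕ) : ℝ) ≤ a := by exact_mod_cast Nat.gcd_le_left b ha0
  rw [Nat.cast_div hg hgR.ne']
  rcases Bsel_spec γ s₁ x with h | ⟨hba, -⟩
  · have h1 : Nat.gcd a b = 1 := by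
      rw [ha, h]
      exact Nat.gcd_one_left _
    rw [h1]
    simp only [Nat.cast_one, div_one]
    linarith only [hb1]
  · have hgap := Bad.gap hs₁ hba hbb hlt
    have h1 : 3 / 16 * (a : ℝ) ^ 4 ≤ b :=
      (mul_le_mul_of_nonneg_left (le_max_left _ _) (by norm_num)).trans hgap
    have h2 : 3 / 16 * (1 / s₁) ≤ b :=
      (mul_le_mul_of_nonneg_left (le_max_right _ _) (by norm_num)).trans hgap
    rw [le_div_iff₀ hgR]
    have h3 : 3 / 16 * s₁ ^ (-(1 / 4 : ℝ)) * (Nat.gcd a b : ℕ) ≤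
        3 / 16 * s₁ ^ (-(1 / 4 : ℝ)) * a := by gcongr
    refine h3.trans ?_
    -- 3/16 * t * a ≤ b with t = s₁^(-1/4): both 3/16 t^4 ≤ b and 3/16 a^4 ≤ b
    set t := s₁ ^ (-(1 / 4 : ℝ)) with ht
    have ht4 : t ^ 4 = 1 / s₁ := by
      rw [ht, ← Real.rpow_natCast, ← Real.rpow_mul hs.le,
        show (-(1 / 4 : ℝ)) * ((4 : ℕ) : ℝ) = -1 by norm_num, Real.rpow_neg_one, one_div]
    have h4 : 3 / 16 * t ^ 4 ≤ b := by rw [ht4]; exact h2
    have h5 : t * a ≤ max (t ^ 4) ((a : ℝ) ^ 4) := by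
      rcases le_total t a with h | h
      · refine le_trans ?_ (le_max_right _ _)
        calc t * a ≤ a * a := by gcongr
          _ = (a : ℝ) ^ 2 := by ring
          _ ≤ (a : ℝ) ^ 4 := pow_le_pow_right₀ ha1 (by norm_num)
      · refine le_trans ?_ (le_max_left _ _)
        calc t * a ≤ t * t := by gcongr
          _ = t ^ 2 := by ring
          _ ≤ t ^ 4 := pow_le_pow_right₀ hsq (by norm_num)
    rcases max_choice (t ^ 4) ((a : ℝ) ^ 4) with h6 | h6
    · rw [h6] at h5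
      calc 3 / 16 * t * a = 3 / 16 * (t * a) := by ring
        _ ≤ 3 / 16 * t ^ 4 := by gcongr
        _ ≤ b := h4
    · rw [h6] at h5
      calc 3 / 16 * t * a = 3 / 16 * (t * a) := by ring
        _ ≤ 3 / 16 * (a : ℝ) ^ 4 := by gcongr
        _ ≤ b := h1

theorem Bad.two_mul_le {γ s₁ : ℝ} (hs : 0 < s₁) (hs₁ : s₁ ≤ 1 / 1000) {B B' : ℕ}
    (h : Bad γ s₁ B) (h' : Bad γ s₁ B') (hlt : B < B') : 2 * B ≤ B' := by
  have hgap := Bad.gap hs₁ h h' hlt
  have h1 : 3 / 16 * (B : ℝ) ^ 4 ≤ B' :=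
    (mul_le_mul_of_nonneg_left (le_max_left _ _) (by norm_num)).trans hgap
  have h2 : 3 / 16 * (1 / s₁) ≤ B' :=
    (mul_le_mul_of_nonneg_left (le_max_right _ _) (by norm_num)).trans hgap
  have h3 : (1000 : ℝ) ≤ 1 / s₁ := by
    rw [le_div_iff₀ hs]
    linarith only [hs₁]
  by_cases hB : B ≤ 4
  · have h4 : (187 : ℝ) ≤ B' := by linarith only [h3, h2]
    have h5 : 187 ≤ B' := by exact_mod_cast h4
    omega
  · push Not at hB
    have hB5 : (5 : ℝ) ≤ B := by exact_mod_cast hB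
    have h4 : (2 : ℝ) * B ≤ 3 / 16 * (B : ℝ) ^ 4 := by
      have h5 : (125 : ℝ) ≤ (B : ℝ) ^ 3 := by
        calc (125 : ℝ) = 5 ^ 3 := by norm_num
          _ ≤ (B : ℝ) ^ 3 := by gcongr
      nlinarith only [h5]
    have h6 : ((2 * B : ℕ) : ℝ) ≤ B' := by
      push_cast
      linarith only [h4, h1]
    exact_mod_cast h6

/-- the values of `Bsel` for `x ≥ exp (-X)` lie in a set with at most `2 + 2 X` elements -/
theorem Bsel_values {γ s₁ : ℝ} (hs : 0 < s₁) (hs₁ : s₁ ≤ 1 / 1000) (X : ℝ) (hX : 0 ≤ X) :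
    ∃ 𝓑 : Finset ℕ, (𝓑.card : ℝ) ≤ 2 + 2 * X ∧
      ∀ x : ℝ, Real.exp (-X) ≤ x → x ≤ 1 → Bsel γ s₁ x ∈ 𝓑 := by
  classical
  set Y : ℕ := ⌊Real.exp X⌋₊ with hY
  have hY1 : 1 ≤ Y := Nat.le_floor (by
    rw [Nat.cast_one]
    exact Real.one_le_exp hX)
  set T : Finset ℕ := (Icc 1 Y).filter (fun B => Bad γ s₁ B) with hT
  refine ⟨insert 1 T, ?_, ?_⟩
  · have h1 : T.card ≤ (range (Nat.log 2 Y + 1)).card := by
      refine card_le_card_of_injOn (fun B => Nat.log 2 B) ?_ ?_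
      · intro B hB
        have hB' : B ∈ T := hB
        rw [hT, mem_filter, mem_Icc] at hB'
        rw [coe_range, Set.mem_Iio]
        exact Nat.lt_succ_of_le (Nat.log_mono_right hB'.1.2)
      · intro B hB B' hB' heq
        have hB1 : B ∈ T := hB
        have hB1' : B' ∈ T := hB'
        rw [hT, mem_filter, mem_Icc] at hB1 hB1'
        have key : ∀ a b : ℕ, Bad γ s₁ a → Bad γ s₁ b → 0 < a → a < b →
            Nat.log 2 a < Nat.log 2 b := by
          intro a b ha hb ha0 hab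
          have h2 := Bad.two_mul_le hs hs₁ ha hb hab
          have h3 : Nat.log 2 (a * 2) = Nat.log 2 a + 1 :=
            Nat.log_mul_base (by norm_num) ha0.ne'
          have h4 : Nat.log 2 (a * 2) ≤ Nat.log 2 b := Nat.log_mono_right (by omega)
          omega
        rcases lt_trichotomy B B' with h | h | h
        · have := key B B' hB1.2 hB1'.2 (by omega) h
          simp only at heq
          omega
        · exact h
        · have := key B' B hB1'.2 hB1.2 (by omega) h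
          simp only at heq
          omega
    have h2 : (insert 1 T).card ≤ Nat.log 2 Y + 2 := by
      refine (card_insert_le _ _).trans ?_
      rw [card_range] at h1
      omega
    have h3 : ((Nat.log 2 Y : ℕ) : ℝ) ≤ 2 * X := by
      have h4 : 2 ^ Nat.log 2 Y ≤ Y := Nat.pow_log_le_self 2 (by omega)
      have h5 : ((2 : ℝ) ^ Nat.log 2 Y) ≤ Real.exp X := by
        calc ((2 : ℝ) ^ Nat.log 2 Y) ≤ (Y : ℝ) := by exact_mod_cast h4
          _ ≤ Real.exp X := Nat.floor_le (Real.exp_pos X).le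
      have h6 := Real.log_le_log (by positivity) h5
      rw [Real.log_pow, Real.log_exp] at h6
      have h7 : (1 / 2 : ℝ) ≤ Real.log 2 := by
        have := Real.log_two_gt_d9
        linarith only [this]
      have h8 : (0 : ℝ) ≤ (Nat.log 2 Y : ℕ) := by positivity
      nlinarith only [h7, h6]
    calc ((insert 1 T).card : ℝ) ≤ ((Nat.log 2 Y + 2 : ℕ) : ℝ) := by exact_mod_cast h2
      _ = (Nat.log 2 Y : ℕ) + 2 := by push_cast; ring
      _ ≤ 2 + 2 * X := by linarith only [h3]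
  · intro x hx hx1
    have hx0 : 0 < x := lt_of_lt_of_le (Real.exp_pos _) hx
    rw [mem_insert]
    rcases Bsel_spec γ s₁ x with h | ⟨h, h'⟩
    · left; exact h
    · right
      rw [hT, mem_filter, mem_Icc]
      refine ⟨⟨Bsel_pos _ _ _, ?_⟩, h⟩
      apply Nat.le_floor
      have hB0 : (1 : ℝ) ≤ Bsel γ s₁ x := by exact_mod_cast Bsel_pos γ s₁ x
      have h1 : (Bsel γ s₁ x : ℝ) ≤ (Bsel γ s₁ x : ℝ) ^ 4 := le_self_pow₀ hB0 (by norm_num)
      have h2 : (Bsel γ s₁ x : ℝ) ^ 4 ≤ 1 / x := by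
        rw [le_div_iff₀ hx0]
        exact h'
      have h3 : 1 / x ≤ Real.exp X := by
        rw [div_le_iff₀ hx0]
        calc (1 : ℝ) = Real.exp X * Real.exp (-X) := by rw [← Real.exp_add]; simp
          _ ≤ Real.exp X * x := by gcongr
      linarith only [h2, h1, h3]

/-- gap between bad denominators in terms of `‖B γ‖`. -/
theorem Bad.gap_dist {γ s₁ : ℝ} {B B' : ℕ} (hs1 : s₁ ≤ 1 / 1000) (h : Bad γ s₁ B)
    (h' : Bad γ s₁ B') (hlt : B < B') :
    3 / 4 ≤ B' * distInt (B * γ) ∧ 0 < distInt (B * γ) := by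
  obtain ⟨s, hs, hss₁, hb⟩ := h
  obtain ⟨s', hs', hss₁', hb'⟩ := h'
  have hg := hb.gcd_eq_one hs (hss₁.trans hs1)
  have hg' := hb'.gcd_eq_one hs' (hss₁'.trans hs1)
  have hm := hb.mul_le hs (hss₁.trans hs1)
  obtain ⟨⟨hB, h1, h2⟩, h3⟩ := hb
  obtain ⟨⟨hB', h1', h2'⟩, h3'⟩ := hb'
  have hBR : (0 : ℝ) < B := by exact_mod_cast hB
  have hBR' : (0 : ℝ) < B' := by exact_mod_cast hB'
  have h4 := h2' B hB hlt
  set A := round ((B : ℝ) * γ) with hA
  set A' := round ((B' : ℝ) * γ) with hA'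
  have hne : A' * B - A * B' ≠ 0 := by
    intro h0
    have h5 : A' * B = A * B' := by linarith only [h0]
    have h6 : (B : ℤ) ∣ B' := by
      have : (B : ℤ) ∣ A * B' := ⟨A', by rw [← h5]; ring⟩
      exact (Int.isCoprime_iff_gcd_eq_one.mpr hg).symm.dvd_of_dvd_mul_left this
    have h7 : (B' : ℤ) ∣ B := by
      have : (B' : ℤ) ∣ A' * B := ⟨A, by rw [h5]; ring⟩
      exact (Int.isCoprime_iff_gcd_eq_one.mpr hg').symm.dvd_of_dvd_mul_left this
    have h8 : B ∣ B' := by exact_mod_cast h6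
    have h9 : B' ∣ B := by exact_mod_cast h7
    have := Nat.dvd_antisymm h8 h9
    omega
  have h5 : (1 : ℝ) ≤ |((A' * B - A * B' : ℤ) : ℝ)| := by
    rw [← Int.cast_abs]
    exact_mod_cast Int.one_le_abs hne
  set β := distInt (B * γ) with hβ
  set β' := distInt (B' * γ) with hβ'
  have h6 : |((A' * B - A * B' : ℤ) : ℝ)| ≤ B * β' + B' * β := by
    have e : ((A' * B - A * B' : ℤ) : ℝ) = B' * ((B : ℝ) * γ - A) - B * ((B' : ℝ) * γ - A') := by
      push_cast; ring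
    rw [e]
    calc |(B' : ℝ) * ((B : ℝ) * γ - A) - B * ((B' : ℝ) * γ - A')|
        ≤ |(B' : ℝ) * ((B : ℝ) * γ - A)| + |(B : ℝ) * ((B' : ℝ) * γ - A')| := abs_sub _ _
      _ = B * β' + B' * β := by
          rw [abs_mul, abs_mul, abs_of_pos hBR, abs_of_pos hBR', hβ, hβ']
          unfold distInt
          ring
  have h7 : B * β' ≤ 1 / 4 := by
    have : (B : ℝ) * β' ≤ B * (4 * s) := mul_le_mul_of_nonneg_left (by linarith only [h4, h1', h1]) hBR.le
    linarith only [this, hm]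
  refine ⟨by linarith only [h6, h7, h5], by linarith only [h4, hs']⟩

/-- near and balanced pairs use the bad denominator -/
theorem Bsel_eq_of_near {γ s s₁ ρ : ℝ} {v B : ℕ} (hs : 0 < s) (hs1 : s ≤ s₁)
    (hs₁ : s₁ ≤ 1 / 1000) (hv : 0 < v)
    (hB : BadAt γ s B) (hnear : 4 * distInt (B * γ) * v < 1) (hρ1 : (v : ℝ) * ρ ≤ s)
    (hρ2 : s ^ 2 ≤ v * ρ) : Bsel γ s₁ (min ρ s₁) = B := by
  have hv1 : (1 : ℝ) ≤ v := by exact_mod_cast hv
  have hρ0 : 0 < ρ := by
    by_contra hne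
    push Not at hne
    have h1 : (v : ℝ) * ρ ≤ 0 := mul_nonpos_of_nonneg_of_nonpos (by linarith only []) hne
    have h2 : 0 < s ^ 2 := by positivity
    linarith only [h1, h2, hρ2]
  have hρs : ρ ≤ s := by nlinarith only [hv1, hρ0, hρ1]
  have hmin : min ρ s₁ = ρ := min_eq_left (hρs.trans hs1)
  rw [hmin]
  have hBad : Bad γ s₁ B := ⟨s, hs, hs1, hB⟩
  have hB4 : (B : ℝ) ^ 4 * ρ ≤ 1 := by
    calc (B : ℝ) ^ 4 * ρ ≤ (B : ℝ) ^ 4 * s := by gcongr
      _ ≤ 1 := hB.2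
  have hge := Bsel_ge hρ0 hBad hB4
  by_contra hne
  have hlt : B < Bsel γ s₁ ρ := lt_of_le_of_ne hge (Ne.symm hne)
  have hB0 : 0 < B := hB.1.1
  have hBad' : Bad γ s₁ (Bsel γ s₁ ρ) := by
    rcases Bsel_spec γ s₁ ρ with h | ⟨h, -⟩
    · omega
    · exact h
  have h4' : (Bsel γ s₁ ρ : ℝ) ^ 4 * ρ ≤ 1 := by
    rcases Bsel_spec γ s₁ ρ with h | ⟨-, h⟩
    · omega
    · exact h
  obtain ⟨h5, h6⟩ := Bad.gap_dist hs₁ hBad hBad' hlt
  set β := distInt (B * γ) with hβ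
  set b : ℝ := (Bsel γ s₁ ρ : ℝ) with hb
  have h7 : β ≤ 4 * s := hB.1.2.1
  have hb0 : 0 < b := by
    rw [hb]
    exact_mod_cast Bsel_pos γ s₁ ρ
  -- `ρ ≥ s²/v > 4 β s² ≥ β³/4`
  have h8 : β ^ 3 / 4 ≤ ρ := by
    have h9 : 4 * β * s ^ 2 ≤ ρ := by
      have h10 : 4 * β * s ^ 2 ≤ 4 * β * (v * ρ) := by gcongr
      have h11 : 4 * β * (v * ρ) = (4 * β * v) * ρ := by ring
      have h12 : (4 * β * v) * ρ ≤ 1 * ρ := by gcongr
      linarith only [h10, h12]
    have h13 : β ^ 2 ≤ 16 * s ^ 2 := by nlinarith only [h7, h6]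
    have h14 : β ^ 3 / 4 ≤ 4 * β * s ^ 2 := by nlinarith only [h6, h13]
    linarith only [h9, h14]
  -- `b⁴ ρ ≥ (b β)⁴ /(4 β) ≥ (3/4)⁴/(4β) > 1`
  have h9 : (3 / 4 : ℝ) ^ 4 ≤ (b * β) ^ 4 := by gcongr
  have h10 : b ^ 4 * (β ^ 3 / 4) ≤ 1 := by
    calc b ^ 4 * (β ^ 3 / 4) ≤ b ^ 4 * ρ := by gcongr
      _ ≤ 1 := h4'
  have h11 : (b * β) ^ 4 = (b ^ 4 * (β ^ 3 / 4)) * (4 * β) := by ring
  have h12 : (b * β) ^ 4 ≤ 1 * (4 * β) := by
    rw [h11]
    gcongr
  have h13 : β ≤ 4 / 1000 := by linarith only [hs1, h7, hs₁]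
  norm_num at h9
  linarith only [h12, hs1, h9, h7, hs₁]

/-! ### products over prime factors -/

theorem bs_inv_le_exp {p : ℕ} (hp : p.Prime) : (1 - 1 / (p : ℝ))⁻¹ ≤ Real.exp (2 * (1 / (p : ℝ))) := by
  have hp2 : (2 : ℝ) ≤ p := by exact_mod_cast hp.two_le
  have h1 : 1 / (p : ℝ) ≤ 1 / 2 := one_div_le_one_div_of_le (by norm_num) hp2
  have h0 : 0 < 1 / (p : ℝ) := by positivity
  set x := 1 / (p : ℝ) with hx
  have h2 : (1 - x)⁻¹ ≤ 1 + 2 * x := by
    rw [inv_le_iff_one_le_mul₀ (by linarith)]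
    nlinarith
  have h3 := Real.add_one_le_exp (2 * x)
  linarith only [h2, h3]

theorem bs_prod_le_exp (P : Finset ℕ) (hP : ∀ p ∈ P, p.Prime) :
    ∏ p ∈ P, (1 - 1 / (p : ℝ))⁻¹ ≤ Real.exp (2 * ∑ p ∈ P, 1 / (p : ℝ)) := by
  rw [mul_sum, Real.exp_sum]
  refine prod_le_prod ?_ ?_
  · intro p hp
    exact inv_nonneg.2 (bt_one_sub_inv (hP p hp)).1.le
  · intro p hp
    exact bs_inv_le_exp (hP p hp)

/-- number of prime factors above `y`, weighted. -/
theorem bs_sum_large {n : ℕ} (hn : 0 < n) {y : ℝ} (hy : 2 ≤ y) :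
    ∑ p ∈ n.primeFactors.filter (fun p : ℕ => y < (p : ℝ)), 1 / (p : ℝ) ≤
      2 * Real.log n / y := by
  have hy0 : 0 < y := by linarith
  have h1 : ∑ p ∈ n.primeFactors.filter (fun p : ℕ => y < (p : ℝ)), 1 / (p : ℝ) ≤
      ∑ p ∈ n.primeFactors.filter (fun p : ℕ => y < (p : ℝ)), (2 * Real.log p) * (1 / y) := by
    refine sum_le_sum fun p hp => ?_
    rw [mem_filter] at hp
    have hp2 : (2 : ℝ) ≤ p := by exact_mod_cast (Nat.prime_of_mem_primeFactors hp.1).two_le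
    have h2 : 1 / (p : ℝ) ≤ 1 / y := one_div_le_one_div_of_le hy0 hp.2.le
    have h3 : (1 / 2 : ℝ) ≤ Real.log p := by
      have h4 := Real.log_two_gt_d9
      have h5 := Real.log_le_log (by norm_num) hp2
      linarith only [h4, h5]
    have h6 : 0 < 1 / y := by positivity
    nlinarith only [h2, h3, h6]
  refine h1.trans ?_
  rw [← sum_mul, ← mul_sum]
  have h2 : ∑ p ∈ n.primeFactors.filter (fun p : ℕ => y < (p : ℝ)), Real.log p ≤ Real.log n := by
    have h3 : ∑ p ∈ n.primeFactors.filter (fun p : ℕ => y < (p : ℝ)), Real.log p ≤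
        ∑ p ∈ n.primeFactors, Real.log p := by
      refine sum_le_sum_of_subset_of_nonneg (filter_subset _ _) fun p hp _ => ?_
      exact Real.log_nonneg (by exact_mod_cast (Nat.prime_of_mem_primeFactors hp).one_lt.le)
    have h4 : ∑ p ∈ n.primeFactors, Real.log p = Real.log (∏ p ∈ n.primeFactors, (p : ℝ)) := by
      rw [Real.log_prod]
      intro p hp
      exact_mod_cast (Nat.prime_of_mem_primeFactors hp).ne_zero
    have h5 : (∏ p ∈ n.primeFactors, (p : ℝ)) ≤ n := by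
      have h7 : ((∏ p ∈ n.primeFactors, p : ℕ) : ℝ) ≤ n :=
        Nat.cast_le.mpr (Nat.le_of_dvd hn (Nat.prod_primeFactors_dvd n))
      rwa [Nat.cast_prod] at h7
    have h6 : 0 < (∏ p ∈ n.primeFactors, (p : ℝ)) := by
      refine prod_pos fun p hp => ?_
      exact_mod_cast (Nat.prime_of_mem_primeFactors hp).pos
    rw [h4] at h3
    exact h3.trans (Real.log_le_log h6 h5)
  calc 2 * (∑ p ∈ n.primeFactors.filter (fun p : ℕ => y < (p : ℝ)), Real.log p) * (1 / y)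
      ≤ 2 * Real.log n * (1 / y) := by gcongr
    _ = 2 * Real.log n / y := by ring

/-- `q/φ(q) ≤ C (1 + log log q)^k`, and the version for a product over the primes
dividing an integer `≤ exp X`. -/
theorem prod_primeFactors_le : ∃ C > 0, ∃ k : ℕ, ∀ (n : ℕ) (X : ℝ), 0 < n → 1 ≤ X →
    (n : ℝ) ≤ Real.exp X →
    ∏ p ∈ n.primeFactors, (1 - 1 / (p : ℝ))⁻¹ ≤ C * (1 + Real.log X) ^ k := by
  classical
  obtain ⟨C, hC0, hC⟩ := Vale.Agent.P013.sum_inv_prime_le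
  refine ⟨Real.exp (2 * C + 4) * 16, by positivity, 2, ?_⟩
  intro n X hn hX hnX
  set z : ℕ := ⌈X⌉₊ + 2 with hz
  have hz2 : 2 ≤ z := by omega
  have hzX : X + 2 ≤ z := by
    have := Nat.le_ceil X
    rw [hz]
    push_cast
    linarith only [this]
  have hzX' : (z : ℝ) ≤ 4 * X := by
    have := Nat.ceil_lt_add_one (by linarith only [hX] : 0 ≤ X)
    rw [hz]
    push_cast
    linarith
  have hlogn : Real.log n ≤ X := by
    have h1 : (0 : ℝ) < n := by exact_mod_cast hn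
    have h2 := Real.log_le_log h1 hnX
    rwa [Real.log_exp] at h2
  have h1 : ∑ p ∈ n.primeFactors, 1 / (p : ℝ) ≤ Real.log (Real.log z) + C + 2 := by
    rw [← sum_filter_add_sum_filter_not n.primeFactors (fun p : ℕ => X + 1 < (p : ℝ))]
    have h2 := bs_sum_large hn (y := X + 1) (by linarith)
    have h3 : 2 * Real.log n / (X + 1) ≤ 2 := by
      rw [div_le_iff₀ (by linarith)]
      linarith only [hlogn]
    have h4 : ∑ p ∈ n.primeFactors.filter (fun p : ℕ => ¬ X + 1 < (p : ℝ)), 1 / (p : ℝ) ≤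
        ∑ p ∈ (range z).filter Nat.Prime, 1 / (p : ℝ) := by
      refine sum_le_sum_of_subset_of_nonneg ?_ fun p _ _ => by positivity
      intro p hp
      rw [mem_filter, not_lt] at hp
      rw [mem_filter, mem_range]
      refine ⟨?_, Nat.prime_of_mem_primeFactors hp.1⟩
      have : (p : ℝ) < z := by linarith only [hp.2, hzX]
      exact_mod_cast this
    have h5 := hC z hz2
    linarith
  refine (bs_prod_le_exp _ fun p hp => Nat.prime_of_mem_primeFactors hp).trans ?_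
  have hlz : 0 < Real.log z := Real.log_pos (by exact_mod_cast (by omega : 1 < z))
  have h2 : Real.log z ≤ 4 * (1 + Real.log X) := by
    have h3 : Real.log z ≤ Real.log (4 * X) := Real.log_le_log (by positivity) hzX'
    rw [Real.log_mul (by norm_num) (by linarith only [hX])] at h3
    have h4 : Real.log 4 ≤ 4 := by
      have := Real.log_le_sub_one_of_pos (by norm_num : (0 : ℝ) < 4)
      linarith
    have h5 : 0 ≤ Real.log X := Real.log_nonneg hX
    linarith only [h5, h3, h4]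
  calc Real.exp (2 * ∑ p ∈ n.primeFactors, 1 / (p : ℝ))
      ≤ Real.exp (2 * (Real.log (Real.log z) + C + 2)) := by
        apply Real.exp_le_exp.2
        linarith only [h1]
    _ = Real.exp (2 * C + 4) * (Real.log z) ^ 2 := by
        have h9 : Real.exp (Real.log (Real.log z) + Real.log (Real.log z)) =
            (Real.log z) ^ 2 := by
          rw [Real.exp_add, Real.exp_log hlz]
          ring
        rw [show 2 * (Real.log (Real.log z) + C + 2) = (2 * C + 4) +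
          (Real.log (Real.log z) + Real.log (Real.log z)) by ring, Real.exp_add (2 * C + 4), h9]
    _ ≤ Real.exp (2 * C + 4) * (4 * (1 + Real.log X)) ^ 2 := by gcongr
    _ = _ := by ring

/-- the large primes: `n ≤ exp (D^a)` has `∏_{p | n, p > D} (1-1/p)^{-1} ≤ C_a`. -/
theorem prod_large_primeFactors_le (a : ℝ) (_ha : 0 < a) : ∃ C > 0, ∀ (n : ℕ) (D : ℝ), 0 < n →
    2 ≤ D → (n : ℝ) ≤ Real.exp (D ^ a) →
    ∏ p ∈ n.primeFactors.filter (fun p : ℕ => D < (p : ℝ)), (1 - 1 / (p : ℝ))⁻¹ ≤ C := by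
  classical
  obtain ⟨C, hC0, hC⟩ := Vale.Agent.P013.mertens_two
  have hl2 : 0 < Real.log 2 := Real.log_pos (by norm_num)
  set b : ℝ := a + 4 with hb
  refine ⟨Real.exp (2 * (Real.log b + C / Real.log 2 + 2)), Real.exp_pos _, ?_⟩
  intro n D hn hD hnD
  have hD0 : 0 < D := by linarith
  have hlD : 0 < Real.log D := Real.log_pos (by linarith only [hD])
  set x : ℕ := ⌈D⌉₊ with hx
  have hx2 : 2 ≤ x := by
    have h1 : (2 : ℝ) ≤ x := hD.trans (Nat.le_ceil D)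
    exact_mod_cast h1
  set y : ℝ := D ^ a + D with hy
  have hDa : 0 < D ^ a := by positivity
  set z : ℕ := ⌈y⌉₊ + 1 with hz
  have hzy : y + 1 ≤ z := by
    have := Nat.le_ceil y
    rw [hz]
    push_cast
    linarith only [this]
  have hxz : x ≤ z := by
    have h1 : x ≤ ⌈y⌉₊ := Nat.ceil_mono (by rw [hy]; linarith only [hDa])
    omega
  have hzD : (z : ℝ) ≤ D ^ b := by
    have h1 := Nat.ceil_lt_add_one (by positivity : 0 ≤ y)
    have h2 : (z : ℝ) ≤ D ^ a + D + 2 := by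
      rw [hz]
      push_cast
      linarith only [h1]
    have h3 : D ^ b = D ^ a * D ^ (4 : ℝ) := by rw [hb, Real.rpow_add hD0]
    have h4 : D ^ (4 : ℝ) = D ^ (4 : ℕ) := by
      rw [← Real.rpow_natCast]
      norm_num
    have h5 : D ^ (4 : ℕ) = D * D ^ 3 := by ring
    have h6 : (8 : ℝ) ≤ D ^ 3 := by
      calc (8 : ℝ) = 2 ^ 3 := by norm_num
        _ ≤ D ^ 3 := by gcongr
    have h7 : 8 * D ≤ D ^ (4 : ℕ) := by
      rw [h5]
      nlinarith only [hD, h6]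
    have h8 : 1 ≤ D ^ a := Real.one_le_rpow (by linarith only [hD]) _ha.le
    rw [h3, h4]
    calc (z : ℝ) ≤ D ^ a + D + 2 := h2
      _ ≤ D ^ a * (1 + D + 2) := by nlinarith only [hD, h8]
      _ ≤ D ^ a * D ^ (4 : ℕ) := by
          refine mul_le_mul_of_nonneg_left ?_ hDa.le
          linarith only [hD, h7]
  have hlogn : Real.log n ≤ D ^ a := by
    have h1 : (0 : ℝ) < n := by exact_mod_cast hn
    have h2 := Real.log_le_log h1 hnD
    rwa [Real.log_exp] at h2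
  have h1 : ∑ p ∈ n.primeFactors.filter (fun p : ℕ => D < (p : ℝ)), 1 / (p : ℝ) ≤
      Real.log b + C / Real.log 2 + 2 := by
    rw [← sum_filter_add_sum_filter_not (n.primeFactors.filter (fun p : ℕ => D < (p : ℝ)))
      (fun p : ℕ => y < (p : ℝ))]
    have h2 : ∑ p ∈ (n.primeFactors.filter (fun p : ℕ => D < (p : ℝ))).filter
        (fun p : ℕ => y < (p : ℝ)), 1 / (p : ℝ) ≤ 2 := by
      have h3 : ∑ p ∈ (n.primeFactors.filter (fun p : ℕ => D < (p : ℝ))).filter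
          (fun p : ℕ => y < (p : ℝ)), 1 / (p : ℝ) ≤
          ∑ p ∈ n.primeFactors.filter (fun p : ℕ => y < (p : ℝ)), 1 / (p : ℝ) := by
        refine sum_le_sum_of_subset_of_nonneg ?_ fun p _ _ => by positivity
        intro p hp
        rw [mem_filter, mem_filter] at hp
        rw [mem_filter]
        exact ⟨hp.1.1, hp.2⟩
      have h4 := bs_sum_large hn (y := y) (by rw [hy]; linarith only [hD, hDa])
      have h5 : 2 * Real.log n / y ≤ 2 := by
        rw [div_le_iff₀ (by positivity), hy]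
        linarith only [hD, hlogn]
      linarith only [h4, h5, h3]
    have h3 : ∑ p ∈ (n.primeFactors.filter (fun p : ℕ => D < (p : ℝ))).filter
        (fun p : ℕ => ¬ y < (p : ℝ)), 1 / (p : ℝ) ≤
        ∑ p ∈ (Ico x z).filter Nat.Prime, 1 / (p : ℝ) := by
      refine sum_le_sum_of_subset_of_nonneg ?_ fun p _ _ => by positivity
      intro p hp
      rw [mem_filter, mem_filter, not_lt] at hp
      rw [mem_filter, mem_Ico]
      refine ⟨⟨Nat.ceil_le.2 hp.1.2.le, ?_⟩, Nat.prime_of_mem_primeFactors hp.1.1⟩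
      have : (p : ℝ) < z := by linarith only [hp.2, hzy]
      exact_mod_cast this
    have h4 := hC x z hx2 hxz
    have hxR : (2 : ℝ) ≤ x := by exact_mod_cast hx2
    have hDx : D ≤ x := Nat.le_ceil D
    have hlx : Real.log D ≤ Real.log x := Real.log_le_log hD0 hDx
    have hlx2 : Real.log 2 ≤ Real.log x := Real.log_le_log (by norm_num) hxR
    have hlz : Real.log z ≤ b * Real.log D := by
      have h5 := Real.log_le_log (by linarith only [hzy, hDa, hD] : (0 : ℝ) < z) hzD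
      rwa [Real.log_rpow hD0] at h5
    have hb0 : 0 < b := by rw [hb]; linarith only [_ha]
    have hlz0 : 0 < Real.log z := by
      apply Real.log_pos
      have : D ^ a + D + 1 ≤ z := hzy
      linarith only [hD, hDa, hzy]
    have h5 : Real.log (Real.log z) - Real.log (Real.log x) ≤ Real.log b := by
      have h6 : Real.log (Real.log z) ≤ Real.log (b * Real.log D) :=
        Real.log_le_log hlz0 hlz
      rw [Real.log_mul hb0.ne' hlD.ne'] at h6
      have h7 : Real.log (Real.log D) ≤ Real.log (Real.log x) := Real.log_le_log hlD hlx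
      linarith only [h7, h6]
    have h6 : C / Real.log x ≤ C / Real.log 2 := by gcongr
    linarith only [h5, h4, h3, h2, h6]
  refine (bs_prod_le_exp _ fun p hp => Nat.prime_of_mem_primeFactors (mem_filter.1 hp).1).trans ?_
  apply Real.exp_le_exp.2
  linarith only [h1]

end Vale.P028
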