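import Mathlib.Algebra.Order.Chebyshev
import Mathlib.Algebra.Order.Quantale
import Mathlib.Analysis.CStarAlgebra.Module.Constructions
import Mathlib.Analysis.Complex.ExponentialBounds
import Mathlib.Computability.Reduce
import Mathlib.Data.Finset.Finsupp
import Mathlib.Data.Int.CardIntervalMod
import Mathlib.Data.Int.Star
import Mathlib.Data.Rat.Star
import Mathlib.MeasureTheory.Group.AddCircle
import Mathlib.MeasureTheory.Measure.RegularityCompacts
import Mathlib.NumberTheory.Chebyshev
import Mathlib.NumberTheory.Dioph
import Mathlib.NumberTheory.DiophantineApproximation.Basic
import Mathlib.NumberTheory.Harmonic.Bounds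
import Mathlib.NumberTheory.LSeries.DirichletContinuation
import Mathlib.NumberTheory.Transcendental.Liouville.Basic
import Mathlib.Order.CompletePartialOrder
import Mathlib.RingTheory.SimpleRing.Principal
import Mathlib.RingTheory.UniqueFactorizationDomain.Finsupp
import Mathlib.Tactic
import Mathlib.Topology.Algebra.ProperAction.Basic
import Mathlib.Topology.UniformSpace.Uniformizable

/-! The part of Mathlib that the development of this folder uses. -/
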