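import Vale.Agent.P028.MathlibUsed
import Vale.Agent.P028.ADefs
import Vale.Agent.P028.MSift
import Vale.Agent.P028.BDefs

/-!
# Definitions for Theorem K (all real `γ`)
-/

namespace Vale.P028

open Finset MeasureTheory

/-- `∑_{p ∣ n, p > T} 1/p`. -/
noncomputable def LL (T : ℝ) (n : ℕ) : ℝ :=
  ∑ p ∈ n.primeFactors.filter (fun p : ℕ => T < (p : ℝ)), 1 / (p : ℝ)

/-- `∏_{p ∈ Ps} (1 - 1/p)`. -/
noncomputable def pr (Ps : Finset ℕ) : ℝ := ∏ p ∈ Ps, (1 - 1 / (p : ℝ))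

/-- `∏_{p ∣ n} (1 - 1/p)⁻¹ = n / φ(n)`. -/
noncomputable def GG (n : ℕ) : ℝ := ∏ p ∈ n.primeFactors, (1 - 1 / (p : ℝ))⁻¹

/-- `∏_{p ∣ n, p > D} (1 - 1/p)⁻¹`. -/
noncomputable def GT (D : ℝ) (n : ℕ) : ℝ :=
  ∏ p ∈ n.primeFactors.filter (fun p : ℕ => D < (p : ℝ)), (1 - 1 / (p : ℝ))⁻¹

/-- largest prime factor (`0` for `n ≤ 1`) -/
noncomputable def gpf (n : ℕ) : ℕ := n.primeFactors.sup id

open Classical in
/-- weighted sum over the pairs of `R`. -/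
noncomputable def wsum (R : ℕ → ℕ → Prop) (N : ℕ) (f h : ℕ → ℝ) (G : ℕ → ℕ → ℝ) : ℝ :=
  ∑ q ∈ Icc 1 N, ∑ r ∈ Icc 1 N, if R q r then f q * h r * G q r else 0

/-- Far pairs at the level `s` (type (a)). -/
def TA (γ : ℝ) (ψ : ℕ → ℝ) (s : ℝ) (q r : ℕ) : Prop :=
  Rel γ ψ s q r ∧ Far γ s (cofac q r) (cofac r q) ∧
    s / 2 < max ((cofac r q : ℝ) * ψ q) ((cofac q r : ℝ) * ψ r)

/-- Unbalanced pairs at the level `s`. -/
def UB (ψ : ℕ → ℝ) (s : ℝ) (q r : ℕ) : Prop :=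
  (cofac r q : ℝ) * ψ q ≤ s ∧ (cofac q r : ℝ) * ψ r ≤ s ∧
    ((cofac r q : ℝ) * ψ q ≤ s ^ 2 ∨ (cofac q r : ℝ) * ψ r ≤ s ^ 2)

/-- The sifting denominator for arcs of size `x`. -/
noncomputable def Bq (γ x : ℝ) : ℕ := Bsel γ (1 / 1024) (min x (1 / 1024))

/-- The corresponding numerator. -/
noncomputable def Aq (γ x : ℝ) : ℤ := Anum γ (Bq γ x)

/-- `K = max 1 (‖B γ‖ / x)`. -/
noncomputable def KK (γ x : ℝ) : ℝ := max 1 (distInt ((Bq γ x : ℝ) * γ) / x)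

/-- The sifting starts above `yK`. -/
noncomputable def yK (γ x : ℝ) : ℝ := 2 + 2 * Real.log (2 * Bq γ x * KK γ x)

/-- The sifting primes of `q`. -/
noncomputable def PK (γ x : ℝ) (q : ℕ) : Finset ℕ :=
  q.primeFactors.filter (fun p : ℕ => yK γ x < (p : ℝ) ∧ ¬ p ∣ Bq γ x)

/-- Allowed centres of `q`. -/
def AK (γ x : ℝ) (q : ℕ) (al : ℤ) : Prop :=
  ∀ p ∈ PK γ x q, ¬ (p : ℤ) ∣ al * (Bq γ x : ℤ) + Aq γ x

/-- Weights: thinning by the primes that are not sifted. -/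
noncomputable def wK (γ x : ℝ) (q : ℕ) : ℝ := ((q.totient : ℝ) / q) / pr (PK γ x q)

/-- The sifted sets. -/
def GK (γ : ℝ) (ψ : ℕ → ℝ) (q : ℕ) : Set ℝ := GS γ q (ψ q) (AK γ (ψ q) q)

end Vale.P028
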