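import Vale.Agent.P028.MathlibUsed
import Vale.Agent.P028.KDefs

/-!
# Definitions for Theorem F (every real `γ`, no loss)

Class systems: for every modulus `q` a finite set `Ps q` of primes dividing `q` and for every
such prime a forbidden residue class `c q p`.
-/

namespace Vale.P028

open Finset MeasureTheory

/-- `al` avoids the class `c p` modulo every prime `p ∈ Ps`. -/
def AC (c : ℕ → ℤ) (Ps : Finset ℕ) (al : ℤ) : Prop := ∀ p ∈ Ps, ¬ (p : ℤ) ∣ al - c p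

/-- Weights: thinning by the primes that are not sifted. -/
noncomputable def wC (Ps : Finset ℕ) (q : ℕ) : ℝ := ((q.totient : ℝ) / q) / pr Ps

/-- The sifted set of `q` (half-length `x`, class system `c`, `Ps`). -/
def GC (γ x : ℝ) (c : ℕ → ℤ) (Ps : Finset ℕ) (q : ℕ) : Set ℝ := GS γ q x (AC c Ps)

/-- The finite statement behind Theorem F: for every finite family `S` of moduli in a window
(`q ≤ X ^ 3`, `ψ q ≥ X ^ (-6)`), thin in the sense that all the masses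
`∑_{q ∈ S, n ∣ q} φ(q/n)/(q/n) ψ(q)` are at most `1`, one can discard at most half of the mass
and find class systems such that the weighted second moment is `≤ C *` mass. -/
def MomentF : Prop := ∃ C > 0, ∃ X₀ : ℝ, ∀ (γ X : ℝ) (ψ : ℕ → ℝ) (S : Finset ℕ), X₀ ≤ X →
  (∀ q ∈ S, 0 < q ∧ (q : ℝ) ≤ X ^ 3 ∧ 1 / X ^ 6 ≤ ψ q ∧ ψ q ≤ 1 / 2) →
  (∀ n : ℕ, 0 < n → ∑ q ∈ S.filter (fun q => n ∣ q),
    (((q / n : ℕ).totient : ℝ) / (q / n : ℕ)) * ψ q ≤ 1) →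
  ∃ S' ⊆ S, ∃ (Ps : ℕ → Finset ℕ) (c : ℕ → ℕ → ℤ),
    (∀ q ∈ S', ∀ p ∈ Ps q, p.Prime ∧ p ∣ q) ∧
    ∑ q ∈ S, (q.totient : ℝ) / q * ψ q ≤ 2 * ∑ q ∈ S', (q.totient : ℝ) / q * ψ q ∧
    ∑ q ∈ S', ∑ r ∈ S', wC (Ps q) q * wC (Ps r) r *
      volume.real (GC γ (ψ q) (c q) (Ps q) q ∩ GC γ (ψ r) (c r) (Ps r) r ∩ Set.Ioc 0 1) ≤
      C * ∑ q ∈ S, (q.totient : ℝ) / q * ψ q

end Vale.P028
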