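import Vale.Agent.P028.MathlibUsed
import Vale.Agent.P028.MSums

/-!
# The sift of the centres (A2)
-/

namespace Vale.P028

open Finset ArithmeticFunction

theorem geom_sum_le_two (x : ℝ) (h0 : 0 ≤ x) (h1 : x ≤ 1 / 2) (M : ℕ) :
    ∑ k ∈ range M, x ^ k ≤ 2 := by
  have hs : Summable (fun k : ℕ => x ^ k) := summable_geometric_of_lt_one h0 (by linarith only [h1])
  have h2 : ∑ k ∈ range M, x ^ k ≤ ∑' k : ℕ, x ^ k :=
    hs.sum_le_tsum _ (fun k _ => pow_nonneg h0 k)
  rw [tsum_geometric_of_lt_one h0 (by linarith only [h1])] at h2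
  refine h2.trans ?_
  rw [inv_le_comm₀ (by linarith only [h1]) (by norm_num)]
  linarith only [h1]

theorem sum_vonMangoldt_div_le (D S : Finset ℕ) (hS : ∀ p ∈ S, p.Prime)
    (hD : ∀ d ∈ D, IsPrimePow d → d.minFac ∈ S) :
    ∑ d ∈ D, (vonMangoldt d / d : ℝ) ≤ 2 * ∑ p ∈ S, Real.log p / p := by
  classical
  have h1 : ∑ d ∈ D, (vonMangoldt d / d : ℝ) =
      ∑ d ∈ D.filter IsPrimePow, (vonMangoldt d / d : ℝ) := by
    rw [sum_filter]
    refine sum_congr rfl fun d _ => ?_
    split_ifs with h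
    · rfl
    · rw [vonMangoldt_apply, if_neg h, zero_div]
  have hmaps : ∀ d ∈ D.filter IsPrimePow, d.minFac ∈ S := by
    intro d hd
    rw [mem_filter] at hd
    exact hD d hd.1 hd.2
  rw [h1, ← sum_fiberwise_of_maps_to hmaps, mul_sum]
  refine sum_le_sum fun p hp => ?_
  have hpp := hS p hp
  have hp2 : (2 : ℝ) ≤ p := by exact_mod_cast hpp.two_le
  have hlog : 0 ≤ Real.log p := Real.log_nonneg (by (clear * - hp2; linarith))
  set M := D.sup id with hM
  have hsub : (D.filter IsPrimePow).filter (fun d => d.minFac = p) ⊆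
      (range M).image (fun k => p ^ (k + 1)) := by
    intro d hd
    rw [mem_filter, mem_filter] at hd
    obtain ⟨⟨hdD, hdp⟩, hmin⟩ := hd
    obtain ⟨r, k, hr, hk, hrk⟩ := (isPrimePow_nat_iff d).mp hdp
    have hrp : r = p := by
      rw [← hmin, ← hrk, hr.pow_minFac hk.ne']
    subst hrp
    rw [mem_image]
    refine ⟨k - 1, ?_, ?_⟩
    · rw [mem_range]
      have h2 : d ≤ M := by
        rw [hM]
        exact le_sup (f := id) hdD
      have h3 : k < r ^ k := Nat.lt_pow_self hpp.one_lt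
      omega
    · rw [Nat.sub_add_cancel hk]
      exact hrk
  calc ∑ d ∈ (D.filter IsPrimePow).filter (fun d => d.minFac = p), (vonMangoldt d / d : ℝ)
      ≤ ∑ d ∈ (range M).image (fun k => p ^ (k + 1)), (vonMangoldt d / d : ℝ) := by
        refine sum_le_sum_of_subset_of_nonneg hsub fun d _ _ => ?_
        exact div_nonneg vonMangoldt_nonneg (Nat.cast_nonneg d)
    _ = ∑ k ∈ range M, (vonMangoldt (p ^ (k + 1)) / ((p ^ (k + 1) : ℕ) : ℝ) : ℝ) := by
        rw [sum_image]
        intro a _ b _ hab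
        have := Nat.pow_right_injective hpp.two_le hab
        omega
    _ = ∑ k ∈ range M, Real.log p / p * (1 / (p : ℝ)) ^ k := by
        refine sum_congr rfl fun k _ => ?_
        rw [vonMangoldt_apply_pow (Nat.succ_ne_zero k), vonMangoldt_apply_prime hpp]
        push_cast
        have hp0 : (p : ℝ) ≠ 0 := by (clear * - hp2; positivity)
        rw [one_div, inv_pow, pow_succ]
        field_simp
    _ = Real.log p / p * ∑ k ∈ range M, (1 / (p : ℝ)) ^ k := by rw [mul_sum]
    _ ≤ Real.log p / p * 2 := by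
        apply mul_le_mul_of_nonneg_left _ (by (clear * - hp2; positivity))
        apply geom_sum_le_two _ (by positivity)
        apply one_div_le_one_div_of_le (by norm_num) hp2
    _ = 2 * (Real.log p / p) := by ring

/-- `log (gcd(m,q))` through the von Mangoldt function. -/
theorem log_gcd_eq (m : ℤ) (q : ℕ) (hq : q ≠ 0) :
    Real.log ((Int.gcd m q : ℕ) : ℝ) =
      ∑ d ∈ q.divisors, if (d : ℤ) ∣ m then (vonMangoldt d : ℝ) else 0 := by
  rw [← vonMangoldt_sum, ← sum_filter]
  refine sum_congr ?_ fun _ _ => rfl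
  ext d
  simp only [Nat.mem_divisors, mem_filter]
  have hg : Int.gcd m q ≠ 0 := by
    have : 0 < Int.gcd m q := Int.gcd_pos_of_ne_zero_right m (by exact_mod_cast hq)
    omega
  constructor
  · rintro ⟨h1, _⟩
    rw [Int.gcd_comm] at h1
    have h2 : d ∣ q := by
      have := h1.trans (Int.gcd_dvd_natAbs_left _ _)
      simpa only [Int.natAbs_natCast] using this
    refine ⟨⟨h2, hq⟩, ?_⟩
    have h3 := h1.trans (Int.gcd_dvd_natAbs_right _ _)
    exact Int.natCast_dvd.mpr h3
  · rintro ⟨⟨h1, _⟩, h2⟩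
    refine ⟨?_, hg⟩
    have := Int.dvd_coe_gcd h2 (by exact_mod_cast h1 : (d : ℤ) ∣ (q : ℤ))
    exact_mod_cast this

/-- Window counts. -/
theorem count_window (g : ℤ → Prop) [DecidablePred g] (N c : ℕ) (hN : 0 < N)
    (hc : ∀ t : ℤ, ((range N).filter (fun i : ℕ => g (t + i))).card = c) :
    ∀ (n : ℕ) (t : ℤ), (n / N) * c ≤ ((range n).filter (fun i : ℕ => g (t + i))).card ∧
      ((range n).filter (fun i : ℕ => g (t + i))).card ≤ (n / N + 1) * c := by
  intro n
  induction n using Nat.strong_induction_on with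
  | _ n ih =>
    intro t
    rcases Nat.lt_or_ge n N with h | h
    · rw [Nat.div_eq_of_lt h]
      refine ⟨by simp only [zero_mul, zero_le], ?_⟩
      rw [zero_add, one_mul, ← hc t]
      apply card_le_card
      apply filter_subset_filter
      intro i hi
      rw [mem_range] at *
      (clear * - h hi; omega)
    · have h1 := ih (n - N) (by omega) (t + N)
      have h2 : ((range n).filter (fun i : ℕ => g (t + i))).card =
          ((range N).filter (fun i : ℕ => g (t + i))).card +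
          ((range (n - N)).filter (fun i : ℕ => g (t + N + i))).card := by
        have h3 : range n = range N ∪ (range (n - N)).map (addLeftEmbedding N) := by
          rw [← range_add_eq_union]
          congr 1
          omega
        rw [h3, filter_union, card_union_of_disjoint]
        · congr 1
          rw [filter_map, card_map]
          congr 1
          apply filter_congr
          intro i _
          simp only [Function.comp, addLeftEmbedding_apply]
          push_cast
          rw [add_assoc]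
        · apply disjoint_filter_filter
          rw [disjoint_left]
          intro i hi hi2
          rw [mem_range] at hi
          simp only [mem_map, mem_range, addLeftEmbedding_apply] at hi2
          obtain ⟨a, _, ha⟩ := hi2
          omega
      rw [h2, hc t]
      have h4 : n / N = (n - N) / N + 1 := by
        have : n = (n - N) + N := by omega
        conv_lhs => rw [this]
        rw [Nat.add_div_right _ hN]
      rw [h4]
      constructor
      · rw [add_mul]; linarith only [h1]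
      · have := h1.2
        rw [add_mul, one_mul] at *
        rw [add_mul]
        linarith only [h1]

theorem card_Ico_int_filter (g : ℤ → Prop) [DecidablePred g] (t : ℤ) (n : ℕ) :
    ((Ico t (t + n)).filter g).card = ((range n).filter (fun i : ℕ => g (t + i))).card := by
  symm
  apply card_bij (fun (i : ℕ) _ => t + (i : ℤ))
  · intro i hi
    rw [mem_filter, mem_range] at hi
    rw [mem_filter, mem_Ico]
    refine ⟨⟨by omega, by omega⟩, hi.2⟩
  · intro i _ j _ h
    omega
  · intro b hb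
    rw [mem_filter, mem_Ico] at hb
    refine ⟨(b - t).toNat, ?_, ?_⟩
    · rw [mem_filter, mem_range]
      have : ((b - t).toNat : ℤ) = b - t := Int.toNat_of_nonneg (by omega)
      refine ⟨by omega, ?_⟩
      rw [this]
      have h2 : t + (b - t) = b := by ring
      rw [h2]; exact hb.2
    · have : ((b - t).toNat : ℤ) = b - t := Int.toNat_of_nonneg (by omega)
      omega

/-- Linear change of variable in a full period. -/
theorem count_linear (B A : ℤ) (N : ℕ) (hN : 0 < N) (hB : IsCoprime B (N : ℤ))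
    (g : ℤ → Prop) [DecidablePred g] (hg : ∀ x y : ℤ, x ≡ y [ZMOD N] → (g x ↔ g y)) (t : ℤ) :
    ((range N).filter (fun i : ℕ => g ((t + i) * B + A))).card =
      ((range N).filter (fun m : ℕ => g m)).card := by
  have hN' : (0 : ℤ) < N := by exact_mod_cast hN
  set F : ℕ → ℕ := fun i => (((t + i) * B + A) % N).toNat with hF
  have hFv : ∀ i, ((F i : ℕ) : ℤ) = ((t + i) * B + A) % N := by
    intro i
    rw [hF]
    exact Int.toNat_of_nonneg (Int.emod_nonneg _ hN'.ne')
  have hFlt : ∀ i, F i < N := by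
    intro i
    have := Int.emod_lt_of_pos ((t + i) * B + A) hN'
    rw [← hFv] at this
    exact_mod_cast this
  have hinj : Set.InjOn F (range N : Set ℕ) := by
    intro i hi j hj hij
    rw [coe_range, Set.mem_Iio] at hi hj
    have h1 : ((t + i) * B + A) % N = ((t + j) * B + A) % N := by
      rw [← hFv, ← hFv, hij]
    have h2 : ((t + i) * B + A) ≡ ((t + j) * B + A) [ZMOD N] := h1
    have h3 := (Int.modEq_iff_dvd.mp h2)
    have h4 : (N : ℤ) ∣ ((j : ℤ) - i) * B := by
      convert h3 using 1; ring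
    have h5 : (N : ℤ) ∣ (j : ℤ) - i := hB.symm.dvd_of_dvd_mul_right h4
    obtain ⟨k, hk⟩ := h5
    have h6 : k = 0 := by
      by_contra hk0
      rcases lt_or_gt_of_ne hk0 with h | h
      · have : k ≤ -1 := by omega
        nlinarith only [hi, hk, h]
      · have : 1 ≤ k := by omega
        nlinarith only [hj, hk, h]
    rw [h6, mul_zero] at hk
    omega
  have himg : (range N).image F = range N := by
    apply eq_of_subset_of_card_le
    · intro m hm
      rw [mem_image] at hm
      obtain ⟨i, _, rfl⟩ := hm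
      rw [mem_range]; exact hFlt i
    · rw [card_image_of_injOn hinj]
  have h7 : (range N).filter (fun m : ℕ => g m) =
      ((range N).filter (fun i : ℕ => g ((t + i) * B + A))).image F := by
    conv_lhs => rw [← himg]
    rw [filter_image]
    congr 1
    apply filter_congr
    intro i _
    rw [hFv]
    apply hg
    exact Int.mod_modEq _ _
  rw [h7, card_image_of_injOn]
  intro i hi j hj hij
  apply hinj _ _ hij
  · have := (mem_filter.mp (mem_coe.mp hi)).1
    exact_mod_cast this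
  · have := (mem_filter.mp (mem_coe.mp hj)).1
    exact_mod_cast this

/-- Multiples of `d` coprime to `P` in a period. -/
theorem count_mul_coprime (d P : ℕ) (hd : 0 < d) (hdP : d.Coprime P) :
    ((range (d * P)).filter
      (fun m : ℕ => (d : ℤ) ∣ (m : ℤ) ∧ IsCoprime (m : ℤ) (P : ℤ))).card = P.totient := by
  rw [Nat.totient_eq_card_coprime]
  symm
  apply card_bij (fun m _ => d * m)
  · intro m hm
    rw [mem_filter, mem_range] at hm
    rw [mem_filter, mem_range]
    refine ⟨(Nat.mul_lt_mul_left hd).mpr hm.1, ?_, ?_⟩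
    · exact_mod_cast Nat.dvd_mul_right d m
    · rw [Nat.isCoprime_iff_coprime]
      exact Nat.Coprime.mul_left hdP hm.2.symm
  · intro a _ b _ h
    exact Nat.eq_of_mul_eq_mul_left hd h
  · intro b hb
    rw [mem_filter, mem_range] at hb
    obtain ⟨h1, h2, h3⟩ := hb
    have h2' : d ∣ b := by exact_mod_cast h2
    obtain ⟨m, rfl⟩ := h2'
    refine ⟨m, ?_, rfl⟩
    rw [mem_filter, mem_range]
    rw [Nat.isCoprime_iff_coprime] at h3
    exact ⟨(Nat.mul_lt_mul_left hd).mp h1, (Nat.Coprime.coprime_mul_left h3).symm⟩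

/-- Bounds for the number of sifted multiples in an interval. -/
theorem count_T (B A : ℤ) (d P : ℕ) (hd : 0 < d) (hP : 0 < P) (hdP : d.Coprime P)
    (hB : IsCoprime B ((d * P : ℕ) : ℤ)) (t : ℤ) (n : ℕ) :
    ((n : ℝ) / (d * P) - 1) * P.totient ≤
      (((Ico t (t + n)).filter (fun al : ℤ => (d : ℤ) ∣ al * B + A ∧
        IsCoprime (al * B + A) (P : ℤ))).card : ℝ) ∧
    (((Ico t (t + n)).filter (fun al : ℤ => (d : ℤ) ∣ al * B + A ∧
        IsCoprime (al * B + A) (P : ℤ))).card : ℝ) ≤ ((n : ℝ) / (d * P) + 1) * P.totient := by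
  classical
  have hN : 0 < d * P := Nat.mul_pos hd hP
  set g : ℤ → Prop := fun m => (d : ℤ) ∣ m ∧ IsCoprime m (P : ℤ) with hg
  have hgper : ∀ x y : ℤ, x ≡ y [ZMOD ((d * P : ℕ) : ℤ)] → (g x ↔ g y) := by
    have key : ∀ x y : ℤ, x ≡ y [ZMOD ((d * P : ℕ) : ℤ)] → g x → g y := by
      intro x y hxy hx
      obtain ⟨k, hk⟩ := Int.modEq_iff_dvd.mp hxy
      have hy : y = x + (d * P : ℕ) * k := by linarith only [hk]
      push_cast at hy
      refine ⟨?_, ?_⟩
      · rw [hy]
        exact dvd_add hx.1 ⟨P * k, by ring⟩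
      · rw [hy]
        have : x + (d : ℤ) * P * k = x + P * (d * k) := by ring
        rw [this]
        exact IsCoprime.add_mul_left_left hx.2 _
    intro x y hxy
    exact ⟨key x y hxy, key y x hxy.symm⟩
  have hc : ∀ t : ℤ, ((range (d * P)).filter
      (fun i : ℕ => (fun al : ℤ => g (al * B + A)) (t + i))).card = P.totient := by
    intro t
    have h1 := count_linear B A (d * P) hN hB g hgper t
    rw [← count_mul_coprime d P hd hdP]
    convert h1 using 2
  have h2 := count_window (fun al : ℤ => g (al * B + A)) (d * P) P.totient hN hc n t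
  have h2e := card_Ico_int_filter (fun al : ℤ => g (al * B + A)) t n
  rw [← h2e] at h2
  have h3 : (((n / (d * P) : ℕ) * P.totient : ℕ) : ℝ) ≤
      (((Ico t (t + n)).filter (fun al : ℤ => g (al * B + A))).card : ℝ) := by
    exact_mod_cast h2.1
  have h4 : (((Ico t (t + n)).filter (fun al : ℤ => g (al * B + A))).card : ℝ) ≤
      (((n / (d * P) + 1 : ℕ) * P.totient : ℕ) : ℝ) := by
    exact_mod_cast h2.2
  have hN' : (0 : ℝ) < (d : ℝ) * P := by exact_mod_cast hN
  have h5 : ((n / (d * P) : ℕ) : ℝ) ≤ (n : ℝ) / (d * P) := by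
    have := @Nat.cast_div_le ℝ _ _ _ n (d * P)
    push_cast at this
    exact this
  have h6 : (n : ℝ) / (d * P) - 1 ≤ ((n / (d * P) : ℕ) : ℝ) := by
    rw [sub_le_iff_le_add, div_le_iff₀ hN']
    have h7 : n < (n / (d * P) + 1) * (d * P) := by
      rw [add_mul, one_mul]
      exact Nat.lt_div_mul_add hN
    have h8 : (n : ℝ) < (((n / (d * P) : ℕ) : ℝ) + 1) * (d * P) := by exact_mod_cast h7
    exact h8.le
  push_cast at h3 h4
  constructor
  · refine le_trans ?_ h3
    exact mul_le_mul_of_nonneg_right h6 (Nat.cast_nonneg _)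
  · refine h4.trans ?_
    apply mul_le_mul_of_nonneg_right _ (Nat.cast_nonneg _)
    linarith only [h5]

theorem count_dvd_le (B A : ℤ) (d : ℕ) (hd : 0 < d)
    (hB : IsCoprime B (d : ℤ)) (t : ℤ) (n : ℕ) :
    (((Ico t (t + n)).filter (fun al : ℤ => (d : ℤ) ∣ al * B + A)).card : ℝ) ≤
      (n : ℝ) / d + 1 := by
  have h := (count_T B A d 1 hd one_pos (Nat.coprime_one_right d) (by simpa only [mul_one] using hB) t n).2
  simp only [Nat.totient_one, Nat.cast_one, mul_one] at h
  refine le_trans ?_ h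
  apply le_of_eq
  congr 2
  apply filter_congr
  intro al _
  simp only [isCoprime_one_right, and_true]

theorem sum_vonMangoldt_divisors (q : ℕ) :
    ∑ d ∈ q.divisors, (vonMangoldt d : ℝ) = Real.log q := vonMangoldt_sum

/-- If a prime power `d` divides `al * B + A` with `(A,B)=1`, then `d` is coprime to `B`. -/
theorem coprime_of_dvd_lin (B A al : ℤ) (hAB : IsCoprime B A) (d : ℕ) (hd : IsPrimePow d)
    (h : (d : ℤ) ∣ al * B + A) : IsCoprime B (d : ℤ) := by
  obtain ⟨p, k, hp, hk, rfl⟩ := (isPrimePow_nat_iff d).mp hd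
  push_cast
  apply IsCoprime.pow_right
  have hp' : Prime (p : ℤ) := Nat.prime_iff_prime_int.mp hp
  rw [isCoprime_comm]
  apply (Prime.coprime_iff_not_dvd hp').mpr
  intro hpB
  have h1 : (p : ℤ) ∣ al * B + A := by
    refine dvd_trans ?_ h
    push_cast
    exact dvd_pow_self _ hk.ne'
  have h2 : (p : ℤ) ∣ A := by
    have := dvd_sub h1 (hpB.mul_left al)
    simpa only [add_sub_cancel_left] using this
  have h3 := hAB.isUnit_of_dvd' hpB h2
  exact hp'.not_isUnit h3

/-- Number of `al` for which the gcd exceeds `B`. -/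
theorem card_gcd_gt_le (B A : ℤ) (hAB : IsCoprime B A) (q : ℕ) (hq : q ≠ 0) (t : ℤ) (n : ℕ)
    (X : ℝ) (hX : 1 < X) :
    (((Ico t (t + n)).filter
      (fun al : ℤ => X < ((Int.gcd (al * B + A) q : ℕ) : ℝ))).card : ℝ) * Real.log X ≤
      n * (∑ d ∈ q.divisors, (vonMangoldt d / d : ℝ)) + Real.log q := by
  classical
  have h1 : (((Ico t (t + n)).filter
      (fun al : ℤ => X < ((Int.gcd (al * B + A) q : ℕ) : ℝ))).card : ℝ) * Real.log X ≤
      ∑ al ∈ Ico t (t + n), Real.log ((Int.gcd (al * B + A) q : ℕ) : ℝ) := by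
    rw [← nsmul_eq_mul, ← sum_const]
    refine (sum_le_sum ?_).trans (sum_le_sum_of_subset_of_nonneg (filter_subset _ _) ?_)
    · intro al hal
      rw [mem_filter] at hal
      exact Real.log_le_log (by linarith only [hX]) hal.2.le
    · intro al _ _
      exact Real.log_natCast_nonneg _
  refine h1.trans ?_
  have h2 : ∑ al ∈ Ico t (t + n), Real.log ((Int.gcd (al * B + A) q : ℕ) : ℝ) =
      ∑ d ∈ q.divisors, (vonMangoldt d : ℝ) *
        (((Ico t (t + n)).filter (fun al : ℤ => (d : ℤ) ∣ al * B + A)).card : ℝ) := by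
    rw [sum_congr rfl (fun al _ => log_gcd_eq (al * B + A) q hq), sum_comm]
    refine sum_congr rfl fun d _ => ?_
    rw [← sum_filter, sum_const, nsmul_eq_mul, mul_comm]
  rw [h2, ← sum_vonMangoldt_divisors q, mul_sum, ← sum_add_distrib]
  refine sum_le_sum fun d hd => ?_
  have hd0 : 0 < d := Nat.pos_of_mem_divisors hd
  by_cases hpp : IsPrimePow d
  · by_cases hc : IsCoprime B (d : ℤ)
    · have h3 := count_dvd_le B A d hd0 hc t n
      have h4 := mul_le_mul_of_nonneg_left h3 (vonMangoldt_nonneg (n := d))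
      calc _ ≤ _ := h4
        _ = _ := by ring
    · have h5 : ((Ico t (t + n)).filter (fun al : ℤ => (d : ℤ) ∣ al * B + A)) = ∅ := by
        rw [filter_eq_empty_iff]
        intro al _ h
        exact hc (coprime_of_dvd_lin B A al hAB d hpp h)
      rw [h5]
      have := vonMangoldt_nonneg (n := d)
      simp only [card_empty, Nat.cast_zero, mul_zero]
      (clear * - hd0; positivity)
  · rw [vonMangoldt_apply, if_neg hpp]
    simp only [zero_mul, zero_div, mul_zero, add_zero, Std.le_refl]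

/-- The product of the primes of `(y,z]` dividing `q` but not `B`. -/
def sieveP (q B y z : ℕ) : ℕ :=
  ∏ p ∈ q.primeFactors.filter (fun p => (y < p ∧ p ≤ z) ∧ ¬ p ∣ B), p

theorem sieveP_primes {q B y z p : ℕ}
    (hp : p ∈ q.primeFactors.filter (fun p => (y < p ∧ p ≤ z) ∧ ¬ p ∣ B)) : p.Prime :=
  Nat.prime_of_mem_primeFactors (mem_filter.mp hp).1

theorem sieveP_pos (q B y z : ℕ) : 0 < sieveP q B y z :=
  prod_pos fun _ hp => (sieveP_primes hp).pos

theorem sieveP_primeFactors (q B y z : ℕ) :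
    (sieveP q B y z).primeFactors =
      q.primeFactors.filter (fun p => (y < p ∧ p ≤ z) ∧ ¬ p ∣ B) :=
  Nat.primeFactors_prod fun _ hp => sieveP_primes hp

theorem sieveP_le (q B y z : ℕ) : sieveP q B y z ≤ 4 ^ z := by
  refine le_trans ?_ (primorial_le_four_pow z)
  unfold sieveP primorial
  apply prod_le_prod_of_subset_of_one_le'
  · intro p hp
    have := sieveP_primes hp
    rw [mem_filter] at hp
    rw [mem_filter, mem_range]
    exact ⟨by omega, this⟩
  · intro p hp _
    exact (mem_filter.mp hp).2.one_lt.le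

theorem sieveP_coprime_B (q B y z : ℕ) : (sieveP q B y z).Coprime B := by
  unfold sieveP
  apply Nat.Coprime.prod_left
  intro p hp
  exact ((sieveP_primes hp).coprime_iff_not_dvd).mpr (mem_filter.mp hp).2.2

/-- the density -/
theorem sieveP_density (q B y z : ℕ) :
    ∏ p ∈ (Ico (y + 1) (z + 1)).filter Nat.Prime, (1 - 1 / (p : ℝ)) ≤
      ((sieveP q B y z).totient : ℝ) / sieveP q B y z := by
  have h1 := Nat.totient_eq_mul_prod_factors (sieveP q B y z)
  have hP : (0 : ℝ) < sieveP q B y z := by exact_mod_cast sieveP_pos q B y z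
  have h2 : ((sieveP q B y z).totient : ℝ) = sieveP q B y z *
      ∏ p ∈ (sieveP q B y z).primeFactors, (1 - (p : ℝ)⁻¹) := by
    have := congrArg (fun x : ℚ => (x : ℝ)) h1
    push_cast at this
    exact this
  rw [h2, mul_div_assoc, mul_comm, div_mul_cancel₀ _ hP.ne', sieveP_primeFactors]
  set S := q.primeFactors.filter (fun p => (y < p ∧ p ≤ z) ∧ ¬ p ∣ B) with hS
  set S' := (Ico (y + 1) (z + 1)).filter Nat.Prime with hS'
  have hsub : S ⊆ S' := by
    intro p hp
    have := sieveP_primes hp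
    rw [hS, mem_filter] at hp
    rw [hS', mem_filter, mem_Ico]
    exact ⟨⟨by omega, by omega⟩, this⟩
  have hfac : ∀ p ∈ S', (0 : ℝ) ≤ 1 - 1 / (p : ℝ) ∧ 1 - 1 / (p : ℝ) ≤ 1 := by
    intro p hp
    have h3 : (1 : ℝ) ≤ p := by exact_mod_cast (mem_filter.mp hp).2.one_lt.le
    have h4 : 1 / (p : ℝ) ≤ 1 := by
      rw [div_le_one (by linarith only [h3])]; exact h3
    have h5 : 0 ≤ 1 / (p : ℝ) := by (clear * - h3; positivity)
    constructor <;> linarith only [h4, h5]
  rw [← prod_sdiff hsub]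
  have h6 : ∏ p ∈ S' \ S, (1 - 1 / (p : ℝ)) ≤ 1 :=
    prod_le_one (fun p hp => (hfac p (mem_sdiff.mp hp).1).1)
      (fun p hp => (hfac p (mem_sdiff.mp hp).1).2)
  have h7 : 0 ≤ ∏ p ∈ S, (1 - 1 / (p : ℝ)) := prod_nonneg fun p hp => (hfac p (hsub hp)).1
  calc (∏ p ∈ S' \ S, (1 - 1 / (p : ℝ))) * ∏ p ∈ S, (1 - 1 / (p : ℝ))
      ≤ 1 * ∏ p ∈ S, (1 - 1 / (p : ℝ)) := mul_le_mul_of_nonneg_right h6 h7
    _ = ∏ p ∈ S, (1 - (p : ℝ)⁻¹) := by simp only [one_div, one_mul]

open Classical in
/-- Smooth part: sum of logs over the sifted set. -/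
theorem sum_log_smooth_le (B : ℕ) (A : ℤ) (hAB : IsCoprime (B : ℤ) A) (q : ℕ) (hq : q ≠ 0)
    (y z : ℕ) (t : ℤ) (n : ℕ) (X : ℝ) (hX : 1 < X) :
    (((Ico t (t + n)).filter (fun al : ℤ => (IsCoprime (al * B + A) (sieveP q B y z : ℤ) ∧
      ∀ p : ℕ, p.Prime → p ∣ Int.gcd (al * B + A) q → p ≤ y) ∧
      X < ((Int.gcd (al * B + A) q : ℕ) : ℝ))).card : ℝ) * Real.log X ≤
      n * (((sieveP q B y z).totient : ℝ) / sieveP q B y z) *
        (2 * ∑ p ∈ (Icc 1 y).filter Nat.Prime, Real.log p / p) +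
      (sieveP q B y z).totient * Real.log q := by
  classical
  set P := sieveP q B y z with hP
  have hPpos : 0 < P := sieveP_pos q B y z
  have hPR : (0 : ℝ) < P := by exact_mod_cast hPpos
  set T := (Ico t (t + n)).filter (fun al : ℤ => IsCoprime (al * B + A) (P : ℤ) ∧
      ∀ p : ℕ, p.Prime → p ∣ Int.gcd (al * B + A) q → p ≤ y) with hT
  have h1 : (((Ico t (t + n)).filter (fun al : ℤ => (IsCoprime (al * B + A) (P : ℤ) ∧
      ∀ p : ℕ, p.Prime → p ∣ Int.gcd (al * B + A) q → p ≤ y) ∧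
      X < ((Int.gcd (al * B + A) q : ℕ) : ℝ))).card : ℝ) * Real.log X ≤
      ∑ al ∈ T, Real.log ((Int.gcd (al * B + A) q : ℕ) : ℝ) := by
    rw [← filter_filter, ← nsmul_eq_mul, ← sum_const]
    refine (sum_le_sum ?_).trans (sum_le_sum_of_subset_of_nonneg (filter_subset _ _) ?_)
    · intro al hal
      rw [mem_filter] at hal
      exact Real.log_le_log (by linarith only [hX]) hal.2.le
    · intro al _ _
      exact Real.log_natCast_nonneg _
  refine h1.trans ?_
  set D := q.divisors.filter (fun d => IsPrimePow d ∧ d.minFac ≤ y) with hD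
  have h2 : ∀ al ∈ T, Real.log ((Int.gcd (al * B + A) q : ℕ) : ℝ) =
      ∑ d ∈ D, if (d : ℤ) ∣ al * B + A then (vonMangoldt d : ℝ) else 0 := by
    intro al hal
    rw [log_gcd_eq _ q hq, hD, sum_filter]
    refine sum_congr rfl fun d hd => ?_
    by_cases h3 : (d : ℤ) ∣ al * B + A
    · rw [if_pos h3]
      by_cases h4 : IsPrimePow d
      · have h5 : d.minFac ≤ y := by
          rw [hT, mem_filter] at hal
          apply hal.2.2 _ (Nat.minFac_prime h4.ne_one)
          refine (Nat.minFac_dvd d).trans ?_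
          have := Int.dvd_coe_gcd h3
            (by exact_mod_cast Nat.dvd_of_mem_divisors hd : (d : ℤ) ∣ (q : ℤ))
          exact_mod_cast this
        rw [if_pos ⟨h4, h5⟩]
      · rw [vonMangoldt_apply, if_neg h4]
        split_ifs <;> rfl
    · rw [if_neg h3]
      split_ifs <;> rfl
  rw [sum_congr rfl h2, sum_comm]
  have h3 : ∀ d ∈ D, ∑ al ∈ T, (if (d : ℤ) ∣ al * B + A then (vonMangoldt d : ℝ) else 0) ≤
      vonMangoldt d * (((n : ℝ) / (d * P) + 1) * P.totient) := by
    intro d hd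
    rw [hD, mem_filter] at hd
    obtain ⟨hdq, hpp, hmin⟩ := hd
    have hd0 : 0 < d := Nat.pos_of_mem_divisors hdq
    have hrhs : 0 ≤ vonMangoldt d * (((n : ℝ) / (d * P) + 1) * P.totient) := by
      have := vonMangoldt_nonneg (n := d)
      (clear * - hd0 hPpos; positivity)
    by_cases hc : IsCoprime (B : ℤ) (d : ℤ)
    · have hdP : d.Coprime P := by
        obtain ⟨r, k, hr, hk, rfl⟩ := (isPrimePow_nat_iff d).mp hpp
        apply Nat.Coprime.pow_left
        rw [hr.pow_minFac hk.ne'] at hmin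
        apply (Nat.Prime.coprime_iff_not_dvd hr).mpr
        intro hrP
        have : r ∈ P.primeFactors := Nat.mem_primeFactors.mpr ⟨hr, hrP, hPpos.ne'⟩
        rw [hP, sieveP_primeFactors, mem_filter] at this
        omega
      have hBdP : IsCoprime (B : ℤ) ((d * P : ℕ) : ℤ) := by
        push_cast
        apply IsCoprime.mul_right hc
        rw [Nat.isCoprime_iff_coprime]
        exact (sieveP_coprime_B q B y z).symm
      have h4 := (count_T B A d P hd0 hPpos hdP hBdP t n).2
      rw [← sum_filter, sum_const, nsmul_eq_mul, mul_comm]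
      apply mul_le_mul_of_nonneg_left _ vonMangoldt_nonneg
      refine le_trans ?_ h4
      have h5 : (T.filter (fun al : ℤ => (d : ℤ) ∣ al * B + A)) ⊆
          (Ico t (t + n)).filter (fun al : ℤ => (d : ℤ) ∣ al * B + A ∧
            IsCoprime (al * B + A) (P : ℤ)) := by
        intro al hal
        rw [mem_filter, hT, mem_filter] at hal
        rw [mem_filter]
        exact ⟨hal.1.1, hal.2, hal.1.2.1⟩
      exact_mod_cast card_le_card h5
    · refine le_trans (le_of_eq ?_) hrhs
      apply sum_eq_zero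
      intro al _
      rw [if_neg]
      intro h
      exact hc (coprime_of_dvd_lin B A al hAB d hpp h)
  refine (sum_le_sum h3).trans ?_
  have h4 : ∑ d ∈ D, (vonMangoldt d : ℝ) * (((n : ℝ) / (d * P) + 1) * P.totient) =
      n * ((P.totient : ℝ) / P) * ∑ d ∈ D, (vonMangoldt d / d : ℝ) +
        P.totient * ∑ d ∈ D, (vonMangoldt d : ℝ) := by
    rw [mul_sum, mul_sum, ← sum_add_distrib]
    refine sum_congr rfl fun d hd => ?_
    rw [hD, mem_filter] at hd
    have hd0 : (0 : ℝ) < d := by exact_mod_cast Nat.pos_of_mem_divisors hd.1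
    (clear * - hPpos hd0; field_simp)
  rw [h4]
  have h5 : ∑ d ∈ D, (vonMangoldt d / d : ℝ) ≤
      2 * ∑ p ∈ (Icc 1 y).filter Nat.Prime, Real.log p / p := by
    apply sum_vonMangoldt_div_le
    · intro p hp
      exact (mem_filter.mp hp).2
    · intro d hd hpp
      rw [hD, mem_filter] at hd
      rw [mem_filter, mem_Icc]
      have := Nat.minFac_prime hpp.ne_one
      exact ⟨⟨this.one_lt.le, hd.2.2⟩, this⟩
  have h6 : ∑ d ∈ D, (vonMangoldt d : ℝ) ≤ Real.log q := by
    rw [← sum_vonMangoldt_divisors q]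
    apply sum_le_sum_of_subset_of_nonneg (filter_subset _ _)
    intro d _ _
    exact vonMangoldt_nonneg
  have h7 := mul_le_mul_of_nonneg_left h5 (show 0 ≤ n * ((P.totient : ℝ) / P) by (clear * - hPpos; positivity))
  have h8 := mul_le_mul_of_nonneg_left h6 (show 0 ≤ (P.totient : ℝ) by positivity)
  linarith only [h7, h8]

/-- The number of large primes. -/
theorem card_large_primes_le (q z : ℕ) (hq : q ≠ 0) (hz : 2 ≤ z) :
    (((q.primeFactors.filter (fun p => z < p)).card : ℕ) : ℝ) * Real.log z ≤ Real.log q := by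
  have hz0 : (0 : ℝ) < z := by positivity
  rw [← nsmul_eq_mul, ← sum_const]
  have h1 : ∑ p ∈ q.primeFactors.filter (fun p => z < p), Real.log z ≤
      ∑ p ∈ q.primeFactors, Real.log p := by
    refine (sum_le_sum ?_).trans (sum_le_sum_of_subset_of_nonneg (filter_subset _ _) ?_)
    · intro p hp
      rw [mem_filter] at hp
      apply Real.log_le_log hz0
      exact_mod_cast hp.2.le
    · intro p _ _
      exact Real.log_natCast_nonneg _
  refine h1.trans ?_
  rw [← Real.log_prod (fun p hp => by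
    have := (Nat.prime_of_mem_primeFactors hp).pos
    (clear * - this; positivity))]
  apply Real.log_le_log
  · apply prod_pos
    intro p hp
    have := (Nat.prime_of_mem_primeFactors hp).pos
    positivity
  · have := Nat.le_of_dvd (Nat.pos_of_ne_zero hq) (Nat.prod_primeFactors_dvd q)
    rw [← Nat.cast_prod]
    exact_mod_cast this

open Classical in
/-- `al` for which a large prime divides the gcd. -/
theorem card_large_le (B : ℕ) (A : ℤ) (hAB : IsCoprime (B : ℤ) A) (q : ℕ) (hq : q ≠ 0)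
    (z : ℕ) (hz : 2 ≤ z) (t : ℤ) (n : ℕ) :
    (((Ico t (t + n)).filter (fun al : ℤ =>
      ∃ p : ℕ, p.Prime ∧ z < p ∧ p ∣ Int.gcd (al * B + A) q)).card : ℝ) ≤
      (Real.log q / Real.log z) * (n / z + 1) := by
  classical
  have hlz : 0 < Real.log z := Real.log_pos (by exact_mod_cast (by omega : 1 < z))
  have hz0 : (0 : ℝ) < z := by (clear * - hz; positivity)
  have h1 : ((Ico t (t + n)).filter (fun al : ℤ =>
      ∃ p : ℕ, p.Prime ∧ z < p ∧ p ∣ Int.gcd (al * B + A) q)) ⊆
      (q.primeFactors.filter (fun p => z < p)).biUnion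
        (fun p => (Ico t (t + n)).filter (fun al : ℤ => (p : ℤ) ∣ al * B + A)) := by
    intro al hal
    rw [mem_filter] at hal
    obtain ⟨hal1, p, hp, hzp, hpg⟩ := hal
    rw [mem_biUnion]
    refine ⟨p, ?_, ?_⟩
    · rw [mem_filter, Nat.mem_primeFactors]
      refine ⟨⟨hp, ?_, hq⟩, hzp⟩
      have := hpg.trans (Int.gcd_dvd_natAbs_right _ _)
      simpa only [Int.natAbs_natCast] using this
    · rw [mem_filter]
      refine ⟨hal1, ?_⟩
      have := hpg.trans (Int.gcd_dvd_natAbs_left _ _)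
      exact Int.natCast_dvd.mpr this
  have h2 : (((Ico t (t + n)).filter (fun al : ℤ =>
      ∃ p : ℕ, p.Prime ∧ z < p ∧ p ∣ Int.gcd (al * B + A) q)).card : ℝ) ≤
      ∑ p ∈ q.primeFactors.filter (fun p => z < p),
        (((Ico t (t + n)).filter (fun al : ℤ => (p : ℤ) ∣ al * B + A)).card : ℝ) := by
    have := (card_le_card h1).trans card_biUnion_le
    exact_mod_cast this
  have h3 : ∀ p ∈ q.primeFactors.filter (fun p => z < p),
      (((Ico t (t + n)).filter (fun al : ℤ => (p : ℤ) ∣ al * B + A)).card : ℝ) ≤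
        (n : ℝ) / z + 1 := by
    intro p hp
    rw [mem_filter] at hp
    have hpp := Nat.prime_of_mem_primeFactors hp.1
    by_cases hc : IsCoprime (B : ℤ) (p : ℤ)
    · refine (count_dvd_le B A p hpp.pos hc t n).trans ?_
      have : (z : ℝ) ≤ p := by exact_mod_cast hp.2.le
      (clear * - hz this; gcongr)
    · have h5 : ((Ico t (t + n)).filter (fun al : ℤ => (p : ℤ) ∣ al * B + A)) = ∅ := by
        rw [filter_eq_empty_iff]
        intro al _ h
        exact hc (coprime_of_dvd_lin B A al hAB p hpp.isPrimePow h)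
      rw [h5]
      simp only [card_empty, Nat.cast_zero]
      (clear * - hz; positivity)
  refine h2.trans ((sum_le_sum h3).trans ?_)
  rw [sum_const, nsmul_eq_mul]
  apply mul_le_mul_of_nonneg_right _ (by positivity)
  rw [le_div_iff₀ hlz]
  exact card_large_primes_le q z hq hz

open Classical in
/-- Lower bound for the number of `al` with small gcd. -/
theorem card_good_ge (B : ℕ) (A : ℤ) (hAB : IsCoprime (B : ℤ) A) (q : ℕ) (hq : q ≠ 0)
    (y z : ℕ) (hz : 2 ≤ z) (t : ℤ) (n : ℕ) (X : ℝ) (hX : 1 < X) :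
    n * (((sieveP q B y z).totient : ℝ) / sieveP q B y z) - (sieveP q B y z).totient -
      (n * (((sieveP q B y z).totient : ℝ) / sieveP q B y z) *
        (2 * ∑ p ∈ (Icc 1 y).filter Nat.Prime, Real.log p / p) +
      (sieveP q B y z).totient * Real.log q) / Real.log X -
      (Real.log q / Real.log z) * (n / z + 1) ≤
    (((Ico t (t + n)).filter
      (fun al : ℤ => ((Int.gcd (al * B + A) q : ℕ) : ℝ) ≤ X)).card : ℝ) := by
  have h1 := sum_log_smooth_le B A hAB q hq y z t n X hX
  have h2 := card_large_le B A hAB q hq z hz t n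
  have hlX : 0 < Real.log X := Real.log_pos hX
  set P := sieveP q B y z with hP
  have hPpos : 0 < P := sieveP_pos q B y z
  have hPR : (0 : ℝ) < P := by exact_mod_cast hPpos
  have h3 := (count_T B A 1 P one_pos hPpos (Nat.coprime_one_left P)
    (by rw [one_mul, Nat.isCoprime_iff_coprime]; exact (sieveP_coprime_B q B y z).symm) t n).1
  rw [← le_div_iff₀ hlX] at h1
  set S1 := (Ico t (t + n)).filter (fun al : ℤ => (IsCoprime (al * B + A) (P : ℤ) ∧
      ∀ p : ℕ, p.Prime → p ∣ Int.gcd (al * B + A) q → p ≤ y) ∧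
      X < ((Int.gcd (al * B + A) q : ℕ) : ℝ)) with hS1
  set S2 := (Ico t (t + n)).filter (fun al : ℤ =>
      ∃ p : ℕ, p.Prime ∧ z < p ∧ p ∣ Int.gcd (al * B + A) q) with hS2
  set S3 := (Ico t (t + n)).filter
      (fun al : ℤ => ((Int.gcd (al * B + A) q : ℕ) : ℝ) ≤ X) with hS3
  have h4 : ((Ico t (t + n)).filter (fun al : ℤ => ((1 : ℕ) : ℤ) ∣ al * B + A ∧
        IsCoprime (al * B + A) (P : ℤ))) ⊆ S3 ∪ (S1 ∪ S2) := by
    intro al hal
    rw [mem_filter] at hal
    obtain ⟨hJ, _, hcop⟩ := hal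
    rw [mem_union, mem_union]
    by_cases ha : ((Int.gcd (al * B + A) q : ℕ) : ℝ) ≤ X
    · left; rw [hS3, mem_filter]; exact ⟨hJ, ha⟩
    · right
      by_cases hb : ∃ p : ℕ, p.Prime ∧ z < p ∧ p ∣ Int.gcd (al * B + A) q
      · right; rw [hS2, mem_filter]; exact ⟨hJ, hb⟩
      · left; rw [hS1, mem_filter]
        refine ⟨hJ, ⟨hcop, ?_⟩, not_le.mp ha⟩
        intro p hp hpg
        by_contra hpy
        push Not at hb
        have hpz : p ≤ z := by
          by_contra hpz
          exact hb p hp (by omega) hpg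
        have hpq : p ∣ q := by
          have := hpg.trans (Int.gcd_dvd_natAbs_right _ _)
          simpa only [Int.natAbs_natCast] using this
        have hpl : (p : ℤ) ∣ al * B + A := by
          have := hpg.trans (Int.gcd_dvd_natAbs_left _ _)
          exact Int.natCast_dvd.mpr this
        have hpB : ¬ p ∣ B := by
          intro hpB
          have hc := coprime_of_dvd_lin B A al hAB p hp.isPrimePow hpl
          rw [Nat.isCoprime_iff_coprime] at hc
          exact hp.one_lt.ne' (Nat.Coprime.eq_one_of_dvd hc.symm hpB)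
        have hpP : p ∣ P := by
          have : p ∈ P.primeFactors := by
            rw [hP, sieveP_primeFactors, mem_filter, Nat.mem_primeFactors]
            exact ⟨⟨hp, hpq, hq⟩, ⟨by (clear * - hpy; omega), hpz⟩, hpB⟩
          exact Nat.dvd_of_mem_primeFactors this
        have hu := hcop.isUnit_of_dvd' hpl (by exact_mod_cast hpP)
        exact (Nat.prime_iff_prime_int.mp hp).not_isUnit hu
  have h5 := (card_le_card h4).trans ((card_union_le _ _).trans
    (Nat.add_le_add_left (card_union_le S1 S2) _))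
  have h6 : (((Ico t (t + n)).filter (fun al : ℤ => ((1 : ℕ) : ℤ) ∣ al * B + A ∧
        IsCoprime (al * B + A) (P : ℤ))).card : ℝ) ≤ S3.card + (S1.card + S2.card) := by
    exact_mod_cast h5
  have h7 : (n : ℝ) * ((P.totient : ℝ) / P) - P.totient =
      ((n : ℝ) / ((1 : ℕ) * P) - 1) * P.totient := by
    push_cast
    (clear * - hPpos; field_simp)
  have h8 := h3.trans h6
  rw [← h7] at h8
  linarith only [h1, h2, h8]

theorem sum_inv_log_gap (F : Finset ℕ) : ∀ (L : ℝ), 0 < L → (∀ b ∈ F, L ≤ Real.log b) →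
    (∀ b ∈ F, ∀ b' ∈ F, b < b' → 3 * Real.log b ≤ Real.log b') →
    ∑ b ∈ F, 1 / Real.log b ≤ 3 / (2 * L) := by
  induction F using Finset.induction_on_min with
  | empty => intro L hL _ _; simp only [one_div, sum_empty]; positivity
  | insert a s ha ih =>
    intro L hL hF hgap
    have has : a ∉ s := fun h => lt_irrefl _ (ha a h)
    rw [sum_insert has]
    have hLa : L ≤ Real.log a := hF a (mem_insert_self a s)
    have hla : 0 < Real.log a := lt_of_lt_of_le hL hLa
    have h1 := ih (3 * Real.log a) (by positivity)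
      (fun b hb => hgap a (mem_insert_self a s) b (mem_insert_of_mem hb) (ha b hb))
      (fun b hb b' hb' h => hgap b (mem_insert_of_mem hb) b' (mem_insert_of_mem hb') h)
    have h2 : 1 / Real.log a + 3 / (2 * (3 * Real.log a)) = 3 / (2 * Real.log a) := by
      field_simp
      norm_num
    have h3 : 3 / (2 * Real.log a) ≤ 3 / (2 * L) := by
      apply div_le_div_of_nonneg_left (by norm_num) (by positivity)
      linarith only [hLa]
    linarith only [h1, h2, h3]

theorem sum_vonMangoldt_divisors_le : ∃ C ≥ 0, ∀ q : ℕ, 3 ≤ q →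
    ∑ d ∈ q.divisors, (vonMangoldt d / d : ℝ) ≤ 2 * (Real.log (Real.log q) + C) := by
  obtain ⟨C, hC0, hC⟩ := sum_log_div_prime_le
  refine ⟨C + 1, by linarith only [hC0], ?_⟩
  intro q hq
  have hq3 : (3 : ℝ) ≤ q := by exact_mod_cast hq
  have hlq : 1 < Real.log q := by
    rw [Real.lt_log_iff_exp_lt (by linarith only [hq3])]
    exact lt_of_lt_of_le (by linarith only [Real.exp_one_lt_d9]) hq3
  have h1 := sum_vonMangoldt_div_le q.divisors q.primeFactors
    (fun p hp => Nat.prime_of_mem_primeFactors hp) (by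
      intro d hd hpp
      rw [Nat.mem_primeFactors]
      exact ⟨Nat.minFac_prime hpp.ne_one, (Nat.minFac_dvd d).trans (Nat.dvd_of_mem_divisors hd),
        by omega⟩)
  refine h1.trans ?_
  apply mul_le_mul_of_nonneg_left _ (by norm_num)
  set w := ⌊Real.log q⌋₊ with hw
  have hw1 : 1 ≤ w := Nat.le_floor (by exact_mod_cast hlq.le)
  have hw0 : (0 : ℝ) < w := by exact_mod_cast hw1
  have hwle : (w : ℝ) ≤ Real.log q := Nat.floor_le (by linarith only [hlq])
  rw [← sum_filter_add_sum_filter_not q.primeFactors (fun p => p ≤ w)]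
  have h2 : ∑ p ∈ q.primeFactors.filter (fun p => p ≤ w), Real.log p / p ≤
      Real.log (Real.log q) + C := by
    refine le_trans (sum_le_sum_of_subset_of_nonneg ?_ ?_) ((hC w hw1).trans ?_)
    · intro p hp
      rw [mem_filter] at hp
      have := Nat.prime_of_mem_primeFactors hp.1
      rw [mem_filter, mem_Icc]
      exact ⟨⟨this.one_lt.le, hp.2⟩, this⟩
    · intro p _ _
      exact div_nonneg (Real.log_natCast_nonneg _) (Nat.cast_nonneg _)
    · have := Real.log_le_log hw0 hwle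
      linarith only [this]
  have h3 : ∑ p ∈ q.primeFactors.filter (fun p => ¬ p ≤ w), Real.log p / p ≤ 1 := by
    have h4 : ∑ p ∈ q.primeFactors.filter (fun p => ¬ p ≤ w), Real.log p / p ≤
        ∑ p ∈ q.primeFactors, Real.log p / Real.log q := by
      refine (sum_le_sum ?_).trans (sum_le_sum_of_subset_of_nonneg (filter_subset _ _) ?_)
      · intro p hp
        rw [mem_filter] at hp
        apply div_le_div_of_nonneg_left (Real.log_natCast_nonneg _) (by linarith only [hlq])
        have h5 : Real.log q < w + 1 := Nat.lt_floor_add_one _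
        have h6 : ((w + 1 : ℕ) : ℝ) ≤ p := by
          have : w + 1 ≤ p := by omega
          exact_mod_cast this
        push_cast at h6
        linarith only [h5, h6]
      · intro p _ _
        exact div_nonneg (Real.log_natCast_nonneg _) (by linarith only [hlq])
    refine h4.trans ?_
    rw [← sum_div, div_le_one (by linarith only [hlq])]
    rw [← Real.log_prod (fun p hp => by
      have := (Nat.prime_of_mem_primeFactors hp).pos
      (clear * - this; positivity))]
    apply Real.log_le_log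
    · apply prod_pos
      intro p hp
      have := (Nat.prime_of_mem_primeFactors hp).pos
      positivity
    · have := Nat.le_of_dvd (by omega) (Nat.prod_primeFactors_dvd q)
      rw [← Nat.cast_prod]
      exact_mod_cast this
  linarith only [h2, h3]

/-- `al` is allowed for `q`: for every bad pair `(B,A)` the gcd of `al * B + A` and `q` is at
most `max B R`. -/
def AllowedBy (𝓑 : Set (ℕ × ℤ)) (R : ℝ) (q : ℕ) (al : ℤ) : Prop :=
  ∀ x ∈ 𝓑, ((Int.gcd (al * x.1 + x.2) q : ℕ) : ℝ) ≤ max (x.1 : ℝ) R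

theorem sieve_final (ε C5 C3 ℓ lq lz n ρ φ S T z : ℝ) (hε : 0 < ε) (hε1 : ε ≤ 1)
    (hC5 : 400 / ε ≤ C5) (hℓ1 : 100000 ≤ ℓ) (hεℓ1 : 100000 ≤ ε * ℓ)
    (hlqbig : 100000 ≤ lq) (hlogz : ℓ / 2 ≤ lz) (hz3 : lq / 3 ≤ z) (hρ40 : ε / 40 ≤ ρ)
    (hφ0 : 0 ≤ φ) (hn0 : 0 < n) (hA : φ * (1 + lq) ≤ n * (110 / ℓ)) (hB : lq ≤ n * (100 / ℓ))
    (hS2 : 2 * S ≤ ε * ℓ / 8) (hT2 : T ≤ 2 * (ℓ + 1 + C3)) (hC3' : C3 ≤ ℓ / 100000) :
    ε / 200 * n ≤ n * ρ - φ - (n * ρ * (2 * S) + φ * lq) / (ε * ℓ) -
        (lq / lz) * (n / z + 1) - (n * T + lq) * (3 / (2 * (C5 * ℓ - 2))) := by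
  have hℓ0 : 0 < ℓ := by linarith only [hℓ1]
  have hεℓ0 : 0 < ε * ℓ := by positivity
  have hρ0 : 0 ≤ ρ := by linarith only [hε, hρ40]
  have hz0 : 0 < z := by linarith only [hlqbig, hz3]
  have hnρ : 0 ≤ n * ρ := by (clear * - hn0 hρ0; positivity)
  have hφlq : 0 ≤ φ * lq := mul_nonneg hφ0 (by linarith only [hlqbig])
  have t1 : (n * ρ * (2 * S) + φ * lq) / (ε * ℓ) ≤ n * ρ / 8 + φ * lq := by
    have h1 : (n * ρ * (2 * S)) / (ε * ℓ) ≤ n * ρ / 8 := by
      rw [div_le_iff₀ hεℓ0]
      have h3 := mul_le_mul_of_nonneg_left hS2 hnρ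
      calc n * ρ * (2 * S) ≤ n * ρ * (ε * ℓ / 8) := h3
        _ = n * ρ / 8 * (ε * ℓ) := by ring
    have h2 : (φ * lq) / (ε * ℓ) ≤ φ * lq := by
      apply div_le_self hφlq
      linarith only [hεℓ1]
    rw [add_div]
    linarith only [h1, h2]
  have t2 : (lq / lz) * (n / z + 1) ≤ n * (6 / ℓ) + n * (100 / ℓ) := by
    have hlz : 0 < lz := by linarith only [hℓ1, hlogz]
    have h1 : lq / lz * (n / z) ≤ n * (6 / ℓ) := by
      have h2 : lq / z ≤ 3 := by
        rw [div_le_iff₀ hz0]; linarith only [hz3]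
      have h3 : 1 / lz ≤ 2 / ℓ := by
        rw [div_le_div_iff₀ hlz hℓ0]; linarith only [hlogz]
      calc lq / lz * (n / z) = n * ((lq / z) * (1 / lz)) := by
            (clear * - hz0 hn0 hlz hlqbig; field_simp)
        _ ≤ n * (3 * (2 / ℓ)) := by
            apply mul_le_mul_of_nonneg_left _ hn0.le
            apply mul_le_mul h2 h3 (by (clear * - hlz; positivity)) (by norm_num)
        _ = n * (6 / ℓ) := by ring
    have h4 : lq / lz ≤ n * (100 / ℓ) := by
      refine le_trans (div_le_self (by linarith only [hlqbig]) ?_) hB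
      linarith only [hℓ1, hlogz]
    rw [mul_add, mul_one]
    linarith only [h1, h4]
  have hC5' : 400 ≤ C5 * ε := by
    rw [div_le_iff₀ hε] at hC5; exact hC5
  have hC5pos : 400 ≤ C5 := by
    have : 400 ≤ 400 / ε := by
      rw [le_div_iff₀ hε]; linarith only [hε1]
    linarith only [hC5, this]
  have h400 : 400 * ℓ ≤ C5 * ℓ := mul_le_mul_of_nonneg_right hC5pos hℓ0.le
  have hX : 0 < C5 * ℓ - 2 := by linarith only [hℓ1, h400]
  have t3 : (n * T + lq) * (3 / (2 * (C5 * ℓ - 2))) ≤
      n * (ε / 100) + n * (100 / ℓ) := by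
    have h1 : n * T * (3 / (2 * (C5 * ℓ - 2))) ≤ n * (ε / 100) := by
      rw [mul_assoc]
      apply mul_le_mul_of_nonneg_left _ hn0.le
      rw [mul_div_assoc', div_le_iff₀ (by (clear * - hX; positivity))]
      have h5 : ε / 100 * (2 * (C5 * ℓ - 2)) = (C5 * ε) * ℓ / 50 - ε / 25 := by ring
      rw [h5]
      have h6 : 400 * ℓ ≤ (C5 * ε) * ℓ := mul_le_mul_of_nonneg_right hC5' hℓ0.le
      linarith only [hε1, hℓ1, hT2, hC3', h6]
    have h7 : lq * (3 / (2 * (C5 * ℓ - 2))) ≤ n * (100 / ℓ) := by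
      refine le_trans ?_ hB
      apply mul_le_of_le_one_right (by linarith only [hlqbig])
      rw [div_le_one (by (clear * - hX; positivity))]
      linarith only [hℓ1, h400]
    rw [add_mul]
    linarith only [h1, h7]
  have h8 : φ + φ * lq ≤ n * (110 / ℓ) := by linarith only [hA]
  have h9 : n * (ρ * 7 / 8) - n * (ε / 100) - n * (416 / ℓ) ≤
      n * ρ - φ - (n * ρ * (2 * S) + φ * lq) / (ε * ℓ) -
        (lq / lz) * (n / z + 1) - (n * T + lq) * (3 / (2 * (C5 * ℓ - 2))) := by
    have h10 : n * (416 / ℓ) = n * (110 / ℓ) + n * (6 / ℓ) + n * (100 / ℓ) +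
      n * (100 / ℓ) + n * (100 / ℓ) := by ring
    rw [h10]
    linarith only [hlqbig, hA, hB, t1, t2, t3]
  refine le_trans ?_ h9
  have h11 : 416 / ℓ ≤ ε / 200 := by
    rw [div_le_iff₀ hℓ0]
    linarith only [hεℓ1]
  have h12 : ε / 200 ≤ ρ * 7 / 8 - ε / 100 - 416 / ℓ := by linarith only [hε, hρ40, h11]
  calc ε / 200 * n = n * (ε / 200) := by ring
    _ ≤ n * (ρ * 7 / 8 - ε / 100 - 416 / ℓ) := mul_le_mul_of_nonneg_left h12 hn0.le
    _ = _ := by ring

/-- All numerical estimates for one `q`. -/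
theorem sieve_numeric (ε C5 C1 C2 C3 : ℝ) (hε : 0 < ε) (hε1 : ε ≤ 1) (hC5 : 400 / ε ≤ C5)
    (hC1 : 0 ≤ C1) (hC2 : 0 ≤ C2) (hC3 : 0 ≤ C3) :
    ∃ L0 : ℝ, 10 ≤ L0 ∧ ∀ (Q q n P φ y z : ℕ) (S ρ T : ℝ), L0 ≤ Real.log (Real.log Q) →
      Q ≤ q → q ≤ Q ^ 2 → (q : ℝ) ^ (9 / 10 : ℝ) ≤ n → P ≤ 4 ^ z → φ ≤ P →
      y = ⌊Real.log Q ^ (ε / 32)⌋₊ → z = ⌊Real.log q / 2⌋₊ →
      S ≤ Real.log y + C1 → 0 ≤ S →
      Real.log (y + 1) - C2 ≤ Real.log (z + 1) * ρ → 0 ≤ ρ → ρ ≤ 1 →
      T ≤ 2 * (Real.log (Real.log q) + C3) → 0 ≤ T →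
      ε / 200 * n ≤ n * ρ - φ - (n * ρ * (2 * S) + φ * Real.log q) / Real.log (Real.log Q ^ ε) -
        (Real.log q / Real.log z) * (n / z + 1) -
        (n * T + Real.log q) * (3 / (2 * (C5 * Real.log (Real.log Q) - 2))) := by
  set L0 : ℝ := 100000 * (1 + C1 + C2 + C3) / ε with hL0
  have hL0big : 100000 ≤ L0 := by
    rw [hL0, le_div_iff₀ hε]
    linarith
  refine ⟨L0, by linarith only [hL0big], ?_⟩
  intro Q q n P φ y z S ρ T hℓ hQq hqQ hn hP hφ hy hz hS hS0 hρ hρ0 hρ1 hT hT0
  set ℓ := Real.log (Real.log Q) with hℓdef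
  have hℓ1 : 100000 ≤ ℓ := hL0big.trans hℓ
  have hεℓ : 100000 * (1 + C1 + C2 + C3) ≤ ε * ℓ := by
    have := mul_le_mul_of_nonneg_left hℓ hε.le
    rw [hL0, mul_div_cancel₀ _ hε.ne'] at this
    exact this
  have hεℓ1 : 100000 ≤ ε * ℓ := by nlinarith only [hC1, hC2, hC3, hεℓ]
  -- log Q
  have hlQ : 1 < Real.log Q := by
    by_contra h
    push Not at h
    have h0 : 0 ≤ Real.log Q := Real.log_natCast_nonneg _
    have : ℓ ≤ 0 := Real.log_nonpos h0 h
    linarith only [hL0big, hℓ, this]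
  have hlQ0 : 0 < Real.log Q := by linarith only [hlQ]
  have hQ1 : (1 : ℝ) < Q := by
    by_contra h
    push Not at h
    have : Real.log Q ≤ 0 := Real.log_nonpos (Nat.cast_nonneg _) h
    linarith only [hlQ, this]
  have hqR : (Q : ℝ) ≤ q := by exact_mod_cast hQq
  have hq1 : (1 : ℝ) < q := by linarith only [hQ1, hqR]
  have hq0 : (0 : ℝ) < q := by linarith only [hQ1, hqR]
  have hlq : Real.log Q ≤ Real.log q := Real.log_le_log (by linarith only [hQ1]) hqR
  have hlq2 : Real.log q ≤ 2 * Real.log Q := by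
    have h1 : (q : ℝ) ≤ (Q : ℝ) ^ 2 := by exact_mod_cast hqQ
    have h2 := Real.log_le_log hq0 h1
    rw [Real.log_pow] at h2
    push_cast at h2
    exact h2
  have hlogQbig : ℓ ≤ Real.log Q := by
    have := Real.log_le_sub_one_of_pos hlQ0
    linarith only [this]
  have hlqbig : 100000 ≤ Real.log q := by linarith only [hL0big, hℓ, hlq, hlogQbig]
  -- loglog q
  have hlam1 : Real.log (Real.log q) ≤ ℓ + 1 := by
    have h1 := Real.log_le_log (by linarith only [hL0big, hℓ, hlq, hlogQbig] : 0 < Real.log q) hlq2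
    rw [Real.log_mul (by norm_num) hlQ0.ne'] at h1
    have h2 : Real.log 2 < 1 := by linarith only [Real.log_two_lt_d9]
    linarith only [h1, h2]
  have hlam0 : ℓ ≤ Real.log (Real.log q) := Real.log_le_log hlQ0 hlq
  -- y
  have hRpos : 0 < Real.log Q ^ (ε / 32) := Real.rpow_pos_of_pos hlQ0 _
  have hlogR : Real.log (Real.log Q ^ ε) = ε * ℓ := Real.log_rpow hlQ0 _
  have hlogR32 : Real.log (Real.log Q ^ (ε / 32)) = ε / 32 * ℓ := Real.log_rpow hlQ0 _
  have hy1 : 1 ≤ y := by
    rw [hy]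
    apply Nat.le_floor
    push_cast
    apply Real.one_le_rpow hlQ.le (by positivity)
  have hyle : (y : ℝ) ≤ Real.log Q ^ (ε / 32) := by
    rw [hy]; exact Nat.floor_le hRpos.le
  have hylt : Real.log Q ^ (ε / 32) < y + 1 := by
    rw [hy]; exact Nat.lt_floor_add_one _
  have hlogy : Real.log y ≤ ε / 32 * ℓ := by
    rw [← hlogR32]
    exact Real.log_le_log (by exact_mod_cast hy1) hyle
  have hlogy1 : ε / 32 * ℓ ≤ Real.log (y + 1) := by
    rw [← hlogR32]
    exact Real.log_le_log hRpos hylt.le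
  -- z
  have hzle : (z : ℝ) ≤ Real.log q / 2 := by
    rw [hz]; exact Nat.floor_le (by linarith only [hL0big, hℓ, hlq, hlogQbig])
  have hzlt : Real.log q / 2 < z + 1 := by
    rw [hz]; exact Nat.lt_floor_add_one _
  have hz3 : Real.log q / 3 ≤ z := by linarith only [hL0big, hℓ, hlq, hlogQbig, hzlt]
  have hz0 : (0 : ℝ) < z := by linarith only [hL0big, hℓ, hlq, hlogQbig, hzlt]
  have hlogz1 : Real.log (z + 1) ≤ ℓ + 1 := by
    refine (Real.log_le_log (by linarith only []) (show (z : ℝ) + 1 ≤ Real.log q by linarith only [hL0big, hℓ, hlq, hlogQbig, hzle])).trans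
      hlam1
  have hlogz1pos : 0 < Real.log (z + 1) := Real.log_pos (by linarith only [hL0big, hℓ, hlq, hlogQbig, hzlt])
  have hlogz : ℓ / 2 ≤ Real.log z := by
    have h1 := Real.log_le_log (by (clear * - hlqbig; positivity)) hz3
    rw [Real.log_div (by linarith only [hL0big, hℓ, hlq, hlogQbig]) (by norm_num)] at h1
    have h2 : Real.log 3 ≤ 2 := by
      have := Real.log_le_sub_one_of_pos (show (0 : ℝ) < 3 by norm_num)
      linarith only [this]
    linarith only [hL0big, hℓ, hlam0, h1, h2]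
  -- rho
  have hρ40 : ε / 40 ≤ ρ := by
    have h1 : ε / 32 * ℓ - C2 ≤ (ℓ + 1) * ρ := by
      have := mul_le_mul_of_nonneg_right hlogz1 hρ0
      linarith only [hρ, hlogy1, this]
    by_contra h
    push Not at h
    have h2 : (ℓ + 1) * ρ ≤ (ℓ + 1) * (ε / 40) :=
      mul_le_mul_of_nonneg_left h.le (by linarith only [hL0big, hℓ])
    nlinarith only [hε1, hC1, hC2, hC3, hεℓ, h1, h2]
  -- powers of q
  have hP7 : (P : ℝ) ≤ (q : ℝ) ^ (7 / 10 : ℝ) := by
    have h1 : (P : ℝ) ≤ (4 : ℝ) ^ (z : ℝ) := by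
      rw [Real.rpow_natCast]
      exact_mod_cast hP
    refine h1.trans ?_
    rw [Real.rpow_def_of_pos (by norm_num), Real.rpow_def_of_pos hq0]
    apply Real.exp_le_exp.mpr
    have h2 : Real.log 4 ≤ 1.4 := by
      have : (4 : ℝ) = 2 ^ 2 := by norm_num
      rw [this, Real.log_pow]
      push_cast
      linarith only [Real.log_two_lt_d9]
    have h3 : 0 ≤ Real.log 4 := Real.log_nonneg (by norm_num)
    calc Real.log 4 * z ≤ 1.4 * (Real.log q / 2) := by
          apply mul_le_mul h2 hzle hz0.le (by norm_num)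
      _ = Real.log q * (7 / 10) := by ring
  have hφ7 : (φ : ℝ) ≤ (q : ℝ) ^ (7 / 10 : ℝ) := by
    have : (φ : ℝ) ≤ P := by exact_mod_cast hφ
    linarith only [hP7, this]
  have hlq10 : Real.log q ≤ 10 * (q : ℝ) ^ (1 / 10 : ℝ) := by
    have := Real.log_le_rpow_div hq0.le (show (0 : ℝ) < 1 / 10 by norm_num)
    linarith only [this]
  have hqinv : (q : ℝ) ^ (-(1 / 10) : ℝ) ≤ 10 / ℓ := by
    rw [Real.rpow_neg hq0.le, inv_le_comm₀ (by (clear * - hq1; positivity)) (by positivity), inv_div]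
    have h1 : (q : ℝ) ^ (1 / 10 : ℝ) = Real.exp (Real.log q * (1 / 10)) :=
      Real.rpow_def_of_pos hq0 _
    rw [h1]
    have := Real.add_one_le_exp (Real.log q * (1 / 10))
    linarith only [hlq, hlogQbig, this]
  have hq10 : 1 ≤ (q : ℝ) ^ (1 / 10 : ℝ) := Real.one_le_rpow hq1.le (by norm_num)
  have hn0 : (0 : ℝ) < n := lt_of_lt_of_le (Real.rpow_pos_of_pos hq0 _) hn
  have hA : (φ : ℝ) * (1 + Real.log q) ≤ n * (110 / ℓ) := by
    calc (φ : ℝ) * (1 + Real.log q) ≤ (q : ℝ) ^ (7 / 10 : ℝ) * (11 * (q : ℝ) ^ (1 / 10 : ℝ)) := by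
          apply mul_le_mul hφ7 (by linarith only [hL0big, hℓ, hlq, hlogQbig, hlq10]) (by linarith only [hL0big, hℓ, hlq, hlogQbig]) (by (clear * - hq1; positivity))
      _ = 11 * ((q : ℝ) ^ (9 / 10 : ℝ) * (q : ℝ) ^ (-(1 / 10) : ℝ)) := by
          rw [← Real.rpow_add hq0]
          have : (q : ℝ) ^ (7 / 10 : ℝ) * (11 * (q : ℝ) ^ (1 / 10 : ℝ)) =
            11 * ((q : ℝ) ^ (7 / 10 : ℝ) * (q : ℝ) ^ (1 / 10 : ℝ)) := by ring
          rw [this, ← Real.rpow_add hq0]
          norm_num
      _ ≤ 11 * (n * (10 / ℓ)) := by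
          apply mul_le_mul_of_nonneg_left _ (by norm_num)
          apply mul_le_mul hn hqinv (by (clear * - hq1; positivity)) hn0.le
      _ = n * (110 / ℓ) := by ring
  have hB : Real.log q ≤ n * (100 / ℓ) := by
    calc Real.log q ≤ 10 * (q : ℝ) ^ (1 / 10 : ℝ) := hlq10
      _ ≤ 10 * ((q : ℝ) ^ (9 / 10 : ℝ) * (q : ℝ) ^ (-(1 / 10) : ℝ)) := by
          rw [← Real.rpow_add hq0]
          apply mul_le_mul_of_nonneg_left _ (by norm_num)
          apply Real.rpow_le_rpow_of_exponent_le hq1.le (by norm_num)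
      _ ≤ 10 * (n * (10 / ℓ)) := by
          apply mul_le_mul_of_nonneg_left _ (by norm_num)
          apply mul_le_mul hn hqinv (by (clear * - hq1; positivity)) hn0.le
      _ = n * (100 / ℓ) := by ring
  -- the terms
  rw [hlogR]
  have hS2 : 2 * S ≤ ε * ℓ / 8 := by linarith only [hC1, hC2, hC3, hS, hεℓ, hlogy]
  have hT2 : T ≤ 2 * (ℓ + 1 + C3) := by linarith only [hT, hlam1]
  have hC3' : C3 ≤ ℓ / 100000 := by
    have h1 : ε * ℓ ≤ ℓ := mul_le_of_le_one_left (by linarith only [hL0big, hℓ]) hε1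
    linarith only [hC1, hC2, hεℓ, h1]
  exact sieve_final ε C5 C3 ℓ (Real.log q) (Real.log z) n ρ φ S T z hε hε1 hC5 hℓ1 hεℓ1
    (by linarith only [hL0big, hℓ, hlq, hlogQbig]) hlogz hz3 hρ40 (Nat.cast_nonneg _) hn0 hA hB hS2 hT2 hC3'

open Classical in
/-- The combinatorial part of the sift. -/
theorem sieve_comb (𝓑 : Set (ℕ × ℤ)) (h𝓑 : ∀ x ∈ 𝓑, 0 < x.1 ∧ IsCoprime (x.1 : ℤ) x.2)
    (huniq : ∀ x ∈ 𝓑, ∀ y ∈ 𝓑, x.1 = y.1 → x = y) (X R L : ℝ) (hX : 16 / 3 ≤ X) (hR : 1 < R)
    (hL : 0 < L) (hLX : L ≤ Real.log X)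
    (hgap : ∀ x ∈ 𝓑, ∀ y ∈ 𝓑, x.1 < y.1 → 3 / 16 * (x.1 : ℝ) ^ 4 ≤ y.1 ∧ X ≤ y.1)
    (q : ℕ) (hq : q ≠ 0) (y z : ℕ) (hz : 2 ≤ z) (t : ℤ) (n : ℕ) :
    ∃ B : ℕ, n * (((sieveP q B y z).totient : ℝ) / sieveP q B y z) - (sieveP q B y z).totient -
      (n * (((sieveP q B y z).totient : ℝ) / sieveP q B y z) *
        (2 * ∑ p ∈ (Icc 1 y).filter Nat.Prime, Real.log p / p) +
      (sieveP q B y z).totient * Real.log q) / Real.log R -
      (Real.log q / Real.log z) * (n / z + 1) -
      (n * (∑ d ∈ q.divisors, (vonMangoldt d / d : ℝ)) + Real.log q) * (3 / (2 * L)) ≤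
      (((Ico t (t + n)).filter (fun al => AllowedBy 𝓑 R q al)).card : ℝ) := by
  have hB0 : ∃ B0 : ℕ × ℤ, IsCoprime (B0.1 : ℤ) B0.2 ∧
      ∀ x ∈ 𝓑, (x.1 : ℝ) < X → x = B0 := by
    by_cases h : ∃ x ∈ 𝓑, (x.1 : ℝ) < X
    · obtain ⟨x0, hx0, hx0X⟩ := h
      refine ⟨x0, (h𝓑 x0 hx0).2, ?_⟩
      intro x hx hxX
      apply huniq x hx x0 hx0
      rcases lt_trichotomy x.1 x0.1 with h1 | h1 | h1
      · have := (hgap x hx x0 hx0 h1).2
        linarith only [hx0X, this]
      · exact h1
      · have := (hgap x0 hx0 x hx h1).2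
        linarith only [hxX, this]
    · push Not at h
      refine ⟨(1, 0), by simpa only [Nat.cast_one] using (isCoprime_one_left (x := (0 : ℤ))), ?_⟩
      intro x hx hxX
      have := h x hx
      linarith only [hxX, this]
  obtain ⟨⟨B, A⟩, hAB, hB0⟩ := hB0
  refine ⟨B, ?_⟩
  have h1 := card_good_ge B A hAB q hq y z hz t n R hR
  set F := (range q).filter (fun b : ℕ => X ≤ (b : ℝ) ∧ ∃ a : ℤ, (b, a) ∈ 𝓑) with hF
  have hFa : ∀ b : ℕ, ∃ a : ℤ, b ∈ F → (b, a) ∈ 𝓑 := by
    intro b
    by_cases hb : b ∈ F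
    · rw [hF, mem_filter] at hb
      obtain ⟨a, ha⟩ := hb.2.2
      exact ⟨a, fun _ => ha⟩
    · exact ⟨0, fun h => absurd h hb⟩
  choose a ha using hFa
  have hFX : ∀ b ∈ F, X ≤ (b : ℝ) := by
    intro b hb
    rw [hF, mem_filter] at hb
    exact hb.2.1
  set E : ℕ → Finset ℤ := fun b => (Ico t (t + n)).filter
    (fun al : ℤ => (b : ℝ) < ((Int.gcd (al * b + a b) q : ℕ) : ℝ)) with hE
  have hsub : (Ico t (t + n)).filter (fun al : ℤ => ((Int.gcd (al * B + A) q : ℕ) : ℝ) ≤ R) ⊆
      (Ico t (t + n)).filter (fun al => AllowedBy 𝓑 R q al) ∪ F.biUnion E := by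
    intro al hal
    rw [mem_filter] at hal
    rw [mem_union, mem_filter, mem_biUnion]
    by_cases hex : ∃ b ∈ F, al ∈ E b
    · right; exact hex
    · left
      refine ⟨hal.1, ?_⟩
      push Not at hex
      intro x hx
      by_cases hxX : (x.1 : ℝ) < X
      · have := hB0 x hx hxX
        rw [this]
        exact le_max_of_le_right hal.2
      · push Not at hxX
        apply le_max_of_le_left
        by_cases hxq : x.1 < q
        · have hxF : x.1 ∈ F := by
            rw [hF, mem_filter, mem_range]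
            exact ⟨hxq, hxX, x.2, hx⟩
          have hax : (x.1, a x.1) = x := huniq _ (ha x.1 hxF) x hx rfl
          have h2 := hex x.1 hxF
          rw [hE] at h2
          simp only [mem_filter, not_and, not_lt] at h2
          have h3 := h2 hal.1
          have h4 : a x.1 = x.2 := congrArg Prod.snd hax
          rw [h4] at h3
          exact h3
        · push Not at hxq
          have h2 : Int.gcd (al * x.1 + x.2) q ≤ q := by
            have h3 := Int.gcd_dvd_natAbs_right (al * x.1 + x.2) (q : ℤ)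
            exact Nat.le_of_dvd (Nat.pos_of_ne_zero hq) (by simpa only [Int.natAbs_natCast] using h3)
          exact_mod_cast h2.trans hxq
  have h2 := (card_le_card hsub).trans ((card_union_le _ _).trans
    (Nat.add_le_add_left card_biUnion_le _))
  have h3 : (((Ico t (t + n)).filter
      (fun al : ℤ => ((Int.gcd (al * B + A) q : ℕ) : ℝ) ≤ R)).card : ℝ) ≤
      (((Ico t (t + n)).filter (fun al => AllowedBy 𝓑 R q al)).card : ℝ) +
        ∑ b ∈ F, ((E b).card : ℝ) := by
    exact_mod_cast h2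
  have h4 : ∀ b ∈ F, ((E b).card : ℝ) ≤
      (n * (∑ d ∈ q.divisors, (vonMangoldt d / d : ℝ)) + Real.log q) * (1 / Real.log b) := by
    intro b hb
    have hb1 : (1 : ℝ) < b := by linarith only [hX, hFX b hb]
    have h5 := card_gcd_gt_le b (a b) (h𝓑 _ (ha b hb)).2 q hq t n b hb1
    have h6 : 0 < Real.log b := Real.log_pos hb1
    rw [mul_one_div, le_div_iff₀ h6]
    refine le_trans (le_of_eq ?_) h5
    rfl
  have h5 : ∑ b ∈ F, ((E b).card : ℝ) ≤
      (n * (∑ d ∈ q.divisors, (vonMangoldt d / d : ℝ)) + Real.log q) * (3 / (2 * L)) := by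
    refine (sum_le_sum h4).trans ?_
    rw [← mul_sum]
    apply mul_le_mul_of_nonneg_left
    · apply sum_inv_log_gap F L hL
      · intro b hb
        exact hLX.trans (Real.log_le_log (by linarith only [hX]) (hFX b hb))
      · intro b hb b' hb' hbb
        have h6 := (hgap _ (ha b hb) _ (ha b' hb') hbb).1
        have h7 := hFX b hb
        simp only at h6
        have hb0 : (0 : ℝ) < b := by linarith only [hX, h7]
        have h8 : (b : ℝ) ^ 3 ≤ b' := by
          refine le_trans ?_ h6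
          have : (3 : ℝ) / 16 * (b : ℝ) ^ 4 = (3 / 16 * b) * (b : ℝ) ^ 3 := by ring
          rw [this]
          have h9 : (1 : ℝ) ≤ 3 / 16 * b := by linarith only [hX, h7]
          have h10 : (0 : ℝ) < (b : ℝ) ^ 3 := by (clear * - hb0; positivity)
          nlinarith only [hX, h10, h7]
        have h9 := Real.log_le_log (by (clear * - hb0; positivity)) h8
        rw [Real.log_pow] at h9
        push_cast at h9
        exact h9
    · have : 0 ≤ ∑ d ∈ q.divisors, (vonMangoldt d / d : ℝ) :=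
        sum_nonneg fun d _ => div_nonneg vonMangoldt_nonneg (Nat.cast_nonneg d)
      have h6 : 0 ≤ Real.log q := Real.log_natCast_nonneg _
      (clear * -; positivity)
  linarith only [h1, h3, h5]

open Classical in
/-- **The sift of the centres (A2).** -/
theorem sieve (ε : ℝ) (hε : 0 < ε) (hε1 : ε ≤ 1) (C5 : ℝ) (hC5 : 400 / ε ≤ C5) :
    ∃ Q0 : ℕ, ∀ Q : ℕ, Q0 ≤ Q → ∀ 𝓑 : Set (ℕ × ℤ),
      (∀ x ∈ 𝓑, 0 < x.1 ∧ IsCoprime (x.1 : ℤ) x.2) →
      (∀ x ∈ 𝓑, ∀ y ∈ 𝓑, x.1 = y.1 → x = y) →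
      (∀ x ∈ 𝓑, ∀ y ∈ 𝓑, x.1 < y.1 →
        3 / 16 * (x.1 : ℝ) ^ 4 ≤ y.1 ∧ 3 / 16 * (Real.log Q) ^ C5 ≤ y.1) →
      ∀ q : ℕ, Q ≤ q → q ≤ Q ^ 2 → ∀ (t : ℤ) (n : ℕ), (q : ℝ) ^ (9 / 10 : ℝ) ≤ n →
      ε / 200 * n ≤
        (((Ico t (t + n)).filter (fun al => AllowedBy 𝓑 (Real.log Q ^ ε) q al)).card : ℝ) := by
  obtain ⟨C1, hC10, hC1⟩ := sum_log_div_prime_le
  obtain ⟨C2, hC20, hC2⟩ := Vale.Agent.P013.mertens_prod
  obtain ⟨C3, hC30, hC3⟩ := sum_vonMangoldt_divisors_le
  obtain ⟨L0, hL0, hnum⟩ := sieve_numeric ε C5 C1 C2 C3 hε hε1 hC5 hC10 hC20.le hC30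
  refine ⟨⌈Real.exp (Real.exp L0)⌉₊, ?_⟩
  intro Q hQ 𝓑 h𝓑 huniq hgap q hQq hqQ t n hn
  have hQR : Real.exp (Real.exp L0) ≤ Q := (Nat.le_ceil _).trans (by exact_mod_cast hQ)
  have hQ0 : (0 : ℝ) < Q := (Real.exp_pos _).trans_le hQR
  have hlQ : Real.exp L0 ≤ Real.log Q := by
    rw [Real.le_log_iff_exp_le hQ0]; exact hQR
  have hlQ0 : 0 < Real.log Q := (Real.exp_pos _).trans_le hlQ
  have hℓ : L0 ≤ Real.log (Real.log Q) := by
    rw [Real.le_log_iff_exp_le hlQ0]; exact hlQ
  have he : L0 ^ 2 / 2 ≤ Real.exp L0 := by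
    have := Real.quadratic_le_exp_of_nonneg (show 0 ≤ L0 by linarith only [hL0])
    linarith only [hL0, this]
  have hlQ50 : 50 ≤ Real.log Q := by nlinarith only [hL0, hlQ, he]
  have hqR : (Q : ℝ) ≤ q := by exact_mod_cast hQq
  have hq0 : (0 : ℝ) < q := by linarith only [hQ0, hqR]
  have hq0' : q ≠ 0 := by
    intro h; rw [h] at hq0; simp at hq0
  have hlq : Real.log Q ≤ Real.log q := Real.log_le_log hQ0 hqR
  have hq3 : 3 ≤ q := by
    by_contra h
    push Not at h
    have h1 : (q : ℝ) ≤ 3 := by exact_mod_cast h.le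
    have h2 := Real.log_le_sub_one_of_pos hq0
    linarith only [hlQ50, hlq, h1, h2]
  set y := ⌊Real.log Q ^ (ε / 32)⌋₊ with hy
  set z := ⌊Real.log q / 2⌋₊ with hz
  have hz2 : 2 ≤ z := Nat.le_floor (by push_cast; linarith only [hlQ50, hlq])
  have hC5pos : 400 ≤ C5 := by
    have : 400 ≤ 400 / ε := by
      rw [le_div_iff₀ hε]; linarith only [hε1]
    linarith only [hC5, this]
  have hpow : 50 ≤ Real.log Q ^ C5 := by
    calc (50 : ℝ) ≤ Real.log Q := hlQ50
      _ = Real.log Q ^ (1 : ℝ) := (Real.rpow_one _).symm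
      _ ≤ Real.log Q ^ C5 := Real.rpow_le_rpow_of_exponent_le (by linarith only [hlQ50]) (by linarith only [hC5pos])
  have hR : 1 < Real.log Q ^ ε := Real.one_lt_rpow (by linarith only [hlQ50]) hε
  have h400 : 400 * Real.log (Real.log Q) ≤ C5 * Real.log (Real.log Q) :=
    mul_le_mul_of_nonneg_right hC5pos (by linarith only [hL0, hℓ])
  have hL : 0 < C5 * Real.log (Real.log Q) - 2 := by linarith only [hL0, hℓ, h400]
  have hLX : C5 * Real.log (Real.log Q) - 2 ≤ Real.log (3 / 16 * Real.log Q ^ C5) := by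
    rw [Real.log_mul (by norm_num) (by (clear * - hlQ0; positivity)), Real.log_rpow hlQ0]
    have h1 : -2 ≤ Real.log (3 / 16) := by
      rw [Real.le_log_iff_exp_le (by norm_num), Real.exp_neg,
        inv_le_comm₀ (Real.exp_pos _) (by norm_num)]
      have h2 : Real.exp 2 = Real.exp 1 * Real.exp 1 := by
        rw [← Real.exp_add]; norm_num
      rw [h2]
      have h3 := Real.exp_one_gt_d9
      nlinarith only [h3]
    linarith only [h1]
  obtain ⟨B, hB⟩ := sieve_comb 𝓑 h𝓑 huniq (3 / 16 * Real.log Q ^ C5) (Real.log Q ^ ε)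
    (C5 * Real.log (Real.log Q) - 2) (by linarith only [hpow]) hR hL hLX hgap q hq0' y z hz2 t n
  refine le_trans ?_ hB
  have hPpos : (0 : ℝ) < sieveP q B y z := by exact_mod_cast sieveP_pos q B y z
  have hφP : (sieveP q B y z).totient ≤ sieveP q B y z := Nat.totient_le _
  have hy1 : 1 ≤ y := by
    rw [hy]
    apply Nat.le_floor
    push_cast
    exact Real.one_le_rpow (by linarith only [hlQ50]) (by positivity)
  have hyz : y ≤ z := by
    rw [hy, hz]
    apply Nat.floor_le_floor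
    have h1 : Real.log Q ^ (ε / 32) ≤ Real.log Q ^ (1 / 2 : ℝ) :=
      Real.rpow_le_rpow_of_exponent_le (by linarith only [hlQ50]) (by linarith only [hε1])
    have h2 : Real.log Q ^ (1 / 2 : ℝ) ≤ Real.log Q / 2 := by
      rw [← Real.sqrt_eq_rpow]
      apply Real.sqrt_le_iff.mpr
      refine ⟨by linarith only [hlQ50], ?_⟩
      nlinarith only [hlQ50]
    linarith only [hlq, h1, h2]
  apply hnum Q q n (sieveP q B y z) (sieveP q B y z).totient y z _ _ _ hℓ hQq hqQ hn
    (sieveP_le q B y z) hφP hy hz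
  · exact hC1 y hy1
  · apply sum_nonneg
    intro p _
    exact div_nonneg (Real.log_natCast_nonneg _) (Nat.cast_nonneg _)
  · have h1 := hC2 (y + 1) (z + 1) (by (clear * - hy1; omega)) (by (clear * - hyz; omega))
    push_cast at h1
    refine h1.trans ?_
    apply mul_le_mul_of_nonneg_left (sieveP_density q B y z)
    apply Real.log_nonneg
    have : (0 : ℝ) ≤ z := Nat.cast_nonneg _
    linarith only []
  · (clear * - hPpos; positivity)
  · rw [div_le_one hPpos]
    exact_mod_cast hφP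
  · exact hC3 q hq3
  · exact sum_nonneg fun d _ => div_nonneg vonMangoldt_nonneg (Nat.cast_nonneg d)

end Vale.P028
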