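import Vale.Agent.P028.MathlibUsed
import Vale.Agent.P028.KDefs
import Vale.Agent.P028.MTensor
import Vale.Agent.P028.MSieve
import Vale.Agent.P028.Overlap

/-!
# Overlaps of sifted sets
-/

namespace Vale.P028

open Finset MeasureTheory

/-- splitting a window in residue classes -/
theorem ko_sum_window (h : ℤ → ℕ) (t₀ : ℤ) (M n : ℕ) :
    ∑ t ∈ Ico t₀ (t₀ + (n : ℤ) * M), h t =
      ∑ x ∈ Ico t₀ (t₀ + M), ∑ j ∈ range n, h (x + (j : ℤ) * M) := by
  induction n with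
  | zero => simp
  | succ n ih =>
    have e1 : Ico t₀ (t₀ + ((n + 1 : ℕ) : ℤ) * M) =
        Ico t₀ (t₀ + (n : ℤ) * M) ∪ Ico (t₀ + (n : ℤ) * M) (t₀ + ((n + 1 : ℕ) : ℤ) * M) := by
      rw [Ico_union_Ico_eq_Ico]
      · have : (0 : ℤ) ≤ (n : ℤ) * M := by (clear * -; positivity)
        linarith only [this]
      · push_cast
        have : (0 : ℤ) ≤ M := by (clear * -; positivity)
        linarith only []
    rw [e1, sum_union (Ico_disjoint_Ico_consecutive _ _ _), ih]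
    have e2 : ∑ t ∈ Ico (t₀ + (n : ℤ) * M) (t₀ + ((n + 1 : ℕ) : ℤ) * M), h t =
        ∑ x ∈ Ico t₀ (t₀ + M), h (x + (n : ℤ) * M) := by
      symm
      apply sum_bij (fun x _ => x + (n : ℤ) * M)
      · intro x hx
        rw [mem_Ico] at hx ⊢
        push_cast
        constructor
        · linarith only [hx]
        · linarith only [hx]
      · intro x _ y _ hxy
        linarith only [hxy]
      · intro y hy
        rw [mem_Ico] at hy
        push_cast at hy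
        refine ⟨y - (n : ℤ) * M, ?_, by ring⟩
        rw [mem_Ico]
        constructor
        · linarith only [hy]
        · linarith only [hy]
      · intro x _
        rfl
    rw [e2, ← sum_add_distrib]
    apply sum_congr rfl
    intro x _
    rw [sum_range_succ]

open Classical in
/-- Chinese remainder theorem, counting version -/
theorem ko_crt (f : ℕ → ℤ → Prop) (S : Finset ℕ) (hS : ∀ p ∈ S, p.Prime)
    (hf : ∀ p ∈ S, ∀ x y : ℤ, x ≡ y [ZMOD p] → (f p x ↔ f p y)) (t₀ : ℤ) :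
    ((Ico t₀ (t₀ + ((∏ p ∈ S, p : ℕ) : ℤ))).filter (fun t => ∀ p ∈ S, f p t)).card =
      ∏ p ∈ S, ((range p).filter (fun i : ℕ => f p i)).card := by
  induction S using Finset.induction_on with
  | empty => simp only [notMem_empty, IsEmpty.forall_iff, implies_true, filter_true, prod_empty, Nat.cast_one, Int.card_Ico, add_sub_cancel_left, Int.toNat_one]
  | insert p S hpS ih =>
    have hp : p.Prime := hS p (mem_insert_self _ _)
    have hS' : ∀ p' ∈ S, p'.Prime := fun p' h' => hS p' (mem_insert_of_mem h')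
    have hf' : ∀ p' ∈ S, ∀ x y : ℤ, x ≡ y [ZMOD p'] → (f p' x ↔ f p' y) :=
      fun p' h' => hf p' (mem_insert_of_mem h')
    have ih' := ih hS' hf'
    rw [prod_insert hpS, prod_insert hpS]
    set M : ℕ := ∏ p ∈ S, p with hM
    have hcop : IsCoprime (M : ℤ) (p : ℤ) := by
      rw [Nat.isCoprime_iff_coprime, hM]
      apply Nat.Coprime.prod_left
      intro p' hp'
      exact (Nat.coprime_primes (hS' p' hp') hp).mpr (fun h => hpS (h ▸ hp'))
    have hdvd : ∀ p' ∈ S, (p' : ℤ) ∣ (M : ℤ) := by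
      intro p' hp'
      exact_mod_cast dvd_prod_of_mem _ hp'
    rw [card_filter]
    push_cast
    rw [ko_sum_window]
    have e1 : ∀ x ∈ Ico t₀ (t₀ + (M : ℤ)), ∑ j ∈ range p,
        (if ∀ p' ∈ insert p S, f p' (x + (j : ℤ) * M) then 1 else 0) =
        (if ∀ p' ∈ S, f p' x then 1 else 0) * ((range p).filter (fun i : ℕ => f p i)).card := by
      intro x _
      have e2 : ∀ j : ℕ, (∀ p' ∈ insert p S, f p' (x + (j : ℤ) * M)) ↔
          ((∀ p' ∈ S, f p' x) ∧ f p (x + (j : ℤ) * M)) := by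
        intro j
        rw [forall_mem_insert]
        have e3 : (∀ p' ∈ S, f p' (x + (j : ℤ) * M)) ↔ (∀ p' ∈ S, f p' x) := by
          apply forall₂_congr
          intro p' hp'
          apply hf' p' hp'
          rw [Int.modEq_iff_dvd]
          have : x - (x + (j : ℤ) * M) = -((j : ℤ) * M) := by ring
          rw [this]
          exact (dvd_neg).mpr (Dvd.dvd.mul_left (hdvd p' hp') _)
        rw [e3, and_comm]
      simp only [e2]
      by_cases hx : ∀ p' ∈ S, f p' x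
      · have e4 : ∀ j : ℕ, ((∀ p' ∈ S, f p' x) ∧ f p (x + (j : ℤ) * M)) ↔ f p (x + (j : ℤ) * M) :=
          fun j => ⟨fun h => h.2, fun h => ⟨hx, h⟩⟩
        simp only [e4]
        rw [if_pos hx, one_mul, ← card_filter]
        have := count_linear (M : ℤ) x p hp.pos hcop (f p) (hf p (mem_insert_self _ _)) 0
        rw [← this]
        congr 1
        apply filter_congr
        intro j _
        have : x + (j : ℤ) * M = (0 + (j : ℤ)) * M + x := by ring
        rw [this]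
      · have : ∀ j : ℕ, ¬ ((∀ p' ∈ S, f p' x) ∧ f p (x + (j : ℤ) * M)) := fun j h => hx h.1
        simp only [this, if_false, sum_const_zero]
        rw [if_neg hx, zero_mul]
    rw [sum_congr rfl e1, ← sum_mul, ← card_filter, ih', mul_comm]

open Classical in
theorem ko_crt' (f : ℕ → ℤ → Prop) (S : Finset ℕ) (hS : ∀ p ∈ S, p.Prime)
    (hf : ∀ p ∈ S, ∀ x y : ℤ, x ≡ y [ZMOD p] → (f p x ↔ f p y)) (g : ℕ)
    (hg : ∀ p ∈ S, p ∣ g) (t₀ : ℤ) :
    (((Ico t₀ (t₀ + g)).filter (fun t => ∀ p ∈ S, f p t)).card : ℝ) =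
      g * ∏ p ∈ S, (((range p).filter (fun i : ℕ => f p i)).card : ℝ) / p := by
  have hdvd : ∏ p ∈ S, p ∣ g := by
    apply prod_primes_dvd
    · intro p hp; exact (hS p hp).prime
    · exact hg
  obtain ⟨n, hn⟩ := hdvd
  set M : ℕ := ∏ p ∈ S, p with hM
  have hcount : ((Ico t₀ (t₀ + g)).filter (fun t => ∀ p ∈ S, f p t)).card =
      n * ∏ p ∈ S, ((range p).filter (fun i : ℕ => f p i)).card := by
    have e0 : (g : ℤ) = (n : ℤ) * M := by rw [hn]; push_cast; ring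
    rw [e0, card_filter, ko_sum_window]
    have hd : ∀ p' ∈ S, (p' : ℤ) ∣ (M : ℤ) := by
      intro p' hp'
      exact_mod_cast dvd_prod_of_mem _ hp'
    have e1 : ∀ x ∈ Ico t₀ (t₀ + (M : ℤ)), ∑ j ∈ range n,
        (if ∀ p' ∈ S, f p' (x + (j : ℤ) * M) then 1 else 0) =
        n * (if ∀ p' ∈ S, f p' x then 1 else 0) := by
      intro x _
      have e3 : ∀ j : ℕ, (∀ p' ∈ S, f p' (x + (j : ℤ) * M)) ↔ (∀ p' ∈ S, f p' x) := by
        intro j
        apply forall₂_congr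
        intro p' hp'
        apply hf p' hp'
        rw [Int.modEq_iff_dvd]
        have : x - (x + (j : ℤ) * M) = -((j : ℤ) * M) := by ring
        rw [this]
        exact (dvd_neg).mpr (Dvd.dvd.mul_left (hd p' hp') _)
      simp only [e3]
      rw [sum_const, card_range, smul_eq_mul]
    rw [sum_congr rfl e1, ← mul_sum, ← card_filter, ko_crt f S hS hf t₀]
  rw [hcount, prod_div_distrib]
  have hM0 : (0 : ℝ) < ∏ p ∈ S, (p : ℝ) := prod_pos fun p hp => by exact_mod_cast (hS p hp).pos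
  have hgR : (g : ℝ) = (∏ p ∈ S, (p : ℝ)) * n := by
    rw [hn, hM]; push_cast; ring
  rw [hgR]
  push_cast
  (clear * - hM0; field_simp)

theorem ko_mod_mem {p : ℕ} (hp : 0 < p) (c : ℤ) : (c % p).toNat ∈ range p ∧
    (p : ℤ) ∣ (((c % p).toNat : ℕ) : ℤ) - c := by
  have hp' : (0 : ℤ) < p := by exact_mod_cast hp
  have h1 := Int.emod_nonneg c hp'.ne'
  have h2 := Int.emod_lt_of_pos c hp'
  have h3 : (((c % p).toNat : ℕ) : ℤ) = c % p := Int.toNat_of_nonneg h1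
  refine ⟨?_, ?_⟩
  · rw [mem_range]; omega
  · rw [h3]
    exact ⟨-(c / p), by rw [Int.emod_def]; ring⟩

theorem count_classes (g : ℕ) (_hg : 0 < g) (Pa Pb : Finset ℕ)
    (h₁ : ∀ p ∈ Pa, p.Prime ∧ p ∣ g) (h₂ : ∀ p ∈ Pb, p.Prime ∧ p ∣ g) (c₁ c₂ : ℕ → ℤ) (t₀ : ℤ) :
    (((Ico t₀ (t₀ + g)).filter (fun t => (∀ p ∈ Pa, ¬ (p : ℤ) ∣ t - c₁ p) ∧
      (∀ p ∈ Pb, ¬ (p : ℤ) ∣ t - c₂ p))).card : ℝ) ≤
      g * pr Pa * pr Pb * (pr ((Pa ∩ Pb).filter (fun p : ℕ => (p : ℤ) ∣ c₁ p - c₂ p)))⁻¹ := by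
  classical
  set f : ℕ → ℤ → Prop := fun p t => (p ∈ Pa → ¬ (p : ℤ) ∣ t - c₁ p) ∧
    (p ∈ Pb → ¬ (p : ℤ) ∣ t - c₂ p) with hf
  have hP : ∀ p ∈ Pa ∪ Pb, p.Prime ∧ p ∣ g := by
    intro p hp
    rcases mem_union.mp hp with h | h
    · exact h₁ p h
    · exact h₂ p h
  have hper : ∀ p ∈ Pa ∪ Pb, ∀ x y : ℤ, x ≡ y [ZMOD p] → (f p x ↔ f p y) := by
    intro p _ x y hxy
    have key : ∀ c : ℤ, ((p : ℤ) ∣ x - c ↔ (p : ℤ) ∣ y - c) := by
      intro c
      have h3 := Int.modEq_iff_dvd.mp hxy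
      constructor
      · intro h
        have := dvd_add h3 h
        have e : y - x + (x - c) = y - c := by ring
        rwa [e] at this
      · intro h
        have := dvd_sub h h3
        have e : y - c - (y - x) = x - c := by ring
        rwa [e] at this
    simp only [hf, key]
  have e1 := ko_crt' f (Pa ∪ Pb) (fun p hp => (hP p hp).1) hper g (fun p hp => (hP p hp).2) t₀
  have e0 : (((Ico t₀ (t₀ + g)).filter (fun t => (∀ p ∈ Pa, ¬ (p : ℤ) ∣ t - c₁ p) ∧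
      (∀ p ∈ Pb, ¬ (p : ℤ) ∣ t - c₂ p))).card : ℝ) =
      g * ∏ p ∈ Pa ∪ Pb, (((range p).filter (fun i : ℕ => f p i)).card : ℝ) / p := by
    refine Eq.trans ?_ (e1.trans ?_)
    swap
    · congr!
    congr 2
    ext t
    simp only [mem_filter]
    apply and_congr_right
    intro _
    simp only [hf]
    constructor
    · rintro ⟨ha, hb⟩ p _
      exact ⟨fun h => ha p h, fun h => hb p h⟩
    · intro h
      exact ⟨fun p hp => (h p (mem_union_left _ hp)).1 hp,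
        fun p hp => (h p (mem_union_right _ hp)).2 hp⟩
  rw [e0]
  -- the local factors
  have hloc : ∀ p ∈ Pa ∪ Pb, (((range p).filter (fun i : ℕ => f p i)).card : ℝ) / p ≤
      (if p ∈ Pa then (1 - 1 / (p : ℝ)) else 1) * (if p ∈ Pb then (1 - 1 / (p : ℝ)) else 1) *
      (if p ∈ (Pa ∩ Pb).filter (fun p : ℕ => (p : ℤ) ∣ c₁ p - c₂ p) then (1 - 1 / (p : ℝ))⁻¹
        else 1) := by
    intro p hp
    have hpp := (hP p hp).1
    have hp2 : (2 : ℝ) ≤ p := by exact_mod_cast hpp.two_le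
    have hp0 : (0 : ℝ) < p := by linarith only [hp2]
    have hinv : (0 : ℝ) < 1 - 1 / (p : ℝ) := by
      rw [sub_pos, div_lt_one hp0]; linarith only [hp2]
    obtain ⟨hm1, hd1⟩ := ko_mod_mem hpp.pos (c₁ p)
    obtain ⟨hm2, hd2⟩ := ko_mod_mem hpp.pos (c₂ p)
    have hone : ∀ (z : ℕ), z ∈ range p → ¬ f p z →
        (((range p).filter (fun i : ℕ => f p i)).card : ℝ) ≤ p - 1 := by
      intro z hz hfz
      have hsub : (range p).filter (fun i : ℕ => f p i) ⊆ (range p).erase z := by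
        intro i hi
        rw [mem_filter] at hi
        rw [mem_erase]
        exact ⟨fun h => hfz (h ▸ hi.2), hi.1⟩
      have := card_le_card hsub
      rw [card_erase_of_mem hz, card_range] at this
      have h3 : (((range p).filter (fun i : ℕ => f p i)).card : ℝ) ≤ ((p - 1 : ℕ) : ℝ) := by
        exact_mod_cast this
      rw [Nat.cast_sub hpp.one_le] at h3
      simpa only [ge_iff_le, Nat.cast_one] using h3
    have hf1 : p ∈ Pa → ¬ f p ((c₁ p % p).toNat : ℕ) := by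
      intro ha h
      exact h.1 ha hd1
    have hf2 : p ∈ Pb → ¬ f p ((c₂ p % p).toNat : ℕ) := by
      intro hb h
      exact h.2 hb hd2
    have hbase : p ∈ Pa ∨ p ∈ Pb → (((range p).filter (fun i : ℕ => f p i)).card : ℝ) / p ≤
        1 - 1 / (p : ℝ) := by
      intro h
      rw [div_le_iff₀ hp0]
      have e : (1 - 1 / (p : ℝ)) * p = p - 1 := by (clear * - hp2; field_simp)
      rw [e]
      rcases h with h | h
      · exact hone _ hm1 (hf1 h)
      · exact hone _ hm2 (hf2 h)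
    by_cases ha : p ∈ Pa
    · by_cases hb : p ∈ Pb
      · by_cases hc : (p : ℤ) ∣ c₁ p - c₂ p
        · have hmem : p ∈ (Pa ∩ Pb).filter (fun p : ℕ => (p : ℤ) ∣ c₁ p - c₂ p) := by
            rw [mem_filter, mem_inter]; exact ⟨⟨ha, hb⟩, hc⟩
          rw [if_pos ha, if_pos hb, if_pos hmem, mul_assoc, mul_inv_cancel₀ hinv.ne', mul_one]
          exact hbase (Or.inl ha)
        · have hmem : p ∉ (Pa ∩ Pb).filter (fun p : ℕ => (p : ℤ) ∣ c₁ p - c₂ p) := by
            rw [mem_filter]; exact fun h => hc h.2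
          rw [if_pos ha, if_pos hb, if_neg hmem, mul_one]
          have hne : (c₁ p % p).toNat ≠ (c₂ p % p).toNat := by
            intro h
            apply hc
            rw [h] at hd1
            have := dvd_sub hd2 hd1
            have e : (((c₂ p % p).toNat : ℕ) : ℤ) - c₂ p - ((((c₂ p % p).toNat : ℕ) : ℤ) - c₁ p)
                = c₁ p - c₂ p := by ring
            rwa [e] at this
          have hsub : (range p).filter (fun i : ℕ => f p i) ⊆
              ((range p).erase (c₁ p % p).toNat).erase (c₂ p % p).toNat := by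
            intro i hi
            rw [mem_filter] at hi
            rw [mem_erase, mem_erase]
            exact ⟨fun h => hf2 hb (h ▸ hi.2), fun h => hf1 ha (h ▸ hi.2), hi.1⟩
          have hle := card_le_card hsub
          rw [card_erase_of_mem (mem_erase.mpr ⟨hne.symm, hm2⟩), card_erase_of_mem hm1,
            card_range] at hle
          have h3 : (((range p).filter (fun i : ℕ => f p i)).card : ℝ) ≤ ((p - 1 - 1 : ℕ) : ℝ) := by
            exact_mod_cast hle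
          have h4 : ((p - 1 - 1 : ℕ) : ℝ) = p - 2 := by
            have := hpp.two_le
            rw [Nat.sub_sub, Nat.cast_sub (by omega)]
            norm_num
          rw [h4] at h3
          rw [div_le_iff₀ hp0]
          have e : (1 - 1 / (p : ℝ)) * (1 - 1 / (p : ℝ)) * p = p - 2 + 1 / p := by
            field_simp; ring
          rw [e]
          have : (0 : ℝ) < 1 / p := by (clear * - hp2; positivity)
          linarith only [h3, this]
      · have hmem : p ∉ (Pa ∩ Pb).filter (fun p : ℕ => (p : ℤ) ∣ c₁ p - c₂ p) := by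
          rw [mem_filter, mem_inter]; exact fun h => hb h.1.2
        rw [if_pos ha, if_neg hb, if_neg hmem, mul_one, mul_one]
        exact hbase (Or.inl ha)
    · have hb : p ∈ Pb := by
        rcases mem_union.mp hp with h | h
        · exact absurd h ha
        · exact h
      have hmem : p ∉ (Pa ∩ Pb).filter (fun p : ℕ => (p : ℤ) ∣ c₁ p - c₂ p) := by
        rw [mem_filter, mem_inter]; exact fun h => ha h.1.1
      rw [if_neg ha, if_pos hb, if_neg hmem, mul_one, one_mul]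
      exact hbase (Or.inr hb)
  have hprod : ∏ p ∈ Pa ∪ Pb, (((range p).filter (fun i : ℕ => f p i)).card : ℝ) / p ≤
      pr Pa * pr Pb * (pr ((Pa ∩ Pb).filter (fun p : ℕ => (p : ℤ) ∣ c₁ p - c₂ p)))⁻¹ := by
    refine (prod_le_prod (fun p _ => by (clear * -; positivity)) hloc).trans (le_of_eq ?_)
    rw [prod_mul_distrib, prod_mul_distrib]
    congr 1
    · congr 1
      · rw [prod_ite_mem, inter_eq_right.mpr subset_union_left, pr]
      · rw [prod_ite_mem, inter_eq_right.mpr subset_union_right, pr]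
    · rw [prod_ite_mem, inter_eq_right.mpr, pr, prod_inv_distrib]
      exact (filter_subset _ _).trans (inter_subset_left.trans subset_union_left)
  calc (g : ℝ) * ∏ p ∈ Pa ∪ Pb, (((range p).filter (fun i : ℕ => f p i)).card : ℝ) / p
      ≤ g * (pr Pa * pr Pb *
        (pr ((Pa ∩ Pb).filter (fun p : ℕ => (p : ℤ) ∣ c₁ p - c₂ p)))⁻¹) :=
        mul_le_mul_of_nonneg_left hprod (Nat.cast_nonneg _)
    _ = _ := by ring

/-- translates of a set, folded into `(0,1]` -/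
theorem ko_fold (X : Set ℝ) (hX : MeasurableSet X) :
    volume (⋃ n : ℤ, ((fun x : ℝ => x + n) ⁻¹' X) ∩ Set.Ioc (0 : ℝ) 1) ≤ volume X := by
  calc volume (⋃ n : ℤ, ((fun x : ℝ => x + n) ⁻¹' X) ∩ Set.Ioc (0 : ℝ) 1)
      ≤ ∑' n : ℤ, volume (((fun x : ℝ => x + n) ⁻¹' X) ∩ Set.Ioc (0 : ℝ) 1) :=
        measure_iUnion_le _
    _ = ∑' n : ℤ, volume (X ∩ Set.Ioc (n : ℝ) (n + 1)) := by
        apply tsum_congr
        intro n
        have e : ((fun x : ℝ => x + n) ⁻¹' X) ∩ Set.Ioc (0 : ℝ) 1 =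
            (fun x : ℝ => x + n) ⁻¹' (X ∩ Set.Ioc (n : ℝ) (n + 1)) := by
          ext x
          simp only [Set.mem_inter_iff, Set.mem_preimage, Set.mem_Ioc]
          constructor
          · rintro ⟨h1, h2, h3⟩
            exact ⟨h1, by linarith only [h2], by linarith only [h3]⟩
          · rintro ⟨h1, h2, h3⟩
            exact ⟨h1, by linarith only [n, x, h2], by linarith⟩
        rw [e, measure_preimage_add_right]
    _ = volume (⋃ n : ℤ, X ∩ Set.Ioc (n : ℝ) (n + 1)) := by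
        rw [measure_iUnion]
        · intro m n hmn
          have := Set.pairwise_disjoint_Ioc_intCast ℝ hmn
          exact this.mono (by simpa only using Set.inter_subset_right)
            (by simpa only using Set.inter_subset_right)
        · intro n
          exact hX.inter measurableSet_Ioc
    _ ≤ volume X := measure_mono (Set.iUnion_subset fun n => Set.inter_subset_left)

/-- The two arcs around given centres. -/
def koX (γ : ℝ) (q r : ℕ) (α β : ℝ) (al be : ℤ) : Set ℝ :=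
  {x | |(q : ℝ) * x - γ - al| < α ∧ |(r : ℝ) * x - γ - be| < β}

theorem koX_meas (γ : ℝ) (q r : ℕ) (α β : ℝ) (al be : ℤ) :
    MeasurableSet (koX γ q r α β al be) := by
  have h1 : MeasurableSet {x : ℝ | |(q : ℝ) * x - γ - al| < α} :=
    (isOpen_lt (by fun_prop) continuous_const).measurableSet
  have h2 : MeasurableSet {x : ℝ | |(r : ℝ) * x - γ - be| < β} :=
    (isOpen_lt (by fun_prop) continuous_const).measurableSet
  exact h1.inter h2

theorem ko_arc {γ : ℝ} {q : ℕ} (hq : 0 < q) {α : ℝ} (al : ℤ) :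
    volume {x : ℝ | |(q : ℝ) * x - γ - al| < α} = ENNReal.ofReal (2 * (α / q)) := by
  have hq0 : (0 : ℝ) < q := by exact_mod_cast hq
  have e : {x : ℝ | |(q : ℝ) * x - γ - al| < α} =
      Set.Ioo ((γ + al - α) / q) ((γ + al + α) / q) := by
    ext x
    rw [Set.mem_ofPred_eq, Set.mem_Ioo, div_lt_iff₀ hq0, lt_div_iff₀ hq0, abs_lt]
    constructor
    · rintro ⟨h1, h2⟩
      constructor <;> linarith only [h1, h2]
    · rintro ⟨h1, h2⟩
      constructor <;> linarith only [h1, h2]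
  rw [e, Real.volume_Ioo]
  congr 1
  field_simp
  ring

theorem koX_vol (γ : ℝ) {q r : ℕ} (hq : 0 < q) (hr : 0 < r) {α β : ℝ} (hα : 0 < α) (hβ : 0 < β)
    (al be : ℤ) : volume (koX γ q r α β al be) ≤
      ENNReal.ofReal (2 * (α * β / DD q r α β) / Nat.gcd q r) := by
  have hq0 : (0 : ℝ) < q := by exact_mod_cast hq
  have hr0 : (0 : ℝ) < r := by exact_mod_cast hr
  have hg : 0 < Nat.gcd q r := Nat.gcd_pos_of_pos_left _ hq
  have hg0 : (0 : ℝ) < Nat.gcd q r := by exact_mod_cast hg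
  have hM : 0 < max ((r : ℝ) * α) (q * β) := lt_max_of_lt_left (by positivity)
  have e : 2 * (α * β / DD q r α β) / Nat.gcd q r = 2 * (α * β / max ((r : ℝ) * α) (q * β)) := by
    rw [DD]
    field_simp
  rw [e]
  rcases le_total ((r : ℝ) * α) (q * β) with h | h
  · rw [max_eq_right h]
    have e2 : α * β / (q * β) = α / q := by (clear * - hβ hq hα; field_simp)
    rw [e2, ← ko_arc (γ := γ) hq al]
    exact measure_mono (fun x hx => hx.1)
  · rw [max_eq_left h]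
    have e2 : α * β / (r * α) = β / r := by field_simp
    rw [e2, ← ko_arc (γ := γ) hr be]
    exact measure_mono (fun x hx => hx.2)

theorem ko_exists_root {p : ℕ} (hp : p.Prime) {m : ℤ} (hm : ¬ (p : ℤ) ∣ m) (z : ℤ) :
    ∃ c : ℤ, (p : ℤ) ∣ m * c + z := by
  have hcop : IsCoprime m (p : ℤ) := by
    have := (Nat.prime_iff_prime_int.mp hp).coprime_iff_not_dvd.mpr hm
    exact this.symm
  obtain ⟨u, v, huv⟩ := hcop
  refine ⟨-(u * z), v * z, ?_⟩
  linear_combination -z * huv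

/-- **Overlap of two sifted sets**, with exact local densities. -/
theorem overlap_gen (γ : ℝ) (q r : ℕ) (hq : 0 < q) (hr : 0 < r) (α β : ℝ) (hα : 0 < α)
    (hβ : 0 < β) (B₁ B₂ : ℕ) (A₁ A₂ : ℤ) (Pa Pb : Finset ℕ)
    (h₁ : ∀ p ∈ Pa, p.Prime ∧ p ∣ q ∧ ¬ p ∣ B₁) (h₂ : ∀ p ∈ Pb, p.Prime ∧ p ∣ r ∧ ¬ p ∣ B₂)
    (P₁ P₂ : ℤ → Prop) (hP₁ : ∀ al, P₁ al → ∀ p ∈ Pa, ¬ (p : ℤ) ∣ al * (B₁ : ℤ) + A₁)
    (hP₂ : ∀ al, P₂ al → ∀ p ∈ Pb, ¬ (p : ℤ) ∣ al * (B₂ : ℤ) + A₂) (Ks : Finset ℤ)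
    (hK : ∀ al be : ℤ, P₁ al → P₂ be →
      |((al : ℝ) + γ) * (cofac r q : ℝ) - ((be : ℝ) + γ) * (cofac q r : ℝ)| <
        (cofac r q : ℝ) * α + (cofac q r : ℝ) * β →
      al * (cofac r q : ℤ) - be * (cofac q r : ℤ) ∈ Ks) :
    volume.real (GS γ q α P₁ ∩ GS γ r β P₂ ∩ Set.Ioc 0 1) ≤
      2 * (α * β / DD q r α β) * pr (Pa.filter (fun p : ℕ => ¬ p ∣ cofac q r)) *
        pr (Pb.filter (fun p : ℕ => ¬ p ∣ cofac r q)) *
        ∑ k ∈ Ks, (pr ((Pa ∩ Pb).filter (fun p : ℕ => ¬ p ∣ cofac q r ∧ ¬ p ∣ cofac r q ∧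
          (p : ℤ) ∣ (B₁ : ℤ) * B₂ * k + (cofac r q : ℤ) * B₂ * A₁ -
            (cofac q r : ℤ) * B₁ * A₂)))⁻¹ := by
  classical
  have hg : 0 < Nat.gcd q r := Nat.gcd_pos_of_pos_left _ hq
  have hg' : (0 : ℤ) < (Nat.gcd q r : ℤ) := by exact_mod_cast hg
  have hg0 : (0 : ℝ) < Nat.gcd q r := by exact_mod_cast hg
  have ha : 0 < cofac q r := cofac_pos r hq
  have hb : 0 < cofac r q := cofac_pos q hr
  have haR : (0 : ℝ) < cofac q r := by exact_mod_cast ha
  have hbR : (0 : ℝ) < cofac r q := by exact_mod_cast hb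
  have hqe : Nat.gcd q r * cofac q r = q := gcd_mul_cofac q r
  have hre : Nat.gcd q r * cofac r q = r := by
    have := gcd_mul_cofac r q
    rwa [Nat.gcd_comm r q] at this
  have hcop : Nat.Coprime (cofac q r) (cofac r q) := cofac_coprime hq
  set a := cofac q r with hadef
  set b := cofac r q with hbdef
  set g := Nat.gcd q r with hgdef
  have hD0 : 0 < DD q r α β := by
    have hrR : (0 : ℝ) < r := by exact_mod_cast hr
    rw [DD]
    apply div_pos _ hg0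
    exact lt_max_of_lt_left (mul_pos hrR hα)
  set V : ℝ := 2 * (α * β / DD q r α β) / g with hV
  have hV0 : 0 ≤ V := by (clear * - hα hβ hD0 hq; positivity)
  -- Bezout
  obtain ⟨x₀, y₀, hxy⟩ : ∃ x₀ y₀ : ℤ, x₀ * b - y₀ * a = 1 := by
    have h3 : IsCoprime (a : ℤ) (b : ℤ) := Nat.isCoprime_iff_coprime.mpr hcop
    obtain ⟨u, v, huv⟩ := h3
    exact ⟨v, -u, by linear_combination huv⟩
  -- allowed t
  set T : ℤ → Finset ℤ := fun k => (Ico (0 : ℤ) (0 + g)).filter (fun t =>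
    (∀ p ∈ Pa, ¬ (p : ℤ) ∣ (k * x₀ + a * t) * (B₁ : ℤ) + A₁) ∧
    (∀ p ∈ Pb, ¬ (p : ℤ) ∣ (k * y₀ + b * t) * (B₂ : ℤ) + A₂)) with hT
  have hq' : (q : ℤ) = g * a := by exact_mod_cast hqe.symm
  have hr' : (r : ℤ) = g * b := by exact_mod_cast hre.symm
  have hqR : (q : ℝ) = g * a := by exact_mod_cast hqe.symm
  have hrR : (r : ℝ) = g * b := by exact_mod_cast hre.symm
  have hsub : GS γ q α P₁ ∩ GS γ r β P₂ ∩ Set.Ioc 0 1 ⊆
      ⋃ k ∈ Ks, ⋃ t ∈ T k, ⋃ n : ℤ, ((fun x : ℝ => x + n) ⁻¹'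
        (koX γ q r α β (k * x₀ + a * t) (k * y₀ + b * t))) ∩ Set.Ioc (0 : ℝ) 1 := by
    rintro x ⟨⟨⟨al, hal, hx1⟩, ⟨be, hbe, hx2⟩⟩, hx3⟩
    have hk := hK al be hal hbe (by
      have e3 : (q : ℝ) * b = r * a := by rw [hqR, hrR]; ring
      have e5 : ((al : ℝ) + γ) * (b : ℝ) - ((be : ℝ) + γ) * (a : ℝ)
          = (a : ℝ) * ((r : ℝ) * x - γ - be) - (b : ℝ) * ((q : ℝ) * x - γ - al) := by
        linear_combination x * e3
      rw [e5]
      calc |(a : ℝ) * ((r : ℝ) * x - γ - be) - (b : ℝ) * ((q : ℝ) * x - γ - al)|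
          ≤ |(a : ℝ) * ((r : ℝ) * x - γ - be)| + |(b : ℝ) * ((q : ℝ) * x - γ - al)| := abs_sub _ _
        _ = (a : ℝ) * |(r : ℝ) * x - γ - be| + (b : ℝ) * |(q : ℝ) * x - γ - al| := by
            rw [abs_mul, abs_mul, abs_of_pos haR, abs_of_pos hbR]
        _ < (a : ℝ) * β + (b : ℝ) * α := by (clear * - hx2 ha hx1 hb; gcongr)
        _ = _ := by ring)
    set k := al * (b : ℤ) - be * (a : ℤ) with hkdef
    -- al = k x₀ + a t', be = k y₀ + b t'
    obtain ⟨t', ht1, ht2⟩ : ∃ t' : ℤ, al = k * x₀ + a * t' ∧ be = k * y₀ + b * t' := by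
      refine ⟨be * x₀ - al * y₀, ?_, ?_⟩
      · rw [hkdef]; linear_combination -al * hxy
      · rw [hkdef]; linear_combination -be * hxy
    set n := t' / (g : ℤ) with hn
    set t := t' % (g : ℤ) with ht
    have htt : t' = t + g * n := by rw [ht, hn]; exact (Int.emod_add_mul_ediv t' g).symm
    have ht0 : 0 ≤ t := Int.emod_nonneg _ hg'.ne'
    have htg : t < g := Int.emod_lt_of_pos _ hg'
    have hal2 : al = (k * x₀ + a * t) + q * n := by rw [ht1, htt, hq']; ring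
    have hbe2 : be = (k * y₀ + b * t) + r * n := by rw [ht2, htt, hr']; ring
    simp only [Set.mem_iUnion]
    refine ⟨k, hk, t, ?_, -n, ?_, hx3⟩
    · simp only [hT, mem_filter, mem_Ico]
      refine ⟨⟨ht0, by linarith only [htg]⟩, ?_, ?_⟩
      · intro p hp hdiv
        apply hP₁ al hal p hp
        have hpq : (p : ℤ) ∣ q := by exact_mod_cast (h₁ p hp).2.1
        rw [hal2]
        have e : ((k * x₀ + a * t) + q * n) * (B₁ : ℤ) + A₁ =
            ((k * x₀ + a * t) * (B₁ : ℤ) + A₁) + q * (n * B₁) := by ring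
        rw [e]
        exact dvd_add hdiv (Dvd.dvd.mul_right hpq _)
      · intro p hp hdiv
        apply hP₂ be hbe p hp
        have hpq : (p : ℤ) ∣ r := by exact_mod_cast (h₂ p hp).2.1
        rw [hbe2]
        have e : ((k * y₀ + b * t) + r * n) * (B₂ : ℤ) + A₂ =
            ((k * y₀ + b * t) * (B₂ : ℤ) + A₂) + r * (n * B₂) := by ring
        rw [e]
        exact dvd_add hdiv (Dvd.dvd.mul_right hpq _)
    · simp only [Set.mem_preimage, koX, Set.mem_ofPred_eq]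
      constructor
      · have e : (q : ℝ) * (x + ((-n : ℤ) : ℝ)) - γ - ((k * x₀ + a * t : ℤ) : ℝ) =
            q * x - γ - al := by
          have : (al : ℝ) = ((k * x₀ + a * t : ℤ) : ℝ) + q * n := by exact_mod_cast hal2
          rw [this]; push_cast; ring
        rw [e]; exact hx1
      · have e : (r : ℝ) * (x + ((-n : ℤ) : ℝ)) - γ - ((k * y₀ + b * t : ℤ) : ℝ) =
            r * x - γ - be := by
          have : (be : ℝ) = ((k * y₀ + b * t : ℤ) : ℝ) + r * n := by exact_mod_cast hbe2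
          rw [this]; push_cast; ring
        rw [e]; exact hx2
  have hvol : volume (GS γ q α P₁ ∩ GS γ r β P₂ ∩ Set.Ioc 0 1) ≤
      ENNReal.ofReal (∑ k ∈ Ks, ((T k).card : ℝ) * V) := by
    calc volume (GS γ q α P₁ ∩ GS γ r β P₂ ∩ Set.Ioc 0 1)
        ≤ volume (⋃ k ∈ Ks, ⋃ t ∈ T k, ⋃ n : ℤ, ((fun x : ℝ => x + n) ⁻¹'
          (koX γ q r α β (k * x₀ + a * t) (k * y₀ + b * t))) ∩ Set.Ioc (0 : ℝ) 1) :=
          measure_mono hsub
      _ ≤ ∑ k ∈ Ks, volume (⋃ t ∈ T k, ⋃ n : ℤ, ((fun x : ℝ => x + n) ⁻¹'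
          (koX γ q r α β (k * x₀ + a * t) (k * y₀ + b * t))) ∩ Set.Ioc (0 : ℝ) 1) :=
          measure_biUnion_finset_le _ _
      _ ≤ ∑ k ∈ Ks, ∑ t ∈ T k, volume (⋃ n : ℤ, ((fun x : ℝ => x + n) ⁻¹'
          (koX γ q r α β (k * x₀ + a * t) (k * y₀ + b * t))) ∩ Set.Ioc (0 : ℝ) 1) :=
          sum_le_sum fun k _ => measure_biUnion_finset_le _ _
      _ ≤ ∑ k ∈ Ks, ∑ t ∈ T k, ENNReal.ofReal V := by
          apply sum_le_sum
          intro k _
          apply sum_le_sum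
          intro t _
          exact (ko_fold _ (koX_meas _ _ _ _ _ _ _)).trans (koX_vol γ hq hr hα hβ _ _)
      _ = ENNReal.ofReal (∑ k ∈ Ks, ((T k).card : ℝ) * V) := by
          rw [ENNReal.ofReal_sum_of_nonneg (fun k _ => by (clear * - hα hβ hD0 hq; positivity))]
          apply sum_congr rfl
          intro k _
          rw [sum_const, nsmul_eq_mul, ENNReal.ofReal_mul (Nat.cast_nonneg _),
            ENNReal.ofReal_natCast]
  have hreal : volume.real (GS γ q α P₁ ∩ GS γ r β P₂ ∩ Set.Ioc 0 1) ≤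
      ∑ k ∈ Ks, ((T k).card : ℝ) * V :=
    ENNReal.toReal_le_of_le_ofReal (sum_nonneg fun k _ => by (clear * - hα hβ hD0 hq; positivity)) hvol
  -- counting
  have hcount : ∀ k ∈ Ks, ((T k).card : ℝ) ≤ g * pr (Pa.filter (fun p : ℕ => ¬ p ∣ a)) *
      pr (Pb.filter (fun p : ℕ => ¬ p ∣ b)) *
      (pr ((Pa ∩ Pb).filter (fun p : ℕ => ¬ p ∣ a ∧ ¬ p ∣ b ∧
          (p : ℤ) ∣ (B₁ : ℤ) * B₂ * k + (b : ℤ) * B₂ * A₁ - (a : ℤ) * B₁ * A₂)))⁻¹ := by
    intro k _
    have hc1 : ∀ p : ℕ, ∃ c : ℤ, p ∈ Pa.filter (fun p : ℕ => ¬ p ∣ a) →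
        (p : ℤ) ∣ (a * B₁ : ℤ) * c + (k * x₀ * B₁ + A₁) := by
      intro p
      by_cases hp : p ∈ Pa.filter (fun p : ℕ => ¬ p ∣ a)
      · rw [mem_filter] at hp
        obtain ⟨hpp, _, hpB⟩ := h₁ p hp.1
        have hnd : ¬ (p : ℤ) ∣ (a * B₁ : ℤ) := by
          intro h
          have h' : p ∣ a * B₁ := by exact_mod_cast h
          rcases (Nat.Prime.dvd_mul hpp).mp h' with h3 | h3
          · exact hp.2 h3
          · exact hpB h3
        obtain ⟨c, hc⟩ := ko_exists_root hpp hnd (k * x₀ * B₁ + A₁)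
        exact ⟨c, fun _ => hc⟩
      · exact ⟨0, fun h => absurd h hp⟩
    have hc2 : ∀ p : ℕ, ∃ c : ℤ, p ∈ Pb.filter (fun p : ℕ => ¬ p ∣ b) →
        (p : ℤ) ∣ (b * B₂ : ℤ) * c + (k * y₀ * B₂ + A₂) := by
      intro p
      by_cases hp : p ∈ Pb.filter (fun p : ℕ => ¬ p ∣ b)
      · rw [mem_filter] at hp
        obtain ⟨hpp, _, hpB⟩ := h₂ p hp.1
        have hnd : ¬ (p : ℤ) ∣ (b * B₂ : ℤ) := by
          intro h
          have h' : p ∣ b * B₂ := by exact_mod_cast h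
          rcases (Nat.Prime.dvd_mul hpp).mp h' with h3 | h3
          · exact hp.2 h3
          · exact hpB h3
        obtain ⟨c, hc⟩ := ko_exists_root hpp hnd (k * y₀ * B₂ + A₂)
        exact ⟨c, fun _ => hc⟩
      · exact ⟨0, fun h => absurd h hp⟩
    choose c₁ hc₁ using hc1
    choose c₂ hc₂ using hc2
    have hPa' : ∀ p ∈ Pa.filter (fun p : ℕ => ¬ p ∣ a), p.Prime ∧ p ∣ g := by
      intro p hp
      rw [mem_filter] at hp
      obtain ⟨hpp, hpq, _⟩ := h₁ p hp.1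
      refine ⟨hpp, ?_⟩
      rw [← hqe] at hpq
      rcases (Nat.Prime.dvd_mul hpp).mp hpq with h3 | h3
      · exact h3
      · exact absurd h3 hp.2
    have hPb' : ∀ p ∈ Pb.filter (fun p : ℕ => ¬ p ∣ b), p.Prime ∧ p ∣ g := by
      intro p hp
      rw [mem_filter] at hp
      obtain ⟨hpp, hpq, _⟩ := h₂ p hp.1
      refine ⟨hpp, ?_⟩
      rw [← hre] at hpq
      rcases (Nat.Prime.dvd_mul hpp).mp hpq with h3 | h3
      · exact h3
      · exact absurd h3 hp.2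
    have hcc := count_classes g hg _ _ hPa' hPb' c₁ c₂ 0
    have hsubT : T k ⊆ (Ico (0 : ℤ) (0 + g)).filter (fun t =>
        (∀ p ∈ Pa.filter (fun p : ℕ => ¬ p ∣ a), ¬ (p : ℤ) ∣ t - c₁ p) ∧
        (∀ p ∈ Pb.filter (fun p : ℕ => ¬ p ∣ b), ¬ (p : ℤ) ∣ t - c₂ p)) := by
      intro t ht
      simp only [hT, mem_filter] at ht
      obtain ⟨ht1, ht2, ht3⟩ := ht
      rw [mem_filter]
      refine ⟨ht1, ?_, ?_⟩
      · intro p hp hdiv
        apply ht2 p (mem_filter.mp hp).1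
        have h3 := hc₁ p hp
        have e : (k * x₀ + a * t) * (B₁ : ℤ) + A₁ =
            ((a * B₁ : ℤ) * c₁ p + (k * x₀ * B₁ + A₁)) + (t - c₁ p) * (a * B₁) := by ring
        rw [e]
        exact dvd_add h3 (Dvd.dvd.mul_right hdiv _)
      · intro p hp hdiv
        apply ht3 p (mem_filter.mp hp).1
        have h3 := hc₂ p hp
        have e : (k * y₀ + b * t) * (B₂ : ℤ) + A₂ =
            ((b * B₂ : ℤ) * c₂ p + (k * y₀ * B₂ + A₂)) + (t - c₂ p) * (b * B₂) := by ring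
        rw [e]
        exact dvd_add h3 (Dvd.dvd.mul_right hdiv _)
    have hcard : ((T k).card : ℝ) ≤ (((Ico (0 : ℤ) (0 + g)).filter (fun t =>
        (∀ p ∈ Pa.filter (fun p : ℕ => ¬ p ∣ a), ¬ (p : ℤ) ∣ t - c₁ p) ∧
        (∀ p ∈ Pb.filter (fun p : ℕ => ¬ p ∣ b), ¬ (p : ℤ) ∣ t - c₂ p))).card : ℝ) := by
      exact_mod_cast card_le_card hsubT
    refine hcard.trans (le_trans (le_of_eq ?_) (hcc.trans (le_of_eq ?_)))
    · congr!
    · congr 3
      ext p
      simp only [mem_filter, mem_inter]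
      constructor
      · rintro ⟨⟨⟨hp1, hp2⟩, hp3, hp4⟩, hp5⟩
        refine ⟨⟨hp1, hp3⟩, hp2, hp4, ?_⟩
        have k1 := hc₁ p (mem_filter.mpr ⟨hp1, hp2⟩)
        have k2 := hc₂ p (mem_filter.mpr ⟨hp3, hp4⟩)
        have e : (B₁ : ℤ) * B₂ * k + (b : ℤ) * B₂ * A₁ - (a : ℤ) * B₁ * A₂ =
            (b * B₂) * ((a * B₁ : ℤ) * c₁ p + (k * x₀ * B₁ + A₁)) -
            (a * B₁) * ((b * B₂ : ℤ) * c₂ p + (k * y₀ * B₂ + A₂)) -
            (a * b * B₁ * B₂) * (c₁ p - c₂ p) := by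
          linear_combination -(B₁ : ℤ) * B₂ * k * hxy
        rw [e]
        exact dvd_sub (dvd_sub (Dvd.dvd.mul_left k1 _) (Dvd.dvd.mul_left k2 _))
          (Dvd.dvd.mul_left hp5 _)
      · rintro ⟨⟨hp1, hp3⟩, hp2, hp4, hp5⟩
        refine ⟨⟨⟨hp1, hp2⟩, hp3, hp4⟩, ?_⟩
        have k1 := hc₁ p (mem_filter.mpr ⟨hp1, hp2⟩)
        have k2 := hc₂ p (mem_filter.mpr ⟨hp3, hp4⟩)
        obtain ⟨hpp, _, hpB1⟩ := h₁ p hp1
        obtain ⟨_, _, hpB2⟩ := h₂ p hp3
        have e : (a * b * B₁ * B₂) * (c₁ p - c₂ p) =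
            (b * B₂) * ((a * B₁ : ℤ) * c₁ p + (k * x₀ * B₁ + A₁)) -
            (a * B₁) * ((b * B₂ : ℤ) * c₂ p + (k * y₀ * B₂ + A₂)) -
            ((B₁ : ℤ) * B₂ * k + (b : ℤ) * B₂ * A₁ - (a : ℤ) * B₁ * A₂) := by
          linear_combination -(B₁ : ℤ) * B₂ * k * hxy
        have hdiv : (p : ℤ) ∣ (a * b * B₁ * B₂) * (c₁ p - c₂ p) := by
          rw [e]
          exact dvd_sub (dvd_sub (Dvd.dvd.mul_left k1 _) (Dvd.dvd.mul_left k2 _)) hp5
        have hpi : Prime (p : ℤ) := Nat.prime_iff_prime_int.mp hpp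
        rcases hpi.dvd_or_dvd hdiv with h3 | h3
        · exfalso
          have h3' : p ∣ a * b * B₁ * B₂ := by exact_mod_cast h3
          rcases (Nat.Prime.dvd_mul hpp).mp h3' with h4 | h4
          · rcases (Nat.Prime.dvd_mul hpp).mp h4 with h5 | h5
            · rcases (Nat.Prime.dvd_mul hpp).mp h5 with h6 | h6
              · exact hp2 h6
              · exact hp4 h6
            · exact hpB1 h5
          · exact hpB2 h4
        · exact h3
  calc volume.real (GS γ q α P₁ ∩ GS γ r β P₂ ∩ Set.Ioc 0 1)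
      ≤ ∑ k ∈ Ks, ((T k).card : ℝ) * V := hreal
    _ ≤ ∑ k ∈ Ks, (g * pr (Pa.filter (fun p : ℕ => ¬ p ∣ a)) *
      pr (Pb.filter (fun p : ℕ => ¬ p ∣ b)) *
      (pr ((Pa ∩ Pb).filter (fun p : ℕ => ¬ p ∣ a ∧ ¬ p ∣ b ∧
          (p : ℤ) ∣ (B₁ : ℤ) * B₂ * k + (b : ℤ) * B₂ * A₁ - (a : ℤ) * B₁ * A₂)))⁻¹) * V :=
        sum_le_sum fun k hk => mul_le_mul_of_nonneg_right (hcount k hk) hV0
    _ = 2 * (α * β / DD q r α β) * pr (Pa.filter (fun p : ℕ => ¬ p ∣ a)) *
        pr (Pb.filter (fun p : ℕ => ¬ p ∣ b)) *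
        ∑ k ∈ Ks, (pr ((Pa ∩ Pb).filter (fun p : ℕ => ¬ p ∣ a ∧ ¬ p ∣ b ∧
          (p : ℤ) ∣ (B₁ : ℤ) * B₂ * k + (b : ℤ) * B₂ * A₁ - (a : ℤ) * B₁ * A₂)))⁻¹ := by
        rw [mul_sum]
        apply sum_congr rfl
        intro k _
        rw [hV]
        (clear * - hg hD0 hβ hα; field_simp)

theorem pr_nonneg_of_prime (Ps : Finset ℕ) (h : ∀ p ∈ Ps, p.Prime) : 0 ≤ pr Ps := by
  apply prod_nonneg
  intro p hp
  have : (1 : ℝ) ≤ p := by exact_mod_cast (h p hp).one_le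
  rw [sub_nonneg, div_le_one (by linarith)]
  exact this

theorem overlap (γ : ℝ) (q r : ℕ) (hq : 0 < q) (hr : 0 < r) (α β : ℝ) (hα : 0 < α) (hβ : 0 < β)
    (_hα2 : α ≤ 1 / 2) (_hβ2 : β ≤ 1 / 2) (B₁ B₂ : ℕ) (A₁ A₂ : ℤ) (Pa Pb : Finset ℕ)
    (h₁ : ∀ p ∈ Pa, p.Prime ∧ p ∣ q ∧ ¬ p ∣ B₁) (h₂ : ∀ p ∈ Pb, p.Prime ∧ p ∣ r ∧ ¬ p ∣ B₂)
    (P₁ P₂ : ℤ → Prop) (hP₁ : ∀ al, P₁ al → ∀ p ∈ Pa, ¬ (p : ℤ) ∣ al * (B₁ : ℤ) + A₁)
    (hP₂ : ∀ al, P₂ al → ∀ p ∈ Pb, ¬ (p : ℤ) ∣ al * (B₂ : ℤ) + A₂) (Ks : Finset ℤ)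
    (hK : ∀ al be : ℤ, P₁ al → P₂ be →
      |((al : ℝ) + γ) * (cofac r q : ℝ) - ((be : ℝ) + γ) * (cofac q r : ℝ)| <
        (cofac r q : ℝ) * α + (cofac q r : ℝ) * β →
      al * (cofac r q : ℤ) - be * (cofac q r : ℤ) ∈ Ks) :
    volume.real (GS γ q α P₁ ∩ GS γ r β P₂ ∩ Set.Ioc 0 1) ≤
      16 * (α * β / DD q r α β) * pr (Pa.filter (fun p : ℕ => ¬ p ∣ cofac q r)) *
        pr (Pb.filter (fun p : ℕ => ¬ p ∣ cofac r q)) *
        ∑ k ∈ Ks, (pr ((Pa ∩ Pb).filter (fun p : ℕ => ¬ p ∣ cofac q r ∧ ¬ p ∣ cofac r q ∧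
          (p : ℤ) ∣ (B₁ : ℤ) * B₂ * k + (cofac r q : ℤ) * B₂ * A₁ -
            (cofac q r : ℤ) * B₁ * A₂)))⁻¹ := by
  refine (overlap_gen γ q r hq hr α β hα hβ B₁ B₂ A₁ A₂ Pa Pb h₁ h₂ P₁ P₂ hP₁ hP₂ Ks hK).trans ?_
  have hg0 : (0 : ℝ) < Nat.gcd q r := by exact_mod_cast Nat.gcd_pos_of_pos_left _ hq
  have hrR : (0 : ℝ) < r := by exact_mod_cast hr
  have hD0 : 0 < DD q r α β := by
    rw [DD]
    apply div_pos _ hg0
    exact lt_max_of_lt_left (mul_pos hrR hα)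
  have h3 : 0 ≤ pr (Pa.filter (fun p : ℕ => ¬ p ∣ cofac q r)) :=
    pr_nonneg_of_prime _ (fun p hp => (h₁ p (mem_filter.mp hp).1).1)
  have h4 : 0 ≤ pr (Pb.filter (fun p : ℕ => ¬ p ∣ cofac r q)) :=
    pr_nonneg_of_prime _ (fun p hp => (h₂ p (mem_filter.mp hp).1).1)
  apply mul_le_mul_of_nonneg_right
  · apply mul_le_mul_of_nonneg_right _ h4
    apply mul_le_mul_of_nonneg_right _ h3
    apply mul_le_mul_of_nonneg_right _ (by (clear * - hα hβ hD0; positivity))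
    norm_num
  · apply sum_nonneg
    intro k _
    apply inv_nonneg.mpr
    exact pr_nonneg_of_prime _ (fun p hp =>
      (h₁ p (mem_inter.mp (mem_filter.mp hp).1).1).1)

end Vale.P028
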