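import Vale.Agent.P028.MathlibUsed
import Vale.Agent.P028.KOver
import Vale.Agent.P028.BSel
attribute [-instance] ProperSMul.toContinuousSMul IsTopologicalTorsor.toContinuousSMul IdemSemiring.toCanonicallyOrderedAdd IdemSemiring.toMulLeftMono IdemSemiring.toMulRightMono AddQuantale.instAddLeftMono AddQuantale.instAddRightMono Quantale.instMulLeftMono Quantale.instMulRightMono FiniteDimensional.rclike_to_real IsScalarTower.complexToReal FiniteDimensional.complexToReal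

/-!
# Overlap of two levels
-/

namespace Vale.P028

open Finset MeasureTheory

theorem kc_pr_pos (Ps : Finset ℕ) (h : ∀ p ∈ Ps, p.Prime) : 0 < pr Ps := by
  apply prod_pos
  intro p hp
  have : (2 : ℝ) ≤ p := by exact_mod_cast (h p hp).two_le
  rw [sub_pos, div_lt_one (by linarith only [this])]
  linarith only [this]

/-- upper bound for the number of sifted points of an interval -/
theorem kc_count (B : ℕ) (A : ℤ) (r : ℕ) (hr : 4096 ≤ r) (Pb : Finset ℕ)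
    (h₂ : ∀ p ∈ Pb, p.Prime ∧ p ∣ r ∧ ¬ p ∣ B) (s : ℤ) (n : ℕ) (hn : Real.sqrt r ≤ n) :
    (((Ico s (s + n)).filter (fun be : ℤ => ∀ p ∈ Pb, ¬ (p : ℤ) ∣ be * (B : ℤ) + A)).card : ℝ) ≤
      2 * Real.exp 64 * n * pr Pb := by
  classical
  have hr0 : 0 < r := by omega
  have hrR : (4096 : ℝ) ≤ r := by exact_mod_cast hr
  have hrpos : (0 : ℝ) < r := by linarith only [hrR]
  have hlogr : 8 ≤ Real.log r := by
    have h1 : Real.log 4096 ≤ Real.log r := Real.log_le_log (by norm_num) hrR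
    have h2 : Real.log 4096 = 12 * Real.log 2 := by
      rw [show (4096 : ℝ) = 2 ^ 12 by norm_num, Real.log_pow]; norm_num
    have h3 := Real.log_two_gt_d9
    linarith only [h1, h2, h3]
  set y : ℝ := Real.log r / 16 + 2 with hy
  have hy2 : 2 ≤ y := by rw [hy]; linarith only [hlogr]
  set Pz := Pb.filter (fun p : ℕ => (p : ℝ) ≤ y) with hPz
  set M : ℕ := ∏ p ∈ Pz, p with hM
  have hPzp : ∀ p ∈ Pz, p.Prime := fun p hp => (h₂ p (mem_filter.mp hp).1).1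
  have hM0 : 0 < M := prod_pos fun p hp => (hPzp p hp).pos
  have hM0R : (0 : ℝ) < M := by exact_mod_cast hM0
  -- size of `M`
  have hM1 : (M : ℝ) ≤ n := by
    have h1 : M ≤ primorial ⌊y⌋₊ := by
      rw [primorial, hM]
      apply prod_le_prod_of_subset_of_one_le'
      · intro p hp
        rw [mem_filter, mem_range]
        refine ⟨?_, hPzp p hp⟩
        have := (mem_filter.mp hp).2
        have h3 : p ≤ ⌊y⌋₊ := Nat.le_floor this
        omega
      · intro p hp _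
        exact (mem_filter.mp hp).2.one_lt.le
    have h2 : M ≤ 4 ^ ⌊y⌋₊ := h1.trans (primorial_le_four_pow _)
    have h3 : (M : ℝ) ≤ (4 : ℝ) ^ (⌊y⌋₊ : ℝ) := by
      rw [Real.rpow_natCast]; exact_mod_cast h2
    have h4 : (4 : ℝ) ^ (⌊y⌋₊ : ℝ) ≤ (4 : ℝ) ^ y :=
      Real.rpow_le_rpow_of_exponent_le (by norm_num) (Nat.floor_le (by linarith only [hlogr, hy]))
    have h5 : (4 : ℝ) ^ y = Real.exp (Real.log 4 * y) := Real.rpow_def_of_pos (by norm_num) _
    have h6 : Real.log 4 ≤ 1.4 := by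
      have e : Real.log 4 = 2 * Real.log 2 := by
        rw [show (4 : ℝ) = 2 ^ 2 by norm_num, Real.log_pow]; norm_num
      rw [e]
      have := Real.log_two_lt_d9
      linarith only [this]
    have h7 : Real.log 4 * y ≤ Real.log r / 2 := by
      calc Real.log 4 * y ≤ 1.4 * y := mul_le_mul_of_nonneg_right h6 (by linarith only [hlogr, hy])
        _ ≤ Real.log r / 2 := by rw [hy]; linarith only [hlogr]
    have h8 : Real.exp (Real.log r / 2) = Real.sqrt r := by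
      rw [Real.sqrt_eq_rpow, Real.rpow_def_of_pos hrpos]
      congr 1; ring
    calc (M : ℝ) ≤ Real.exp (Real.log 4 * y) := by rw [← h5]; exact h3.trans h4
      _ ≤ Real.exp (Real.log r / 2) := Real.exp_le_exp.mpr h7
      _ = Real.sqrt r := h8
      _ ≤ n := hn
  have hcopB : IsCoprime (B : ℤ) ((1 * M : ℕ) : ℤ) := by
    rw [one_mul, Nat.isCoprime_iff_coprime, hM]
    apply Nat.Coprime.prod_right
    intro p hp
    have h3 := h₂ p (mem_filter.mp hp).1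
    exact ((Nat.Prime.coprime_iff_not_dvd h3.1).mpr h3.2.2).symm
  have hT := (count_T (B : ℤ) A 1 M one_pos hM0 (Nat.coprime_one_left M) hcopB s n).2
  have hsub : (Ico s (s + n)).filter (fun be : ℤ => ∀ p ∈ Pb, ¬ (p : ℤ) ∣ be * (B : ℤ) + A) ⊆
      (Ico s (s + n)).filter (fun al : ℤ => ((1 : ℕ) : ℤ) ∣ al * B + A ∧
        IsCoprime (al * B + A) (M : ℤ)) := by
    intro be hbe
    rw [mem_filter] at hbe ⊢
    refine ⟨hbe.1, by simp, ?_⟩
    rw [hM]
    push_cast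
    apply IsCoprime.prod_right
    intro p hp
    have hpp := hPzp p hp
    have := (Nat.prime_iff_prime_int.mp hpp).coprime_iff_not_dvd.mpr
      (hbe.2 p (mem_filter.mp hp).1)
    exact this.symm
  have hcard : (((Ico s (s + n)).filter
      (fun be : ℤ => ∀ p ∈ Pb, ¬ (p : ℤ) ∣ be * (B : ℤ) + A)).card : ℝ) ≤
      (((Ico s (s + n)).filter (fun al : ℤ => ((1 : ℕ) : ℤ) ∣ al * B + A ∧
        IsCoprime (al * B + A) (M : ℤ))).card : ℝ) := by
    exact_mod_cast card_le_card hsub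
  have hTe : (((Ico s (s + n)).filter (fun al : ℤ => ((1 : ℕ) : ℤ) ∣ al * B + A ∧
        IsCoprime (al * B + A) (M : ℤ))).card : ℝ) ≤
        ((n : ℝ) / ((1 : ℕ) * M) + 1) * M.totient := by
    convert hT
  have hφ : (M.totient : ℝ) = M * pr Pz := by
    have h1 := bt_totient_div_eq hM0
    have h2 : M.primeFactors = Pz := by
      rw [hM]
      exact Nat.primeFactors_prod hPzp
    rw [h2] at h1
    rw [div_eq_iff hM0R.ne'] at h1
    rw [h1, pr]; ring
  -- large primes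
  have hlarge : (pr (Pb.filter (fun p : ℕ => ¬ (p : ℝ) ≤ y)))⁻¹ ≤ Real.exp 64 := by
    have h1 := bs_prod_le_exp (Pb.filter (fun p : ℕ => ¬ (p : ℝ) ≤ y))
      (fun p hp => (h₂ p (mem_filter.mp hp).1).1)
    rw [pr, ← prod_inv_distrib]
    refine h1.trans (Real.exp_le_exp.mpr ?_)
    have h2 := bs_sum_large hr0 hy2
    have h3 : ∑ p ∈ Pb.filter (fun p : ℕ => ¬ (p : ℝ) ≤ y), 1 / (p : ℝ) ≤
        ∑ p ∈ r.primeFactors.filter (fun p : ℕ => y < (p : ℝ)), 1 / (p : ℝ) := by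
      apply sum_le_sum_of_subset_of_nonneg
      · intro p hp
        rw [mem_filter, not_le] at hp
        rw [mem_filter, Nat.mem_primeFactors]
        exact ⟨⟨(h₂ p hp.1).1, (h₂ p hp.1).2.1, hr0.ne'⟩, hp.2⟩
      · intro p _ _
        positivity
    have h4 : 2 * Real.log r / y ≤ 32 := by
      rw [div_le_iff₀ (by linarith only [hlogr, hy]), hy]
      linarith only []
    linarith only [h2, h3, h4]
  have hprsplit : pr Pb = pr Pz * pr (Pb.filter (fun p : ℕ => ¬ (p : ℝ) ≤ y)) := by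
    rw [pr, pr, pr, hPz, prod_filter_mul_prod_filter_not]
  have hbig0 : 0 < pr (Pb.filter (fun p : ℕ => ¬ (p : ℝ) ≤ y)) :=
    kc_pr_pos _ (fun p hp => (h₂ p (mem_filter.mp hp).1).1)
  have hz0 : 0 < pr Pz := kc_pr_pos _ hPzp
  have hPzle : pr Pz ≤ Real.exp 64 * pr Pb := by
    rw [hprsplit]
    have h1 : 1 ≤ Real.exp 64 * pr (Pb.filter (fun p : ℕ => ¬ (p : ℝ) ≤ y)) := by
      rw [inv_le_iff_one_le_mul₀ hbig0] at hlarge
      exact hlarge
    calc pr Pz = pr Pz * 1 := (mul_one _).symm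
      _ ≤ pr Pz * (Real.exp 64 * pr (Pb.filter (fun p : ℕ => ¬ (p : ℝ) ≤ y))) :=
          mul_le_mul_of_nonneg_left h1 hz0.le
      _ = _ := by ring
  calc (((Ico s (s + n)).filter (fun be : ℤ => ∀ p ∈ Pb, ¬ (p : ℤ) ∣ be * (B : ℤ) + A)).card : ℝ)
      ≤ ((n : ℝ) / ((1 : ℕ) * M) + 1) * M.totient := hcard.trans hTe
    _ = ((n : ℝ) + M) * pr Pz := by
        rw [hφ]; field_simp; push_cast; ring
    _ ≤ (2 * n) * (Real.exp 64 * pr Pb) := by
        apply mul_le_mul (by linarith only [hM1]) hPzle hz0.le (by positivity)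
    _ = _ := by ring

/-- pairs from different levels -/
theorem cross_overlap : ∃ C > 0, ∃ Q₀ : ℕ, ∀ (γ : ℝ) (q r : ℕ) (α β : ℝ), Q₀ ≤ q → q ^ 6 ≤ r →
    0 < α → α ≤ 1 / 2 → 0 < β → β ≤ 1 / 2 → 1 / (q : ℝ) ^ 2 ≤ α → ∀ (B B' : ℕ) (A A' : ℤ)
    (Pa Pb : Finset ℕ), (∀ p ∈ Pa, p.Prime ∧ p ∣ q ∧ ¬ p ∣ B) →
    (∀ p ∈ Pb, p.Prime ∧ p ∣ r ∧ ¬ p ∣ B') →
    ∀ (P₁ P₂ : ℤ → Prop), (∀ al, P₁ al → ∀ p ∈ Pa, ¬ (p : ℤ) ∣ al * (B : ℤ) + A) →
    (∀ al, P₂ al → ∀ p ∈ Pb, ¬ (p : ℤ) ∣ al * (B' : ℤ) + A') →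
    volume.real (GS γ q α P₁ ∩ GS γ r β P₂ ∩ Set.Ioc 0 1) ≤ C * (α * β) * pr Pa * pr Pb := by
  classical
  refine ⟨40 * Real.exp 64, by positivity, 4, ?_⟩
  intro γ q r α β hq4 hqr hα hα2 hβ hβ2 hαq B B' A A' Pa Pb h₁ h₂ P₁ P₂ hP₁ hP₂
  have hq0 : 0 < q := by omega
  have hq0R : (0 : ℝ) < q := by exact_mod_cast hq0
  have hq4R : (4 : ℝ) ≤ q := by exact_mod_cast hq4
  have hr4096 : 4096 ≤ r := by
    have : 4 ^ 6 ≤ q ^ 6 := Nat.pow_le_pow_left hq4 6
    omega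
  have hr0 : 0 < r := by omega
  have hr0R : (0 : ℝ) < r := by exact_mod_cast hr0
  have hqrR : ((q : ℝ) ^ 3) ^ 2 ≤ r := by
    have : ((q ^ 6 : ℕ) : ℝ) ≤ r := by exact_mod_cast hqr
    push_cast at this
    have e : ((q : ℝ) ^ 3) ^ 2 = (q : ℝ) ^ 6 := by ring
    rw [e]
    exact this
  have hs3 : (q : ℝ) ^ 3 ≤ Real.sqrt r := Real.le_sqrt_of_sq_le hqrR
  have hsq : Real.sqrt r * Real.sqrt r = r := Real.mul_self_sqrt hr0R.le
  have hsr1 : 1 ≤ Real.sqrt r := by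
    have : (64 : ℝ) ≤ (q : ℝ) ^ 3 := by
      calc (64 : ℝ) = 4 ^ 3 := by norm_num
        _ ≤ (q : ℝ) ^ 3 := pow_le_pow_left₀ (by norm_num) hq4R 3
    linarith only [hs3, this]
  set L : ℝ := r * α / q with hL
  have hLs : Real.sqrt r ≤ L := by
    rw [hL, le_div_iff₀ hq0R]
    have h1 : Real.sqrt r * q ^ 3 ≤ r := by
      calc Real.sqrt r * (q : ℝ) ^ 3 ≤ Real.sqrt r * Real.sqrt r :=
            mul_le_mul_of_nonneg_left hs3 (by linarith only [hsr1])
        _ = r := hsq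
    have h2 : (r : ℝ) * (1 / (q : ℝ) ^ 2) ≤ r * α := mul_le_mul_of_nonneg_left hαq hr0R.le
    have h3 : Real.sqrt r * q = Real.sqrt r * q ^ 3 * (1 / (q : ℝ) ^ 2) := by
      field_simp
    rw [h3]
    refine le_trans ?_ h2
    exact mul_le_mul_of_nonneg_right h1 (by positivity)
  set n : ℕ := ⌈2 * L⌉₊ + 2 with hn
  have hn1 : 2 * L + 2 ≤ n := by
    rw [hn]; push_cast
    linarith only [Nat.le_ceil (2 * L)]
  have hn2 : (n : ℝ) ≤ 5 * L := by
    rw [hn]; push_cast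
    have := Nat.ceil_lt_add_one (show 0 ≤ 2 * L by linarith only [hsr1, hLs])
    linarith only [hsr1, hLs, this]
  -- windows
  set t₀ : ℤ := ⌊-γ - 1 / 2⌋ + 1 with ht₀
  set T₁ : Finset ℤ := (Ico t₀ (t₀ + ((2 * q : ℕ) : ℤ))).filter
    (fun al => ∀ p ∈ Pa, ¬ (p : ℤ) ∣ al * (B : ℤ) + A) with hT₁
  set s : ℤ → ℤ := fun al => ⌊(r : ℝ) * ((al + γ) / q) - γ - (L + 1 / 2)⌋ + 1 with hs
  set T₂ : ℤ → Finset ℤ := fun al => (Ico (s al) (s al + n)).filter
    (fun be : ℤ => ∀ p ∈ Pb, ¬ (p : ℤ) ∣ be * (B' : ℤ) + A') with hT₂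
  have hcard1 : (T₁.card : ℝ) ≤ 2 * q * pr Pa := by
    have hc1 : ∀ p : ℕ, ∃ c : ℤ, p ∈ Pa → (p : ℤ) ∣ (B : ℤ) * c + A := by
      intro p
      by_cases hp : p ∈ Pa
      · obtain ⟨hpp, _, hpB⟩ := h₁ p hp
        obtain ⟨c, hc⟩ := ko_exists_root hpp (m := (B : ℤ)) (by exact_mod_cast hpB) A
        exact ⟨c, fun _ => hc⟩
      · exact ⟨0, fun h => absurd h hp⟩
    choose c₁ hc₁ using hc1
    have hcc := count_classes (2 * q) (by omega) Pa ∅
      (fun p hp => ⟨(h₁ p hp).1, Dvd.dvd.mul_left (h₁ p hp).2.1 2⟩)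
      (fun p hp => absurd hp (notMem_empty _)) c₁ (fun _ => 0) t₀
    have hsub : T₁ ⊆ (Ico t₀ (t₀ + ((2 * q : ℕ) : ℤ))).filter
        (fun t => (∀ p ∈ Pa, ¬ (p : ℤ) ∣ t - c₁ p) ∧
          (∀ p ∈ (∅ : Finset ℕ), ¬ (p : ℤ) ∣ t - (fun _ => 0 : ℕ → ℤ) p)) := by
      intro t ht
      rw [hT₁, mem_filter] at ht
      rw [mem_filter]
      refine ⟨ht.1, ?_, fun p hp => absurd hp (notMem_empty _)⟩
      intro p hp hdiv
      apply ht.2 p hp
      have e : t * (B : ℤ) + A = ((B : ℤ) * c₁ p + A) + (t - c₁ p) * B := by ring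
      rw [e]
      exact dvd_add (hc₁ p hp) (Dvd.dvd.mul_right hdiv _)
    have h3 : (T₁.card : ℝ) ≤ (((Ico t₀ (t₀ + ((2 * q : ℕ) : ℤ))).filter
        (fun t => (∀ p ∈ Pa, ¬ (p : ℤ) ∣ t - c₁ p) ∧
          (∀ p ∈ (∅ : Finset ℕ), ¬ (p : ℤ) ∣ t - (fun _ => 0 : ℕ → ℤ) p))).card : ℝ) := by
      exact_mod_cast card_le_card hsub
    refine h3.trans (le_trans (le_of_eq ?_) (hcc.trans (le_of_eq ?_)))
    · congr!
    · simp [pr]
  have hcard2 : ∀ al, ((T₂ al).card : ℝ) ≤ 2 * Real.exp 64 * n * pr Pb := by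
    intro al
    have := kc_count B' A' r hr4096 Pb h₂ (s al) n (by linarith only [hLs, hn1])
    refine le_trans (le_of_eq ?_) this
    congr!
  have hsub : GS γ q α P₁ ∩ GS γ r β P₂ ∩ Set.Ioc 0 1 ⊆
      ⋃ al ∈ T₁, ⋃ be ∈ T₂ al, {x : ℝ | |(r : ℝ) * x - γ - be| < β} := by
    rintro x ⟨⟨⟨al, hal, hx1⟩, ⟨be, hbe, hx2⟩⟩, hx3, hx4⟩
    simp only [Set.mem_iUnion]
    rw [abs_lt] at hx1
    have hx2' := abs_lt.mp hx2
    have hqx : 0 < (q : ℝ) * x := mul_pos hq0R hx3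
    have hqx2 : (q : ℝ) * x ≤ q := by nlinarith only [hx4]
    refine ⟨al, ?_, be, ?_, hx2⟩
    · rw [hT₁, mem_filter, mem_Ico]
      refine ⟨⟨?_, ?_⟩, hP₁ al hal⟩
      · rw [ht₀]
        have h3 : (⌊-γ - 1 / 2⌋ : ℤ) < al := by
          apply Int.floor_lt.mpr
          linarith only [hα2, hqx, hx1.2]
        omega
      · rw [ht₀]
        have h3 : (al : ℝ) < (⌊-γ - 1 / 2⌋ : ℤ) + 1 + 2 * q := by
          have := Int.lt_floor_add_one (-γ - 1 / 2)
          linarith only [hα2, hq4R, hqx2, this, hx1.1]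
        have h4 : al < ⌊-γ - 1 / 2⌋ + 1 + 2 * q := by exact_mod_cast h3
        push_cast
        linarith only [h4]
    · simp only [hT₂, mem_filter, mem_Ico]
      -- distance of `r x` from the centre
      have h5 : |(r : ℝ) * x - r * ((al + γ) / q)| ≤ L := by
        have e : (r : ℝ) * x - r * ((al + γ) / q) = r / q * (q * x - γ - al) := by
          field_simp; ring
        rw [e, abs_mul, abs_of_pos (by positivity)]
        have h6 : |(q : ℝ) * x - γ - al| ≤ α := abs_le.mpr ⟨by linarith only [hx1.1], by linarith only [hx1.2]⟩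
        calc (r : ℝ) / q * |(q : ℝ) * x - γ - al| ≤ r / q * α :=
              mul_le_mul_of_nonneg_left h6 (by positivity)
          _ = L := by rw [hL]; ring
      have h5' := abs_le.mp h5
      refine ⟨⟨?_, ?_⟩, hP₂ be hbe⟩
      · have h3 : (⌊(r : ℝ) * ((al + γ) / q) - γ - (L + 1 / 2)⌋ : ℤ) < be := by
          apply Int.floor_lt.mpr
          linarith only [hβ2, h5', hx2'.2]
        simp only [hs]
        omega
      · have h3 : (be : ℝ) < (⌊(r : ℝ) * ((al + γ) / q) - γ - (L + 1 / 2)⌋ : ℤ) + 1 + n := by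
          have := Int.lt_floor_add_one ((r : ℝ) * ((al + γ) / q) - γ - (L + 1 / 2))
          linarith only [hβ2, hn1, h5', this, hx2'.1]
        have h4 : be < ⌊(r : ℝ) * ((al + γ) / q) - γ - (L + 1 / 2)⌋ + 1 + n := by
          exact_mod_cast h3
        simp only [hs]
        exact h4
  have hK0 : 0 ≤ 2 * Real.exp 64 * n * pr Pb :=
    mul_nonneg (by positivity) (pr_nonneg_of_prime _ fun p hp => (h₂ p hp).1)
  have hvol : volume (GS γ q α P₁ ∩ GS γ r β P₂ ∩ Set.Ioc 0 1) ≤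
      ENNReal.ofReal (∑ al ∈ T₁, ((T₂ al).card : ℝ) * (2 * (β / r))) := by
    calc volume (GS γ q α P₁ ∩ GS γ r β P₂ ∩ Set.Ioc 0 1)
        ≤ volume (⋃ al ∈ T₁, ⋃ be ∈ T₂ al, {x : ℝ | |(r : ℝ) * x - γ - be| < β}) :=
          measure_mono hsub
      _ ≤ ∑ al ∈ T₁, volume (⋃ be ∈ T₂ al, {x : ℝ | |(r : ℝ) * x - γ - be| < β}) :=
          measure_biUnion_finset_le _ _
      _ ≤ ∑ al ∈ T₁, ∑ be ∈ T₂ al, volume {x : ℝ | |(r : ℝ) * x - γ - be| < β} :=
          sum_le_sum fun k _ => measure_biUnion_finset_le _ _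
      _ = ∑ al ∈ T₁, ∑ be ∈ T₂ al, ENNReal.ofReal (2 * (β / r)) := by
          simp only [ko_arc hr0]
      _ = ENNReal.ofReal (∑ al ∈ T₁, ((T₂ al).card : ℝ) * (2 * (β / r))) := by
          rw [ENNReal.ofReal_sum_of_nonneg (fun k _ => by positivity)]
          apply sum_congr rfl
          intro k _
          rw [sum_const, nsmul_eq_mul, ENNReal.ofReal_mul (Nat.cast_nonneg _),
            ENNReal.ofReal_natCast]
  have hreal : volume.real (GS γ q α P₁ ∩ GS γ r β P₂ ∩ Set.Ioc 0 1) ≤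
      ∑ al ∈ T₁, ((T₂ al).card : ℝ) * (2 * (β / r)) :=
    ENNReal.toReal_le_of_le_ofReal (sum_nonneg fun k _ => by positivity) hvol
  have hpa : 0 ≤ pr Pa := pr_nonneg_of_prime _ fun p hp => (h₁ p hp).1
  have hpb : 0 ≤ pr Pb := pr_nonneg_of_prime _ fun p hp => (h₂ p hp).1
  calc volume.real (GS γ q α P₁ ∩ GS γ r β P₂ ∩ Set.Ioc 0 1)
      ≤ ∑ al ∈ T₁, ((T₂ al).card : ℝ) * (2 * (β / r)) := hreal
    _ ≤ ∑ al ∈ T₁, (2 * Real.exp 64 * n * pr Pb) * (2 * (β / r)) :=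
        sum_le_sum fun al _ => mul_le_mul_of_nonneg_right (hcard2 al) (by positivity)
    _ = T₁.card * ((2 * Real.exp 64 * n * pr Pb) * (2 * (β / r))) := by
        rw [sum_const, nsmul_eq_mul]
    _ ≤ (2 * q * pr Pa) * ((2 * Real.exp 64 * (5 * L) * pr Pb) * (2 * (β / r))) := by
        apply mul_le_mul hcard1 _ (by positivity) (by positivity)
        apply mul_le_mul_of_nonneg_right _ (by positivity)
        apply mul_le_mul_of_nonneg_right _ hpb
        apply mul_le_mul_of_nonneg_left hn2 (by positivity)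
    _ = 40 * Real.exp 64 * (α * β) * pr Pa * pr Pb := by
        rw [hL]; field_simp; ring

end Vale.P028
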