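import Vale.Agent.P028.MathlibUsed
import Vale.Agent.P028.KDefs
import Vale.Agent.P028.BSel
attribute [-instance] ProperSMul.toContinuousSMul IsTopologicalTorsor.toContinuousSMul IdemSemiring.toCanonicallyOrderedAdd IdemSemiring.toMulLeftMono IdemSemiring.toMulRightMono AddQuantale.instAddLeftMono AddQuantale.instAddRightMono Quantale.instMulLeftMono Quantale.instMulRightMono FiniteDimensional.rclike_to_real IsScalarTower.complexToReal FiniteDimensional.complexToReal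

set_option linter.all false

/-!
# Counting allowed centres in intervals; lower bound for `φ(q)/q`
-/

namespace Vale.P028

open Finset

/-! ## Legendre's formula with the trivial error term -/

/-- counting a residue class in an interval -/
theorem lc_class (d : ℕ) (hd : 0 < d) (c m n : ℤ) (hmn : m ≤ n) :
    |(((Ioc m n).filter (fun al : ℤ => (d : ℤ) ∣ al - c)).card : ℝ) - ((n : ℝ) - m) / d| ≤ 1 := by
  have hd' : (0 : ℤ) < d := by exact_mod_cast hd
  have h1 : (Ioc m n).filter (fun al : ℤ => (d : ℤ) ∣ al - c) =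
      (Ioc m n).filter (fun al : ℤ => al ≡ c [ZMOD (d : ℤ)]) := by
    refine filter_congr fun al _ => ?_
    rw [Int.modEq_comm, Int.modEq_iff_dvd]
  have h2 := Int.Ioc_filter_modEq_card (a := m) (b := n) (v := c) (r := (d : ℤ)) hd'
  have hdq : (0 : ℚ) < (d : ℤ) := by exact_mod_cast hd
  have h3 : ⌊((m : ℚ) - c) / ((d : ℤ) : ℚ)⌋ ≤ ⌊((n : ℚ) - c) / ((d : ℤ) : ℚ)⌋ := by
    apply Int.floor_le_floor
    apply div_le_div_of_nonneg_right _ hdq.le
    have : (m : ℚ) ≤ n := by exact_mod_cast hmn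
    linarith only [this]
  rw [max_eq_left (by
    have := h3
    push_cast at this ⊢
    linarith only [this])] at h2
  rw [h1]
  have h4 : ((((Ioc m n).filter (fun al : ℤ => al ≡ c [ZMOD (d : ℤ)])).card : ℤ) : ℝ) =
      ((⌊((n : ℚ) - c) / ((d : ℤ) : ℚ)⌋ - ⌊((m : ℚ) - c) / ((d : ℤ) : ℚ)⌋ : ℤ) : ℝ) := by
    rw [h2]
  have h5 : ((((Ioc m n).filter (fun al : ℤ => al ≡ c [ZMOD (d : ℤ)])).card : ℤ) : ℝ) =
      (((Ioc m n).filter (fun al : ℤ => al ≡ c [ZMOD (d : ℤ)])).card : ℝ) := by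
    push_cast
    rfl
  rw [← h5, h4]
  have a1 := Int.floor_le (((n : ℚ) - c) / ((d : ℤ) : ℚ))
  have a2 := Int.lt_floor_add_one (((n : ℚ) - c) / ((d : ℤ) : ℚ))
  have a3 := Int.floor_le (((m : ℚ) - c) / ((d : ℤ) : ℚ))
  have a4 := Int.lt_floor_add_one (((m : ℚ) - c) / ((d : ℤ) : ℚ))
  have b1 : ((⌊((n : ℚ) - c) / ((d : ℤ) : ℚ)⌋ : ℤ) : ℝ) ≤ ((n : ℝ) - c) / d := by
    exact_mod_cast (by exact_mod_cast a1 :
      ((⌊((n : ℚ) - c) / ((d : ℤ) : ℚ)⌋ : ℤ) : ℚ) ≤ ((n : ℚ) - c) / d)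
  have b2 : ((n : ℝ) - c) / d < ((⌊((n : ℚ) - c) / ((d : ℤ) : ℚ)⌋ : ℤ) : ℝ) + 1 := by
    exact_mod_cast (by exact_mod_cast a2 :
      ((n : ℚ) - c) / d < ((⌊((n : ℚ) - c) / ((d : ℤ) : ℚ)⌋ : ℤ) : ℚ) + 1)
  have b3 : ((⌊((m : ℚ) - c) / ((d : ℤ) : ℚ)⌋ : ℤ) : ℝ) ≤ ((m : ℝ) - c) / d := by
    exact_mod_cast (by exact_mod_cast a3 :
      ((⌊((m : ℚ) - c) / ((d : ℤ) : ℚ)⌋ : ℤ) : ℚ) ≤ ((m : ℚ) - c) / d)
  have b4 : ((m : ℝ) - c) / d < ((⌊((m : ℚ) - c) / ((d : ℤ) : ℚ)⌋ : ℤ) : ℝ) + 1 := by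
    exact_mod_cast (by exact_mod_cast a4 :
      ((m : ℚ) - c) / d < ((⌊((m : ℚ) - c) / ((d : ℤ) : ℚ)⌋ : ℤ) : ℚ) + 1)
  have b5 : ((n : ℝ) - m) / d = ((n : ℝ) - c) / d - ((m : ℝ) - c) / d := by ring
  rw [b5, abs_le, Int.cast_sub]
  constructor <;> linarith only [b1, b4, b2, b3]

/-- a root of `al B + A` modulo `p` -/
theorem lc_root {p B : ℕ} (hp : p.Prime) (hB : ¬ p ∣ B) (A : ℤ) :
    ∃ c : ℤ, ∀ al : ℤ, (p : ℤ) ∣ al * (B : ℤ) + A ↔ (p : ℤ) ∣ al - c := by
  have hcop : Nat.Coprime B p := (Nat.Prime.coprime_iff_not_dvd hp).2 hB |>.symm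
  obtain ⟨y, hy⟩ := Int.mod_coprime hcop
  have hy' : (p : ℤ) ∣ (B : ℤ) * y - 1 := by
    rw [← Int.modEq_iff_dvd]
    exact hy.symm
  refine ⟨-A * y, fun al => ?_⟩
  have hpB : ¬ (p : ℤ) ∣ (B : ℤ) := by
    rw [Int.natCast_dvd_natCast]
    exact hB
  have hpp : Prime (p : ℤ) := Nat.prime_iff_prime_int.1 hp
  constructor
  · intro h
    have h1 : (p : ℤ) ∣ (B : ℤ) * (al - -A * y) := by
      have : (B : ℤ) * (al - -A * y) = (al * B + A) + A * (B * y - 1) := by ring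
      rw [this]
      exact dvd_add h (Dvd.dvd.mul_left hy' A)
    rcases hpp.dvd_or_dvd h1 with h2 | h2
    · exact absurd h2 hpB
    · exact h2
  · intro h
    have : al * (B : ℤ) + A = (B : ℤ) * (al - -A * y) - A * (B * y - 1) := by ring
    rw [this]
    exact dvd_sub (Dvd.dvd.mul_left h _) (Dvd.dvd.mul_left hy' A)

/-- CRT for two classes -/
theorem lc_crt {d p : ℕ} (hcop : Nat.Coprime d p) (c c' : ℤ) :
    ∃ e : ℤ, ∀ al : ℤ, ((d : ℤ) ∣ al - c ∧ (p : ℤ) ∣ al - c') ↔ ((d * p : ℕ) : ℤ) ∣ al - e := by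
  obtain ⟨y, hy⟩ := Int.mod_coprime hcop
  have hy' : (p : ℤ) ∣ (d : ℤ) * y - 1 := by
    rw [← Int.modEq_iff_dvd]
    exact hy.symm
  refine ⟨c + d * (y * (c' - c)), fun al => ?_⟩
  have e1 : (d : ℤ) ∣ (c + d * (y * (c' - c))) - c := ⟨y * (c' - c), by ring⟩
  have e2 : (p : ℤ) ∣ (c + d * (y * (c' - c))) - c' := by
    have : (c + d * (y * (c' - c))) - c' = (c' - c) * (d * y - 1) := by ring
    rw [this]
    exact Dvd.dvd.mul_left hy' _
  constructor
  · rintro ⟨h1, h2⟩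
    push_cast
    apply IsCoprime.mul_dvd
    · exact Nat.isCoprime_iff_coprime.2 hcop
    · have : al - (c + d * (y * (c' - c))) = (al - c) - ((c + d * (y * (c' - c))) - c) := by ring
      rw [this]
      exact dvd_sub h1 e1
    · have : al - (c + d * (y * (c' - c))) = (al - c') - ((c + d * (y * (c' - c))) - c') := by ring
      rw [this]
      exact dvd_sub h2 e2
  · intro h
    push_cast at h
    constructor
    · have h1 : (d : ℤ) ∣ al - (c + d * (y * (c' - c))) := (Dvd.intro _ rfl).trans h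
      have : al - c = (al - (c + d * (y * (c' - c)))) + ((c + d * (y * (c' - c))) - c) := by ring
      rw [this]
      exact dvd_add h1 e1
    · have h1 : (p : ℤ) ∣ al - (c + d * (y * (c' - c))) := (Dvd.intro_left _ rfl).trans h
      have : al - c' = (al - (c + d * (y * (c' - c)))) + ((c + d * (y * (c' - c))) - c') := by ring
      rw [this]
      exact dvd_add h1 e2

theorem lc_gen (B : ℕ) (A m n : ℤ) (hmn : m ≤ n) (Ps : Finset ℕ) :
    (∀ p ∈ Ps, p.Prime ∧ ¬ p ∣ B) → ∀ (d : ℕ) (c : ℤ), 0 < d → (∀ p ∈ Ps, Nat.Coprime d p) →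
    |(((Ioc m n).filter (fun al : ℤ => (∀ p ∈ Ps, ¬ (p : ℤ) ∣ al * (B : ℤ) + A) ∧
      (d : ℤ) ∣ al - c)).card : ℝ) - ((n : ℝ) - m) / d * pr Ps| ≤ 2 ^ Ps.card := by
  classical
  induction Ps using Finset.induction_on with
  | empty =>
    intro _ d c hd _
    have := lc_class d hd c m n hmn
    simpa only [notMem_empty, IsEmpty.forall_iff, implies_true, true_and, pr, one_div, prod_empty, mul_one,     card_empty, pow_zero, ge_iff_le] using this
  | insert p Ps hp ih =>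
    intro h d c hd hcop
    have hpp := h p (mem_insert_self _ _)
    obtain ⟨c', hc'⟩ := lc_root hpp.1 hpp.2 A
    obtain ⟨e, he⟩ := lc_crt (hcop p (mem_insert_self _ _)) c c'
    have i1 := ih (fun p' hp' => h p' (mem_insert_of_mem hp')) d c hd
      (fun p' hp' => hcop p' (mem_insert_of_mem hp'))
    have i2 := ih (fun p' hp' => h p' (mem_insert_of_mem hp')) (d * p) e
      (Nat.mul_pos hd hpp.1.pos) (fun p' hp' => by
        refine Nat.Coprime.mul_left (hcop p' (mem_insert_of_mem hp')) ?_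
        rw [Nat.coprime_primes hpp.1 (h p' (mem_insert_of_mem hp')).1]
        rintro rfl
        exact hp hp')
    have hsplit : ((Ioc m n).filter (fun al : ℤ => (∀ p' ∈ Ps, ¬ (p' : ℤ) ∣ al * (B : ℤ) + A) ∧
        (d : ℤ) ∣ al - c)).card =
        ((Ioc m n).filter (fun al : ℤ => (∀ p' ∈ insert p Ps, ¬ (p' : ℤ) ∣ al * (B : ℤ) + A) ∧
          (d : ℤ) ∣ al - c)).card +
        ((Ioc m n).filter (fun al : ℤ => (∀ p' ∈ Ps, ¬ (p' : ℤ) ∣ al * (B : ℤ) + A) ∧
          ((d * p : ℕ) : ℤ) ∣ al - e)).card := by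
      rw [← card_union_of_disjoint]
      · congr 1
        ext al
        simp only [mem_filter, mem_union, mem_insert, forall_eq_or_imp]
        constructor
        · rintro ⟨h1, h2, h3⟩
          by_cases h4 : (p : ℤ) ∣ al * (B : ℤ) + A
          · right
            exact ⟨h1, h2, (he al).1 ⟨h3, (hc' al).1 h4⟩⟩
          · left
            exact ⟨h1, ⟨h4, h2⟩, h3⟩
        · rintro (⟨h1, ⟨h4, h2⟩, h3⟩ | ⟨h1, h2, h3⟩)
          · exact ⟨h1, h2, h3⟩
          · exact ⟨h1, h2, ((he al).2 h3).1⟩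
      · rw [disjoint_left]
        intro al h1 h2
        rw [mem_filter] at h1 h2
        exact h1.2.1 p (mem_insert_self _ _) ((hc' al).2 ((he al).2 h2.2.2).2)
    have hpr : pr (insert p Ps) = (1 - 1 / (p : ℝ)) * pr Ps := by
      unfold pr
      rw [prod_insert hp]
    have hp0 : (p : ℝ) ≠ 0 := by exact_mod_cast hpp.1.ne_zero
    have hd0 : (d : ℝ) ≠ 0 := by exact_mod_cast hd.ne'
    rw [card_insert_of_notMem hp, pow_succ, hpr]
    rw [hsplit] at i1
    push_cast at i1 i2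
    have e3 : ((n : ℝ) - m) / d * ((1 - 1 / (p : ℝ)) * pr Ps) =
        ((n : ℝ) - m) / d * pr Ps - ((n : ℝ) - m) / (d * p) * pr Ps := by
      (clear * - hp0 hd0; field_simp)
    rw [e3]
    rw [abs_le] at i1 i2 ⊢
    constructor <;> linarith only [i1.1, i2.2, i1.2, i2.1]

theorem legendre_count (Ps : Finset ℕ) (B : ℕ) (A : ℤ) (h : ∀ p ∈ Ps, p.Prime ∧ ¬ p ∣ B)
    (m n : ℤ) (hmn : m ≤ n) :
    |(((Ioc m n).filter (fun al : ℤ => ∀ p ∈ Ps, ¬ (p : ℤ) ∣ al * (B : ℤ) + A)).card : ℝ) -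
      ((n : ℝ) - m) * pr Ps| ≤ 2 ^ Ps.card := by
  have := lc_gen B A m n hmn Ps h 1 0 one_pos (fun p _ => Nat.coprime_one_left p)
  simpa only [ge_iff_le, Nat.cast_one, sub_zero, isUnit_one, IsUnit.dvd, and_true, div_one] using this

/-! ## Lower bound -/

theorem lc_card_bound (Ps : Finset ℕ) (h : ∀ p ∈ Ps, p.Prime) :
    (16 : ℕ) ^ Ps.card ≤ 16 ^ 16 * ∏ p ∈ Ps, p := by
  classical
  rw [← prod_const, ← prod_filter_mul_prod_filter_not Ps (fun p => p < 16) (fun _ => 16),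
    ← prod_filter_mul_prod_filter_not Ps (fun p => p < 16) (fun p => p), ← mul_assoc]
  refine Nat.mul_le_mul ?_ ?_
  · have h1 : ∏ _p ∈ Ps.filter (fun p => p < 16), 16 ≤ 16 ^ 16 := by
      rw [prod_const]
      refine Nat.pow_le_pow_right (by norm_num) ?_
      calc (Ps.filter (fun p => p < 16)).card ≤ (range 16).card := by
            refine card_le_card fun p hp => ?_
            rw [mem_range]
            exact (mem_filter.1 hp).2
        _ = 16 := card_range _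
    have h2 : 1 ≤ ∏ p ∈ Ps.filter (fun p => p < 16), p :=
      Nat.one_le_iff_ne_zero.2 (prod_ne_zero_iff.2 fun p hp => (h p (mem_filter.1 hp).1).ne_zero)
    calc ∏ _p ∈ Ps.filter (fun p => p < 16), 16 ≤ 16 ^ 16 * 1 := by simpa only [prod_const, Nat.reducePow, mul_one] using h1
      _ ≤ _ := Nat.mul_le_mul_left _ h2
  · refine prod_le_prod' fun p hp => ?_
    exact not_lt.1 (mem_filter.1 hp).2

theorem lc_pr_ge (Ps : Finset ℕ) (h : ∀ p ∈ Ps, p.Prime) :
    (1 / 2 : ℝ) ^ Ps.card ≤ pr Ps := by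
  unfold pr
  rw [← prod_const]
  refine prod_le_prod (fun _ _ => by norm_num) fun p hp => ?_
  have h2 : (2 : ℝ) ≤ p := by exact_mod_cast (h p hp).two_le
  have h3 : 1 / (p : ℝ) ≤ 1 / 2 := one_div_le_one_div_of_le (by norm_num) h2
  linarith only [h3]

theorem lower_count (η : ℝ) (hη : 0 < η) : ∃ Q₀ : ℕ, ∀ (q B : ℕ) (A : ℤ) (Ps : Finset ℕ),
    Q₀ ≤ q → (∀ p ∈ Ps, p.Prime ∧ p ∣ q ∧ ¬ p ∣ B) → ∀ m n : ℤ, η * q ≤ (n : ℝ) - m →
      1 / 2 * ((n : ℝ) - m) * pr Ps ≤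
        (((Ioc m n).filter (fun al : ℤ => ∀ p ∈ Ps, ¬ (p : ℤ) ∣ al * (B : ℤ) + A)).card : ℝ) := by
  refine ⟨⌈4 * 16 ^ 16 / η ^ 2⌉₊ + 1, ?_⟩
  intro q B A Ps hq hPs m n hmn
  have hq0 : 0 < q := by omega
  have hqR : (0 : ℝ) < q := by exact_mod_cast hq0
  have hηq : 0 < η * q := by (clear * - hη hq0; positivity)
  have hmn' : m ≤ n := by
    have : (m : ℝ) ≤ n := by linarith only [hmn, hηq]
    exact_mod_cast this
  have h1 := legendre_count Ps B A (fun p hp => ⟨(hPs p hp).1, (hPs p hp).2.2⟩) m n hmn'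
  have hq2 : 4 * 16 ^ 16 ≤ η ^ 2 * q := by
    have h2 : 4 * 16 ^ 16 / η ^ 2 ≤ (q : ℝ) := by
      refine (Nat.le_ceil _).trans ?_
      exact_mod_cast (by omega : ⌈4 * 16 ^ 16 / η ^ 2⌉₊ ≤ q)
    rw [div_le_iff₀ (by positivity)] at h2
    linarith only [h2]
  set k := Ps.card with hk
  have h16 : (16 : ℝ) ^ k ≤ 16 ^ 16 * q := by
    have h2 := lc_card_bound Ps fun p hp => (hPs p hp).1
    have h3 : ∏ p ∈ Ps, p ≤ q := Nat.le_of_dvd hq0
      (Finset.prod_primes_dvd q (fun p hp => (hPs p hp).1.prime) (fun p hp => (hPs p hp).2.1))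
    have h4 : (16 : ℕ) ^ k ≤ 16 ^ 16 * q := h2.trans (Nat.mul_le_mul_left _ h3)
    exact_mod_cast h4
  have h4k : 2 * (4 : ℝ) ^ k ≤ η * q := by
    have h5 : (2 * (4 : ℝ) ^ k) ^ 2 ≤ (η * q) ^ 2 := by
      calc (2 * (4 : ℝ) ^ k) ^ 2 = 4 * 16 ^ k := by
            rw [mul_pow, ← pow_mul, mul_comm k 2, pow_mul]
            norm_num
        _ ≤ 4 * (16 ^ 16 * q) := by linarith only [h16]
        _ = (4 * 16 ^ 16) * q := by ring
        _ ≤ (η ^ 2 * q) * q := by (clear * - hq2 hq0; gcongr)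
        _ = (η * q) ^ 2 := by ring
    exact (pow_le_pow_iff_left₀ (by positivity) (by positivity) (by norm_num)).1 h5
  have hpr := lc_pr_ge Ps fun p hp => (hPs p hp).1
  have h6 : (2 : ℝ) ^ k ≤ 1 / 2 * ((n : ℝ) - m) * pr Ps := by
    calc (2 : ℝ) ^ k = 1 / 2 * (2 * (4 : ℝ) ^ k) * (1 / 2) ^ k := by
          rw [one_div, inv_pow]
          rw [show (4 : ℝ) = 2 * 2 by norm_num, mul_pow]
          field_simp
      _ ≤ 1 / 2 * (η * q) * (1 / 2) ^ k := by (clear * - h4k; gcongr)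
      _ ≤ 1 / 2 * ((n : ℝ) - m) * pr Ps := by
          refine mul_le_mul ?_ hpr (by positivity) ?_
          · linarith only [hmn]
          · linarith only [hmn, hηq]
  rw [abs_le] at h1
  linarith only [h6, h1.1]

/-! ## The totient -/

theorem lc_inv_le_exp {p : ℕ} (hp : p.Prime) :
    (1 - 1 / (p : ℝ))⁻¹ ≤ Real.exp (1 / (p : ℝ) + 2 * (1 / (p : ℝ) ^ 2)) := by
  have h2 : (2 : ℝ) ≤ p := by exact_mod_cast hp.two_le
  have h3 : 1 / (p : ℝ) ≤ 1 / 2 := one_div_le_one_div_of_le (by norm_num) h2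
  set x : ℝ := 1 / (p : ℝ) with hx
  have hx0 : 0 < x := by positivity
  have hx2 : 1 / (p : ℝ) ^ 2 = x ^ 2 := by rw [hx, one_div_pow]
  rw [hx2]
  have h4 : (1 - x)⁻¹ ≤ 1 + (x + 2 * x ^ 2) := by
    rw [inv_le_iff_one_le_mul₀ (by linarith only [h3])]
    nlinarith only [h3]
  have h5 := Real.add_one_le_exp (x + 2 * x ^ 2)
  linarith only [h4, h5]

/-- `n/φ(n) ≤ C (1 + log log n)`. -/
theorem lc_prod_primeFactors_le : ∃ C > 0, ∀ (n : ℕ) (X : ℝ), 0 < n → 1 ≤ X →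
    (n : ℝ) ≤ Real.exp X →
    ∏ p ∈ n.primeFactors, (1 - 1 / (p : ℝ))⁻¹ ≤ C * (1 + Real.log X) := by
  classical
  obtain ⟨C, hC0, hC⟩ := Vale.Agent.P013.sum_inv_prime_le
  have hsq : Summable (fun k : ℕ => 1 / (k : ℝ) ^ 2) :=
    Real.summable_one_div_nat_pow.2 (by norm_num)
  set Z : ℝ := ∑' k : ℕ, 1 / (k : ℝ) ^ 2 with hZ
  refine ⟨Real.exp (C + 2 + 2 * Z) * 4, by positivity, ?_⟩
  intro n X hn hX hnX
  set z : ℕ := ⌈X⌉₊ + 2 with hz
  have hz2 : 2 ≤ z := by omega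
  have hzX : X + 2 ≤ z := by
    have := Nat.le_ceil X
    rw [hz]
    push_cast
    linarith only [this]
  have hzX' : (z : ℝ) ≤ 4 * X := by
    have := Nat.ceil_lt_add_one (by linarith only [hX] : 0 ≤ X)
    rw [hz]
    push_cast
    linarith only [hX, this]
  have hlogn : Real.log n ≤ X := by
    have h1 : (0 : ℝ) < n := by exact_mod_cast hn
    have h2 := Real.log_le_log h1 hnX
    rwa [Real.log_exp] at h2
  have h1 : ∑ p ∈ n.primeFactors, 1 / (p : ℝ) ≤ Real.log (Real.log z) + C + 2 := by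
    rw [← sum_filter_add_sum_filter_not n.primeFactors (fun p : ℕ => X + 1 < (p : ℝ))]
    have h2 := bs_sum_large hn (y := X + 1) (by linarith only [hX])
    have h3 : 2 * Real.log n / (X + 1) ≤ 2 := by
      rw [div_le_iff₀ (by linarith only [hX])]
      linarith only [hlogn]
    have h4 : ∑ p ∈ n.primeFactors.filter (fun p : ℕ => ¬ X + 1 < (p : ℝ)), 1 / (p : ℝ) ≤
        ∑ p ∈ (range z).filter Nat.Prime, 1 / (p : ℝ) := by
      refine sum_le_sum_of_subset_of_nonneg ?_ fun p _ _ => by (clear * -; positivity)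
      intro p hp
      rw [mem_filter, not_lt] at hp
      rw [mem_filter, mem_range]
      refine ⟨?_, Nat.prime_of_mem_primeFactors hp.1⟩
      have : (p : ℝ) < z := by linarith only [hzX, hp.2]
      exact_mod_cast this
    have h5 := hC z hz2
    linarith only [h2, h3, h4, h5]
  have hprod : ∏ p ∈ n.primeFactors, (1 - 1 / (p : ℝ))⁻¹ ≤
      Real.exp (∑ p ∈ n.primeFactors, (1 / (p : ℝ) + 2 * (1 / (p : ℝ) ^ 2))) := by
    rw [Real.exp_sum]
    refine prod_le_prod ?_ ?_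
    · intro p hp
      exact inv_nonneg.2 (bt_one_sub_inv (Nat.prime_of_mem_primeFactors hp)).1.le
    · intro p hp
      exact lc_inv_le_exp (Nat.prime_of_mem_primeFactors hp)
  have hZle : ∑ p ∈ n.primeFactors, 1 / (p : ℝ) ^ 2 ≤ Z :=
    hsq.sum_le_tsum _ (fun k _ => by (clear * -; positivity))
  refine hprod.trans ?_
  rw [sum_add_distrib, ← mul_sum]
  have hlz : 0 < Real.log z := Real.log_pos (by exact_mod_cast (by omega : 1 < z))
  have h2 : Real.log z ≤ 4 * (1 + Real.log X) := by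
    have h3 : Real.log z ≤ Real.log (4 * X) := Real.log_le_log (by (clear * - hX; positivity)) hzX'
    rw [Real.log_mul (by norm_num) (by linarith only [hX])] at h3
    have h4 : Real.log 4 ≤ 4 := by
      have := Real.log_le_sub_one_of_pos (by norm_num : (0 : ℝ) < 4)
      linarith only [this]
    have h5 : 0 ≤ Real.log X := Real.log_nonneg hX
    linarith only [h3, h4, h5]
  calc Real.exp (∑ p ∈ n.primeFactors, 1 / (p : ℝ) + 2 * ∑ p ∈ n.primeFactors, 1 / (p : ℝ) ^ 2)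
      ≤ Real.exp ((C + 2 + 2 * Z) + Real.log (Real.log z)) := by
        apply Real.exp_le_exp.2
        linarith only [h1, hZle]
    _ = Real.exp (C + 2 + 2 * Z) * Real.log z := by rw [Real.exp_add, Real.exp_log hlz]
    _ ≤ Real.exp (C + 2 + 2 * Z) * (4 * (1 + Real.log X)) := by (clear * - h2; gcongr)
    _ = _ := by ring

theorem totient_lower : ∃ c > 0, ∃ X₀ : ℝ, ∀ X : ℝ, X₀ ≤ X → ∀ q : ℕ, 0 < q → (q : ℝ) ≤ X ^ 9 →
    c / Real.log (Real.log X) ≤ (q.totient : ℝ) / q := by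
  obtain ⟨C, hC, h⟩ := lc_prod_primeFactors_le
  refine ⟨1 / (C * 5), by positivity, Real.exp (Real.exp 1), ?_⟩
  intro X hX q hq hqX
  have hX0 : 0 < X := lt_of_lt_of_le (Real.exp_pos _) hX
  have hlX : Real.exp 1 ≤ Real.log X := by
    rw [Real.le_log_iff_exp_le hX0]
    exact hX
  have hlX0 : 0 < Real.log X := lt_of_lt_of_le (Real.exp_pos _) hlX
  have hllX : 1 ≤ Real.log (Real.log X) := by
    rw [Real.le_log_iff_exp_le hlX0]
    exact hlX
  have he1 : (1 : ℝ) ≤ Real.exp 1 := Real.one_le_exp (by norm_num)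
  have h1 := h q (9 * Real.log X) hq (by linarith only [hlX, he1]) (by
    refine hqX.trans (le_of_eq ?_)
    rw [show (9 : ℝ) * Real.log X = ((9 : ℕ) : ℝ) * Real.log X by norm_num, Real.exp_nat_mul,
      Real.exp_log hX0])
  rw [Real.log_mul (by norm_num) hlX0.ne'] at h1
  have h9 : Real.log 9 ≤ 3 := by
    rw [Real.log_le_iff_le_exp (by norm_num)]
    have := Real.exp_one_gt_d9
    calc (9 : ℝ) ≤ (2.7) ^ 3 := by (clear * -; norm_num)
      _ ≤ (Real.exp 1) ^ 3 := by gcongr; linarith only [this]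
      _ = Real.exp 3 := by rw [← Real.exp_nat_mul]; norm_num
  have h2 : ∏ p ∈ q.primeFactors, (1 - 1 / (p : ℝ))⁻¹ ≤ (C * 5) * Real.log (Real.log X) := by
    calc ∏ p ∈ q.primeFactors, (1 - 1 / (p : ℝ))⁻¹ ≤
        C * (1 + (Real.log 9 + Real.log (Real.log X))) := h1
      _ ≤ C * (5 * Real.log (Real.log X)) := by
          refine mul_le_mul_of_nonneg_left ?_ hC.le
          linarith only [hllX, h9]
      _ = _ := by ring
  rw [bt_totient_div_eq hq]
  rw [prod_inv_distrib] at h2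
  have hP : 0 < ∏ p ∈ q.primeFactors, (1 - 1 / (p : ℝ)) :=
    prod_pos fun p hp => (bt_one_sub_inv (Nat.prime_of_mem_primeFactors hp)).1
  rw [inv_le_iff_one_le_mul₀ hP] at h2
  rw [div_div, div_le_iff₀ (by positivity)]
  linarith only [h2]

end Vale.P028
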