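import Vale.Agent.P028.MathlibUsed
import Vale.Agent.P028.FDefs
import Vale.Agent.P028.KLower
import Vale.Agent.P028.KCross

/-!
# Lower count, cross overlap and overlap for class systems
-/

namespace Vale.P028

open Finset MeasureTheory

/-- all the classes of a class system come from one integer -/
theorem crt_classes (c : ℕ → ℤ) (Ps : Finset ℕ) (h : ∀ p ∈ Ps, p.Prime) :
    ∃ e : ℤ, ∀ p ∈ Ps, (p : ℤ) ∣ e - c p := by
  classical
  induction Ps using Finset.induction_on with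
  | empty => exact ⟨0, fun p hp => absurd hp (notMem_empty _)⟩
  | insert p Ps hp ih =>
    obtain ⟨e, he⟩ := ih fun p' hp' => h p' (mem_insert_of_mem hp')
    have hcop : Nat.Coprime (∏ p' ∈ Ps, p') p := by
      apply Nat.Coprime.prod_left
      intro p' hp'
      rw [Nat.coprime_primes (h p' (mem_insert_of_mem hp')) (h p (mem_insert_self _ _))]
      rintro rfl
      exact hp hp'
    obtain ⟨e', he'⟩ := lc_crt hcop e (c p)
    obtain ⟨h1, h2⟩ := (he' e').2 (by simp)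
    refine ⟨e', fun p' hp' => ?_⟩
    rw [mem_insert] at hp'
    rcases hp' with rfl | hp'
    · exact h2
    · have h3 : (p' : ℤ) ∣ e' - e :=
        (Int.natCast_dvd_natCast.2 (dvd_prod_of_mem (fun p : ℕ => p) hp')).trans h1
      have : e' - c p' = (e' - e) + (e - c p') := by ring
      rw [this]
      exact dvd_add h3 (he p' hp')

theorem AC_iff {c : ℕ → ℤ} {Ps : Finset ℕ} {e : ℤ} (he : ∀ p ∈ Ps, (p : ℤ) ∣ e - c p) (al : ℤ) :
    AC c Ps al ↔ ∀ p ∈ Ps, ¬ (p : ℤ) ∣ al * ((1 : ℕ) : ℤ) + (-e) := by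
  unfold AC
  refine forall₂_congr fun p hp => not_congr ?_
  have h1 := he p hp
  constructor
  · intro h
    have : al * ((1 : ℕ) : ℤ) + (-e) = (al - c p) - (e - c p) := by push_cast; ring
    rw [this]
    exact dvd_sub h h1
  · intro h
    have : al - c p = (al * ((1 : ℕ) : ℤ) + (-e)) + (e - c p) := by push_cast; ring
    rw [this]
    exact dvd_add h h1

open Classical in
theorem lower_count_cls (η : ℝ) (hη : 0 < η) : ∃ Q₀ : ℕ, ∀ (q : ℕ) (c : ℕ → ℤ) (Ps : Finset ℕ),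
    Q₀ ≤ q → (∀ p ∈ Ps, p.Prime ∧ p ∣ q) → ∀ m n : ℤ, η * q ≤ (n : ℝ) - m →
      1 / 2 * ((n : ℝ) - m) * pr Ps ≤ (((Ioc m n).filter (AC c Ps)).card : ℝ) := by
  obtain ⟨Q₀, h⟩ := lower_count η hη
  refine ⟨Q₀, fun q c Ps hq hPs m n hmn => ?_⟩
  obtain ⟨e, he⟩ := crt_classes c Ps fun p hp => (hPs p hp).1
  have h1 := h q 1 (-e) Ps hq (fun p hp => ⟨(hPs p hp).1, (hPs p hp).2, by
    rw [Nat.dvd_one]; exact (hPs p hp).1.one_lt.ne'⟩) m n hmn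
  refine h1.trans (le_of_eq ?_)
  norm_cast
  congr 1
  ext al
  simp only [mem_filter]
  rw [AC_iff he, Nat.cast_one]

theorem cross_overlap_cls : ∃ C > 0, ∃ Q₀ : ℕ, ∀ (γ : ℝ) (q r : ℕ) (α β : ℝ), Q₀ ≤ q →
    q ^ 6 ≤ r → 0 < α → α ≤ 1 / 2 → 0 < β → β ≤ 1 / 2 → 1 / (q : ℝ) ^ 2 ≤ α →
    ∀ (c c' : ℕ → ℤ) (Pa Pb : Finset ℕ), (∀ p ∈ Pa, p.Prime ∧ p ∣ q) →
    (∀ p ∈ Pb, p.Prime ∧ p ∣ r) →
    volume.real (GC γ α c Pa q ∩ GC γ β c' Pb r ∩ Set.Ioc 0 1) ≤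
      C * (α * β) * pr Pa * pr Pb := by
  obtain ⟨C, hC, Q₀, h⟩ := cross_overlap
  refine ⟨C, hC, Q₀, fun γ q r α β hq hqr hα hα2 hβ hβ2 hαq c c' Pa Pb h₁ h₂ => ?_⟩
  obtain ⟨e, he⟩ := crt_classes c Pa fun p hp => (h₁ p hp).1
  obtain ⟨e', he'⟩ := crt_classes c' Pb fun p hp => (h₂ p hp).1
  exact h γ q r α β hq hqr hα hα2 hβ hβ2 hαq 1 1 (-e) (-e') Pa Pb
    (fun p hp => ⟨(h₁ p hp).1, (h₁ p hp).2, by rw [Nat.dvd_one]; exact (h₁ p hp).1.one_lt.ne'⟩)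
    (fun p hp => ⟨(h₂ p hp).1, (h₂ p hp).2, by rw [Nat.dvd_one]; exact (h₂ p hp).1.one_lt.ne'⟩)
    _ _ (fun al hal => (AC_iff he al).1 hal) (fun al hal => (AC_iff he' al).1 hal)

/-- overlap estimate for class systems -/
theorem overlap_cls (γ : ℝ) (q r : ℕ) (hq : 0 < q) (hr : 0 < r) (α β : ℝ) (hα : 0 < α)
    (hβ : 0 < β) (hα2 : α ≤ 1 / 2) (hβ2 : β ≤ 1 / 2) (c c' : ℕ → ℤ) (Pa Pb : Finset ℕ)
    (h₁ : ∀ p ∈ Pa, p.Prime ∧ p ∣ q) (h₂ : ∀ p ∈ Pb, p.Prime ∧ p ∣ r) (Ks : Finset ℤ)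
    (hK : ∀ al be : ℤ, AC c Pa al → AC c' Pb be →
      |((al : ℝ) + γ) * (cofac r q : ℝ) - ((be : ℝ) + γ) * (cofac q r : ℝ)| <
        (cofac r q : ℝ) * α + (cofac q r : ℝ) * β →
      al * (cofac r q : ℤ) - be * (cofac q r : ℤ) ∈ Ks) :
    volume.real (GC γ α c Pa q ∩ GC γ β c' Pb r ∩ Set.Ioc 0 1) ≤
      16 * (α * β / DD q r α β) * pr (Pa.filter (fun p : ℕ => ¬ p ∣ cofac q r)) *
        pr (Pb.filter (fun p : ℕ => ¬ p ∣ cofac r q)) *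
        ∑ k ∈ Ks, (pr ((Pa ∩ Pb).filter (fun p : ℕ => ¬ p ∣ cofac q r ∧ ¬ p ∣ cofac r q ∧
          (p : ℤ) ∣ k - (c p * (cofac r q : ℤ) - c' p * (cofac q r : ℤ)))))⁻¹ := by
  obtain ⟨e, he⟩ := crt_classes c Pa fun p hp => (h₁ p hp).1
  obtain ⟨e', he'⟩ := crt_classes c' Pb fun p hp => (h₂ p hp).1
  have h := overlap γ q r hq hr α β hα hβ hα2 hβ2 1 1 (-e) (-e') Pa Pb
    (fun p hp => ⟨(h₁ p hp).1, (h₁ p hp).2, by rw [Nat.dvd_one]; exact (h₁ p hp).1.one_lt.ne'⟩)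
    (fun p hp => ⟨(h₂ p hp).1, (h₂ p hp).2, by rw [Nat.dvd_one]; exact (h₂ p hp).1.one_lt.ne'⟩)
    (AC c Pa) (AC c' Pb) (fun al hal => (AC_iff he al).1 hal)
    (fun al hal => (AC_iff he' al).1 hal) Ks hK
  refine h.trans (le_of_eq ?_)
  congr 1
  refine sum_congr rfl fun k _ => ?_
  congr 2
  ext p
  simp only [mem_filter, mem_inter]
  refine and_congr_right fun hp => and_congr_right fun _ => and_congr_right fun _ => ?_
  have h3 := he p hp.1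
  have h4 := he' p hp.2
  have e1 : ((1 : ℕ) : ℤ) * ((1 : ℕ) : ℤ) * k + (cofac r q : ℤ) * ((1 : ℕ) : ℤ) * (-e) -
      (cofac q r : ℤ) * ((1 : ℕ) : ℤ) * (-e') =
      (k - (c p * (cofac r q : ℤ) - c' p * (cofac q r : ℤ))) -
        ((e - c p) * (cofac r q : ℤ) - (e' - c' p) * (cofac q r : ℤ)) := by push_cast; ring
  rw [e1]
  have h5 : (p : ℤ) ∣ (e - c p) * (cofac r q : ℤ) - (e' - c' p) * (cofac q r : ℤ) :=
    dvd_sub (Dvd.dvd.mul_right h3 _) (Dvd.dvd.mul_right h4 _)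
  constructor
  · intro h6
    have := dvd_add h6 h5
    simpa using this
  · intro h6
    exact dvd_sub h6 h5

end Vale.P028
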