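import Vale.Agent.P028.LDefs
import Vale.Agent.P028.MTensor

/-!
# Cofactors after multiplication by a prime power (D0 of the lift lemma)
-/

namespace Vale.P028

open Finset

/-- the gcd of a prime power with a number -/
theorem l1_gcd_pow {p : ℕ} (hp : p.Prime) (j : ℕ) {v : ℕ} (hv : 0 < v) :
    Nat.gcd (p ^ j) v = p ^ min (v.factorization p) j := by
  apply Nat.dvd_antisymm
  · obtain ⟨k, hk, hk'⟩ := (Nat.dvd_prime_pow hp).1 (Nat.gcd_dvd_left (p ^ j) v)
    rw [hk']
    refine Nat.pow_dvd_pow _ (le_min ?_ hk)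
    exact (hp.pow_dvd_iff_le_factorization hv.ne').1 (hk' ▸ Nat.gcd_dvd_right (p ^ j) v)
  · refine Nat.dvd_gcd (Nat.pow_dvd_pow _ (min_le_right _ _)) ?_
    exact (hp.pow_dvd_iff_le_factorization hv.ne').2 (min_le_left _ _)

/-- the gcd of `q * p ^ j` and `t` -/
theorem l1_gcd_lift {p j q t : ℕ} (hp : p.Prime) (hq : 0 < q) (ht : 0 < t) :
    Nat.gcd (q * p ^ j) t = Nat.gcd q t * p ^ min ((cofac t q).factorization p) j := by
  have hq1 : Nat.gcd q t * cofac q t = q := gcd_mul_cofac q t
  have ht1 : Nat.gcd q t * cofac t q = t := by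
    have := gcd_mul_cofac t q
    rwa [Nat.gcd_comm] at this
  have hcop : Nat.Coprime (cofac q t) (cofac t q) := cofac_coprime hq
  have hv : 0 < cofac t q := cofac_pos q ht
  calc Nat.gcd (q * p ^ j) t
      = Nat.gcd (Nat.gcd q t * (cofac q t * p ^ j)) (Nat.gcd q t * cofac t q) := by
        rw [← mul_assoc, hq1, ht1]
    _ = Nat.gcd q t * Nat.gcd (cofac q t * p ^ j) (cofac t q) := Nat.gcd_mul_left _ _ _
    _ = Nat.gcd q t * Nat.gcd (p ^ j) (cofac t q) := by
        rw [hcop.gcd_mul_left_cancel]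
    _ = _ := by rw [l1_gcd_pow hp j hv]

/-! D0 -/
theorem lift_cofac {p j q t : ℕ} (hp : p.Prime) (hq : 0 < q) (ht : 0 < t) :
    cofac t (q * p ^ j) * p ^ min ((cofac t q).factorization p) j = cofac t q ∧
    cofac (q * p ^ j) t = cofac q t * p ^ (j - min ((cofac t q).factorization p) j) := by
  have hg0 : 0 < Nat.gcd q t := Nat.gcd_pos_of_pos_left _ hq
  have hg := l1_gcd_lift (j := j) hp hq ht
  have hpj : 0 < q * p ^ j := Nat.mul_pos hq (pow_pos hp.pos _)
  have hpm : 0 < p ^ min ((cofac t q).factorization p) j := pow_pos hp.pos _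
  constructor
  · apply Nat.eq_of_mul_eq_mul_left hg0
    have h1 : Nat.gcd t (q * p ^ j) * cofac t (q * p ^ j) = t := gcd_mul_cofac _ _
    have h2 : Nat.gcd q t * cofac t q = t := by
      have := gcd_mul_cofac t q
      rwa [Nat.gcd_comm] at this
    rw [Nat.gcd_comm, hg] at h1
    rw [h2]
    calc Nat.gcd q t * (cofac t (q * p ^ j) * p ^ min ((cofac t q).factorization p) j)
        = Nat.gcd q t * p ^ min ((cofac t q).factorization p) j * cofac t (q * p ^ j) := by ring
      _ = t := h1
  · have h1 : Nat.gcd (q * p ^ j) t * cofac (q * p ^ j) t = q * p ^ j := gcd_mul_cofac _ _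
    have h2 : Nat.gcd q t * cofac q t = q := gcd_mul_cofac q t
    rw [hg] at h1
    apply Nat.eq_of_mul_eq_mul_left (Nat.mul_pos hg0 hpm)
    rw [h1]
    have h3 : p ^ j = p ^ min ((cofac t q).factorization p) j *
        p ^ (j - min ((cofac t q).factorization p) j) := by
      rw [← pow_add]
      congr 1
      have := min_le_right ((cofac t q).factorization p) j
      omega
    calc q * p ^ j = (Nat.gcd q t * cofac q t) * (p ^ min ((cofac t q).factorization p) j *
        p ^ (j - min ((cofac t q).factorization p) j)) := by rw [h2, ← h3]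
      _ = _ := by ring

end Vale.P028
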