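import Vale.Agent.P028.KDefs

/-!
# Definitions for the lift lemma (letter D of the full problem)
-/

namespace Vale.P028

open Finset

open Classical in
/-- Mass of the neighbours `r` of `q` at scale `s` with `n ∣ cofac r q`. -/
noncomputable def lpop (N : ℕ) (ψ f : ℕ → ℝ) (s : ℝ) (q n : ℕ) : ℝ :=
  ∑ r ∈ Icc 1 N, if (cofac r q : ℝ) * ψ q ≤ s ∧ (cofac q r : ℝ) * ψ r ≤ s ∧ n ∣ cofac r q then
    f r else 0

/-- The prime power `p ^ j` (`p > z`) is popular for `q` at scale `s` with threshold `τ`. -/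
def LPop (N : ℕ) (ψ f : ℕ → ℝ) (s τ z : ℝ) (q p j : ℕ) : Prop :=
  p.Prime ∧ z < (p : ℝ) ∧ 1 ≤ j ∧ 0 < f q ∧ τ * s ≤ lpop N ψ f s q (p ^ j)

open Classical in
/-- The lifted numbers `q p ^ j`. -/
noncomputable def lset (N : ℕ) (ψ f : ℕ → ℝ) (s τ z : ℝ) : Finset ℕ :=
  (Icc 1 (N * N)).filter (fun n => ∃ q ∈ Icc 1 N, ∃ p j : ℕ, LPop N ψ f s τ z q p j ∧
    n = q * p ^ j)

/-- Total mass of the lifted numbers (arcs of the form `n ↦ n / (L R)`). -/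
noncomputable def lmass (N : ℕ) (ψ f : ℕ → ℝ) (s τ z LR : ℝ) : ℝ :=
  ∑ n ∈ lset N ψ f s τ z, (n.totient : ℝ) / LR

/-- Hypotheses of the lift lemma: a window of arcs `q / (L R) ≤ ψ q ≤ q / R`. -/
structure LHyp (N : ℕ) (ψ f : ℕ → ℝ) (R L : ℝ) : Prop where
  hR : 0 < R
  hL : 1 ≤ L
  hψ : ∀ q, 0 ≤ ψ q
  hf : ∀ q, 0 ≤ f q ∧ f q ≤ ψ q * (q.totient / q)
  hN : ∀ q, 0 < f q → q ∈ Icc 1 N
  hw : ∀ q, 0 < f q → (q : ℝ) / (L * R) ≤ ψ q ∧ ψ q ≤ (q : ℝ) / R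

/-- The bad pairs: `q` has a popular prime power which does not divide `cofac t q`. -/
def LBad (N : ℕ) (ψ f : ℕ → ℝ) (s τ z : ℝ) (q t : ℕ) : Prop :=
  ∃ p j : ℕ, LPop N ψ f s τ z q p j ∧ ¬ p ^ j ∣ cofac t q

end Vale.P028
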