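import Vale.Agent.P028.MathlibUsed
import Vale.Agent.P028.LDefs
import Vale.Agent.P028.BT1
import Vale.Agent.P028.LCofac

/-!
# P028, letter D2: pairs with a popular higher prime power
-/

namespace Vale.P028

open Finset

/-- telescoping bound for `n ^ (-a)` -/
theorem l2_step {a : ℝ} (ha : 1 < a) {n : ℕ} (hn : 1 ≤ n) :
    ((n + 1 : ℕ) : ℝ) ^ (-a) ≤
      (a - 1)⁻¹ * ((n : ℝ) ^ (-(a - 1)) - ((n + 1 : ℕ) : ℝ) ^ (-(a - 1))) := by
  have hn0 : (0 : ℝ) < n := by exact_mod_cast hn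
  have hm0 : (0 : ℝ) < ((n + 1 : ℕ) : ℝ) := by positivity
  have hmn : ((n + 1 : ℕ) : ℝ) = n + 1 := by push_cast; rfl
  generalize ((n + 1 : ℕ) : ℝ) = m at *
  have ha1 : 0 < a - 1 := by linarith
  rw [inv_mul_eq_div, le_div_iff₀ ha1]
  have h1 : (n : ℝ) ^ (-(a - 1)) = m ^ (-(a - 1)) * ((n : ℝ) / m) ^ (-(a - 1)) := by
    rw [← Real.mul_rpow hm0.le (by positivity)]
    congr 1
    field_simp
  have h2 : 1 + (a - 1) / m ≤ ((n : ℝ) / m) ^ (-(a - 1)) := by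
    rw [Real.rpow_def_of_pos (by positivity)]
    have h3 : Real.log ((n : ℝ) / m) ≤ (n : ℝ) / m - 1 :=
      Real.log_le_sub_one_of_pos (by positivity)
    have h4 : (n : ℝ) / m - 1 = -(1 / m) := by
      rw [eq_sub_of_add_eq hmn.symm]
      field_simp
      ring
    have h5 : (a - 1) / m ≤ Real.log ((n : ℝ) / m) * (-(a - 1)) := by
      rw [h4] at h3
      have h6 := mul_le_mul_of_nonneg_left h3 ha1.le
      have e : (a - 1) / m = -((a - 1) * -(1 / m)) := by ring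
      rw [e]
      linarith
    have h7 := Real.add_one_le_exp (Real.log ((n : ℝ) / m) * (-(a - 1)))
    linarith
  have h6 : m ^ (-a) = m ^ (-(a - 1)) / m := by
    rw [show -a = -(a - 1) - 1 by ring, Real.rpow_sub_one hm0.ne']
  rw [h1, h6]
  have h7 : 0 < m ^ (-(a - 1)) := by positivity
  have h8 := mul_le_mul_of_nonneg_left h2 h7.le
  have e : m ^ (-(a - 1)) / m * (a - 1) = m ^ (-(a - 1)) * ((a - 1) / m) := by ring
  rw [e]
  linarith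

theorem l2_tail {a : ℝ} (ha : 1 < a) {k : ℕ} (hk : 1 ≤ k) (M : ℕ) (hM : k ≤ M) :
    ∑ n ∈ Ioc k M, (n : ℝ) ^ (-a) ≤
      (a - 1)⁻¹ * ((k : ℝ) ^ (-(a - 1)) - (M : ℝ) ^ (-(a - 1))) := by
  induction M, hM using Nat.le_induction with
  | base => simp
  | succ M hM ih =>
    rw [Finset.sum_Ioc_succ_top (by omega)]
    have h := l2_step ha (n := M) (by omega)
    calc _ ≤ _ := add_le_add ih h
      _ = _ := by ring

theorem l2_tail' {a : ℝ} (ha : 1 < a) {z : ℝ} (hz : 1 ≤ z) (S : Finset ℕ)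
    (hS : ∀ n ∈ S, z < (n : ℝ)) :
    ∑ n ∈ S, (n : ℝ) ^ (-a) ≤ (a - 1)⁻¹ * 2 ^ (a - 1) * z ^ (-(a - 1)) := by
  have hk : 1 ≤ ⌊z⌋₊ := by
    rw [Nat.one_le_floor_iff]
    exact hz
  set k := ⌊z⌋₊ with hkdef
  have hz0 : 0 < z := by linarith
  have hkz : z < k + 1 := Nat.lt_floor_add_one z
  have hkz' : (k : ℝ) ≤ z := Nat.floor_le hz0.le
  have hk1 : (1 : ℝ) ≤ k := by exact_mod_cast hk
  have hsub : S ⊆ Ioc k (max k (S.sup id)) := by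
    intro n hn
    rw [mem_Ioc]
    refine ⟨?_, le_max_of_le_right (Finset.le_sup (f := id) hn)⟩
    have := hS n hn
    have h2 : (k : ℝ) < n := by linarith
    exact_mod_cast h2
  have h1 : ∑ n ∈ S, (n : ℝ) ^ (-a) ≤ ∑ n ∈ Ioc k (max k (S.sup id)), (n : ℝ) ^ (-a) :=
    sum_le_sum_of_subset_of_nonneg hsub fun n _ _ => by positivity
  have h2 := l2_tail ha hk (max k (S.sup id)) (le_max_left _ _)
  have ha1 : 0 < a - 1 := by linarith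
  have h3 : 0 ≤ (((max k (S.sup id) : ℕ) : ℝ)) ^ (-(a - 1)) := by positivity
  have h4 : (k : ℝ) ^ (-(a - 1)) ≤ 2 ^ (a - 1) * z ^ (-(a - 1)) := by
    have h5 : z / 2 ≤ k := by linarith
    have h6 : (k : ℝ) ^ (-(a - 1)) ≤ (z / 2) ^ (-(a - 1)) :=
      Real.rpow_le_rpow_of_nonpos (by positivity) h5 (by linarith)
    refine h6.trans (le_of_eq ?_)
    rw [Real.div_rpow hz0.le (by norm_num), Real.rpow_neg (by norm_num : (0 : ℝ) ≤ 2),
      div_inv_eq_mul, mul_comm]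
  have h7 : 0 < (a - 1)⁻¹ := inv_pos.2 ha1
  calc ∑ n ∈ S, (n : ℝ) ^ (-a) ≤ _ := h1.trans h2
    _ ≤ (a - 1)⁻¹ * (2 ^ (a - 1) * z ^ (-(a - 1))) :=
        mul_le_mul_of_nonneg_left (by linarith) h7.le
    _ = _ := by ring

/-- geometric sum, growing -/
theorem l2_geom_up {x b : ℝ} (hb : 1 < b) (hx : b ≤ x) (j : ℕ) :
    ∑ i ∈ Icc 1 j, x ^ i ≤ x ^ j * (1 - b⁻¹)⁻¹ := by
  have hb0 : 0 < b := by linarith
  have hx0 : 0 < x := by linarith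
  have hb1 : b⁻¹ < 1 := inv_lt_one_of_one_lt₀ hb
  have hD : 0 < (1 - b⁻¹)⁻¹ := inv_pos.2 (by linarith)
  have hDe : (1 - b⁻¹)⁻¹ * b⁻¹ + 1 = (1 - b⁻¹)⁻¹ := by
    have h0 : (1 - b⁻¹) ≠ 0 := by linarith
    have h1 := inv_mul_cancel₀ h0
    linear_combination -h1
  induction j with
  | zero =>
    rw [Finset.Icc_eq_empty (by omega), sum_empty, pow_zero, one_mul]
    exact hD.le
  | succ j ih =>
    rw [Finset.sum_Icc_succ_top (by omega)]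
    have h1 : x ^ j * (1 - b⁻¹)⁻¹ ≤ x ^ (j + 1) * ((1 - b⁻¹)⁻¹ * b⁻¹) := by
      have h2 : x ^ j ≤ x ^ (j + 1) * b⁻¹ := by
        rw [pow_succ, mul_assoc]
        refine le_mul_of_one_le_right (by positivity) ?_
        rw [← div_eq_mul_inv, one_le_div hb0]
        exact hx
      calc _ ≤ (x ^ (j + 1) * b⁻¹) * (1 - b⁻¹)⁻¹ := mul_le_mul_of_nonneg_right h2 hD.le
        _ = _ := by ring
    calc _ ≤ x ^ (j + 1) * ((1 - b⁻¹)⁻¹ * b⁻¹) + x ^ (j + 1) := by linarith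
      _ = x ^ (j + 1) * ((1 - b⁻¹)⁻¹ * b⁻¹ + 1) := by ring
      _ = _ := by rw [hDe]

/-- geometric sum, decreasing -/
theorem l2_geom_down {y c : ℝ} (hy : 0 ≤ y) (hyc : y ≤ c) (hc : c < 1) (N : ℕ) :
    ∑ j ∈ Icc 2 N, y ^ j ≤ y ^ 2 * (1 - c)⁻¹ := by
  have hy1 : 0 < 1 - y := by linarith
  have h1 : ∀ N : ℕ, (∑ j ∈ Icc 2 N, y ^ j) * (1 - y) ≤ y ^ 2 := by
    intro N
    rcases Nat.lt_or_ge N 2 with h | h
    · rw [Finset.Icc_eq_empty (by omega)]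
      simp
      positivity
    · have h2 : (∑ j ∈ Icc 2 N, y ^ j) * (1 - y) = y ^ 2 - y ^ (N + 1) := by
        induction N, h using Nat.le_induction with
        | base => simp; ring
        | succ M hM ih =>
          rw [Finset.sum_Icc_succ_top (by omega), add_mul, ih]
          ring
      rw [h2]
      have : 0 ≤ y ^ (N + 1) := by positivity
      linarith
  have h3 : ∑ j ∈ Icc 2 N, y ^ j ≤ y ^ 2 * (1 - y)⁻¹ := by
    rw [← div_eq_mul_inv, le_div_iff₀ hy1]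
    exact h1 N
  refine h3.trans (mul_le_mul_of_nonneg_left ?_ (by positivity))
  exact inv_anti₀ (by linarith) (by linarith)

/-- the numerical sum over `p`, `j`, `i` -/
theorem l2_numeric {θ : ℝ} (hθ : 1 / 2 < θ) (hθ1 : θ < 1) :
    ∃ C > 0, ∀ (N : ℕ) (z : ℝ) (P : Finset ℕ), 1 ≤ z → (∀ p ∈ P, p.Prime ∧ z < (p : ℝ)) →
      ∑ p ∈ P, ∑ j ∈ Icc 2 N, ∑ i ∈ Icc 1 j, ((p : ℝ) ^ j)⁻¹ * ((p : ℝ) ^ (1 - θ)) ^ i ≤
        C * z ^ (-(2 * θ - 1)) := by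
  have hl : 0 < 1 - θ := by linarith
  set b : ℝ := (2 : ℝ) ^ (1 - θ) with hb
  have hb1 : 1 < b := Real.one_lt_rpow (by norm_num) hl
  set c : ℝ := (2 : ℝ) ^ (-θ) with hc
  have hc1 : c < 1 := Real.rpow_lt_one_of_one_lt_of_neg (by norm_num) (by linarith)
  have hc0 : 0 < c := by positivity
  have hD1 : 0 < (1 - b⁻¹)⁻¹ := inv_pos.2 (by
    have := inv_lt_one_of_one_lt₀ hb1
    linarith)
  have hD2 : 0 < (1 - c)⁻¹ := inv_pos.2 (by linarith)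
  have hD3 : 0 < (2 * θ - 1)⁻¹ * (2 : ℝ) ^ (2 * θ - 1) :=
    mul_pos (inv_pos.2 (by linarith)) (by positivity)
  refine ⟨(1 - b⁻¹)⁻¹ * (1 - c)⁻¹ * ((2 * θ - 1)⁻¹ * 2 ^ (2 * θ - 1)), by positivity, ?_⟩
  intro N z P hz hP
  have key : ∀ p ∈ P, ∑ j ∈ Icc 2 N, ∑ i ∈ Icc 1 j,
      ((p : ℝ) ^ j)⁻¹ * ((p : ℝ) ^ (1 - θ)) ^ i ≤
      (1 - b⁻¹)⁻¹ * (1 - c)⁻¹ * (p : ℝ) ^ (-(2 * θ)) := by
    intro p hp
    have hp2 : (2 : ℝ) ≤ p := by exact_mod_cast (hP p hp).1.two_le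
    have hp0 : (0 : ℝ) < p := by linarith
    have hx : b ≤ (p : ℝ) ^ (1 - θ) := Real.rpow_le_rpow (by norm_num) hp2 hl.le
    have hy : (p : ℝ)⁻¹ * (p : ℝ) ^ (1 - θ) = (p : ℝ) ^ (-θ) := by
      rw [← Real.rpow_neg_one, ← Real.rpow_add hp0]
      congr 1
      ring
    have hyc : (p : ℝ) ^ (-θ) ≤ c :=
      Real.rpow_le_rpow_of_nonpos (by norm_num) hp2 (by linarith)
    have hy0 : 0 ≤ (p : ℝ) ^ (-θ) := by positivity
    have h1 : ∀ j ∈ Icc 2 N, ∑ i ∈ Icc 1 j, ((p : ℝ) ^ j)⁻¹ * ((p : ℝ) ^ (1 - θ)) ^ i ≤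
        ((p : ℝ) ^ (-θ)) ^ j * (1 - b⁻¹)⁻¹ := by
      intro j _
      rw [← mul_sum]
      have h2 := l2_geom_up hb1 hx j
      calc _ ≤ ((p : ℝ) ^ j)⁻¹ * (((p : ℝ) ^ (1 - θ)) ^ j * (1 - b⁻¹)⁻¹) :=
            mul_le_mul_of_nonneg_left h2 (by positivity)
        _ = ((p : ℝ)⁻¹ * (p : ℝ) ^ (1 - θ)) ^ j * (1 - b⁻¹)⁻¹ := by
            rw [mul_pow, inv_pow]
            ring
        _ = _ := by rw [hy]
    refine (sum_le_sum h1).trans ?_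
    rw [← sum_mul]
    have h3 := l2_geom_down hy0 hyc hc1 N
    have h4 : ((p : ℝ) ^ (-θ)) ^ 2 = (p : ℝ) ^ (-(2 * θ)) := by
      rw [← Real.rpow_natCast, ← Real.rpow_mul hp0.le]
      congr 1
      push_cast
      ring
    rw [h4] at h3
    calc _ ≤ ((p : ℝ) ^ (-(2 * θ)) * (1 - c)⁻¹) * (1 - b⁻¹)⁻¹ :=
          mul_le_mul_of_nonneg_right h3 hD1.le
      _ = _ := by ring
  refine (sum_le_sum key).trans ?_
  rw [← mul_sum]
  have h5 := l2_tail' (a := 2 * θ) (by linarith) hz P (fun p hp => (hP p hp).2)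
  calc _ ≤ (1 - b⁻¹)⁻¹ * (1 - c)⁻¹ *
        ((2 * θ - 1)⁻¹ * 2 ^ (2 * θ - 1) * z ^ (-(2 * θ - 1))) :=
        mul_le_mul_of_nonneg_left h5 (by positivity)
    _ = _ := by ring

theorem l2_mem_lset {N : ℕ} {ψ f : ℕ → ℝ} {s τ z : ℝ} {n : ℕ} : n ∈ lset N ψ f s τ z ↔
    n ∈ Icc 1 (N * N) ∧ ∃ q ∈ Icc 1 N, ∃ p j : ℕ, LPop N ψ f s τ z q p j ∧ n = q * p ^ j := by
  unfold lset
  simp only [mem_filter]

open Classical in
/-- the lifted arcs -/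
noncomputable def l2_psi (N : ℕ) (ψ f : ℕ → ℝ) (s τ z LR : ℝ) (n : ℕ) : ℝ :=
  if n ∈ lset N ψ f s τ z then (n : ℝ) / LR else 0

open Classical in
/-- the lifted masses -/
noncomputable def l2_f (N : ℕ) (ψ f : ℕ → ℝ) (s τ z LR : ℝ) (n : ℕ) : ℝ :=
  if n ∈ lset N ψ f s τ z then (n.totient : ℝ) / LR else 0

theorem l2_psi_nonneg (N : ℕ) (ψ f : ℕ → ℝ) (s τ z : ℝ) {LR : ℝ} (hLR : 0 < LR) (n : ℕ) :
    0 ≤ l2_psi N ψ f s τ z LR n := by
  unfold l2_psi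
  split_ifs <;> positivity

theorem l2_f_bounds (N : ℕ) (ψ f : ℕ → ℝ) (s τ z : ℝ) {LR : ℝ} (hLR : 0 < LR) (n : ℕ) :
    0 ≤ l2_f N ψ f s τ z LR n ∧
      l2_f N ψ f s τ z LR n ≤ l2_psi N ψ f s τ z LR n * (n.totient / n) := by
  unfold l2_f l2_psi
  split_ifs with h
  · refine ⟨by positivity, le_of_eq ?_⟩
    have hn : 0 < n := by
      have h1 := (l2_mem_lset.1 h).1
      rw [mem_Icc] at h1
      omega
    have hn' : (0 : ℝ) < n := by exact_mod_cast hn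
    field_simp
  · simp

theorem l2_sum_f (N : ℕ) (ψ f : ℕ → ℝ) (s τ z LR : ℝ) :
    ∑ n ∈ Icc 1 (N * N), l2_f N ψ f s τ z LR n = lmass N ψ f s τ z LR := by
  classical
  have hsub : lset N ψ f s τ z ⊆ Icc 1 (N * N) := fun n hn => (l2_mem_lset.1 hn).1
  unfold l2_f lmass
  rw [← sum_filter]
  refine sum_congr ?_ fun _ _ => rfl
  ext n
  rw [mem_filter]
  exact ⟨fun h => h.2, fun h => ⟨hsub h, h⟩⟩

theorem l2_sum_M {N : ℕ} {ψ f : ℕ → ℝ} {R L : ℝ} (H : LHyp N ψ f R L) :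
    ∑ r ∈ Icc 1 (N * N), f r = ∑ r ∈ Icc 1 N, f r := by
  symm
  refine sum_subset ?_ ?_
  · intro n hn
    rw [mem_Icc] at hn ⊢
    exact ⟨hn.1, hn.2.trans (Nat.le_mul_of_pos_left _ (by omega))⟩
  · intro n _ hn
    by_contra h
    exact hn (H.hN n (lt_of_le_of_ne (H.hf n).1 (Ne.symm h)))

theorem l2_pow_le {N : ℕ} {ψ f : ℕ → ℝ} {s τ z : ℝ} (hs : 0 < s) (hτ : 0 < τ) {q p j : ℕ}
    (h : LPop N ψ f s τ z q p j) : p ^ j ≤ N := by
  obtain ⟨_, _, _, _, h5⟩ := h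
  have h6 : 0 < lpop N ψ f s q (p ^ j) := lt_of_lt_of_le (mul_pos hτ hs) h5
  unfold lpop at h6
  obtain ⟨r, hr, hr2⟩ := exists_ne_zero_of_sum_ne_zero h6.ne'
  rw [mem_Icc] at hr
  have hc : p ^ j ∣ cofac r q := by
    by_contra hc
    exact hr2 (if_neg fun h => hc h.2.2)
  exact (Nat.le_of_dvd (cofac_pos q (by omega)) hc).trans ((cofac_le q (by omega)).trans hr.2)

theorem l2_mem {N : ℕ} {ψ f : ℕ → ℝ} {s τ z : ℝ} (hs : 0 < s) (hτ : 0 < τ) {q p j : ℕ}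
    (hq : q ∈ Icc 1 N) (h : LPop N ψ f s τ z q p j) : q * p ^ j ∈ lset N ψ f s τ z := by
  rw [l2_mem_lset, mem_Icc]
  have h1 := l2_pow_le hs hτ h
  rw [mem_Icc] at hq
  exact ⟨⟨Nat.mul_pos hq.1 (pow_pos h.1.pos j), Nat.mul_le_mul hq.2 h1⟩,
    q, mem_Icc.2 hq, p, j, h, rfl⟩

/-- the mass of `q` is controlled by the mass of the lifted number -/
theorem l2_f_le {N : ℕ} {ψ f : ℕ → ℝ} {R L s τ z : ℝ} (H : LHyp N ψ f R L) (hs : 0 < s)
    (hτ : 0 < τ) {q p j : ℕ} (hq : q ∈ Icc 1 N) (h : LPop N ψ f s τ z q p j) :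
    f q ≤ 2 * L * ((p : ℝ) ^ j)⁻¹ * l2_f N ψ f s τ z (L * R) (q * p ^ j) := by
  have hq1 : 0 < q := by
    rw [mem_Icc] at hq
    omega
  have hR := H.hR
  have hL : 0 < L := lt_of_lt_of_le one_pos H.hL
  have hq0 : (0 : ℝ) < q := by exact_mod_cast hq1
  have hp0 : (0 : ℝ) < p := by exact_mod_cast h.1.pos
  have h1 : f q ≤ (q.totient : ℝ) / R := by
    refine (H.hf q).2.trans ?_
    have h2 := (H.hw q h.2.2.2.1).2
    calc ψ q * (q.totient / q) ≤ (q : ℝ) / R * (q.totient / q) :=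
          mul_le_mul_of_nonneg_right h2 (by positivity)
      _ = _ := by field_simp
  unfold l2_f
  rw [if_pos (l2_mem hs hτ hq h)]
  have h3 : (q.totient : ℝ) * ((p : ℝ) ^ j / 2) ≤ ((q * p ^ j).totient : ℝ) := by
    have h4 : q.totient * (p ^ j).totient ≤ (q * p ^ j).totient :=
      Nat.totient_super_multiplicative _ _
    have h5 : (p : ℝ) ^ j / 2 ≤ ((p ^ j).totient : ℝ) := by
      rw [Nat.totient_prime_pow h.1 h.2.2.1]
      have hp2 : (2 : ℝ) ≤ p := by exact_mod_cast h.1.two_le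
      obtain ⟨k, rfl⟩ : ∃ k, j = k + 1 := ⟨j - 1, by have := h.2.2.1; omega⟩
      rw [Nat.add_sub_cancel, pow_succ, Nat.cast_mul, Nat.cast_pow,
        Nat.cast_sub h.1.one_le, Nat.cast_one]
      have h6 : (0 : ℝ) < (p : ℝ) ^ k := by positivity
      have h7 : (p : ℝ) / 2 ≤ p - 1 := by linarith
      calc (p : ℝ) ^ k * p / 2 = (p : ℝ) ^ k * (p / 2) := by ring
        _ ≤ _ := mul_le_mul_of_nonneg_left h7 h6.le
    calc (q.totient : ℝ) * ((p : ℝ) ^ j / 2) ≤ (q.totient : ℝ) * ((p ^ j).totient : ℝ) :=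
          mul_le_mul_of_nonneg_left h5 (by positivity)
      _ ≤ _ := by exact_mod_cast h4
  refine h1.trans ?_
  have h8 : (q.totient : ℝ) / R =
      2 * L * ((p : ℝ) ^ j)⁻¹ * ((q.totient : ℝ) * ((p : ℝ) ^ j / 2) / (L * R)) := by
    field_simp
  rw [h8]
  refine mul_le_mul_of_nonneg_left ?_ (by positivity)
  exact div_le_div_of_nonneg_right h3 (by positivity)

/-- The conditions for the lifted pairs. -/
def l2_cond (ψ₁ ψ : ℕ → ℝ) (K : ℝ) (p i : ℕ) (n t : ℕ) : Prop :=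
  p ^ i ∣ cofac n t ∧ 1 ∣ cofac t n ∧ (cofac t n : ℝ) * ψ₁ n ≤ (p : ℝ) ^ i * K ∧
    (cofac n t : ℝ) * ψ t ≤ (p : ℝ) ^ i * K

/-- the lifted pair satisfies the conditions -/
theorem l2_pair {N : ℕ} {ψ f : ℕ → ℝ} {R L s τ z K : ℝ} (H : LHyp N ψ f R L) (hs : 0 < s)
    (hτ : 0 < τ) {q t p j : ℕ} (hq : q ∈ Icc 1 N) (ht : t ∈ Icc 1 N)
    (h : LPop N ψ f s τ z q p j) (h1 : (cofac t q : ℝ) * ψ q ≤ K)
    (h2 : (cofac q t : ℝ) * ψ t ≤ K) (h3 : ¬ p ^ j ∣ cofac t q) :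
    (cofac t q).factorization p < j ∧
    l2_cond (l2_psi N ψ f s τ z (L * R)) ψ K p (j - (cofac t q).factorization p) (q * p ^ j) t := by
  have hq1 : 0 < q := by
    rw [mem_Icc] at hq
    omega
  have ht1 : 0 < t := by
    rw [mem_Icc] at ht
    omega
  have hR := H.hR
  have hL : 0 < L := lt_of_lt_of_le one_pos H.hL
  have hq0 : (0 : ℝ) < q := by exact_mod_cast hq1
  have hp0 : (0 : ℝ) < p := by exact_mod_cast h.1.pos
  have hv : 0 < cofac t q := cofac_pos q ht1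
  have hlt : (cofac t q).factorization p < j := by
    by_contra hge
    push Not at hge
    exact h3 ((Nat.Prime.pow_dvd_iff_le_factorization h.1 hv.ne').2 hge)
  refine ⟨hlt, ?_⟩
  obtain ⟨e1, e2⟩ := lift_cofac (j := j) h.1 hq1 ht1
  rw [min_eq_left hlt.le] at e1 e2
  set m := (cofac t q).factorization p with hm
  have e1' : (cofac t (q * p ^ j) : ℝ) * (p : ℝ) ^ m = cofac t q := by exact_mod_cast e1
  have e2' : (cofac (q * p ^ j) t : ℝ) = cofac q t * (p : ℝ) ^ (j - m) := by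
    rw [e2]
    push_cast
    rfl
  refine ⟨?_, one_dvd _, ?_, ?_⟩
  · rw [e2]
    exact Dvd.intro_left _ rfl
  · unfold l2_psi
    rw [if_pos (l2_mem hs hτ hq h)]
    have h4 := (H.hw q h.2.2.2.1).1
    have h5 : (p : ℝ) ^ j = (p : ℝ) ^ m * (p : ℝ) ^ (j - m) := by
      rw [← pow_add]
      congr 1
      omega
    calc (cofac t (q * p ^ j) : ℝ) * (((q * p ^ j : ℕ) : ℝ) / (L * R))
        = (p : ℝ) ^ (j - m) * ((cofac t (q * p ^ j) : ℝ) * (p : ℝ) ^ m * ((q : ℝ) / (L * R))) := by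
          push_cast
          rw [h5]
          ring
      _ = (p : ℝ) ^ (j - m) * ((cofac t q : ℝ) * ((q : ℝ) / (L * R))) := by rw [e1']
      _ ≤ (p : ℝ) ^ (j - m) * ((cofac t q : ℝ) * ψ q) := by
          refine mul_le_mul_of_nonneg_left ?_ (by positivity)
          exact mul_le_mul_of_nonneg_left h4 (by positivity)
      _ ≤ _ := mul_le_mul_of_nonneg_left h1 (by positivity)
  · rw [e2']
    calc (cofac q t : ℝ) * (p : ℝ) ^ (j - m) * ψ t =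
        (p : ℝ) ^ (j - m) * ((cofac q t : ℝ) * ψ t) := by ring
      _ ≤ _ := mul_le_mul_of_nonneg_left h2 (by positivity)

open Classical in
/-- for fixed `p`, `j`, `i` the map `q ↦ q p ^ j` is injective -/
theorem l2_inner_le {N : ℕ} {ψ f : ℕ → ℝ} {R L s τ z K : ℝ} (H : LHyp N ψ f R L) {p : ℕ}
    (hp : 0 < p) (j i : ℕ) :
    ∑ q ∈ Icc 1 N, ∑ t ∈ Icc 1 N,
      (if l2_cond (l2_psi N ψ f s τ z (L * R)) ψ K p i (q * p ^ j) t then
        l2_f N ψ f s τ z (L * R) (q * p ^ j) * f t else 0) ≤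
    psum (l2_cond (l2_psi N ψ f s τ z (L * R)) ψ K p i) (N * N)
      (l2_f N ψ f s τ z (L * R)) f := by
  have hLR : 0 < L * R := mul_pos (lt_of_lt_of_le one_pos H.hL) H.hR
  set fp := l2_f N ψ f s τ z (L * R) with hfp
  set A := l2_cond (l2_psi N ψ f s τ z (L * R)) ψ K p i with hA
  have hfp0 : ∀ n, 0 ≤ fp n := fun n => (l2_f_bounds N ψ f s τ z hLR n).1
  have hterm : ∀ n t, 0 ≤ (if A n t then fp n * f t else 0) := by
    intro n t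
    split_ifs
    · exact mul_nonneg (hfp0 n) (H.hf t).1
    · exact le_rfl
  set F : ℕ → ℝ := fun n => ∑ t ∈ Icc 1 (N * N), (if A n t then fp n * f t else 0) with hF
  have hF0 : ∀ n, 0 ≤ F n := fun n => sum_nonneg fun t _ => hterm n t
  have hFz : ∀ n, n ∉ lset N ψ f s τ z → F n = 0 := by
    intro n hn
    refine sum_eq_zero fun t _ => ?_
    have h0 : fp n = 0 := by
      rw [hfp]
      unfold l2_f
      exact if_neg hn
    rw [h0, zero_mul, ite_self]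
  have h1 : ∀ q ∈ Icc 1 N, ∑ t ∈ Icc 1 N,
      (if A (q * p ^ j) t then fp (q * p ^ j) * f t else 0) ≤ F (q * p ^ j) := by
    intro q _
    refine sum_le_sum_of_subset_of_nonneg ?_ fun t _ _ => hterm _ _
    intro t ht
    rw [mem_Icc] at *
    exact ⟨ht.1, ht.2.trans (Nat.le_mul_of_pos_left _ (by omega))⟩
  refine (sum_le_sum h1).trans ?_
  have h2 : ∑ q ∈ Icc 1 N, F (q * p ^ j) =
      ∑ q ∈ (Icc 1 N).filter (fun q => q * p ^ j ∈ lset N ψ f s τ z), F (q * p ^ j) := by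
    rw [sum_filter]
    refine sum_congr rfl fun q _ => ?_
    split_ifs with h
    · rfl
    · exact hFz _ h
  have h3 : ∑ q ∈ (Icc 1 N).filter (fun q => q * p ^ j ∈ lset N ψ f s τ z), F (q * p ^ j) =
      ∑ n ∈ ((Icc 1 N).filter (fun q => q * p ^ j ∈ lset N ψ f s τ z)).image
        (fun q => q * p ^ j), F n := by
    rw [sum_image]
    intro a _ b _ hab
    exact Nat.eq_of_mul_eq_mul_right (pow_pos hp j) hab
  rw [h2, h3]
  unfold psum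
  refine le_trans (sum_le_sum_of_subset_of_nonneg ?_ fun n _ _ => hF0 n) (le_of_eq rfl)
  intro n hn
  rw [mem_image] at hn
  obtain ⟨q, hq, rfl⟩ := hn
  exact (l2_mem_lset.1 (mem_filter.1 hq).2).1

theorem l2_ex1 (P A B : Finset ℕ) (h : ℕ → ℕ → ℕ → ℝ) :
    ∑ q ∈ A, ∑ t ∈ B, ∑ p ∈ P, h p q t = ∑ p ∈ P, ∑ q ∈ A, ∑ t ∈ B, h p q t := by
  calc ∑ q ∈ A, ∑ t ∈ B, ∑ p ∈ P, h p q t = ∑ q ∈ A, ∑ p ∈ P, ∑ t ∈ B, h p q t :=
        sum_congr rfl fun q _ => sum_comm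
    _ = _ := sum_comm

theorem l2_ex3 (P J A B : Finset ℕ) (I : ℕ → Finset ℕ) (c : ℕ → ℕ → ℝ)
    (g : ℕ → ℕ → ℕ → ℕ → ℕ → ℝ) :
    ∑ q ∈ A, ∑ t ∈ B, ∑ p ∈ P, ∑ j ∈ J, ∑ i ∈ I j, c p j * g p j i q t =
    ∑ p ∈ P, ∑ j ∈ J, ∑ i ∈ I j, c p j * ∑ q ∈ A, ∑ t ∈ B, g p j i q t := by
  rw [l2_ex1]
  refine sum_congr rfl fun p _ => ?_
  rw [l2_ex1]
  refine sum_congr rfl fun j _ => ?_
  rw [l2_ex1]
  refine sum_congr rfl fun i _ => ?_
  rw [mul_sum]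
  refine sum_congr rfl fun q _ => ?_
  rw [mul_sum]

/-- the bilinear bound for the lifted pairs, from `T1_dvd` -/
theorem l2_bil {θ : ℝ} (hθ : 1 / 2 < θ) (hθ1 : θ < 1) :
    ∃ C > 0, ∀ (N : ℕ) (ψ f : ℕ → ℝ) (R L s τ z K : ℝ), LHyp N ψ f R L → 0 < K →
      ∀ p : ℕ, p.Prime → ∀ i : ℕ,
      psum (l2_cond (l2_psi N ψ f s τ z (L * R)) ψ K p i) (N * N)
        (l2_f N ψ f s τ z (L * R)) f ≤
      C * K ^ (2 * (1 - θ)) * ((p : ℝ) ^ (1 - θ)) ^ i *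
        (lmass N ψ f s τ z (L * R) * ∑ q ∈ Icc 1 N, f q) ^ θ := by
  obtain ⟨C₁, hC₁, hT⟩ := T1_dvd hθ hθ1
  refine ⟨C₁, hC₁, ?_⟩
  intro N ψ f R L s τ z K H hK p hpp i
  have hLR : 0 < L * R := mul_pos (lt_of_lt_of_le one_pos H.hL) H.hR
  have hp0 : (0 : ℝ) < p := by exact_mod_cast hpp.pos
  have key := hT (p ^ i) 1 (pow_pos hpp.pos i) one_pos (l2_psi N ψ f s τ z (L * R)) ψ
    (l2_f N ψ f s τ z (L * R)) f ((p : ℝ) ^ i * K)
    ((p : ℝ) ^ i * K) (N * N) (by positivity) (by positivity)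
    (l2_psi_nonneg N ψ f s τ z hLR) H.hψ (l2_f_bounds N ψ f s τ z hLR) H.hf
  rw [l2_sum_f, l2_sum_M H] at key
  refine key.trans (le_of_eq ?_)
  have e1 : (((p : ℝ) ^ i * K) * ((p : ℝ) ^ i * K)) ^ (1 - θ) =
      K ^ (2 * (1 - θ)) * (((p : ℝ) ^ (1 - θ)) ^ i * ((p : ℝ) ^ (1 - θ)) ^ i) := by
    rw [Real.mul_rpow (by positivity) (by positivity),
      Real.mul_rpow (by positivity) hK.le, Real.rpow_pow_comm hp0.le, two_mul,
      Real.rpow_add hK]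
    ring
  have e2 : ((p ^ i : ℕ) : ℝ) ^ (-(1 - θ)) = (((p : ℝ) ^ (1 - θ)) ^ i)⁻¹ := by
    rw [Nat.cast_pow, Real.rpow_neg (by positivity), Real.rpow_pow_comm hp0.le]
  have e3 : ((1 : ℕ) : ℝ) ^ (-(1 - θ)) = 1 := by
    rw [Nat.cast_one, Real.one_rpow]
  rw [e1, e2, e3]
  have e4 : ((p : ℝ) ^ (1 - θ)) ^ i ≠ 0 := by positivity
  generalize ((p : ℝ) ^ (1 - θ)) ^ i = Y at e4 ⊢
  generalize (lmass N ψ f s τ z (L * R) * ∑ q ∈ Icc 1 N, f q) ^ θ = W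
  field_simp

open Classical in
/-- the pointwise bound -/
theorem l2_pt {N : ℕ} {ψ f : ℕ → ℝ} {R L s τ z K : ℝ} (H : LHyp N ψ f R L) (hs : 0 < s)
    (hτ : 0 < τ) {P : Finset ℕ}
    (hP : ∀ p : ℕ, p ∈ Icc 1 N → p.Prime → z < (p : ℝ) → p ∈ P)
    {q t : ℕ} (hq : q ∈ Icc 1 N) (ht : t ∈ Icc 1 N)
    (hnn : ∀ p j i : ℕ, 0 ≤ (2 * L * ((p : ℝ) ^ j)⁻¹) *
      (if l2_cond (l2_psi N ψ f s τ z (L * R)) ψ K p i (q * p ^ j) t then
        l2_f N ψ f s τ z (L * R) (q * p ^ j) * f t else 0)) :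
    (if (cofac t q : ℝ) * ψ q ≤ K ∧ (cofac q t : ℝ) * ψ t ≤ K ∧
      ∃ p j : ℕ, 2 ≤ j ∧ LPop N ψ f s τ z q p j ∧ ¬ p ^ j ∣ cofac t q then f q * f t else 0) ≤
    ∑ p ∈ P, ∑ j ∈ Icc 2 N, ∑ i ∈ Icc 1 j, (2 * L * ((p : ℝ) ^ j)⁻¹) *
      (if l2_cond (l2_psi N ψ f s τ z (L * R)) ψ K p i (q * p ^ j) t then
        l2_f N ψ f s τ z (L * R) (q * p ^ j) * f t else 0) := by
  by_cases h : (cofac t q : ℝ) * ψ q ≤ K ∧ (cofac q t : ℝ) * ψ t ≤ K ∧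
      ∃ p j : ℕ, 2 ≤ j ∧ LPop N ψ f s τ z q p j ∧ ¬ p ^ j ∣ cofac t q
  · rw [if_pos h]
    obtain ⟨h1, h2, p, j, hj, hpop, hnd⟩ := h
    obtain ⟨hlt, hcond⟩ := l2_pair H hs hτ hq ht hpop h1 h2 hnd
    have hpow := l2_pow_le hs hτ hpop
    have hpp := hpop.1
    have hpP : p ∈ P := by
      refine hP p (mem_Icc.2 ⟨hpp.one_le, ?_⟩) hpp hpop.2.1
      exact (Nat.le_self_pow (by omega) p).trans hpow
    have hjN : j ∈ Icc 2 N := by
      rw [mem_Icc]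
      exact ⟨hj, (Nat.lt_pow_self hpp.one_lt).le.trans hpow⟩
    have hiN : j - (cofac t q).factorization p ∈ Icc 1 j := by
      rw [mem_Icc]
      omega
    have hfq := l2_f_le H hs hτ hq hpop
    generalize j - (cofac t q).factorization p = i at hiN hcond
    have h3 : f q * f t ≤ (2 * L * ((p : ℝ) ^ j)⁻¹) *
        (if l2_cond (l2_psi N ψ f s τ z (L * R)) ψ K p i (q * p ^ j) t then
          l2_f N ψ f s τ z (L * R) (q * p ^ j) * f t else 0) := by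
      rw [if_pos hcond]
      calc f q * f t ≤
            (2 * L * ((p : ℝ) ^ j)⁻¹ * l2_f N ψ f s τ z (L * R) (q * p ^ j)) * f t :=
            mul_le_mul_of_nonneg_right hfq (H.hf t).1
        _ = _ := by ring
    refine h3.trans ?_
    refine le_trans ?_ (single_le_sum (fun p' _ => sum_nonneg fun j' _ => sum_nonneg
      fun i' _ => hnn p' j' i') hpP)
    refine le_trans ?_ (single_le_sum (fun j' _ => sum_nonneg
      fun i' _ => hnn p j' i') hjN)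
    exact single_le_sum (f := fun i : ℕ => (2 * L * ((p : ℝ) ^ j)⁻¹) *
      (if l2_cond (l2_psi N ψ f s τ z (L * R)) ψ K p i (q * p ^ j) t then
        l2_f N ψ f s τ z (L * R) (q * p ^ j) * f t else 0)) (fun i' _ => hnn p j i') hiN
  · rw [if_neg h]
    exact sum_nonneg fun p _ => sum_nonneg fun j _ => sum_nonneg fun i _ => hnn p j i

/-- Pairs with a popular `p ^ j`, `j ≥ 2`, that does not divide the cofactor. -/
theorem lift_high {θ : ℝ} (hθ : 1 / 2 < θ) (hθ1 : θ < 1) :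
    ∃ C > 0, ∀ (N : ℕ) (ψ f : ℕ → ℝ) (R L s τ z K : ℝ), LHyp N ψ f R L → 0 < s → 0 < τ → 1 ≤ z →
      0 < K →
      psum (fun q t => (cofac t q : ℝ) * ψ q ≤ K ∧ (cofac q t : ℝ) * ψ t ≤ K ∧
        ∃ p j : ℕ, 2 ≤ j ∧ LPop N ψ f s τ z q p j ∧ ¬ p ^ j ∣ cofac t q) N f f ≤
        C * L * K ^ (2 * (1 - θ)) * z ^ (-(2 * θ - 1)) *
          (lmass N ψ f s τ z (L * R) * ∑ q ∈ Icc 1 N, f q) ^ θ := by
  classical
  obtain ⟨C₁, hC₁, hB⟩ := l2_bil hθ hθ1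
  obtain ⟨C₂, hC₂, hN2⟩ := l2_numeric hθ hθ1
  refine ⟨2 * C₁ * C₂, by positivity, ?_⟩
  intro N ψ f R L s τ z K H hs hτ hz hK
  have hL : 0 < L := lt_of_lt_of_le one_pos H.hL
  have hLR : 0 < L * R := mul_pos hL H.hR
  have hF0 : 0 ≤ lmass N ψ f s τ z (L * R) := by
    rw [← l2_sum_f]
    exact sum_nonneg fun n _ => (l2_f_bounds N ψ f s τ z hLR n).1
  have hM0 : 0 ≤ ∑ q ∈ Icc 1 N, f q := sum_nonneg fun q _ => (H.hf q).1
  have hnn : ∀ (q t p j i : ℕ), 0 ≤ (2 * L * ((p : ℝ) ^ j)⁻¹) *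
      (if l2_cond (l2_psi N ψ f s τ z (L * R)) ψ K p i (q * p ^ j) t then
        l2_f N ψ f s τ z (L * R) (q * p ^ j) * f t else 0) := by
    intro q t p j i
    refine mul_nonneg (by positivity) ?_
    split_ifs
    · exact mul_nonneg (l2_f_bounds N ψ f s τ z hLR _).1 (H.hf t).1
    · exact le_rfl
  have hnum := hN2 N z ((Icc 1 N).filter (fun p : ℕ => p.Prime ∧ z < (p : ℝ))) hz
    (fun p hp => (mem_filter.1 hp).2)
  have hPm : ∀ p : ℕ, p ∈ Icc 1 N → p.Prime → z < (p : ℝ) →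
      p ∈ (Icc 1 N).filter (fun p : ℕ => p.Prime ∧ z < (p : ℝ)) :=
    fun p h1 h2 h3 => mem_filter.2 ⟨h1, h2, h3⟩
  have hPp : ∀ p ∈ (Icc 1 N).filter (fun p : ℕ => p.Prime ∧ z < (p : ℝ)), p.Prime :=
    fun p hp => (mem_filter.1 hp).2.1
  generalize (Icc 1 N).filter (fun p : ℕ => p.Prime ∧ z < (p : ℝ)) = P at hnum hPm hPp
  have hBp := hB N ψ f R L s τ z K H hK
  have hFMθ : 0 ≤ (lmass N ψ f s τ z (L * R) * ∑ q ∈ Icc 1 N, f q) ^ θ := by positivity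
  generalize (lmass N ψ f s τ z (L * R) * ∑ q ∈ Icc 1 N, f q) ^ θ = W at hBp hFMθ ⊢
  have hK2 : 0 < K ^ (2 * (1 - θ)) := by positivity
  calc psum (fun q t => (cofac t q : ℝ) * ψ q ≤ K ∧ (cofac q t : ℝ) * ψ t ≤ K ∧
        ∃ p j : ℕ, 2 ≤ j ∧ LPop N ψ f s τ z q p j ∧ ¬ p ^ j ∣ cofac t q) N f f
      ≤ ∑ q ∈ Icc 1 N, ∑ t ∈ Icc 1 N, ∑ p ∈ P, ∑ j ∈ Icc 2 N, ∑ i ∈ Icc 1 j,
          (2 * L * ((p : ℝ) ^ j)⁻¹) *
          (if l2_cond (l2_psi N ψ f s τ z (L * R)) ψ K p i (q * p ^ j) t then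
            l2_f N ψ f s τ z (L * R) (q * p ^ j) * f t else 0) := by
        unfold psum
        refine sum_le_sum fun q hq => sum_le_sum fun t ht => ?_
        refine le_trans (le_of_eq ?_) (l2_pt H hs hτ hPm hq ht (hnn q t))
        congr
    _ = ∑ p ∈ P, ∑ j ∈ Icc 2 N, ∑ i ∈ Icc 1 j, (2 * L * ((p : ℝ) ^ j)⁻¹) *
          ∑ q ∈ Icc 1 N, ∑ t ∈ Icc 1 N,
          (if l2_cond (l2_psi N ψ f s τ z (L * R)) ψ K p i (q * p ^ j) t then
            l2_f N ψ f s τ z (L * R) (q * p ^ j) * f t else 0) :=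
        l2_ex3 P (Icc 2 N) (Icc 1 N) (Icc 1 N) (fun j => Icc 1 j)
          (fun p j => 2 * L * ((p : ℝ) ^ j)⁻¹) (fun p j i q t =>
          (if l2_cond (l2_psi N ψ f s τ z (L * R)) ψ K p i (q * p ^ j) t then
            l2_f N ψ f s τ z (L * R) (q * p ^ j) * f t else 0))
    _ ≤ ∑ p ∈ P, ∑ j ∈ Icc 2 N, ∑ i ∈ Icc 1 j, (2 * L * ((p : ℝ) ^ j)⁻¹) *
          (C₁ * K ^ (2 * (1 - θ)) * ((p : ℝ) ^ (1 - θ)) ^ i * W) := by
        refine sum_le_sum fun p hp => sum_le_sum fun j _ => sum_le_sum fun i _ => ?_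
        refine mul_le_mul_of_nonneg_left ?_ (by positivity)
        refine le_trans ?_ (hBp p (hPp p hp) i)
        exact l2_inner_le H (hPp p hp).pos j i
    _ = 2 * L * C₁ * K ^ (2 * (1 - θ)) * W *
          ∑ p ∈ P, ∑ j ∈ Icc 2 N, ∑ i ∈ Icc 1 j,
            ((p : ℝ) ^ j)⁻¹ * ((p : ℝ) ^ (1 - θ)) ^ i := by
        rw [mul_sum]
        refine sum_congr rfl fun p _ => ?_
        rw [mul_sum]
        refine sum_congr rfl fun j _ => ?_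
        rw [mul_sum]
        refine sum_congr rfl fun i _ => ?_
        ring
    _ ≤ 2 * L * C₁ * K ^ (2 * (1 - θ)) * W * (C₂ * z ^ (-(2 * θ - 1))) :=
        mul_le_mul_of_nonneg_left hnum (by positivity)
    _ = _ := by ring

end Vale.P028
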