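import Vale.Agent.P028.BT1
import Vale.Agent.P028.LHigh

set_option linter.all false

/-!
# The decomposition lemma

A finite weighted set of integers is split into classes such that in each class every prime `p`
has a dominant exponent (the mass of the other exponents is at most `τ / p` times the mass of the
class), while the bilinear sums over pairs in different classes are small.
-/

namespace Vale.P028

open Finset

/-- mass of the class `a` -/
noncomputable def cmass (N : ℕ) (f : ℕ → ℝ) (cl : ℕ → ℕ) (a : ℕ) : ℝ :=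
  ∑ q ∈ Icc 1 N, if cl q = a then f q else 0

/-- mass of the elements of the class `a` whose exponent at `p` is not the dominant one -/
noncomputable def cminor (N : ℕ) (f : ℕ → ℝ) (cl : ℕ → ℕ) (lev : ℕ → ℕ → ℕ) (a p : ℕ) : ℝ :=
  ∑ q ∈ Icc 1 N, if cl q = a ∧ q.factorization p ≠ lev a p then f q else 0

/-- `cl` gives the class of an integer, `lev a p` the dominant exponent of `p` in the class `a`. -/
structure IsDecomp (N : ℕ) (f : ℕ → ℝ) (τ : ℝ) (cl : ℕ → ℕ) (lev : ℕ → ℕ → ℕ) : Prop where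
  minor : ∀ a p, p.Prime → cminor N f cl lev a p ≤ τ / p * cmass N f cl a
  lev0 : ∀ a p, N < p → lev a p = 0

open Classical in
/-- `T1_dvd` for subsets. -/
theorem fd_sub {θ : ℝ} (hθ : 1 / 2 < θ) (hθ1 : θ < 1) :
    ∃ C > 0, ∀ (N : ℕ) (ψ f : ℕ → ℝ), (∀ q, 0 ≤ ψ q) →
      (∀ q, 0 ≤ f q ∧ f q ≤ ψ q * (q.totient / q)) →
      ∀ (A B : Finset ℕ), A ⊆ Icc 1 N → B ⊆ Icc 1 N → ∀ (d₁ d₂ : ℕ), 0 < d₁ → 0 < d₂ →
      ∀ s₁ s₂ : ℝ, 0 < s₁ → 0 < s₂ →
      ∑ q ∈ A, ∑ r ∈ B, (if d₁ ∣ cofac q r ∧ d₂ ∣ cofac r q ∧ (cofac r q : ℝ) * ψ q ≤ s₁ ∧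
        (cofac q r : ℝ) * ψ r ≤ s₂ then f q * f r else 0) ≤
        C * (s₁ * s₂) ^ (1 - θ) * ((∑ q ∈ A, f q) * ∑ r ∈ B, f r) ^ θ *
          (((d₁ : ℝ) ^ (-(1 - θ))) * ((d₂ : ℝ) ^ (-(1 - θ)))) := by
  obtain ⟨C, hC, hT⟩ := T1_dvd hθ hθ1
  refine ⟨C, hC, ?_⟩
  intro N ψ f hψ hf A B hA hB d₁ d₂ hd₁ hd₂ s₁ s₂ hs₁ hs₂
  have hind : ∀ D : Finset ℕ, ∀ q, 0 ≤ (if q ∈ D then f q else 0) ∧
      (if q ∈ D then f q else 0) ≤ ψ q * (q.totient / q) := by
    intro D q
    split_ifs
    · exact hf q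
    · exact ⟨le_rfl, mul_nonneg (hψ q) (by positivity)⟩
  have key := hT d₁ d₂ hd₁ hd₂ ψ ψ (fun q => if q ∈ A then f q else 0)
    (fun q => if q ∈ B then f q else 0) s₁ s₂ N hs₁ hs₂ hψ hψ (hind A) (hind B)
  have hsum : ∀ D : Finset ℕ, D ⊆ Icc 1 N → ∀ g : ℕ → ℝ,
      ∑ q ∈ Icc 1 N, (if q ∈ D then g q else 0) = ∑ q ∈ D, g q := by
    intro D hD g
    rw [← Finset.sum_filter]
    congr 1
    ext q
    simp only [mem_filter]
    constructor
    · exact fun h => h.2
    · exact fun h => ⟨hD h, h⟩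
  rw [hsum A hA, hsum B hB] at key
  refine le_trans (le_of_eq ?_) key
  unfold psum
  rw [← hsum A hA]
  refine sum_congr rfl fun q hq => ?_
  by_cases h : q ∈ A
  · rw [if_pos h, ← hsum B hB]
    refine sum_congr rfl fun r hr => ?_
    by_cases h' : r ∈ B
    · simp only [h, h', if_true]
    · simp only [h', if_false, mul_zero, ite_self]
  · rw [if_neg h]
    symm
    refine sum_eq_zero fun r hr => ?_
    simp only [h, if_false, zero_mul, ite_self]

/-- `1 - x^{1+η}`-type inequality for the masses of the levels. -/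
theorem fd_pow_sum {ι : Type*} (I : Finset ι) (x : ι → ℝ) (hx : ∀ i ∈ I, 0 ≤ x i) {θ m e : ℝ}
    (hθ : 1 / 2 < θ) (hθ1 : θ < 1) (hm : ∑ i ∈ I, x i = m) (hm0 : 0 < m)
    (he0 : 0 ≤ e) (he1 : e ≤ 1) (he : ∀ i ∈ I, x i ≤ (1 - e) * m) :
    ∑ i ∈ I, x i ^ (2 * θ) ≤ m ^ (2 * θ) * (1 - (2 * θ - 1) * e) := by
  have h1 : ∀ i ∈ I, x i ^ (2 * θ) ≤ ((1 - e) * m) ^ (2 * θ - 1) * x i := by
    intro i hi
    rcases (hx i hi).eq_or_lt with h | h
    · rw [← h, Real.zero_rpow (by linarith), mul_zero]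
    · calc x i ^ (2 * θ) = x i ^ (2 * θ - 1) * x i ^ (1 : ℝ) := by
            rw [← Real.rpow_add h]; ring_nf
        _ = x i ^ (2 * θ - 1) * x i := by rw [Real.rpow_one]
        _ ≤ ((1 - e) * m) ^ (2 * θ - 1) * x i :=
            mul_le_mul_of_nonneg_right (Real.rpow_le_rpow h.le (he i hi) (by linarith)) h.le
  have h2 : (1 - e) ^ (2 * θ - 1) ≤ 1 - (2 * θ - 1) * e := by
    have h := rpow_one_add_le_one_add_mul_self (s := -e) (p := 2 * θ - 1) (by linarith)
      (by linarith) (by linarith)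
    calc (1 - e) ^ (2 * θ - 1) = (1 + -e) ^ (2 * θ - 1) := by ring_nf
      _ ≤ 1 + (2 * θ - 1) * -e := h
      _ = _ := by ring
  calc ∑ i ∈ I, x i ^ (2 * θ) ≤ ∑ i ∈ I, ((1 - e) * m) ^ (2 * θ - 1) * x i := sum_le_sum h1
    _ = ((1 - e) * m) ^ (2 * θ - 1) * m := by rw [← mul_sum, hm]
    _ = (1 - e) ^ (2 * θ - 1) * (m ^ (2 * θ - 1) * m) := by
        rw [Real.mul_rpow (by linarith) hm0.le]; ring
    _ = (1 - e) ^ (2 * θ - 1) * m ^ (2 * θ) := by
        congr 1
        calc m ^ (2 * θ - 1) * m = m ^ (2 * θ - 1) * m ^ (1 : ℝ) := by rw [Real.rpow_one]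
          _ = m ^ (2 * θ) := by rw [← Real.rpow_add hm0]; ring_nf
    _ ≤ (1 - (2 * θ - 1) * e) * m ^ (2 * θ) :=
        mul_le_mul_of_nonneg_right h2 (Real.rpow_nonneg hm0.le _)
    _ = _ := by ring

open Classical in
/-- induction step: the pairs on different levels of `p`. -/
theorem fd_level {θ : ℝ} (hθ : 1 / 2 < θ) (hθ1 : θ < 1) :
    ∃ C > 0, ∀ (N : ℕ) (ψ f : ℕ → ℝ), (∀ q, 0 ≤ ψ q) →
      (∀ q, 0 ≤ f q ∧ f q ≤ ψ q * (q.totient / q)) →
      ∀ (A : Finset ℕ), A ⊆ Icc 1 N → ∀ (p k : ℕ), p.Prime →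
      ∀ s₁ s₂ : ℝ, 0 < s₁ → 0 < s₂ →
      ∑ q ∈ A, ∑ r ∈ A, (if q.factorization p ≠ r.factorization p ∧ (cofac r q : ℝ) * ψ q ≤ s₁ ∧
        (cofac q r : ℝ) * ψ r ≤ s₂ then f q * f r else 0) ≤
        C * (s₁ * s₂) ^ (1 - θ) * (p : ℝ) ^ (-(1 - θ)) *
          ((∑ q ∈ A with q.factorization p ≠ k, f q) * ∑ r ∈ A, f r) ^ θ := by
  obtain ⟨C, hC, hT⟩ := fd_sub hθ hθ1
  refine ⟨4 * C, by positivity, ?_⟩
  intro N ψ f hψ hf A hA p k hp s₁ s₂ hs₁ hs₂
  set B := A.filter (fun q => q.factorization p ≠ k) with hB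
  have hBN : B ⊆ Icc 1 N := (filter_subset _ _).trans hA
  have hp0 : 0 < p := hp.pos
  -- one of the two cofactors is divisible by p
  have hdvd : ∀ q r : ℕ, 0 < q → 0 < r → q.factorization p ≠ r.factorization p →
      p ∣ cofac q r ∨ p ∣ cofac r q := by
    intro q r hq hr h
    by_contra hne
    push Not at hne
    obtain ⟨h1, h2⟩ := hne
    apply h
    have hg0 : 0 < Nat.gcd q r := Nat.gcd_pos_of_pos_left _ hq
    have e1 : Nat.gcd q r * cofac q r = q := gcd_mul_cofac q r
    have e2 : Nat.gcd q r * cofac r q = r := by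
      have := gcd_mul_cofac r q
      rwa [Nat.gcd_comm] at this
    have hc1 : cofac q r ≠ 0 := by
      intro h0; rw [h0, mul_zero] at e1; omega
    have hc2 : cofac r q ≠ 0 := by
      intro h0; rw [h0, mul_zero] at e2; omega
    have f1 : q.factorization p = (Nat.gcd q r).factorization p := by
      conv_lhs => rw [← e1]
      rw [Nat.factorization_mul hg0.ne' hc1]
      simp [Nat.factorization_eq_zero_of_not_dvd h1]
    have f2 : r.factorization p = (Nat.gcd q r).factorization p := by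
      conv_lhs => rw [← e2]
      rw [Nat.factorization_mul hg0.ne' hc2]
      simp [Nat.factorization_eq_zero_of_not_dvd h2]
    rw [f1, f2]
  set G : ℕ → ℕ → ℕ → ℕ → ℝ := fun d₁ d₂ q r =>
    if d₁ ∣ cofac q r ∧ d₂ ∣ cofac r q ∧ (cofac r q : ℝ) * ψ q ≤ s₁ ∧
        (cofac q r : ℝ) * ψ r ≤ s₂ then f q * f r else 0 with hG
  have hG0 : ∀ d₁ d₂ q r, 0 ≤ G d₁ d₂ q r := by
    intro d₁ d₂ q r
    simp only [hG]
    split_ifs
    · exact mul_nonneg (hf q).1 (hf r).1
    · exact le_rfl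
  have hpt : ∀ q ∈ A, ∀ r ∈ A, (if q.factorization p ≠ r.factorization p ∧
      (cofac r q : ℝ) * ψ q ≤ s₁ ∧ (cofac q r : ℝ) * ψ r ≤ s₂ then f q * f r else 0) ≤
      (if q.factorization p ≠ k then G p 1 q r + G 1 p q r else 0) +
      (if r.factorization p ≠ k then G p 1 q r + G 1 p q r else 0) := by
    intro q hq r hr
    have hn : 0 ≤ G p 1 q r + G 1 p q r := add_nonneg (hG0 _ _ _ _) (hG0 _ _ _ _)
    have hq0 : 0 < q := (mem_Icc.1 (hA hq)).1
    have hr0 : 0 < r := (mem_Icc.1 (hA hr)).1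
    by_cases hc : q.factorization p ≠ r.factorization p ∧
      (cofac r q : ℝ) * ψ q ≤ s₁ ∧ (cofac q r : ℝ) * ψ r ≤ s₂
    · rw [if_pos hc]
      have hmain : f q * f r ≤ G p 1 q r + G 1 p q r := by
        rcases hdvd q r hq0 hr0 hc.1 with h | h
        · have : G p 1 q r = f q * f r := by
            simp only [hG]
            rw [if_pos ⟨h, one_dvd _, hc.2.1, hc.2.2⟩]
          linarith [hG0 1 p q r]
        · have : G 1 p q r = f q * f r := by
            simp only [hG]
            rw [if_pos ⟨one_dvd _, h, hc.2.1, hc.2.2⟩]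
          linarith [hG0 p 1 q r]
      by_cases hk : q.factorization p ≠ k
      · rw [if_pos hk]
        split_ifs <;> linarith
      · have hk' : r.factorization p ≠ k := by
          intro h'
          push Not at hk
          exact hc.1 (hk.trans h'.symm)
        rw [if_neg hk, if_pos hk']
        linarith
    · rw [if_neg hc]
      split_ifs <;> linarith
  have hsB : ∀ g : ℕ → ℝ, ∑ q ∈ A, (if q.factorization p ≠ k then g q else 0) = ∑ q ∈ B, g q := by
    intro g
    rw [hB, sum_filter]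
  have b1 := hT N ψ f hψ hf B A hBN hA p 1 hp0 one_pos s₁ s₂ hs₁ hs₂
  have b2 := hT N ψ f hψ hf B A hBN hA 1 p one_pos hp0 s₁ s₂ hs₁ hs₂
  have b3 := hT N ψ f hψ hf A B hA hBN p 1 hp0 one_pos s₁ s₂ hs₁ hs₂
  have b4 := hT N ψ f hψ hf A B hA hBN 1 p one_pos hp0 s₁ s₂ hs₁ hs₂
  rw [mul_comm (∑ q ∈ A, f q) (∑ q ∈ B, f q)] at b3 b4
  simp only [Nat.cast_one, Real.one_rpow, mul_one, one_mul] at b1 b2 b3 b4
  calc _ ≤ ∑ q ∈ A, ∑ r ∈ A, ((if q.factorization p ≠ k then G p 1 q r + G 1 p q r else 0) +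
      (if r.factorization p ≠ k then G p 1 q r + G 1 p q r else 0)) :=
        sum_le_sum fun q hq => sum_le_sum fun r hr => hpt q hq r hr
    _ = (∑ q ∈ B, ∑ r ∈ A, G p 1 q r + ∑ q ∈ B, ∑ r ∈ A, G 1 p q r) +
        (∑ q ∈ A, ∑ r ∈ B, G p 1 q r + ∑ q ∈ A, ∑ r ∈ B, G 1 p q r) := by
        simp only [sum_add_distrib]
        congr 1
        · rw [← sum_add_distrib, ← hsB]
          refine sum_congr rfl fun q hq => ?_
          split_ifs
          · rw [sum_add_distrib]
          · exact sum_const_zero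
        · rw [← sum_add_distrib]
          refine sum_congr rfl fun q hq => ?_
          rw [hsB, sum_add_distrib]
    _ ≤ _ := by
        simp only [hG]
        linarith

open Classical in
theorem fd_main {θ : ℝ} (hθ : 1 / 2 < θ) (hθ1 : θ < 1) :
    ∃ C > 0, ∀ (N : ℕ) (ψ f : ℕ → ℝ) (τ : ℝ), (∀ q, 0 ≤ ψ q) →
      (∀ q, 0 ≤ f q ∧ f q ≤ ψ q * (q.totient / q)) → 1 ≤ τ →
      ∀ A : Finset ℕ, A ⊆ Icc 1 N → ∃ (cl : ℕ → ℕ) (lev : ℕ → ℕ → ℕ),
      (∀ a p, p.Prime → ∑ q ∈ A, (if cl q = a ∧ q.factorization p ≠ lev a p then f q else 0) ≤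
        τ / p * ∑ q ∈ A, (if cl q = a then f q else 0)) ∧
      (∀ a p, N < p → lev a p = 0) ∧
      ∀ s₁ s₂ : ℝ, 0 < s₁ → 0 < s₂ →
      ∑ q ∈ A, ∑ r ∈ A, (if cl q ≠ cl r ∧ (cofac r q : ℝ) * ψ q ≤ s₁ ∧
        (cofac q r : ℝ) * ψ r ≤ s₂ then f q * f r else 0) ≤
        C * (s₁ * s₂) ^ (1 - θ) * τ ^ (-(1 - θ)) * (∑ q ∈ A, f q) ^ (2 * θ) := by
  obtain ⟨C, hC, hT⟩ := fd_level hθ hθ1
  have hη : 0 < 2 * θ - 1 := by linarith
  refine ⟨C / (2 * θ - 1), by positivity, ?_⟩
  intro N ψ f τ hψ hf hτ A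
  have hτ0 : 0 < τ := by linarith
  induction A using Finset.strongInduction with
  | H A ih =>
    intro hA
    set m := ∑ q ∈ A, f q with hm
    have hm0 : 0 ≤ m := sum_nonneg fun q _ => (hf q).1
    by_cases hcase : ∀ p : ℕ, p.Prime → ∃ k : ℕ,
        ∑ q ∈ A with q.factorization p ≠ k, f q ≤ τ / p * m
    · -- no splitting
      choose! K hK using hcase
      refine ⟨fun _ => 0, fun a p => if N < p then 0 else K p, ?_, ?_, ?_⟩
      · intro a p hp
        by_cases ha : (0 : ℕ) = a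
        · subst ha
          simp only [true_and, if_true]
          by_cases hNp : N < p
          · simp only [hNp, if_true]
            have h0 : ∑ q ∈ A, (if q.factorization p ≠ 0 then f q else 0) = 0 := by
              refine sum_eq_zero fun q hq => ?_
              have hq' := mem_Icc.1 (hA hq)
              have : q.factorization p = 0 := Nat.factorization_eq_zero_of_lt (by omega)
              rw [if_neg (by rw [this]; simp)]
            rw [h0]
            positivity
          · simp only [hNp, if_false]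
            rw [← sum_filter]
            exact hK p hp
        · simp only [ha, false_and, if_false, sum_const_zero, mul_zero, le_refl]
      · intro a p hNp
        simp only [hNp, if_true]
      · intro s₁ s₂ hs₁ hs₂
        simp only [ne_eq, not_true_eq_false, false_and, if_false, sum_const_zero]
        positivity
    · push Not at hcase
      obtain ⟨p, hp, hk⟩ := hcase
      have hp0 : (0 : ℝ) < p := by exact_mod_cast hp.pos
      have hmpos : 0 < m := by
        rcases hm0.eq_or_lt with h | h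
        · exfalso
          have h1 := hk 0
          have h2 : ∑ q ∈ A with q.factorization p ≠ 0, f q ≤ m :=
            sum_le_sum_of_subset_of_nonneg (filter_subset _ _) (fun q _ _ => (hf q).1)
          rw [← h, mul_zero] at h1
          linarith
        · exact h
      set v : ℕ → ℕ := fun q => q.factorization p with hv
      set I := A.image v with hI
      set x : ℕ → ℝ := fun i => ∑ q ∈ A with v q = i, f q with hx
      have hx0 : ∀ i, 0 ≤ x i := fun i => sum_nonneg fun q _ => (hf q).1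
      have hxm : ∑ i ∈ I, x i = m := by
        rw [hm]
        exact sum_fiberwise_of_maps_to (fun q hq => mem_image_of_mem v hq) f
      have hmin : ∀ k, ∑ q ∈ A with v q ≠ k, f q = m - x k := by
        intro k
        have := sum_filter_add_sum_filter_not A (fun q => v q = k) f
        rw [hm]
        linarith
      have hIne : I.Nonempty := by
        rw [hI, image_nonempty]
        by_contra h
        rw [not_nonempty_iff_eq_empty] at h
        rw [hm, h, sum_empty] at hmpos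
        exact lt_irrefl _ hmpos
      obtain ⟨k, hkI, hkmax⟩ := exists_max_image I x hIne
      set e : ℝ := (m - x k) / m with he
      have he' : m - x k = e * m := by rw [he]; field_simp
      have hxk : x k ≤ m := by
        rw [← hxm]; exact single_le_sum (fun i _ => hx0 i) hkI
      have he0 : 0 ≤ e := div_nonneg (by linarith) hm0
      have he1 : e ≤ 1 := by rw [he, div_le_one hmpos]; linarith [hx0 k]
      have heτ : τ < e * p := by
        have h1 := hk k
        rw [show (∑ q ∈ A with q.factorization p ≠ k, f q) = ∑ q ∈ A with v q ≠ k, f q from rfl,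
          hmin k, he'] at h1
        have h2 : τ / p < e := lt_of_mul_lt_mul_right h1 hm0
        rwa [div_lt_iff₀ hp0] at h2
      have hepos : 0 < e := by
        rcases he0.eq_or_lt with h | h
        · rw [← h, zero_mul] at heτ; linarith
        · exact h
      have hpow := fd_pow_sum I x (fun i _ => hx0 i) hθ hθ1 hxm hmpos he0 he1 (by
        intro i hi
        have := hkmax i hi
        have h3 : x k = (1 - e) * m := by linarith [he']
        linarith)
      -- induction hypothesis on the levels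
      have hss : ∀ i, A.filter (fun q => v q = i) ⊂ A := by
        intro i
        rw [Finset.ssubset_iff_subset_ne]
        refine ⟨filter_subset _ _, fun h => ?_⟩
        have h1 := hk i
        rw [show (∑ q ∈ A with q.factorization p ≠ i, f q) = ∑ q ∈ A with v q ≠ i, f q from rfl,
          hmin i] at h1
        have h2 : x i = m := by rw [hx, hm]; simp only; rw [h]
        rw [h2, sub_self] at h1
        have : 0 ≤ τ / p * m := by positivity
        linarith
      have IH := fun i => ih (A.filter (fun q => v q = i)) (hss i) ((filter_subset _ _).trans hA)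
      choose clf levf h1 h2 h3 using IH
      refine ⟨fun q => Nat.pair (v q) (clf (v q) q),
        fun a p' => levf (Nat.unpair a).1 (Nat.unpair a).2 p', ?_, ?_, ?_⟩
      · intro a p' hp'
        have hiff : ∀ q, Nat.pair (v q) (clf (v q) q) = a ↔
            v q = (Nat.unpair a).1 ∧ clf (Nat.unpair a).1 q = (Nat.unpair a).2 := by
          intro q
          constructor
          · rintro rfl
            simp
          · rintro ⟨h4, h5⟩
            rw [← h4] at h5
            rw [h5, h4, Nat.pair_unpair]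
        have key := h1 (Nat.unpair a).1 (Nat.unpair a).2 p' hp'
        simp only [sum_filter] at key
        refine le_trans (le_of_eq ?_) (key.trans (le_of_eq ?_))
        · refine sum_congr rfl fun q _ => ?_
          by_cases h4 : v q = (Nat.unpair a).1
          · have h4' : q.factorization p = (Nat.unpair a).1 := h4
            simp only [hiff]
            simp only [h4, h4', true_and, if_true]
          · have h4' : ¬ (q.factorization p = (Nat.unpair a).1) := h4
            simp only [hiff]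
            simp only [h4, h4', false_and, if_false]
        · congr 1
          refine sum_congr rfl fun q _ => ?_
          by_cases h4 : v q = (Nat.unpair a).1
          · have h4' : q.factorization p = (Nat.unpair a).1 := h4
            simp only [hiff]
            simp only [h4, h4', true_and, if_true]
          · have h4' : ¬ (q.factorization p = (Nat.unpair a).1) := h4
            simp only [hiff]
            simp only [h4, h4', false_and, if_false]
      · intro a p' hNp
        exact h2 _ _ _ hNp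
      · intro s₁ s₂ hs₁ hs₂
        have hlev := hT N ψ f hψ hf A hA p k hp s₁ s₂ hs₁ hs₂
        rw [show (∑ q ∈ A with q.factorization p ≠ k, f q) = ∑ q ∈ A with v q ≠ k, f q from rfl,
          hmin k, he', ← hm] at hlev
        have hpe : (p : ℝ) ^ (-(1 - θ)) * (e * m * m) ^ θ ≤
            τ ^ (-(1 - θ)) * (e * m ^ (2 * θ)) := by
          have e1 : (e * m * m) ^ θ = e ^ θ * m ^ (2 * θ) := by
            rw [mul_assoc, Real.mul_rpow he0 (by positivity), ← pow_two, ← Real.rpow_natCast m 2,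
              ← Real.rpow_mul hm0]
            norm_num
          have e2 : e ^ θ = e * e ^ (-(1 - θ)) := by
            nth_rewrite 2 [← Real.rpow_one e]
            rw [← Real.rpow_add hepos]
            ring_nf
          have e3 : (p : ℝ) ^ (-(1 - θ)) * e ^ (-(1 - θ)) ≤ τ ^ (-(1 - θ)) := by
            rw [← Real.mul_rpow hp0.le he0]
            refine Real.rpow_le_rpow_of_nonpos hτ0 (by rw [mul_comm]; exact heτ.le) (by linarith)
          rw [e1, e2]
          calc (p : ℝ) ^ (-(1 - θ)) * (e * e ^ (-(1 - θ)) * m ^ (2 * θ))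
              = ((p : ℝ) ^ (-(1 - θ)) * e ^ (-(1 - θ))) * (e * m ^ (2 * θ)) := by ring
            _ ≤ _ := mul_le_mul_of_nonneg_right e3 (by positivity)
        set F : ℕ → ℕ → ℝ := fun q r => if (cofac r q : ℝ) * ψ q ≤ s₁ ∧
          (cofac q r : ℝ) * ψ r ≤ s₂ then f q * f r else 0 with hF
        have hF0 : ∀ q r, 0 ≤ F q r := by
          intro q r
          simp only [hF]
          split_ifs
          · exact mul_nonneg (hf q).1 (hf r).1
          · exact le_rfl
        have hsecond : ∑ q ∈ A, ∑ r ∈ A, (if v q = v r ∧ clf (v q) q ≠ clf (v q) r then F q r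
            else 0) ≤ ∑ i ∈ I, C / (2 * θ - 1) * (s₁ * s₂) ^ (1 - θ) * τ ^ (-(1 - θ)) *
              x i ^ (2 * θ) := by
          rw [← sum_fiberwise_of_maps_to (fun q hq => mem_image_of_mem v hq)
            (fun q => ∑ r ∈ A, (if v q = v r ∧ clf (v q) q ≠ clf (v q) r then F q r else 0))]
          refine sum_le_sum fun i _ => ?_
          have h4 := h3 i s₁ s₂ hs₁ hs₂
          refine le_trans (le_of_eq ?_) h4
          refine sum_congr rfl fun q hq => ?_
          have hq2 : v q = i := (mem_filter.1 hq).2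
          rw [sum_filter]
          refine sum_congr rfl fun r _ => ?_
          by_cases hr : v r = i
          · rw [if_pos hr, hq2, hr]
            simp only [true_and, hF]
            by_cases h5 : clf i q ≠ clf i r
            · simp only [h5, if_true, true_and, ne_eq, not_false_eq_true]
            · simp only [h5, if_false, false_and]
          · have : ¬ (v q = v r) := by rw [hq2]; exact fun h => hr h.symm
            simp only [this, hr, false_and, if_false]
        have hfirst : ∑ q ∈ A, ∑ r ∈ A, (if Nat.pair (v q) (clf (v q) q) ≠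
            Nat.pair (v r) (clf (v r) r) ∧ (cofac r q : ℝ) * ψ q ≤ s₁ ∧
            (cofac q r : ℝ) * ψ r ≤ s₂ then f q * f r else 0) ≤
            ∑ q ∈ A, ∑ r ∈ A, (if q.factorization p ≠ r.factorization p ∧
              (cofac r q : ℝ) * ψ q ≤ s₁ ∧ (cofac q r : ℝ) * ψ r ≤ s₂ then f q * f r else 0) +
            ∑ q ∈ A, ∑ r ∈ A, (if v q = v r ∧ clf (v q) q ≠ clf (v q) r then F q r
            else 0) := by
          rw [← sum_add_distrib]
          refine sum_le_sum fun q _ => ?_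
          rw [← sum_add_distrib]
          refine sum_le_sum fun r _ => ?_
          have h6 := hF0 q r
          have hnn : 0 ≤ f q * f r := mul_nonneg (hf q).1 (hf r).1
          by_cases h7 : (cofac r q : ℝ) * ψ q ≤ s₁ ∧ (cofac q r : ℝ) * ψ r ≤ s₂
          · have hFe : F q r = f q * f r := by simp only [hF]; rw [if_pos h7]
            by_cases hvv : v q = v r
            · by_cases h5 : clf (v q) q ≠ clf (v q) r
              · rw [if_pos (show v q = v r ∧ clf (v q) q ≠ clf (v q) r from ⟨hvv, h5⟩), hFe]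
                split_ifs <;> linarith
              · have h8 : ¬ (Nat.pair (v q) (clf (v q) q) ≠ Nat.pair (v r) (clf (v r) r)) := by
                  intro h
                  apply h
                  push Not at h5
                  rw [← hvv, h5]
                rw [if_neg (fun h => h8 h.1)]
                split_ifs <;> linarith
            · have hvv' : q.factorization p ≠ r.factorization p := hvv
              rw [if_pos (show q.factorization p ≠ r.factorization p ∧
                (cofac r q : ℝ) * ψ q ≤ s₁ ∧ (cofac q r : ℝ) * ψ r ≤ s₂ from ⟨hvv', h7⟩)]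
              split_ifs <;> linarith
          · rw [if_neg (fun h => h7 h.2), if_neg (fun h => h7 h.2)]
            split_ifs <;> linarith
        have hs0 : 0 < (s₁ * s₂) ^ (1 - θ) := Real.rpow_pos_of_pos (mul_pos hs₁ hs₂) _
        have hτp : 0 < τ ^ (-(1 - θ)) := Real.rpow_pos_of_pos hτ0 _
        calc _ ≤ _ := hfirst
          _ ≤ C * (s₁ * s₂) ^ (1 - θ) * (p : ℝ) ^ (-(1 - θ)) * (e * m * m) ^ θ +
              ∑ i ∈ I, C / (2 * θ - 1) * (s₁ * s₂) ^ (1 - θ) * τ ^ (-(1 - θ)) *
              x i ^ (2 * θ) := add_le_add hlev hsecond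
          _ ≤ C * (s₁ * s₂) ^ (1 - θ) * (τ ^ (-(1 - θ)) * (e * m ^ (2 * θ))) +
              C / (2 * θ - 1) * (s₁ * s₂) ^ (1 - θ) * τ ^ (-(1 - θ)) *
              (m ^ (2 * θ) * (1 - (2 * θ - 1) * e)) := by
              refine add_le_add ?_ ?_
              · rw [mul_assoc]
                exact mul_le_mul_of_nonneg_left hpe (by positivity)
              · rw [← mul_sum]
                exact mul_le_mul_of_nonneg_left hpow (by positivity)
          _ = _ := by
              have hne : (2 * θ - 1) ≠ 0 := hη.ne'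
              have h9 : C = C / (2 * θ - 1) * (2 * θ - 1) := by field_simp
              nth_rewrite 1 [h9]
              ring

open Classical in
/-- **Decomposition lemma.** -/
theorem decomp_exists {θ : ℝ} (hθ : 1 / 2 < θ) (hθ1 : θ < 1) :
    ∃ C > 0, ∀ (N : ℕ) (ψ f : ℕ → ℝ) (τ : ℝ), (∀ q, 0 ≤ ψ q) →
      (∀ q, 0 ≤ f q ∧ f q ≤ ψ q * (q.totient / q)) → 1 ≤ τ →
      ∃ (cl : ℕ → ℕ) (lev : ℕ → ℕ → ℕ), IsDecomp N f τ cl lev ∧
      ∀ s₁ s₂ : ℝ, 0 < s₁ → 0 < s₂ →
      psum (fun q r => cl q ≠ cl r ∧ (cofac r q : ℝ) * ψ q ≤ s₁ ∧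
        (cofac q r : ℝ) * ψ r ≤ s₂) N f f ≤
        C * (s₁ * s₂) ^ (1 - θ) * τ ^ (-(1 - θ)) * (∑ q ∈ Icc 1 N, f q) ^ (2 * θ) := by
  obtain ⟨C, hC, h⟩ := fd_main hθ hθ1
  refine ⟨C, hC, ?_⟩
  intro N ψ f τ hψ hf hτ
  obtain ⟨cl, lev, h1, h2, h3⟩ := h N ψ f τ hψ hf hτ (Icc 1 N) subset_rfl
  refine ⟨cl, lev, ⟨?_, h2⟩, fun s₁ s₂ hs₁ hs₂ => ?_⟩
  · intro a p hp
    unfold cminor cmass
    convert h1 a p hp
  · unfold psum
    convert h3 s₁ s₂ hs₁ hs₂

open Classical in
/-- pairs in one class with a common non-dominant prime `> z` -/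
theorem decomp_double {θ : ℝ} (hθ : 1 / 2 < θ) (hθ1 : θ < 1) :
    ∃ C > 0, ∀ (N : ℕ) (ψ f : ℕ → ℝ) (τ : ℝ) (cl : ℕ → ℕ) (lev : ℕ → ℕ → ℕ), (∀ q, 0 ≤ ψ q) →
      (∀ q, 0 ≤ f q ∧ f q ≤ ψ q * (q.totient / q)) → 0 < τ → IsDecomp N f τ cl lev →
      ∀ z s₁ s₂ : ℝ, 1 ≤ z → 0 < s₁ → 0 < s₂ →
      psum (fun q r => cl q = cl r ∧ (∃ p : ℕ, p.Prime ∧ z < p ∧
          q.factorization p ≠ lev (cl q) p ∧ r.factorization p ≠ lev (cl q) p) ∧
        (cofac r q : ℝ) * ψ q ≤ s₁ ∧ (cofac q r : ℝ) * ψ r ≤ s₂) N f f ≤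
        C * (s₁ * s₂) ^ (1 - θ) * τ ^ (2 * θ) * z ^ (-(2 * θ - 1)) *
          (∑ q ∈ Icc 1 N, f q) ^ (2 * θ) := by
  obtain ⟨C, hC, hT⟩ := fd_sub hθ hθ1
  have hη : 0 < 2 * θ - 1 := by linarith
  refine ⟨C * ((2 * θ - 1)⁻¹ * 2 ^ (2 * θ - 1)), by positivity, ?_⟩
  intro N ψ f τ cl lev hψ hf hτ hD z s₁ s₂ hz hs₁ hs₂
  set I := (Icc 1 N).image cl with hI
  set P := (Icc 1 N).filter (fun p : ℕ => p.Prime ∧ z < (p : ℝ)) with hP
  set A : ℕ → ℕ → Finset ℕ := fun a p =>
    (Icc 1 N).filter (fun q => cl q = a ∧ q.factorization p ≠ lev a p) with hA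
  set F : ℕ → ℕ → ℝ := fun q r => if (cofac r q : ℝ) * ψ q ≤ s₁ ∧
    (cofac q r : ℝ) * ψ r ≤ s₂ then f q * f r else 0 with hF
  have hF0 : ∀ q r, 0 ≤ F q r := by
    intro q r
    simp only [hF]
    split_ifs
    · exact mul_nonneg (hf q).1 (hf r).1
    · exact le_rfl
  -- pointwise bound
  have hpt : ∀ q ∈ Icc 1 N, ∀ r ∈ Icc 1 N, (if cl q = cl r ∧ (∃ p : ℕ, p.Prime ∧ z < p ∧
          q.factorization p ≠ lev (cl q) p ∧ r.factorization p ≠ lev (cl q) p) ∧
        (cofac r q : ℝ) * ψ q ≤ s₁ ∧ (cofac q r : ℝ) * ψ r ≤ s₂ then f q * f r else 0) ≤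
      ∑ a ∈ I, ∑ p ∈ P, (if q ∈ A a p ∧ r ∈ A a p then F q r else 0) := by
    intro q hq r hr
    have hnn : ∀ a p, 0 ≤ (if q ∈ A a p ∧ r ∈ A a p then F q r else 0) := by
      intro a p
      split_ifs
      · exact hF0 q r
      · exact le_rfl
    by_cases hc : cl q = cl r ∧ (∃ p : ℕ, p.Prime ∧ z < p ∧
          q.factorization p ≠ lev (cl q) p ∧ r.factorization p ≠ lev (cl q) p) ∧
        (cofac r q : ℝ) * ψ q ≤ s₁ ∧ (cofac q r : ℝ) * ψ r ≤ s₂
    · rw [if_pos hc]
      obtain ⟨h1, ⟨p, hp, hzp, h2, h3⟩, h4⟩ := hc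
      have hpN : p ≤ N := by
        by_contra h
        push Not at h
        have hq' := (mem_Icc.1 hq).2
        apply h2
        rw [hD.lev0 _ _ h, Nat.factorization_eq_zero_of_lt (by omega)]
      have hpP : p ∈ P := mem_filter.2 ⟨mem_Icc.2 ⟨hp.one_le, hpN⟩, hp, hzp⟩
      have hqA : q ∈ A (cl q) p := mem_filter.2 ⟨hq, rfl, h2⟩
      have hrA : r ∈ A (cl q) p := mem_filter.2 ⟨hr, h1.symm, h3⟩
      have e1 : f q * f r = (if q ∈ A (cl q) p ∧ r ∈ A (cl q) p then F q r else 0) := by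
        rw [if_pos ⟨hqA, hrA⟩]
        simp only [hF]
        rw [if_pos h4]
      rw [e1]
      refine le_trans (single_le_sum (f := fun p => if q ∈ A (cl q) p ∧ r ∈ A (cl q) p then
        F q r else 0) (fun p _ => hnn _ p) hpP) ?_
      exact single_le_sum (f := fun a => ∑ p ∈ P, if q ∈ A a p ∧ r ∈ A a p then
        F q r else 0) (fun a _ => sum_nonneg fun p _ => hnn a p) (mem_image_of_mem cl hq)
    · rw [if_neg hc]
      exact sum_nonneg fun a _ => sum_nonneg fun p _ => hnn a p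
  -- bound for one class and one prime
  have hone : ∀ a ∈ I, ∀ p ∈ P, ∑ q ∈ Icc 1 N, ∑ r ∈ Icc 1 N,
      (if q ∈ A a p ∧ r ∈ A a p then F q r else 0) ≤
      C * (s₁ * s₂) ^ (1 - θ) * (τ ^ (2 * θ) * (p : ℝ) ^ (-(2 * θ)) * cmass N f cl a ^ (2 * θ)) := by
    intro a _ p hp
    have hpp : p.Prime := (mem_filter.1 hp).2.1
    have hp0 : (0 : ℝ) < p := by exact_mod_cast hpp.pos
    have hAs : A a p ⊆ Icc 1 N := filter_subset _ _
    have e1 : ∑ q ∈ Icc 1 N, ∑ r ∈ Icc 1 N, (if q ∈ A a p ∧ r ∈ A a p then F q r else 0) =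
        ∑ q ∈ A a p, ∑ r ∈ A a p, F q r := by
      have hsum : ∀ g : ℕ → ℝ, ∑ q ∈ Icc 1 N, (if q ∈ A a p then g q else 0) =
          ∑ q ∈ A a p, g q := by
        intro g
        rw [← Finset.sum_filter]
        congr 1
        ext q
        simp only [mem_filter]
        exact ⟨fun h => h.2, fun h => ⟨hAs h, h⟩⟩
      rw [← hsum]
      refine sum_congr rfl fun q _ => ?_
      by_cases h : q ∈ A a p
      · rw [if_pos h, ← hsum]
        refine sum_congr rfl fun r _ => ?_
        simp only [h, true_and]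
      · rw [if_neg h]
        refine sum_eq_zero fun r _ => ?_
        simp only [h, false_and, if_false]
    rw [e1]
    have h2 := hT N ψ f hψ hf (A a p) (A a p) hAs hAs 1 1 one_pos one_pos s₁ s₂ hs₁ hs₂
    simp only [one_dvd, true_and, Nat.cast_one, Real.one_rpow, mul_one] at h2
    have hm : ∑ q ∈ A a p, f q = cminor N f cl lev a p := by
      unfold cminor
      rw [hA, sum_filter]
    have hm0 : 0 ≤ cminor N f cl lev a p := by
      rw [← hm]; exact sum_nonneg fun q _ => (hf q).1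
    have hc0 : 0 ≤ cmass N f cl a := by
      unfold cmass
      refine sum_nonneg fun q _ => ?_
      split_ifs
      · exact (hf q).1
      · exact le_rfl
    rw [hm] at h2
    refine h2.trans ?_
    refine mul_le_mul_of_nonneg_left ?_ (by positivity)
    have h3 := hD.minor a p hpp
    calc (cminor N f cl lev a p * cminor N f cl lev a p) ^ θ
        = cminor N f cl lev a p ^ (2 * θ) := by
          rw [← pow_two, ← Real.rpow_natCast (cminor N f cl lev a p) 2, ← Real.rpow_mul hm0]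
          norm_num
      _ ≤ (τ / p * cmass N f cl a) ^ (2 * θ) := Real.rpow_le_rpow hm0 h3 (by linarith)
      _ = _ := by
          rw [Real.mul_rpow (by positivity) hc0, Real.div_rpow hτ.le hp0.le,
            Real.rpow_neg hp0.le]
          ring
  have hmass : ∑ a ∈ I, cmass N f cl a = ∑ q ∈ Icc 1 N, f q := by
    unfold cmass
    rw [sum_comm]
    refine sum_congr rfl fun q hq => ?_
    rw [sum_ite_eq, if_pos (mem_image_of_mem cl hq)]
  have hc0 : ∀ a ∈ I, 0 ≤ cmass N f cl a := by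
    intro a _
    unfold cmass
    refine sum_nonneg fun q _ => ?_
    split_ifs
    · exact (hf q).1
    · exact le_rfl
  have hM0 : 0 ≤ ∑ q ∈ Icc 1 N, f q := sum_nonneg fun q _ => (hf q).1
  have hpow : ∑ a ∈ I, cmass N f cl a ^ (2 * θ) ≤ (∑ q ∈ Icc 1 N, f q) ^ (2 * θ) := by
    rcases hM0.eq_or_lt with h | h
    · have h0 : ∀ a ∈ I, cmass N f cl a = 0 := by
        rw [← h] at hmass
        exact (sum_eq_zero_iff_of_nonneg hc0).1 hmass
      rw [← h, Real.zero_rpow (by linarith)]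
      refine le_of_eq (sum_eq_zero fun a ha => ?_)
      rw [h0 a ha, Real.zero_rpow (by linarith)]
    · have h1 := fd_pow_sum I (cmass N f cl) hc0 hθ hθ1 hmass h le_rfl zero_le_one (by
        intro a ha
        rw [sub_zero, one_mul, ← hmass]
        exact single_le_sum hc0 ha)
      simpa only [mul_zero, sub_zero, mul_one] using h1
  have htail := l2_tail' (a := 2 * θ) (by linarith) hz P (fun p hp => (mem_filter.1 hp).2.2)
  have hs0 : 0 < (s₁ * s₂) ^ (1 - θ) := Real.rpow_pos_of_pos (mul_pos hs₁ hs₂) _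
  have hz0 : 0 < z := by linarith
  calc psum (fun q r => cl q = cl r ∧ (∃ p : ℕ, p.Prime ∧ z < p ∧
          q.factorization p ≠ lev (cl q) p ∧ r.factorization p ≠ lev (cl q) p) ∧
        (cofac r q : ℝ) * ψ q ≤ s₁ ∧ (cofac q r : ℝ) * ψ r ≤ s₂) N f f
      ≤ ∑ q ∈ Icc 1 N, ∑ r ∈ Icc 1 N, ∑ a ∈ I, ∑ p ∈ P,
          (if q ∈ A a p ∧ r ∈ A a p then F q r else 0) := by
        unfold psum
        refine sum_le_sum fun q hq => sum_le_sum fun r hr => ?_
        refine le_trans (le_of_eq ?_) (hpt q hq r hr)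
        congr
    _ = ∑ a ∈ I, ∑ p ∈ P, ∑ q ∈ Icc 1 N, ∑ r ∈ Icc 1 N,
          (if q ∈ A a p ∧ r ∈ A a p then F q r else 0) := by
        have h1 : ∀ q, ∑ r ∈ Icc 1 N, ∑ a ∈ I, ∑ p ∈ P,
            (if q ∈ A a p ∧ r ∈ A a p then F q r else 0) =
            ∑ a ∈ I, ∑ p ∈ P, ∑ r ∈ Icc 1 N,
            (if q ∈ A a p ∧ r ∈ A a p then F q r else 0) := by
          intro q
          rw [sum_comm]
          exact sum_congr rfl fun a _ => sum_comm
        simp only [h1]
        rw [sum_comm]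
        exact sum_congr rfl fun a _ => sum_comm
    _ ≤ ∑ a ∈ I, ∑ p ∈ P, C * (s₁ * s₂) ^ (1 - θ) *
          (τ ^ (2 * θ) * (p : ℝ) ^ (-(2 * θ)) * cmass N f cl a ^ (2 * θ)) :=
        sum_le_sum fun a ha => sum_le_sum fun p hp => hone a ha p hp
    _ = C * (s₁ * s₂) ^ (1 - θ) * τ ^ (2 * θ) * ((∑ a ∈ I, cmass N f cl a ^ (2 * θ)) *
          ∑ p ∈ P, (p : ℝ) ^ (-(2 * θ))) := by
        rw [sum_mul_sum, mul_sum]
        refine sum_congr rfl fun a _ => ?_
        rw [mul_sum]
        refine sum_congr rfl fun p _ => ?_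
        ring
    _ ≤ C * (s₁ * s₂) ^ (1 - θ) * τ ^ (2 * θ) * ((∑ q ∈ Icc 1 N, f q) ^ (2 * θ) *
          ((2 * θ - 1)⁻¹ * 2 ^ (2 * θ - 1) * z ^ (-(2 * θ - 1)))) := by
        refine mul_le_mul_of_nonneg_left ?_ (by positivity)
        exact mul_le_mul hpow htail (sum_nonneg fun p _ => by positivity) (by positivity)
    _ = _ := by ring

open Classical in
/-- pairs in one class of small mass -/
theorem decomp_poor {θ : ℝ} (hθ : 1 / 2 < θ) (hθ1 : θ < 1) :
    ∃ C > 0, ∀ (N : ℕ) (ψ f : ℕ → ℝ) (cl : ℕ → ℕ), (∀ q, 0 ≤ ψ q) →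
      (∀ q, 0 ≤ f q ∧ f q ≤ ψ q * (q.totient / q)) →
      ∀ δ s₁ s₂ : ℝ, 0 < δ → 0 < s₁ → 0 < s₂ →
      psum (fun q r => cl q = cl r ∧ cmass N f cl (cl q) ≤ δ ∧
        (cofac r q : ℝ) * ψ q ≤ s₁ ∧ (cofac q r : ℝ) * ψ r ≤ s₂) N f f ≤
        C * (s₁ * s₂) ^ (1 - θ) * δ ^ (2 * θ - 1) * ∑ q ∈ Icc 1 N, f q := by
  obtain ⟨C, hC, hT⟩ := fd_sub hθ hθ1
  have hη : 0 < 2 * θ - 1 := by linarith
  refine ⟨C, hC, ?_⟩
  intro N ψ f cl hψ hf δ s₁ s₂ hδ hs₁ hs₂
  set I := ((Icc 1 N).image cl).filter (fun a => cmass N f cl a ≤ δ) with hI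
  set A : ℕ → Finset ℕ := fun a => (Icc 1 N).filter (fun q => cl q = a) with hA
  set F : ℕ → ℕ → ℝ := fun q r => if (cofac r q : ℝ) * ψ q ≤ s₁ ∧
    (cofac q r : ℝ) * ψ r ≤ s₂ then f q * f r else 0 with hF
  have hF0 : ∀ q r, 0 ≤ F q r := by
    intro q r
    simp only [hF]
    split_ifs
    · exact mul_nonneg (hf q).1 (hf r).1
    · exact le_rfl
  have hc0 : ∀ a, 0 ≤ cmass N f cl a := by
    intro a
    unfold cmass
    refine sum_nonneg fun q _ => ?_
    split_ifs
    · exact (hf q).1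
    · exact le_rfl
  have hpt : ∀ q ∈ Icc 1 N, ∀ r ∈ Icc 1 N, (if cl q = cl r ∧ cmass N f cl (cl q) ≤ δ ∧
        (cofac r q : ℝ) * ψ q ≤ s₁ ∧ (cofac q r : ℝ) * ψ r ≤ s₂ then f q * f r else 0) ≤
      ∑ a ∈ I, (if q ∈ A a ∧ r ∈ A a then F q r else 0) := by
    intro q hq r hr
    have hnn : ∀ a, 0 ≤ (if q ∈ A a ∧ r ∈ A a then F q r else 0) := by
      intro a
      split_ifs
      · exact hF0 q r
      · exact le_rfl
    by_cases hc : cl q = cl r ∧ cmass N f cl (cl q) ≤ δ ∧
        (cofac r q : ℝ) * ψ q ≤ s₁ ∧ (cofac q r : ℝ) * ψ r ≤ s₂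
    · rw [if_pos hc]
      obtain ⟨h1, h2, h4⟩ := hc
      have hqA : q ∈ A (cl q) := mem_filter.2 ⟨hq, rfl⟩
      have hrA : r ∈ A (cl q) := mem_filter.2 ⟨hr, h1.symm⟩
      have e1 : f q * f r = (if q ∈ A (cl q) ∧ r ∈ A (cl q) then F q r else 0) := by
        rw [if_pos ⟨hqA, hrA⟩]
        simp only [hF]
        rw [if_pos h4]
      rw [e1]
      exact single_le_sum (f := fun a => if q ∈ A a ∧ r ∈ A a then F q r else 0)
        (fun a _ => hnn a) (mem_filter.2 ⟨mem_image_of_mem cl hq, h2⟩)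
    · rw [if_neg hc]
      exact sum_nonneg fun a _ => hnn a
  have hone : ∀ a ∈ I, ∑ q ∈ Icc 1 N, ∑ r ∈ Icc 1 N,
      (if q ∈ A a ∧ r ∈ A a then F q r else 0) ≤
      C * (s₁ * s₂) ^ (1 - θ) * (δ ^ (2 * θ - 1) * cmass N f cl a) := by
    intro a ha
    have haδ : cmass N f cl a ≤ δ := (mem_filter.1 ha).2
    have hAs : A a ⊆ Icc 1 N := filter_subset _ _
    have e1 : ∑ q ∈ Icc 1 N, ∑ r ∈ Icc 1 N, (if q ∈ A a ∧ r ∈ A a then F q r else 0) =
        ∑ q ∈ A a, ∑ r ∈ A a, F q r := by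
      have hsum : ∀ g : ℕ → ℝ, ∑ q ∈ Icc 1 N, (if q ∈ A a then g q else 0) =
          ∑ q ∈ A a, g q := by
        intro g
        rw [← Finset.sum_filter]
        congr 1
        ext q
        simp only [mem_filter]
        exact ⟨fun h => h.2, fun h => ⟨hAs h, h⟩⟩
      rw [← hsum]
      refine sum_congr rfl fun q _ => ?_
      by_cases h : q ∈ A a
      · rw [if_pos h, ← hsum]
        refine sum_congr rfl fun r _ => ?_
        simp only [h, true_and]
      · rw [if_neg h]
        refine sum_eq_zero fun r _ => ?_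
        simp only [h, false_and, if_false]
    rw [e1]
    have h2 := hT N ψ f hψ hf (A a) (A a) hAs hAs 1 1 one_pos one_pos s₁ s₂ hs₁ hs₂
    simp only [one_dvd, true_and, Nat.cast_one, Real.one_rpow, mul_one] at h2
    have hm : ∑ q ∈ A a, f q = cmass N f cl a := by
      unfold cmass
      rw [hA, sum_filter]
    rw [hm] at h2
    refine h2.trans ?_
    refine mul_le_mul_of_nonneg_left ?_ (by positivity)
    rcases (hc0 a).eq_or_lt with h | h
    · rw [← h, mul_zero, mul_zero, Real.zero_rpow (by linarith)]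
    · calc (cmass N f cl a * cmass N f cl a) ^ θ
          = cmass N f cl a ^ (2 * θ) := by
            rw [← pow_two, ← Real.rpow_natCast (cmass N f cl a) 2, ← Real.rpow_mul (hc0 a)]
            norm_num
        _ = cmass N f cl a ^ (2 * θ - 1) * cmass N f cl a ^ (1 : ℝ) := by
            rw [← Real.rpow_add h]; ring_nf
        _ ≤ δ ^ (2 * θ - 1) * cmass N f cl a := by
            rw [Real.rpow_one]
            exact mul_le_mul_of_nonneg_right (Real.rpow_le_rpow h.le haδ hη.le) h.le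
  have hmass : ∑ a ∈ I, cmass N f cl a ≤ ∑ q ∈ Icc 1 N, f q := by
    refine (sum_le_sum_of_subset_of_nonneg (filter_subset _ _) fun a _ _ => hc0 a).trans
      (le_of_eq ?_)
    unfold cmass
    rw [sum_comm]
    refine sum_congr rfl fun q hq => ?_
    rw [sum_ite_eq, if_pos (mem_image_of_mem cl hq)]
  have hs0 : 0 < (s₁ * s₂) ^ (1 - θ) := Real.rpow_pos_of_pos (mul_pos hs₁ hs₂) _
  have hδ0 : 0 < δ ^ (2 * θ - 1) := Real.rpow_pos_of_pos hδ _
  calc psum (fun q r => cl q = cl r ∧ cmass N f cl (cl q) ≤ δ ∧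
        (cofac r q : ℝ) * ψ q ≤ s₁ ∧ (cofac q r : ℝ) * ψ r ≤ s₂) N f f
      ≤ ∑ q ∈ Icc 1 N, ∑ r ∈ Icc 1 N, ∑ a ∈ I,
          (if q ∈ A a ∧ r ∈ A a then F q r else 0) := by
        unfold psum
        refine sum_le_sum fun q hq => sum_le_sum fun r hr => ?_
        refine le_trans (le_of_eq ?_) (hpt q hq r hr)
        congr
    _ = ∑ a ∈ I, ∑ q ∈ Icc 1 N, ∑ r ∈ Icc 1 N,
          (if q ∈ A a ∧ r ∈ A a then F q r else 0) := by
        have h1 : ∀ q, ∑ r ∈ Icc 1 N, ∑ a ∈ I,
            (if q ∈ A a ∧ r ∈ A a then F q r else 0) =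
            ∑ a ∈ I, ∑ r ∈ Icc 1 N,
            (if q ∈ A a ∧ r ∈ A a then F q r else 0) := fun q => sum_comm
        simp only [h1]
        rw [sum_comm]
    _ ≤ ∑ a ∈ I, C * (s₁ * s₂) ^ (1 - θ) * (δ ^ (2 * θ - 1) * cmass N f cl a) :=
        sum_le_sum fun a ha => hone a ha
    _ = C * (s₁ * s₂) ^ (1 - θ) * δ ^ (2 * θ - 1) * ∑ a ∈ I, cmass N f cl a := by
        rw [mul_sum]
        refine sum_congr rfl fun a _ => ?_
        ring
    _ ≤ _ := mul_le_mul_of_nonneg_left hmass (by positivity)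

/-- the part of `n` composed of the primes `> z` -/
noncomputable def rpart (z : ℝ) (n : ℕ) : ℕ :=
  ∏ p ∈ n.primeFactors.filter (fun p : ℕ => z < (p : ℝ)), p ^ n.factorization p

/-- the excess of `q` over the dominant exponents (primes in `(z, N]`) -/
noncomputable def xpart (N : ℕ) (z : ℝ) (k : ℕ → ℕ) (q : ℕ) : ℕ :=
  ∏ p ∈ (Icc 1 N).filter (fun p : ℕ => p.Prime ∧ z < (p : ℝ)), p ^ (q.factorization p - k p)

/-- the deficiency of `q` with respect to the dominant exponents (primes in `(z, N]`) -/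
noncomputable def ypart (N : ℕ) (z : ℝ) (k : ℕ → ℕ) (q : ℕ) : ℕ :=
  ∏ p ∈ (Icc 1 N).filter (fun p : ℕ => p.Prime ∧ z < (p : ℝ)), p ^ (k p - q.factorization p)

/-- structure of the cofactors inside a class -/
theorem decomp_struct {N : ℕ} {z : ℝ} {k : ℕ → ℕ} {q r : ℕ} (hq : q ∈ Icc 1 N)
    (hr : r ∈ Icc 1 N)
    (h : ∀ p : ℕ, p.Prime → z < p → q.factorization p = k p ∨ r.factorization p = k p) :
    rpart z (cofac q r) = xpart N z k q * ypart N z k r := by
  have hq0 : 0 < q := (mem_Icc.1 hq).1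
  have hr0 : 0 < r := (mem_Icc.1 hr).1
  have hg0 : 0 < Nat.gcd q r := Nat.gcd_pos_of_pos_left _ hq0
  have e1 : Nat.gcd q r * cofac q r = q := gcd_mul_cofac q r
  have hc0 : cofac q r ≠ 0 := by
    intro h0; rw [h0, mul_zero] at e1; omega
  have hfac : ∀ p : ℕ, (cofac q r).factorization p = q.factorization p - r.factorization p := by
    intro p
    have h1 : q.factorization p = (Nat.gcd q r).factorization p +
        (cofac q r).factorization p := by
      conv_lhs => rw [← e1]
      rw [Nat.factorization_mul hg0.ne' hc0]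
      rfl
    have h2 : (Nat.gcd q r).factorization p =
        min (q.factorization p) (r.factorization p) := by
      rw [Nat.factorization_gcd hq0.ne' hr0.ne']
      rfl
    omega
  have hcle : cofac q r ≤ N := by
    have : cofac q r ≤ q := Nat.le_of_dvd hq0 ⟨Nat.gcd q r, by rw [mul_comm]; exact e1.symm⟩
    exact this.trans (mem_Icc.1 hq).2
  unfold rpart xpart ypart
  rw [← prod_mul_distrib]
  have hsub : (cofac q r).primeFactors.filter (fun p : ℕ => z < (p : ℝ)) ⊆
      (Icc 1 N).filter (fun p : ℕ => p.Prime ∧ z < (p : ℝ)) := by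
    intro p hp
    rw [mem_filter, Nat.mem_primeFactors] at hp
    rw [mem_filter, mem_Icc]
    exact ⟨⟨hp.1.1.one_le, (Nat.le_of_dvd (Nat.pos_of_ne_zero hc0) hp.1.2.1).trans hcle⟩,
      hp.1.1, hp.2⟩
  rw [prod_subset hsub]
  · refine prod_congr rfl fun p hp => ?_
    rw [mem_filter] at hp
    rw [← pow_add, hfac]
    congr 1
    rcases h p hp.2.1 hp.2.2 with h1 | h1 <;> omega
  · intro p hp hp'
    rw [mem_filter] at hp
    have : (cofac q r).factorization p = 0 := by
      by_contra h0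
      apply hp'
      rw [mem_filter, ← Nat.support_factorization, Finsupp.mem_support_iff]
      exact ⟨h0, hp.2.2⟩
    rw [this, pow_zero]

end Vale.P028
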