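import Vale.Agent.P028.MathlibUsed
import Vale.Agent.P028.MSift

/-!
# Full measure from sifted sets with bounded second moment
-/

namespace Vale.P028

open MeasureTheory Filter Set

open Classical in
/-- full measure from sifted sets with bounded second moment (general masses, weights and sets) -/
theorem full_of_mass (γ : ℝ) (ψ : ℕ → ℝ) (C c : ℝ) (_hC : 0 ≤ C) (hc : 0 < c)
    (h : ∀ N : ℕ, ∃ (S : Finset ℕ) (w f : ℕ → ℝ) (P : ℕ → ℤ → Prop),
      (∀ q ∈ S, N ≤ q ∧ 0 < ψ q ∧ ψ q ≤ 1 / 2) ∧ (∀ q ∈ S, 0 ≤ w q) ∧ (∀ q ∈ S, 0 ≤ f q) ∧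
      (0 < ∑ q ∈ S, f q * ψ q) ∧
      (∀ q ∈ S, ∀ m n : ℤ, (q : ℝ) / (N + 1) ≤ (n : ℝ) - m →
        c * f q * ((n : ℝ) - m) ≤
          w q * (((Finset.Ioc m n).filter (P q)).card : ℝ)) ∧
      ∑ q ∈ S, ∑ r ∈ S, w q * w r *
        volume.real (GS γ q (ψ q) (P q) ∩ GS γ r (ψ r) (P r) ∩ Set.Ioc 0 1) ≤
        C * (∑ q ∈ S, f q * ψ q) ^ 2) :
    volume (W γ ψ)ᶜ = 0 := by
  apply volume_compl_W_of_unit_Ioc
  choose S w f P hS hw hf hpos hcount hsec using fun N => h (N + 1)
  set G : ℕ → ℕ → Set ℝ := fun j q => GS γ q (ψ q) (P j q) with hG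
  set A : ℕ → Set ℝ := fun q => if 0 < q then {x | distInt (q * x - γ) < ψ q} else ∅ with hA
  set M : ℕ → ℝ := fun j => ∑ q ∈ S j, f j q * ψ q with hM
  have hM0 : ∀ j, 0 < M j := hpos
  set F : ℕ → ℝ → ℝ := fun j x =>
    (M j)⁻¹ * ∑ q ∈ S j, w j q * (G j q).indicator (fun _ => (1 : ℝ)) x with hF
  have hGm : ∀ j q, MeasurableSet (G j q) := fun j q => (isOpen_GS _ _ _ _).measurableSet
  have hindm : ∀ j q, Measurable ((G j q).indicator (fun _ => (1 : ℝ))) := fun j q =>
    measurable_const.indicator (hGm j q)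
  have hFm : ∀ j, Measurable (F j) := by
    intro j
    apply Measurable.const_mul
    apply Finset.measurable_fun_sum
    intro q _
    exact (hindm j q).const_mul _
  have hind0 : ∀ j q x, 0 ≤ (G j q).indicator (fun _ => (1 : ℝ)) x := fun j q x =>
    Set.indicator_nonneg (fun _ _ => zero_le_one) _
  have hind1 : ∀ j q x, (G j q).indicator (fun _ => (1 : ℝ)) x ≤ 1 := by
    intro j q x
    by_cases hx : x ∈ G j q
    · simp [hx]
    · simp [hx]
  have hAm : ∀ q, MeasurableSet (A q) := by
    intro q
    by_cases hq : 0 < q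
    · have e : A q = GS γ q (ψ q) (fun _ => True) := by
        simp only [hA, hq, if_true]
        ext x
        simp only [GS, mem_ofPred_eq, true_and]
        constructor
        · intro h1; exact ⟨round ((q : ℝ) * x - γ), h1⟩
        · rintro ⟨al, h1⟩; exact lt_of_le_of_lt (round_le _ al) h1
      rw [e]; exact (isOpen_GS _ _ _ _).measurableSet
    · simp only [hA, hq, if_false]; exact MeasurableSet.empty
  have hintG : ∀ (E E' : Set ℝ), MeasurableSet E → MeasurableSet E' → volume E' ≠ ⊤ →
      ∫ x in E', E.indicator (fun _ => (1 : ℝ)) x = volume.real (E ∩ E') := by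
    intro E E' hE hE' hfin
    rw [integral_indicator hE, setIntegral_const, smul_eq_mul, mul_one,
      measureReal_restrict_apply hE]
  have hintI : ∀ (E E' : Set ℝ), MeasurableSet E → volume E' ≠ ⊤ →
      Integrable (fun x => E.indicator (fun _ => (1 : ℝ)) x) (volume.restrict E') := by
    intro E E' hE hfin
    have : IsFiniteMeasure (volume.restrict E') := ⟨by
      rw [Measure.restrict_apply_univ]; exact hfin.lt_top⟩
    exact (integrable_const (1 : ℝ)).indicator hE
  have main := ae_infinite_of_lower_Ioc A F hAm hFm (fun j => (M j)⁻¹ * ∑ q ∈ S j, w j q) (by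
      intro j x
      apply mul_le_mul_of_nonneg_left _ (inv_nonneg.mpr (hM0 j).le)
      apply Finset.sum_le_sum
      intro q hq
      calc w j q * (G j q).indicator (fun _ => (1 : ℝ)) x ≤ w j q * 1 :=
            mul_le_mul_of_nonneg_left (hind1 j q x) (hw j q hq)
        _ = w j q := mul_one _) (by
      intro j x
      exact mul_nonneg (inv_nonneg.mpr (hM0 j).le) (Finset.sum_nonneg fun q hq =>
        mul_nonneg (hw j q hq) (hind0 j q x))) (by
      intro j x hx
      have : ∑ q ∈ S j, w j q * (G j q).indicator (fun _ => (1 : ℝ)) x ≠ 0 := by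
        intro h0
        apply hx
        simp only [hF]
        rw [h0, mul_zero]
      obtain ⟨q, hq, hq2⟩ := Finset.exists_ne_zero_of_sum_ne_zero this
      have hqN := (hS j q hq).1
      have hq0 : 0 < q := by omega
      refine ⟨q, by omega, ?_⟩
      simp only [hA, hq0, if_true]
      by_contra hxA
      apply hq2
      rw [Set.indicator_of_notMem (fun hx' => hxA (GS_subset _ _ _ _ hx')), mul_zero])
    (C := C) (c := c) hc (by
      intro j
      have e : ∀ x, (F j x) ^ 2 = ((M j)⁻¹) ^ 2 * ∑ q ∈ S j, ∑ r ∈ S j, w j q * w j r *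
          ((G j q ∩ G j r).indicator (fun _ => (1 : ℝ)) x) := by
        intro x
        simp only [hF]
        rw [mul_pow, sq (∑ q ∈ S j, _), Finset.sum_mul_sum]
        congr 1
        apply Finset.sum_congr rfl
        intro q _
        apply Finset.sum_congr rfl
        intro r _
        by_cases h1 : x ∈ G j q <;> by_cases h2 : x ∈ G j r <;> simp [h1, h2]
      have hint : ∀ q r, Integrable (fun x => (G j q ∩ G j r).indicator (fun _ => (1 : ℝ)) x)
          (volume.restrict (Ioc (0 : ℝ) 1)) := fun q r =>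
        hintI _ _ ((hGm j q).inter (hGm j r)) (by simp)
      simp only [e]
      rw [integral_const_mul, integral_finsetSum _ (fun q _ =>
        integrable_finsetSum _ (fun r _ => (hint q r).const_mul _))]
      have e2 : ∀ q ∈ S j, ∫ x in Ioc (0 : ℝ) 1, ∑ r ∈ S j, w j q * w j r *
          ((G j q ∩ G j r).indicator (fun _ => (1 : ℝ)) x)
          = ∑ r ∈ S j, w j q * w j r * volume.real (G j q ∩ G j r ∩ Ioc (0 : ℝ) 1) := by
        intro q _
        rw [integral_finsetSum _ (fun r _ => (hint q r).const_mul _)]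
        apply Finset.sum_congr rfl
        intro r _
        rw [integral_const_mul, hintG _ _ ((hGm j q).inter (hGm j r)) measurableSet_Ioc (by simp)]
      rw [Finset.sum_congr rfl e2]
      have hsumT := hsec j
      have hMj := hM0 j
      calc ((M j)⁻¹) ^ 2 * ∑ q ∈ S j, ∑ r ∈ S j, w j q * w j r *
            volume.real (G j q ∩ G j r ∩ Ioc (0 : ℝ) 1)
          ≤ ((M j)⁻¹) ^ 2 * (C * (M j) ^ 2) :=
            mul_le_mul_of_nonneg_left hsumT (by positivity)
        _ = C := by
            have : M j ≠ 0 := hMj.ne'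
            field_simp) (by
      intro u v hu huv hv
      obtain ⟨j₀, hj₀⟩ := exists_nat_gt (4 / (v - u))
      filter_upwards [eventually_ge_atTop j₀] with j hj
      have hvu : 0 < v - u := by linarith only [huv]
      have hjR : (j₀ : ℝ) ≤ j := by exact_mod_cast hj
      have hj4 : 4 / (v - u) < j := lt_of_lt_of_le hj₀ hjR
      have hj4' : 4 < j * (v - u) := by rwa [div_lt_iff₀ hvu] at hj4
      have hfin : volume (Ioc u v) ≠ ⊤ := by rw [Real.volume_Ioc]; exact ENNReal.ofReal_ne_top
      have e1 : ∫ x in Ioc u v, F j x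
          = (M j)⁻¹ * ∑ q ∈ S j, w j q * volume.real (G j q ∩ Ioc u v) := by
        simp only [hF]
        rw [integral_const_mul, integral_finsetSum _ (fun q _ =>
          (hintI _ _ (hGm j q) hfin).const_mul _)]
        congr 1
        apply Finset.sum_congr rfl
        intro q _
        rw [integral_const_mul, hintG _ _ (hGm j q) measurableSet_Ioc hfin]
      rw [e1]
      have hMj := hM0 j
      rw [inv_mul_eq_div, le_div_iff₀ hMj]
      simp only [hM]
      rw [Finset.mul_sum]
      apply Finset.sum_le_sum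
      intro q hq
      obtain ⟨h1, h2, h2'⟩ := hS j q hq
      have hq0 : 0 < q := by omega
      have hq0' : (0 : ℝ) < q := by exact_mod_cast hq0
      have hqj : (j : ℝ) ≤ q := by
        have : j ≤ q := by omega
        exact_mod_cast this
      set m : ℤ := ⌈(q : ℝ) * u - γ + ψ q⌉ - 1 with hm
      set n : ℤ := ⌊(q : ℝ) * v - γ - ψ q⌋ with hn
      have hm1 : (q : ℝ) * u - γ + ψ q ≤ m + 1 := by
        rw [hm]; push_cast
        have := Int.le_ceil ((q : ℝ) * u - γ + ψ q)
        linarith only [this]
      have hm2 : (m : ℝ) < (q : ℝ) * u - γ + ψ q := by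
        rw [hm]; push_cast
        have := Int.ceil_lt_add_one ((q : ℝ) * u - γ + ψ q)
        linarith only [this]
      have hn1 : (n : ℝ) ≤ (q : ℝ) * v - γ - ψ q := Int.floor_le _
      have hn2 : (q : ℝ) * v - γ - ψ q < n + 1 := Int.lt_floor_add_one _
      have hq4 : 4 < q * (v - u) := by nlinarith only [huv, hj4', hqj]
      have hnm : q * (v - u) / 2 ≤ (n : ℝ) - m := by nlinarith only [h2', hm2, hn2, hq4]
      have h5 := GS_lower γ hq0 h2 h2' (P j q) u v m n hm1 hn1
      have h6 := hcount j q hq m n (by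
        refine le_trans ?_ hnm
        push_cast
        rw [div_le_iff₀ (by positivity)]
        have : (2 : ℝ) ≤ (v - u) * (j + 1 + 1) := by nlinarith only [hj4']
        nlinarith only [hj4', hq4])
      have h7 : 0 ≤ 2 * ψ q / q := by positivity
      have hfq := hf j q hq
      calc c * (v - u) * (f j q * ψ q)
          = (c * f j q * (q * (v - u) / 2)) * (2 * ψ q / q) := by field_simp
        _ ≤ (c * f j q * ((n : ℝ) - m)) * (2 * ψ q / q) := by
            apply mul_le_mul_of_nonneg_right _ h7
            exact mul_le_mul_of_nonneg_left hnm (by positivity)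
        _ ≤ (w j q * (((Finset.Ioc m n).filter (P j q)).card : ℝ)) * (2 * ψ q / q) :=
            mul_le_mul_of_nonneg_right h6 h7
        _ = w j q * ((((Finset.Ioc m n).filter (P j q)).card : ℝ) * (2 * ψ q / q)) := by ring
        _ ≤ w j q * volume.real (G j q ∩ Ioc u v) :=
            mul_le_mul_of_nonneg_left h5 (hw j q hq))
  filter_upwards [main] with x hx
  apply hx.mono
  intro q hq
  simp only [mem_ofPred_eq, hA] at hq ⊢
  by_cases hq0 : 0 < q
  · rw [if_pos hq0] at hq
    exact ⟨hq0, hq⟩
  · rw [if_neg hq0] at hq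
    exact absurd hq (Set.notMem_empty _)


end Vale.P028
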