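import Vale.Agent.P028.MathlibUsed
import Vale.Agent.P028.MDefs

/-!
# Diophantine lower bound for non-Liouville numbers and counting of Bohr sets
-/

namespace Vale.P028

open Finset

theorem distInt_le_abs_sub (x : ℝ) (z : ℤ) : distInt x ≤ |x - z| := round_le x z

theorem exists_dioph {γ : ℝ} (h1 : Irrational γ) (h2 : ¬ Liouville γ) :
    ∃ c₀ > 0, ∃ τ ≥ 1, Dioph γ c₀ τ := by
  unfold Liouville at h2
  push Not at h2
  obtain ⟨n₀, hn₀⟩ := h2
  have hd : 0 < distInt γ := by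
    unfold distInt
    rw [abs_pos, sub_ne_zero]
    intro h
    exact h1 ⟨(round γ : ℚ), by rw [h]; simp only [round_intCast, Rat.cast_intCast]⟩
  refine ⟨min 1 (distInt γ), lt_min one_pos hd, max 1 n₀, le_max_left _ _, ?_⟩
  intro n hn
  have hn1 : (1 : ℝ) ≤ n := by exact_mod_cast hn
  have hn0 : (0 : ℝ) < n := by linarith only [hn1]
  rcases Nat.lt_or_ge 1 n with h3 | h3
  · have h4 := hn₀ (round ((n : ℝ) * γ)) n (by exact_mod_cast h3) (by
      intro h
      apply h1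
      rw [Int.cast_natCast] at h
      exact ⟨(round ((n : ℝ) * γ) : ℚ) / (n : ℚ), by push_cast; exact h.symm⟩)
    have h5 : distInt (n * γ) = n * |γ - (round ((n : ℝ) * γ) : ℝ) / ((n : ℤ) : ℝ)| := by
      unfold distInt
      rw [← abs_of_pos hn0, ← abs_mul, abs_of_pos hn0]
      congr 1
      push_cast
      field_simp
    rw [h5]
    have h6 : (n : ℝ) ^ (-(max 1 (n₀ : ℝ))) ≤ 1 / ((n : ℤ) : ℝ) ^ n₀ := by
      have h7 : (n : ℝ) ^ (-(max 1 (n₀ : ℝ))) ≤ (n : ℝ) ^ (-(n₀ : ℝ)) := by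
        apply Real.rpow_le_rpow_of_exponent_le hn1
        have := le_max_right 1 (n₀ : ℝ)
        linarith only [this]
      rw [Real.rpow_neg hn0.le (n₀ : ℝ), Real.rpow_natCast] at h7
      rw [one_div]
      exact_mod_cast h7
    calc min 1 (distInt γ) * (n : ℝ) ^ (-(max 1 (n₀ : ℝ)))
        ≤ 1 * (n : ℝ) ^ (-(max 1 (n₀ : ℝ))) :=
          mul_le_mul_of_nonneg_right (min_le_left _ _) (Real.rpow_nonneg hn0.le _)
      _ ≤ n * |γ - (round ((n : ℝ) * γ) : ℝ) / ((n : ℤ) : ℝ)| := by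
          apply mul_le_mul hn1 (h6.trans h4) (Real.rpow_nonneg hn0.le _) hn0.le
  · have h4 : n = 1 := by omega
    subst h4
    simp only [Nat.cast_one, Real.one_rpow, mul_one, one_mul, inf_le_right]

theorem bohr_count_aux {k : ℕ} {A : ℤ} (hA : IsCoprime A (k : ℤ)) (M : ℕ) (l : ℤ) :
    ((Icc 1 M).filter (fun m : ℕ => (k : ℤ) ∣ A * m - l)).card ≤ M / k + 1 := by
  rw [← card_range (M / k + 1)]
  refine card_le_card_of_injOn (fun m => m / k) ?_ ?_
  · intro m hm
    simp only [coe_filter, mem_Icc, Set.mem_ofPred_eq] at hm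
    simp only [coe_range, Set.mem_Iio]
    exact Nat.lt_succ_of_le (Nat.div_le_div_right hm.1.2)
  · intro m hm m' hm' h
    simp only [coe_filter, mem_Icc, Set.mem_ofPred_eq] at hm hm'
    have h1 : (k : ℤ) ∣ A * ((m : ℤ) - m') := by
      have := dvd_sub hm.2 hm'.2
      have e : A * (m : ℤ) - l - (A * (m' : ℤ) - l) = A * ((m : ℤ) - m') := by ring
      rwa [e] at this
    have h2 : (k : ℤ) ∣ (m : ℤ) - m' := hA.symm.dvd_of_dvd_mul_left h1
    have h3 : m' ≡ m [MOD k] := (Nat.modEq_iff_dvd).mpr h2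
    have h4 : m' % k = m % k := h3
    have h5 : m / k = m' / k := h
    calc m = k * (m / k) + m % k := (Nat.div_add_mod m k).symm
      _ = k * (m' / k) + m' % k := by rw [h4, h5]
      _ = m' := Nat.div_add_mod m' k

open Classical in
theorem bohr_count {γ c₀ τ : ℝ} (hc₀ : 0 < c₀) (hτ : 1 ≤ τ) (hD : Dioph γ c₀ τ) :
    ∃ C ≥ 1, ∀ (a M : ℕ) (s β : ℝ), 0 < a → 0 < s → s ≤ 1 / 4 → ((a : ℝ) / s) ^ τ ≤ c₀ * M →
      1 / s ≤ M →
      (((Icc 1 M).filter (fun m : ℕ => distInt ((a : ℝ) * m * γ - β) < 2 * s)).card : ℝ)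
        ≤ C * s * M := by
  refine ⟨14, by norm_num, ?_⟩
  intro a M s β ha hs hs4 h1 h2
  have ha0 : (0 : ℝ) < a := by exact_mod_cast ha
  have hM0 : (0 : ℝ) < M := lt_of_lt_of_le (by (clear * - hs; positivity)) h2
  have hM : 0 < M := by exact_mod_cast hM0
  obtain ⟨q, hq1, hq2⟩ := Real.exists_rat_abs_sub_le_and_den_le ((a : ℝ) * γ) hM
  set k := q.den with hk
  set A := q.num with hA
  have hk0 : 0 < k := q.den_pos
  have hk0' : (0 : ℝ) < k := by exact_mod_cast hk0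
  have hkM : (k : ℝ) ≤ M := by exact_mod_cast hq2
  have hqc : (q : ℝ) = (A : ℝ) / k := by
    rw [hA, hk]; exact Rat.cast_def q
  rw [hqc] at hq1
  have hcop : IsCoprime A (k : ℤ) := Int.isCoprime_iff_nat_coprime.mpr (by
    simpa only [Int.natAbs_natCast] using q.reduced)
  -- k > 1/s
  have hks : 1 < s * k := by
    by_contra hcon
    rw [not_lt] at hcon
    have h3 : distInt (((k * a : ℕ) : ℝ) * γ) ≤ 1 / (M + 1) := by
      refine (distInt_le_abs_sub _ A).trans ?_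
      have e : ((k * a : ℕ) : ℝ) * γ - A = k * ((a : ℝ) * γ - A / k) := by
        push_cast; (clear * - hk0; field_simp)
      rw [e, abs_mul, abs_of_pos hk0']
      calc (k : ℝ) * |(a : ℝ) * γ - A / k| ≤ k * (1 / ((M + 1) * k)) :=
            mul_le_mul_of_nonneg_left hq1 hk0'.le
        _ = 1 / (M + 1) := by (clear * - hk0 hM; field_simp)
    have h4 := (hD (k * a) (Nat.mul_pos hk0 ha)).trans h3
    have hka : (0 : ℝ) < ((k * a : ℕ) : ℝ) := by exact_mod_cast Nat.mul_pos hk0 ha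
    have h5 : ((k * a : ℕ) : ℝ) ^ τ ≤ ((a : ℝ) / s) ^ τ := by
      apply Real.rpow_le_rpow hka.le _ (by linarith only [hτ])
      push_cast
      rw [le_div_iff₀ hs]
      nlinarith only [hcon]
    have h6 : ((k * a : ℕ) : ℝ) ^ τ ≤ c₀ * M := h5.trans h1
    rw [Real.rpow_neg hka.le, ← div_eq_mul_inv, div_le_div_iff₀ (Real.rpow_pos_of_pos hka _)
      (by positivity)] at h4
    nlinarith only [hc₀, h1, h4, h5]
  -- the possible values of l
  set L : Finset ℤ := Icc ⌈(k : ℝ) * β - 2 * s * k - 1⌉ ⌊(k : ℝ) * β + 2 * s * k + 1⌋ with hL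
  have hLcard : (L.card : ℝ) ≤ 7 * (s * k) := by
    rw [hL, Int.card_Icc]
    have h3 : (0 : ℝ) ≤ (⌊(k : ℝ) * β + 2 * s * k + 1⌋ + 1 - ⌈(k : ℝ) * β - 2 * s * k - 1⌉ : ℤ) ∨
        ((⌊(k : ℝ) * β + 2 * s * k + 1⌋ + 1 - ⌈(k : ℝ) * β - 2 * s * k - 1⌉ : ℤ) : ℝ) < 0 :=
      le_or_gt _ _
    rcases h3 with h3 | h3
    · have h3' : (0 : ℤ) ≤ ⌊(k : ℝ) * β + 2 * s * k + 1⌋ + 1 - ⌈(k : ℝ) * β - 2 * s * k - 1⌉ := by
        exact_mod_cast h3
      have h4 : (((⌊(k : ℝ) * β + 2 * s * k + 1⌋ + 1 - ⌈(k : ℝ) * β - 2 * s * k - 1⌉).toNat : ℕ) : ℝ)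
          = ((⌊(k : ℝ) * β + 2 * s * k + 1⌋ + 1 - ⌈(k : ℝ) * β - 2 * s * k - 1⌉ : ℤ) : ℝ) := by
        rw [← Int.cast_natCast, Int.toNat_of_nonneg h3']
      rw [h4]
      push_cast
      have h5 := Int.floor_le ((k : ℝ) * β + 2 * s * k + 1)
      have h6 := Int.le_ceil ((k : ℝ) * β - 2 * s * k - 1)
      nlinarith only [hks, h5, h6]
    · have h3' : ⌊(k : ℝ) * β + 2 * s * k + 1⌋ + 1 - ⌈(k : ℝ) * β - 2 * s * k - 1⌉ < 0 := by
        exact_mod_cast h3
      rw [Int.toNat_of_nonpos h3'.le]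
      simp only [Nat.cast_zero]
      nlinarith only [hks]
  have hsub : (Icc 1 M).filter (fun m : ℕ => distInt ((a : ℝ) * m * γ - β) < 2 * s) ⊆
      L.biUnion (fun l => (Icc 1 M).filter (fun m : ℕ => (k : ℤ) ∣ A * m - l)) := by
    intro m hm
    rw [mem_filter, mem_Icc] at hm
    obtain ⟨⟨hm1, hm2⟩, hm3⟩ := hm
    rw [mem_biUnion]
    unfold distInt at hm3
    set n := round ((a : ℝ) * m * γ - β) with hn
    refine ⟨A * m - k * n, ?_, ?_⟩
    · have hmM : (m : ℝ) ≤ M := by exact_mod_cast hm2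
      have hm0 : (0 : ℝ) ≤ m := Nat.cast_nonneg m
      have e : (m : ℝ) * (k * ((a : ℝ) * γ - A / k)) = k * ((a : ℝ) * m * γ) - A * m := by
        (clear * - hk0 hm1; field_simp)
      have h7 : |(m : ℝ) * (k * ((a : ℝ) * γ - A / k))| ≤ 1 := by
        rw [abs_mul, abs_mul, abs_of_nonneg hm0, abs_of_pos hk0']
        calc (m : ℝ) * (k * |(a : ℝ) * γ - A / k|)
            ≤ M * (k * (1 / ((M + 1) * k))) := by
              apply mul_le_mul hmM (mul_le_mul_of_nonneg_left hq1 hk0'.le) (by (clear * -; positivity)) hM0.le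
          _ = M / (M + 1) := by (clear * - hk0 hM; field_simp)
          _ ≤ 1 := by rw [div_le_one (by positivity)]; linarith only []
      rw [e] at h7
      have h8 : |(k : ℝ) * ((a : ℝ) * m * γ - β - n)| ≤ 2 * s * k := by
        rw [abs_mul, abs_of_pos hk0']
        nlinarith only [hm3]
      have h9 := abs_le.mp h7
      have h10 := abs_le.mp h8
      rw [hL, mem_Icc, Int.ceil_le, Int.le_floor]
      push_cast
      constructor
      · nlinarith only [h9, h10]
      · linarith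
    · rw [mem_filter, mem_Icc]
      refine ⟨⟨hm1, hm2⟩, ?_⟩
      have e : A * (m : ℤ) - (A * m - k * n) = k * n := by ring
      rw [e]
      exact dvd_mul_right _ _
  have hcard : (((Icc 1 M).filter (fun m : ℕ => distInt ((a : ℝ) * m * γ - β) < 2 * s)).card : ℝ) ≤
      L.card * ((M : ℝ) / k + 1) := by
    have h3 : ((Icc 1 M).filter (fun m : ℕ => distInt ((a : ℝ) * m * γ - β) < 2 * s)).card ≤
        L.card * (M / k + 1) :=
      (card_le_card hsub).trans (card_biUnion_le_card_mul _ _ _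
        (fun l _ => bohr_count_aux hcop M l))
    calc (((Icc 1 M).filter (fun m : ℕ => distInt ((a : ℝ) * m * γ - β) < 2 * s)).card : ℝ)
        ≤ ((L.card * (M / k + 1) : ℕ) : ℝ) := by exact_mod_cast h3
      _ ≤ L.card * ((M : ℝ) / k + 1) := by
          push_cast
          apply mul_le_mul_of_nonneg_left _ (Nat.cast_nonneg _)
          have := @Nat.cast_div_le ℝ _ _ _ M k
          linarith only [this]
  have hMk : (M : ℝ) / k + 1 ≤ 2 * (M / k) := by
    have : (1 : ℝ) ≤ M / k := by rw [le_div_iff₀ hk0']; linarith only [hkM]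
    linarith only [this]
  calc (((Icc 1 M).filter (fun m : ℕ => distInt ((a : ℝ) * m * γ - β) < 2 * s)).card : ℝ)
      ≤ L.card * ((M : ℝ) / k + 1) := hcard
    _ ≤ (7 * (s * k)) * (2 * (M / k)) := by
        apply mul_le_mul hLcard hMk (by positivity) (by positivity)
    _ = 14 * s * M := by field_simp; ring

end Vale.P028
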