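import Vale.Agent.P028.MathlibUsed
import Vale.Agent.P028.MBohr

/-!
# Elementary counting lemmas for the type `O` pairs (module O1 of note 7705)

`H = 1 / t ≥ 4`, `s * H ^ 16 ≤ 1`.
* `bohr_dichotomy` is (C1),
* `BadB` is the exceptional set `B(α)`, `badB_large`, `badB_count`, `badB_sum` are (C2),
* `fr_transfer` is (C3).
-/

namespace Vale.P028

open Finset

/-- A family of points with pairwise distances in `[D, R D]` has at most `R + 1` elements. -/
theorem card_sep {ι : Type*} (A : Finset ι) (g : ι → ℝ) {D R : ℝ} (hD : 0 < D) (hR : 0 ≤ R)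
    (hsep : ∀ a ∈ A, ∀ b ∈ A, a ≠ b → D ≤ |g a - g b|)
    (hdiam : ∀ a ∈ A, ∀ b ∈ A, |g a - g b| ≤ R * D) : (A.card : ℝ) ≤ R + 1 := by
  rcases A.eq_empty_or_nonempty with h | h
  · rw [h]
    simp only [card_empty, Nat.cast_zero]
    linarith
  · obtain ⟨m, hm, hmin⟩ := A.exists_min_image g h
    have hcard : A.card ≤ (range (⌊R⌋₊ + 1)).card := by
      refine card_le_card_of_injOn (fun a => ⌊(g a - g m) / D⌋₊) ?_ ?_
      · intro a ha
        rw [mem_coe] at ha
        simp only [coe_range, Set.mem_Iio]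
        apply Nat.lt_succ_of_le
        apply Nat.floor_le_floor
        rw [div_le_iff₀ hD]
        exact (le_abs_self _).trans (hdiam a ha m hm)
      · intro a ha b hb hab
        rw [mem_coe] at ha hb
        by_contra hne
        simp only at hab
        have key : ∀ a ∈ A, ∀ b ∈ A, a ≠ b → g a ≤ g b →
            ⌊(g a - g m) / D⌋₊ < ⌊(g b - g m) / D⌋₊ := by
          intro a ha b hb hne hle
          have h1 := hsep a ha b hb hne
          rw [abs_sub_comm, abs_of_nonneg (by linarith)] at h1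
          have h2 : (g a - g m) / D + 1 ≤ (g b - g m) / D := by
            rw [← sub_nonneg]
            have e : (g b - g m) / D - ((g a - g m) / D + 1) = (g b - g a - D) / D := by
              field_simp
              ring
            rw [e]
            exact div_nonneg (by linarith) hD.le
          have h3 : 0 ≤ (g a - g m) / D := div_nonneg (by linarith [hmin a ha]) hD.le
          calc ⌊(g a - g m) / D⌋₊ < ⌊(g a - g m) / D⌋₊ + 1 := Nat.lt_succ_self _
            _ = ⌊(g a - g m) / D + 1⌋₊ := (Nat.floor_add_one h3).symm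
            _ ≤ ⌊(g b - g m) / D⌋₊ := Nat.floor_le_floor h2
        rcases le_total (g a) (g b) with h1 | h1
        · exact absurd hab (key a ha b hb hne h1).ne
        · exact absurd hab (key b hb a ha (Ne.symm hne) h1).ne'
    rw [card_range] at hcard
    calc (A.card : ℝ) ≤ ((⌊R⌋₊ + 1 : ℕ) : ℝ) := by exact_mod_cast hcard
      _ = (⌊R⌋₊ : ℝ) + 1 := by push_cast; ring
      _ ≤ R + 1 := by linarith [Nat.floor_le hR]

/-- (C1) Either the Bohr set `{m ≤ U : ‖m α - x‖ ≤ w}` has the expected density up to `4 / H`, or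
`α` is extremely close to a fraction of denominator at most `H`. -/
theorem bohr_dichotomy {H w : ℝ} (hH : 1 ≤ H) (hw : 0 < w) (hwH : 2 * w * H ≤ 1) (α x : ℝ)
    (U : ℕ) :
    (((Icc 1 U).filter (fun m : ℕ => distInt (m * α - x) ≤ w)).card : ℝ)
        ≤ (4 * w + 4 / H) * U + 2 ∨
      ∃ (h : ℕ) (j : ℤ), 0 < h ∧ (h : ℝ) ≤ H ∧ |α - j / h| * U < w * H := by
  classical
  have hH0 : 0 < H := by linarith
  set S := (Icc 1 U).filter (fun m : ℕ => distInt (m * α - x) ≤ w) with hS
  have hU0 : (0 : ℝ) ≤ U := Nat.cast_nonneg U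
  have hSm : ∀ m ∈ S, (1 : ℝ) ≤ m ∧ (m : ℝ) ≤ U ∧ distInt (m * α - x) ≤ w := by
    intro m hm
    rw [hS, mem_filter, mem_Icc] at hm
    exact ⟨by exact_mod_cast hm.1.1, by exact_mod_cast hm.1.2, hm.2⟩
  have hdiamU : ∀ a ∈ S, ∀ b ∈ S, |(a : ℝ) - b| ≤ U := by
    intro a ha b hb
    obtain ⟨h1, h2, -⟩ := hSm a ha
    obtain ⟨h3, h4, -⟩ := hSm b hb
    rw [abs_le]
    constructor <;> linarith
  by_cases hex : ∃ h : ℕ, 0 < h ∧ (h : ℝ) ≤ H ∧ distInt (h * α) ≤ 2 * w
  · -- the structured case
    set h := Nat.find hex with hh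
    obtain ⟨hpos, hle, hdist⟩ := Nat.find_spec hex
    rw [← hh] at hpos hle hdist
    set j : ℤ := round ((h : ℝ) * α) with hj
    have hh0 : (0 : ℝ) < h := by exact_mod_cast hpos
    have hh1 : (1 : ℝ) ≤ h := by exact_mod_cast hpos
    set e : ℝ := α - j / h with he
    have hαe : (h : ℝ) * α - j = h * e := by
      rw [he]; field_simp
    have hhe : (h : ℝ) * |e| ≤ 2 * w := by
      unfold distInt at hdist
      rw [← hj, hαe, abs_mul, abs_of_pos hh0] at hdist
      exact hdist
    by_cases hbig : |e| * U < w * H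
    · right
      exact ⟨h, j, hpos, hle, hbig⟩
    · rw [not_lt] at hbig
      left
      have hwH0 : 0 < w * H := mul_pos hw hH0
      have hepos : 0 < |e| := by
        rcases (abs_nonneg e).lt_or_eq with h1 | h1
        · exact h1
        · rw [← h1, zero_mul] at hbig
          linarith
      -- coprimality
      have hcop : IsCoprime j (h : ℤ) := by
        rw [Int.isCoprime_iff_gcd_eq_one]
        by_contra hg
        set g := Int.gcd j h with hgdef
        have hg0 : 0 < g := Int.gcd_pos_of_ne_zero_right _ (by exact_mod_cast hpos.ne')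
        have hg2 : 2 ≤ g := by omega
        obtain ⟨j', hj'⟩ := Int.gcd_dvd_left j (h : ℤ)
        obtain ⟨h', hh'⟩ : g ∣ h := by
          have := Int.gcd_dvd_right j (h : ℤ)
          exact_mod_cast this
        rw [← hgdef] at hj'
        have h'pos : 0 < h' := by
          rcases Nat.eq_zero_or_pos h' with h0 | h0
          · rw [h0, mul_zero] at hh'; omega
          · exact h0
        have hlt : h' < h := by
          rw [hh']; nlinarith
        have hmin := Nat.find_min hex (hh ▸ hlt)
        apply hmin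
        refine ⟨h'pos, ?_, ?_⟩
        · have : (h' : ℝ) ≤ h := by exact_mod_cast hlt.le
          linarith
        · refine (distInt_le_abs_sub _ j').trans ?_
          have hgR : (2 : ℝ) ≤ g := by exact_mod_cast hg2
          have e1 : (h : ℝ) * α - j = g * ((h' : ℝ) * α - j') := by
            have a1 : (h : ℝ) = g * h' := by exact_mod_cast hh'
            have a2 : (j : ℝ) = g * j' := by exact_mod_cast hj'
            rw [a1, a2]; ring
          have e2 : |(h : ℝ) * α - j| = g * |(h' : ℝ) * α - j'| := by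
            rw [e1, abs_mul, abs_of_pos (by linarith : (0 : ℝ) < g)]
          unfold distInt at hdist
          rw [← hj, e2] at hdist
          have := abs_nonneg ((h' : ℝ) * α - j')
          nlinarith
      -- the label
      set n : ℕ → ℤ := fun m => round ((m : ℝ) * α - x) with hn
      set l : ℕ → ℤ := fun m => (m : ℤ) * j - n m * h with hl
      have hlm : ∀ m ∈ S, |(l m : ℝ) / h + m * e - x| ≤ w := by
        intro m hm
        have h1 := (hSm m hm).2.2
        unfold distInt at h1
        have e1 : (l m : ℝ) / h + m * e - x = (m : ℝ) * α - x - round ((m : ℝ) * α - x) := by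
          simp only [hl, hn, he]
          push_cast
          field_simp
          ring
        rw [e1]
        exact h1
      have hfib : ∀ b ∈ S.image l, (S.filter (fun m => l m = b)).card ≤ ⌊2 * w / (|e| * h)⌋₊ + 1 := by
        intro b _
        have h1 : ((S.filter (fun m => l m = b)).card : ℝ) ≤ 2 * w / (|e| * h) + 1 := by
          refine card_sep _ (fun m : ℕ => (m : ℝ)) hh0 (by positivity) ?_ ?_
          · intro m hm m' hm' hne
            rw [mem_filter] at hm hm'
            have h2 : (h : ℤ) ∣ (m : ℤ) - m' := by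
              apply hcop.symm.dvd_of_dvd_mul_left
              have h3 : l m - l m' = 0 := by rw [hm.2, hm'.2, sub_self]
              refine ⟨n m - n m', ?_⟩
              simp only [hl] at h3
              linear_combination h3
            have h3 : (m : ℤ) - m' ≠ 0 := by
              rw [sub_ne_zero]; exact_mod_cast hne
            have h4 : (h : ℤ) ≤ |(m : ℤ) - m'| :=
              Int.le_of_dvd (abs_pos.mpr h3) ((dvd_abs _ _).mpr h2)
            have h5 : ((h : ℤ) : ℝ) ≤ ((|(m : ℤ) - m'| : ℤ) : ℝ) := by exact_mod_cast h4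
            push_cast at h5
            exact h5
          · intro m hm m' hm'
            rw [mem_filter] at hm hm'
            have h2 := hlm m hm.1
            have h3 := hlm m' hm'.1
            rw [hm.2] at h2
            rw [hm'.2] at h3
            have h4 : |((m : ℝ) - m') * e| ≤ 2 * w := by
              have e1 : ((m : ℝ) - m') * e = ((b : ℝ) / h + m * e - x) - ((b : ℝ) / h + m' * e - x) := by
                ring
              rw [e1]
              refine (abs_sub _ _).trans ?_
              linarith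
            rw [abs_mul] at h4
            have e2 : 2 * w / (|e| * h) * h = 2 * w / |e| := by field_simp
            rw [e2, le_div_iff₀ hepos]
            exact h4
        have h2 : (S.filter (fun m => l m = b)).card - 1 ≤ ⌊2 * w / (|e| * h)⌋₊ := by
          apply Nat.le_floor
          rcases Nat.eq_zero_or_pos (S.filter (fun m => l m = b)).card with h3 | h3
          · rw [h3]; simp only [Nat.zero_sub, Nat.cast_zero]; positivity
          · rw [Nat.cast_sub h3]
            push_cast
            linarith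
        omega
      have hcardS : S.card ≤ (⌊2 * w / (|e| * h)⌋₊ + 1) * (S.image l).card :=
        card_le_mul_card_image S _ hfib
      have himg : ((S.image l).card : ℝ) ≤ h * (U * |e| + 2 * w) + 1 := by
        refine card_sep _ (fun b : ℤ => (b : ℝ)) one_pos (by positivity) ?_ ?_
        · intro a _ b _ hne
          have h1 : (1 : ℤ) ≤ |a - b| := Int.one_le_abs (sub_ne_zero.mpr hne)
          have h2 : ((1 : ℤ) : ℝ) ≤ ((|a - b| : ℤ) : ℝ) := by exact_mod_cast h1
          push_cast at h2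
          exact h2
        · intro a ha b hb
          rw [mem_image] at ha hb
          obtain ⟨m, hm, rfl⟩ := ha
          obtain ⟨m', hm', rfl⟩ := hb
          have h2 := hlm m hm
          have h3 := hlm m' hm'
          have h4 := hdiamU m hm m' hm'
          have e1 : (l m : ℝ) - l m' = h * (((l m : ℝ) / h + m * e - x) -
              ((l m' : ℝ) / h + m' * e - x) - ((m : ℝ) - m') * e) := by
            field_simp
            ring
          rw [mul_one, e1, abs_mul, abs_of_pos hh0]
          apply mul_le_mul_of_nonneg_left _ hh0.le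
          refine (abs_sub _ _).trans ?_
          have h5 := abs_sub ((l m : ℝ) / h + m * e - x) ((l m' : ℝ) / h + m' * e - x)
          rw [abs_mul]
          have h6 : |(m : ℝ) - m'| * |e| ≤ U * |e| :=
            mul_le_mul_of_nonneg_right h4 (abs_nonneg e)
          linarith
      have hfl : ((⌊2 * w / (|e| * h)⌋₊ + 1 : ℕ) : ℝ) ≤ 2 * w / (|e| * h) + 1 := by
        push_cast
        have := Nat.floor_le (show 0 ≤ 2 * w / (|e| * h) by positivity)
        linarith
      have hinv : 1 / |e| ≤ U / (w * H) := by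
        rw [div_le_div_iff₀ hepos hwH0]
        linarith
      have hw2 : w ≤ 1 / 2 := by nlinarith
      calc (S.card : ℝ) ≤ ((⌊2 * w / (|e| * h)⌋₊ + 1 : ℕ) : ℝ) * ((S.image l).card : ℝ) := by
            exact_mod_cast hcardS
        _ ≤ (2 * w / (|e| * h) + 1) * (h * (U * |e| + 2 * w) + 1) := by
            apply mul_le_mul hfl himg (Nat.cast_nonneg _) (by positivity)
        _ = 2 * w * U + 4 * w ^ 2 * (1 / |e|) + 2 * w / h * (1 / |e|) + (h * |e|) * U
              + 2 * w * h + 1 := by
            field_simp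
            ring
        _ ≤ 2 * w * U + 4 * w ^ 2 * (U / (w * H)) + 2 * w * (U / (w * H)) + (2 * w) * U
              + 2 * w * H + 1 := by
            have a1 : 4 * w ^ 2 * (1 / |e|) ≤ 4 * w ^ 2 * (U / (w * H)) :=
              mul_le_mul_of_nonneg_left hinv (by positivity)
            have a2 : 2 * w / h * (1 / |e|) ≤ 2 * w * (U / (w * H)) := by
              apply mul_le_mul _ hinv (by positivity) (by positivity)
              exact div_le_self (by positivity) hh1
            have a3 : (h * |e|) * U ≤ (2 * w) * U := mul_le_mul_of_nonneg_right hhe hU0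
            have a4 : 2 * w * h ≤ 2 * w * H := mul_le_mul_of_nonneg_left hle (by positivity)
            linarith
        _ = 4 * w * U + (4 * w + 2) / H * U + 2 * w * H + 1 := by
            field_simp
            ring
        _ ≤ 4 * w * U + 4 / H * U + 1 + 1 := by
            have a1 : (4 * w + 2) / H * U ≤ 4 / H * U := by
              apply mul_le_mul_of_nonneg_right _ hU0
              apply div_le_div_of_nonneg_right _ hH0.le
              linarith
            linarith
        _ = (4 * w + 4 / H) * U + 2 := by ring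
  · -- the spaced case
    left
    push Not at hex
    have h1 : (S.card : ℝ) ≤ U / H + 1 := by
      refine card_sep S (fun m : ℕ => (m : ℝ)) hH0 (by positivity) ?_ ?_
      · -- separation
        have key : ∀ a ∈ S, ∀ b ∈ S, a < b → H ≤ (b : ℝ) - a := by
          intro a ha b hb hab
          by_contra hcon
          rw [not_le] at hcon
          have h2 := hex (b - a) (by omega) (by
            rw [Nat.cast_sub hab.le]; exact hcon.le)
          have h3 := (hSm a ha).2.2
          have h4 := (hSm b hb).2.2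
          unfold distInt at h3 h4
          have h5 : distInt (((b - a : ℕ) : ℝ) * α) ≤ 2 * w := by
            refine (distInt_le_abs_sub _ (round ((b : ℝ) * α - x) - round ((a : ℝ) * α - x))).trans ?_
            rw [Nat.cast_sub hab.le]
            push_cast
            have e1 : ((b : ℝ) - a) * α - (round ((b : ℝ) * α - x) - round ((a : ℝ) * α - x) : ℝ)
                = ((b : ℝ) * α - x - round ((b : ℝ) * α - x)) -
                  ((a : ℝ) * α - x - round ((a : ℝ) * α - x)) := by ring
            rw [e1]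
            refine (abs_sub _ _).trans ?_
            linarith
          linarith
        intro a ha b hb hne
        rcases lt_or_gt_of_ne hne with h2 | h2
        · have h3 := key a ha b hb h2
          rw [abs_sub_comm]
          exact h3.trans (le_abs_self _)
        · have h3 := key b hb a ha h2
          exact h3.trans (le_abs_self _)
      · intro a ha b hb
        have := hdiamU a ha b hb
        rw [div_mul_cancel₀ _ hH0.ne']
        exact this
    have h2 : (U : ℝ) / H ≤ (4 * w + 4 / H) * U := by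
      have a1 : (U : ℝ) / H = 1 / H * U := by ring
      rw [a1]
      apply mul_le_mul_of_nonneg_right _ hU0
      have a2 : 1 / H ≤ 4 / H := div_le_div_of_nonneg_right (by norm_num) hH0.le
      linarith
    linarith

/-! ### (C2), (C3) -/

/-- `α` is within `s H ^ 7 / u` of a fraction with denominator at most `H ^ 7`.  The condition
`SS(u₀,u₁)` of the notes is `FrS H s (u₁ γ) u₀`. -/
def FrS (H s α u : ℝ) : Prop :=
  ∃ (d : ℕ) (k : ℤ), 0 < d ∧ (d : ℝ) ≤ H ^ 7 ∧ |α - k / d| * u ≤ s * H ^ 7

/-- The exceptional set `B(α)`: `u α` is within `4 s H` of a fraction with denominator at most `H`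
but `α` itself is not structured at scale `u`. -/
def BadB (H s α : ℝ) (u : ℕ) : Prop :=
  0 < u ∧ (∃ (h : ℕ) (j : ℤ), 0 < h ∧ (h : ℝ) ≤ H ∧ |(u : ℝ) * α - j / h| ≤ 4 * s * H) ∧
    ¬ FrS H s α u

theorem FrS.mono {H s α u v : ℝ} (h : FrS H s α v) (huv : u ≤ v) : FrS H s α u := by
  obtain ⟨d, k, hd, hdH, h1⟩ := h
  exact ⟨d, k, hd, hdH, (mul_le_mul_of_nonneg_left huv (abs_nonneg _)).trans h1⟩

/-- (C2), first part: `B(α)` has no element `< 2 H ^ 2`. -/
theorem badB_large {H s α : ℝ} (hH : 4 ≤ H) (hs : 0 < s) {u : ℕ} (hu : BadB H s α u) :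
    2 * H ^ 2 ≤ u := by
  obtain ⟨hu0, ⟨h, j, hh, hhH, h1⟩, h2⟩ := hu
  by_contra hcon
  rw [not_le] at hcon
  apply h2
  have huR : (0 : ℝ) < u := by exact_mod_cast hu0
  have hhR : (0 : ℝ) < h := by exact_mod_cast hh
  have hH0 : (0 : ℝ) < H := by linarith
  refine ⟨h * u, j, Nat.mul_pos hh hu0, ?_, ?_⟩
  · push_cast
    calc (h : ℝ) * u ≤ H * (2 * H ^ 2) := mul_le_mul hhH hcon.le huR.le hH0.le
      _ = H ^ 3 * 2 := by ring
      _ ≤ H ^ 3 * H ^ 4 := by
          apply mul_le_mul_of_nonneg_left _ (by positivity)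
          nlinarith [sq_nonneg (H ^ 2 - 4), sq_nonneg (H - 2), mul_pos hH0 hH0]
      _ = H ^ 7 := by ring
  · have e1 : |α - (j : ℝ) / ((h * u : ℕ) : ℝ)| * u = |(u : ℝ) * α - j / h| := by
      rw [← abs_of_pos huR, ← abs_mul, abs_of_pos huR]
      congr 1
      push_cast
      field_simp
    rw [e1]
    refine h1.trans ?_
    have h6 : 4 * H ≤ H ^ 7 := by
      have h7 : (4 : ℝ) ≤ H ^ 6 := by
        calc (4 : ℝ) ≤ H := hH
          _ = H ^ 1 := (pow_one H).symm
          _ ≤ H ^ 6 := pow_le_pow_right₀ (by linarith) (by norm_num)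
      calc 4 * H ≤ H ^ 6 * H := mul_le_mul_of_nonneg_right h7 hH0.le
        _ = H ^ 7 := by ring
    nlinarith

/-- (C2), second part: the exceptional set has density `≤ 5 / H` in dyadic blocks. -/
theorem badB_count {H s : ℝ} (hH : 4 ≤ H) (hs : 0 < s) (hsH : s * H ^ 16 ≤ 1) (α : ℝ) (U : ℕ)
    (hU : H ^ 2 ≤ U) (B : Finset ℕ) (hB : ∀ u ∈ B, U ≤ u ∧ u ≤ 2 * U ∧ BadB H s α u) :
    (B.card : ℝ) ≤ 5 * U / H := by
  classical
  have hH0 : (0 : ℝ) < H := by linarith
  have hH1 : (1 : ℝ) ≤ H := by linarith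
  have hU0 : (0 : ℝ) < U := lt_of_lt_of_le (by positivity) hU
  have hpow : ∀ k : ℕ, k ≤ 16 → s * H ^ k ≤ 1 := fun k hk =>
    (mul_le_mul_of_nonneg_left (pow_le_pow_right₀ hH1 hk) hs.le).trans hsH
  rcases B.eq_empty_or_nonempty with h0 | ⟨u₁, hu₁⟩
  · rw [h0]; simp only [card_empty, Nat.cast_zero]; positivity
  -- the counts for each `h`
  have hcount : ∀ h ∈ Icc 1 ⌊H⌋₊,
      (((Icc 1 (2 * U)).filter (fun m : ℕ => distInt (m * ((h : ℝ) * α) - 0) ≤ 4 * s * H ^ 2)).card : ℝ)
        ≤ (4 * (4 * s * H ^ 2) + 4 / H ^ 3) * ((2 * U : ℕ) : ℝ) + 2 := by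
    intro h hh
    rw [mem_Icc] at hh
    have hhH : (h : ℝ) ≤ H := (Nat.cast_le.mpr hh.2).trans (Nat.floor_le hH0.le)
    have hh0 : (0 : ℝ) < h := by exact_mod_cast hh.1
    have hh1 : (1 : ℝ) ≤ h := by exact_mod_cast hh.1
    have hH3 : (1 : ℝ) ≤ H ^ 3 := one_le_pow₀ hH1
    have hw : 0 < 4 * s * H ^ 2 := by positivity
    have hwH : 2 * (4 * s * H ^ 2) * H ^ 3 ≤ 1 := by
      have h7 : (8 : ℝ) ≤ H ^ 2 := by nlinarith
      calc 2 * (4 * s * H ^ 2) * H ^ 3 = 8 * (s * H ^ 5) := by ring
        _ ≤ H ^ 2 * (s * H ^ 5) := mul_le_mul_of_nonneg_right h7 (by positivity)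
        _ = s * H ^ 7 := by ring
        _ ≤ 1 := hpow 7 (by norm_num)
    rcases bohr_dichotomy hH3 hw hwH (h * α) 0 (2 * U) with h1 | ⟨h₁, j₁, h2, h3, h4⟩
    · exact h1
    · exfalso
      obtain ⟨a1, a2, a3⟩ := hB u₁ hu₁
      apply a3.2.2
      have h20 : (0 : ℝ) < h₁ := by exact_mod_cast h2
      refine ⟨h * h₁, j₁, Nat.mul_pos (by omega) h2, ?_, ?_⟩
      · push_cast
        calc (h : ℝ) * h₁ ≤ H * H ^ 3 := mul_le_mul hhH h3 h20.le hH0.le
          _ = H ^ 4 := by ring
          _ ≤ H ^ 7 := pow_le_pow_right₀ hH1 (by norm_num)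
      · have e1 : |α - (j₁ : ℝ) / ((h * h₁ : ℕ) : ℝ)| = |(h : ℝ) * α - j₁ / h₁| / h := by
          rw [eq_div_iff hh0.ne']
          have e0 : ∀ y : ℝ, |y| * h = |y * h| := fun y => by rw [abs_mul, abs_of_pos hh0]
          rw [e0]
          congr 1
          push_cast
          field_simp
        rw [e1]
        have b1 : |(h : ℝ) * α - j₁ / h₁| / h ≤ |(h : ℝ) * α - j₁ / h₁| :=
          div_le_self (abs_nonneg _) hh1
        have b2 : (u₁ : ℝ) ≤ ((2 * U : ℕ) : ℝ) := by exact_mod_cast a2
        have b3 : (0 : ℝ) ≤ u₁ := Nat.cast_nonneg _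
        calc |(h : ℝ) * α - j₁ / h₁| / h * u₁
            ≤ |(h : ℝ) * α - j₁ / h₁| * ((2 * U : ℕ) : ℝ) := mul_le_mul b1 b2 b3 (abs_nonneg _)
          _ ≤ 4 * s * H ^ 2 * H ^ 3 := h4.le
          _ = s * (4 * H ^ 5) := by ring
          _ ≤ s * H ^ 7 := by
              apply mul_le_mul_of_nonneg_left _ hs.le
              have h7 : (4 : ℝ) ≤ H ^ 2 := by nlinarith
              calc 4 * H ^ 5 ≤ H ^ 2 * H ^ 5 := mul_le_mul_of_nonneg_right h7 (by positivity)
                _ = H ^ 7 := by ring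
  have hsub : B ⊆ (Icc 1 ⌊H⌋₊).biUnion (fun h => (Icc 1 (2 * U)).filter
      (fun m : ℕ => distInt (m * ((h : ℝ) * α) - 0) ≤ 4 * s * H ^ 2)) := by
    intro u hu
    obtain ⟨a1, a2, a3, ⟨h, j, hh, hhH, h1⟩, -⟩ := hB u hu
    have hh0 : (0 : ℝ) < h := by exact_mod_cast hh
    rw [mem_biUnion]
    refine ⟨h, ?_, ?_⟩
    · rw [mem_Icc]
      exact ⟨hh, Nat.le_floor hhH⟩
    · rw [mem_filter, mem_Icc]
      refine ⟨⟨a3, a2⟩, ?_⟩
      refine (distInt_le_abs_sub _ j).trans ?_
      have e1 : (u : ℝ) * ((h : ℝ) * α) - 0 - j = h * ((u : ℝ) * α - j / h) := by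
        field_simp
        ring
      rw [e1, abs_mul, abs_of_pos hh0]
      calc (h : ℝ) * |(u : ℝ) * α - j / h| ≤ H * (4 * s * H) :=
            mul_le_mul hhH h1 (abs_nonneg _) hH0.le
        _ = 4 * s * H ^ 2 := by ring
  have hK : (0 : ℝ) ≤ (4 * (4 * s * H ^ 2) + 4 / H ^ 3) * ((2 * U : ℕ) : ℝ) + 2 := by positivity
  calc (B.card : ℝ) ≤ (((Icc 1 ⌊H⌋₊).biUnion (fun h => (Icc 1 (2 * U)).filter
      (fun m : ℕ => distInt (m * ((h : ℝ) * α) - 0) ≤ 4 * s * H ^ 2))).card : ℝ) := by
        exact_mod_cast card_le_card hsub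
    _ ≤ ∑ h ∈ Icc 1 ⌊H⌋₊, (((Icc 1 (2 * U)).filter
      (fun m : ℕ => distInt (m * ((h : ℝ) * α) - 0) ≤ 4 * s * H ^ 2)).card : ℝ) := by
        exact_mod_cast card_biUnion_le
    _ ≤ ∑ h ∈ Icc 1 ⌊H⌋₊, ((4 * (4 * s * H ^ 2) + 4 / H ^ 3) * ((2 * U : ℕ) : ℝ) + 2) :=
        sum_le_sum hcount
    _ = (⌊H⌋₊ : ℝ) * ((4 * (4 * s * H ^ 2) + 4 / H ^ 3) * ((2 * U : ℕ) : ℝ) + 2) := by
        rw [sum_const, Nat.card_Icc, nsmul_eq_mul]
        simp only [Nat.add_sub_cancel]
    _ ≤ H * ((4 * (4 * s * H ^ 2) + 4 / H ^ 3) * ((2 * U : ℕ) : ℝ) + 2) :=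
        mul_le_mul_of_nonneg_right (Nat.floor_le hH0.le) hK
    _ = (32 * (s * H ^ 4)) * (U / H) + (8 / H) * (U / H) + 2 * H := by
        push_cast
        field_simp
        ring
    _ ≤ 1 * (U / H) + 2 * (U / H) + 2 * (U / H) := by
        have hUH : (0 : ℝ) ≤ U / H := by positivity
        have c1 : 32 * (s * H ^ 4) ≤ 1 := by
          have h7 : (32 : ℝ) ≤ H ^ 3 := by nlinarith [mul_pos hH0 hH0]
          calc 32 * (s * H ^ 4) ≤ H ^ 3 * (s * H ^ 4) :=
                mul_le_mul_of_nonneg_right h7 (by positivity)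
            _ = s * H ^ 7 := by ring
            _ ≤ 1 := hpow 7 (by norm_num)
        have c2 : 8 / H ≤ 2 := by
          rw [div_le_iff₀ hH0]; linarith
        have c3 : 2 * H ≤ 2 * (U / H) := by
          apply mul_le_mul_of_nonneg_left _ (by norm_num)
          rw [le_div_iff₀ hH0]
          calc H * H = H ^ 2 := by ring
            _ ≤ U := hU
        have c4 := mul_le_mul_of_nonneg_right c1 hUH
        have c5 := mul_le_mul_of_nonneg_right c2 hUH
        linarith
    _ = 5 * U / H := by ring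

/-- (C2), third part: the logarithmic sum over the exceptional set. -/
theorem badB_sum {H s : ℝ} (hH : 4 ≤ H) (hs : 0 < s) (hsH : s * H ^ 16 ≤ 1) (α : ℝ) (Z : ℕ)
    (B : Finset ℕ) (hB : ∀ u ∈ B, u ≤ Z ∧ BadB H s α u) :
    ∑ u ∈ B, (1 : ℝ) / u ≤ 5 / H * (Nat.log 2 Z + 1) := by
  classical
  have hH0 : (0 : ℝ) < H := by linarith
  have hmap : ∀ u ∈ B, Nat.log 2 u ∈ range (Nat.log 2 Z + 1) := by
    intro u hu
    rw [mem_range]
    exact Nat.lt_succ_of_le (Nat.log_mono_right (hB u hu).1)
  rw [← sum_fiberwise_of_maps_to hmap]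
  calc ∑ i ∈ range (Nat.log 2 Z + 1), ∑ u ∈ B with Nat.log 2 u = i, (1 : ℝ) / u
      ≤ ∑ i ∈ range (Nat.log 2 Z + 1), 5 / H := by
        apply sum_le_sum
        intro i _
        set Bi := B.filter (fun u => Nat.log 2 u = i) with hBi
        rcases Bi.eq_empty_or_nonempty with h0 | ⟨u₁, hu₁⟩
        · rw [h0, sum_empty]; positivity
        have hmem : ∀ u ∈ Bi, 2 ^ i ≤ u ∧ u < 2 * 2 ^ i ∧ BadB H s α u := by
          intro u hu
          rw [hBi, mem_filter] at hu
          have h1 := (hB u hu.1).2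
          have h2 := Nat.pow_log_le_self 2 h1.1.ne'
          have h3 := Nat.lt_pow_succ_log_self (b := 2) (by norm_num) u
          rw [hu.2] at h2 h3
          rw [pow_succ] at h3
          exact ⟨h2, by omega, h1⟩
        have hbig : H ^ 2 ≤ ((2 ^ i : ℕ) : ℝ) := by
          obtain ⟨h1, h2, h3⟩ := hmem u₁ hu₁
          have h4 := badB_large hH hs h3
          have h5 : (u₁ : ℝ) < ((2 * 2 ^ i : ℕ) : ℝ) := by exact_mod_cast h2
          rw [Nat.cast_mul] at h5
          push_cast at h5 ⊢
          linarith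
        have hc := badB_count hH hs hsH α (2 ^ i) hbig Bi (fun u hu => by
          obtain ⟨h1, h2, h3⟩ := hmem u hu
          exact ⟨h1, h2.le, h3⟩)
        have hp : (0 : ℝ) < ((2 ^ i : ℕ) : ℝ) := by positivity
        calc ∑ u ∈ Bi, (1 : ℝ) / u ≤ ∑ u ∈ Bi, 1 / ((2 ^ i : ℕ) : ℝ) := by
              apply sum_le_sum
              intro u hu
              apply one_div_le_one_div_of_le hp
              exact_mod_cast (hmem u hu).1
          _ = Bi.card * (1 / ((2 ^ i : ℕ) : ℝ)) := by rw [sum_const, nsmul_eq_mul]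
          _ ≤ 5 * ((2 ^ i : ℕ) : ℝ) / H * (1 / ((2 ^ i : ℕ) : ℝ)) :=
              mul_le_mul_of_nonneg_right hc (by positivity)
          _ = 5 / H := by field_simp
    _ = 5 / H * (Nat.log 2 Z + 1) := by
        rw [sum_const, card_range, nsmul_eq_mul]
        push_cast
        ring

/-- (C3) If `u₀ α` is within `2 s H / q₀` of a fraction with denominator `≤ H` and `u₀` is not
exceptional, then `α` is within `2 s H / (u₀ q₀)` of a fraction with denominator `≤ H ^ 7`. -/
theorem fr_transfer {H s α q₀ : ℝ} (hH : 4 ≤ H) (hs : 0 < s) (hsH : s * H ^ 16 ≤ 1) {u₀ : ℕ}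
    (hu₀ : 0 < u₀) (hq₀ : 1 ≤ q₀) (hB : ¬ BadB H s α u₀) {h : ℕ} {j : ℤ} (hh : 0 < h)
    (hhH : (h : ℝ) ≤ H) (h1 : |(u₀ : ℝ) * α - j / h| * q₀ ≤ 2 * s * H) :
    ∃ (d : ℕ) (k : ℤ), 0 < d ∧ (d : ℝ) ≤ H ^ 7 ∧ |α - k / d| * (u₀ * q₀) ≤ 2 * s * H := by
  have hH0 : (0 : ℝ) < H := by linarith
  have hH1 : (1 : ℝ) ≤ H := by linarith
  have hu : (0 : ℝ) < u₀ := by exact_mod_cast hu₀
  have hh0 : (0 : ℝ) < h := by exact_mod_cast hh
  have hsH0 : 0 < s * H := mul_pos hs hH0
  have h2 : |(u₀ : ℝ) * α - j / h| ≤ 2 * s * H := by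
    refine le_trans ?_ h1
    exact le_mul_of_one_le_right (abs_nonneg _) hq₀
  have hFr : FrS H s α u₀ := by
    by_contra hcon
    exact hB ⟨hu₀, ⟨h, j, hh, hhH, by linarith⟩, hcon⟩
  obtain ⟨d, k, hd, hdH, h3⟩ := hFr
  have hd0 : (0 : ℝ) < d := by exact_mod_cast hd
  have e1 : |(u₀ : ℝ) * α - j / h| = |α - j / (h * u₀)| * u₀ := by
    nth_rewrite 3 [← abs_of_pos hu]
    rw [← abs_mul]
    congr 1
    field_simp
  by_cases heq : j * (d : ℤ) = k * (h * u₀ : ℕ)
  · refine ⟨d, k, hd, hdH, ?_⟩
    have e2 : (k : ℝ) / d = j / (h * u₀) := by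
      rw [div_eq_div_iff hd0.ne' (by positivity)]
      have : ((j * (d : ℤ) : ℤ) : ℝ) = ((k * (h * u₀ : ℕ) : ℤ) : ℝ) := by rw [heq]
      push_cast at this
      linarith
    rw [e2, ← mul_assoc, ← e1]
    exact h1
  · exfalso
    have h4 : (1 : ℤ) ≤ |j * (d : ℤ) - k * (h * u₀ : ℕ)| := Int.one_le_abs (sub_ne_zero.mpr heq)
    have h5 : (1 : ℝ) ≤ |(j : ℝ) * d - k * (h * u₀)| := by
      have : ((1 : ℤ) : ℝ) ≤ ((|j * (d : ℤ) - k * (h * u₀ : ℕ)| : ℤ) : ℝ) := by exact_mod_cast h4
      push_cast at this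
      exact this
    have e3 : (j : ℝ) * d - k * (h * u₀) = (h * d * u₀) * ((α - k / d) - (α - j / (h * u₀))) := by
      field_simp
      ring
    have h6 : |(j : ℝ) * d - k * (h * u₀)| ≤ (h * d) * (s * H ^ 7 + 2 * s * H) := by
      rw [e3, abs_mul, abs_of_pos (by positivity : (0 : ℝ) < h * d * u₀)]
      have h7 := abs_sub (α - k / d) (α - j / (h * u₀))
      have h8 : u₀ * |(α - k / d) - (α - j / (h * u₀))| ≤ s * H ^ 7 + 2 * s * H := by
        rw [e1] at h2
        nlinarith
      calc (h : ℝ) * d * u₀ * |(α - k / d) - (α - j / (h * u₀))|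
          = (h * d) * (u₀ * |(α - k / d) - (α - j / (h * u₀))|) := by ring
        _ ≤ (h * d) * (s * H ^ 7 + 2 * s * H) := mul_le_mul_of_nonneg_left h8 (by positivity)
    have h9 : (h : ℝ) * d * (s * H ^ 7 + 2 * s * H) ≤ 2 * (s * H ^ 15) := by
      have a1 : 2 * s * H ≤ s * H ^ 7 := by
        have h7 : (2 : ℝ) ≤ H ^ 6 := by
          calc (2 : ℝ) ≤ H := by linarith
            _ = H ^ 1 := (pow_one H).symm
            _ ≤ H ^ 6 := pow_le_pow_right₀ hH1 (by norm_num)
        calc 2 * s * H = 2 * (s * H) := by ring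
          _ ≤ H ^ 6 * (s * H) := mul_le_mul_of_nonneg_right h7 hsH0.le
          _ = s * H ^ 7 := by ring
      calc (h : ℝ) * d * (s * H ^ 7 + 2 * s * H) ≤ (H * H ^ 7) * (s * H ^ 7 + s * H ^ 7) := by
            apply mul_le_mul
            · exact mul_le_mul hhH hdH hd0.le hH0.le
            · linarith
            · positivity
            · positivity
        _ = 2 * (s * H ^ 15) := by ring
    have h10 : s * H ^ 15 ≤ 1 / 4 := by
      have : s * H ^ 15 * H ≤ 1 := by
        calc s * H ^ 15 * H = s * H ^ 16 := by ring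
          _ ≤ 1 := hsH
      have hpos : 0 < s * H ^ 15 := by positivity
      nlinarith
    linarith

end Vale.P028
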