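import Vale.Agent.P028.MathlibUsed
import Vale.Agent.P028.FO1
import Vale.Agent.P028.MSums
import Vale.Agent.P028.MTensor
attribute [-instance] ProperSMul.toContinuousSMul IsTopologicalTorsor.toContinuousSMul IdemSemiring.toCanonicallyOrderedAdd IdemSemiring.toMulLeftMono IdemSemiring.toMulRightMono AddQuantale.instAddLeftMono AddQuantale.instAddRightMono Quantale.instMulLeftMono Quantale.instMulRightMono FiniteDimensional.rclike_to_real IsScalarTower.complexToReal FiniteDimensional.complexToReal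

/-!
# Sums over smooth numbers (module O2 of note 7705)
-/

namespace Vale.P028

open Finset

/-- the primes `≤ z` -/
def PZ (z : ℕ) : Finset ℕ := (Icc 1 z).filter Nat.Prime

theorem PZ_prime {z p : ℕ} (hp : p ∈ PZ z) : p.Prime := (mem_filter.1 hp).2

theorem mem_PZ {z p : ℕ} : p ∈ PZ z ↔ p.Prime ∧ p ≤ z := by
  unfold PZ
  rw [mem_filter, mem_Icc]
  constructor
  · rintro ⟨⟨_, h1⟩, h2⟩; exact ⟨h2, h1⟩
  · rintro ⟨h1, h2⟩; exact ⟨⟨h1.one_lt.le, h2⟩, h1⟩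

/-- `u` is `z`-smooth -/
def SmZ (z u : ℕ) : Prop := u ≠ 0 ∧ u.primeFactors ⊆ PZ z

/-- `n ↦ n^{-τ}`. -/
noncomputable def foPow (τ : ℝ) : ℕ →* ℝ where
  toFun n := (n : ℝ) ^ (-τ)
  map_one' := by simp
  map_mul' m n := by
    push_cast
    exact Real.mul_rpow (Nat.cast_nonneg _) (Nat.cast_nonneg _)

theorem foPow_apply (τ : ℝ) (n : ℕ) : foPow τ n = (n : ℝ) ^ (-τ) := rfl

theorem fo_euler {τ : ℝ} (hτ : 0 < τ) {P : Finset ℕ} (hP : ∀ p ∈ P, p.Prime) (Z : Finset ℕ)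
    (hZ : ∀ w ∈ Z, w ≠ 0 ∧ w.primeFactors ⊆ P) :
    ∑ w ∈ Z, (w : ℝ) ^ (-τ) ≤ ∏ p ∈ P, (1 - (p : ℝ) ^ (-τ))⁻¹ := by
  classical
  have hnn : ∀ n : ℕ, 0 ≤ foPow τ n := fun n => by
    rw [foPow_apply]; exact Real.rpow_nonneg (Nat.cast_nonneg _) _
  have hlt1 : ∀ {p : ℕ}, p.Prime → ‖foPow τ p‖ < 1 := by
    intro p hp
    rw [Real.norm_of_nonneg (hnn p), foPow_apply]
    exact Real.rpow_lt_one_of_one_lt_of_neg (by exact_mod_cast hp.one_lt) (by linarith)
  obtain ⟨hsum, hhas⟩ :=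
    EulerProduct.summable_and_hasSum_factoredNumbers_prod_filter_prime_geometric
      (f := foPow τ) hlt1 P
  have hmem : ∀ u ∈ Z, u ∈ Nat.factoredNumbers P := by
    intro u hu
    exact Nat.mem_factoredNumbers_iff_primeFactors_subset.2 (hZ u hu)
  have h5 : ∑ u ∈ Z, foPow τ u =
      ∑ m ∈ Z.attach.image (fun u => (⟨u.1, hmem u.1 u.2⟩ : Nat.factoredNumbers P)),
        foPow τ m.1 := by
    rw [sum_image]
    · rw [← sum_attach]
    · intro a _ b _ hab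
      have : a.1 = b.1 := by simpa using congrArg Subtype.val hab
      exact Subtype.ext this
  have h6 : P.filter (fun p => p.Prime) = P := filter_true_of_mem hP
  rw [h6] at hhas
  simp only [← foPow_apply]
  rw [h5, ← hhas.tsum_eq]
  exact hhas.summable.sum_le_tsum _ (fun m _ => hnn _)

/-- Rankin's bound -/
theorem fo_rankin : ∃ C ≥ 1, ∃ k ≥ 0, ∀ z : ℕ, 2 ≤ z → ∀ A : Finset ℕ, (∀ u ∈ A, SmZ z u) →
    ∑ u ∈ A, (u : ℝ) ^ (1 / (4 * Real.log z) - 1) ≤ C * (1 + Real.log z) ^ (k : ℝ) := by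
  obtain ⟨C, hC, k, hk, h⟩ := prod_one_add_div_prime_le 4 (by norm_num)
  refine ⟨max C 1, le_max_right _ _, k, hk, ?_⟩
  intro z hz A hA
  have hz0 : (0 : ℝ) < z := by exact_mod_cast (by omega : 0 < z)
  have hz2 : (2 : ℝ) ≤ z := by exact_mod_cast hz
  have hlog2 : (0.6931471803 : ℝ) < Real.log 2 := Real.log_two_gt_d9
  have hlz : Real.log 2 ≤ Real.log z := Real.log_le_log (by norm_num) hz2
  have hlz0 : 0 < Real.log z := by linarith
  set σ : ℝ := 1 / (4 * Real.log z) with hσ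
  have hσ1 : σ ≤ 1 / 2 := by
    rw [hσ, div_le_div_iff₀ (by positivity) (by norm_num)]
    linarith
  have hσ0 : 0 < σ := by positivity
  have hτ : 0 < 1 - σ := by linarith
  have h1 := fo_euler hτ (P := PZ z) (fun p hp => PZ_prime hp) A hA
  have e1 : ∀ u : ℕ, (u : ℝ) ^ (σ - 1) = (u : ℝ) ^ (-(1 - σ)) := fun u => by
    congr 1; ring
  simp only [e1]
  refine h1.trans ?_
  have h2 : ∀ p ∈ PZ z, (1 - (p : ℝ) ^ (-(1 - σ)))⁻¹ ≤ 1 + 4 / (p : ℝ) := by
    intro p hp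
    obtain ⟨hpp, hpz⟩ := mem_PZ.1 hp
    have hp2 : (2 : ℝ) ≤ p := by exact_mod_cast hpp.two_le
    have hp0 : (0 : ℝ) < p := by linarith
    have hpz' : (p : ℝ) ≤ z := by exact_mod_cast hpz
    have h3 : (p : ℝ) ^ σ ≤ 1.3 := by
      have a1 : (p : ℝ) ^ σ ≤ (z : ℝ) ^ σ := Real.rpow_le_rpow hp0.le hpz' hσ0.le
      have a2 : (z : ℝ) ^ σ = Real.exp (1 / 4) := by
        rw [Real.rpow_def_of_pos hz0, hσ]
        congr 1
        field_simp
      have a3 : Real.exp (1 / 4) ≤ 1.3 := by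
        have b1 : Real.exp (1 / 4) ^ 4 = Real.exp 1 := by
          rw [← Real.exp_nat_mul]; norm_num
        have b2 : Real.exp 1 < 2.7182818286 := Real.exp_one_lt_d9
        by_contra hcon
        rw [not_le] at hcon
        have b3 : (1.3 : ℝ) ^ 4 < Real.exp (1 / 4) ^ 4 :=
          pow_lt_pow_left₀ hcon (by norm_num) (by norm_num)
        rw [b1] at b3
        norm_num at b3
        linarith
      linarith
    have h4 : (p : ℝ) ^ (-(1 - σ)) = (p : ℝ) ^ σ / p := by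
      rw [show -(1 - σ) = σ - 1 by ring, Real.rpow_sub hp0, Real.rpow_one]
    set x : ℝ := (p : ℝ) ^ (-(1 - σ)) with hx
    have hx1 : x ≤ 1.3 / p := by
      rw [h4]; exact div_le_div_of_nonneg_right h3 hp0.le
    have hx2 : (1.3 : ℝ) / p ≤ 0.65 := by
      rw [div_le_iff₀ hp0]; linarith
    have hx0 : 0 ≤ x := Real.rpow_nonneg hp0.le _
    have hx3 : 0 < 1 - x := by linarith
    rw [inv_le_iff_one_le_mul₀ hx3]
    have hy : 0 < 1 / (p : ℝ) := by positivity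
    have hy2 : 1 / (p : ℝ) ≤ 1 / 2 := one_div_le_one_div_of_le (by norm_num) hp2
    have e2 : (1.3 : ℝ) / p = 1.3 * (1 / p) := by ring
    have e3 : (4 : ℝ) / p = 4 * (1 / p) := by ring
    rw [e2] at hx1
    rw [e3]
    nlinarith
  calc ∏ p ∈ PZ z, (1 - (p : ℝ) ^ (-(1 - σ)))⁻¹ ≤ ∏ p ∈ PZ z, (1 + 4 / (p : ℝ)) := by
        apply prod_le_prod
        · intro p hp
          obtain ⟨hpp, hpz⟩ := mem_PZ.1 hp
          have : (p : ℝ) ^ (-(1 - σ)) < 1 :=
            Real.rpow_lt_one_of_one_lt_of_neg (by exact_mod_cast hpp.one_lt) (by linarith)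
          exact inv_nonneg.2 (by linarith)
        · exact h2
    _ ≤ C * (1 + Real.log z) ^ (k : ℝ) := h z (by omega)
    _ ≤ max C 1 * (1 + Real.log z) ^ (k : ℝ) :=
        mul_le_mul_of_nonneg_right (le_max_left _ _) (by positivity)

/-- the sum over all smooth numbers -/
theorem fo_all : ∃ C ≥ 1, ∃ k ≥ 0, ∀ z : ℕ, 2 ≤ z → ∀ A : Finset ℕ, (∀ u ∈ A, SmZ z u) →
    ∑ u ∈ A, 1 / (u : ℝ) ≤ C * (1 + Real.log z) ^ (k : ℝ) := by
  obtain ⟨C, hC, k, hk, h⟩ := fo_rankin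
  refine ⟨C, hC, k, hk, ?_⟩
  intro z hz A hA
  refine le_trans (sum_le_sum fun u hu => ?_) (h z hz A hA)
  have hu1 : (1 : ℝ) ≤ u := by
    have := (hA u hu).1
    exact_mod_cast (by omega : 1 ≤ u)
  have hz2 : (2 : ℝ) ≤ z := by exact_mod_cast hz
  have hlz0 : 0 < Real.log z := Real.log_pos (by linarith)
  rw [one_div, ← Real.rpow_neg_one]
  apply Real.rpow_le_rpow_of_exponent_le hu1
  have : 0 < 1 / (4 * Real.log z) := by positivity
  linarith

/-- dyadic summation together with Rankin's bound: sums over sets of smooth numbers with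
density `K` in each dyadic block -/
theorem fo_dyadic : ∃ C ≥ 1, ∃ k ≥ 0, ∀ (z : ℕ) (H K : ℝ), 4 ≤ H → H ≤ z → 0 ≤ K →
    ∀ A : Finset ℕ, (∀ u ∈ A, SmZ z u) →
    (∀ i : ℕ, ((A.filter (fun u => Nat.log 2 u = i)).card : ℝ) ≤ K * 2 ^ i) →
    ∑ u ∈ A, 1 / (u : ℝ) ≤ C * (K + 1 / H) * (1 + Real.log z) ^ (k : ℝ) := by
  classical
  obtain ⟨C, hC, k, hk, h⟩ := fo_rankin
  refine ⟨C + 16, by linarith, k + 2, by linarith, ?_⟩
  intro z H K hH hHz hK A hA hcard
  have hH0 : 0 < H := by linarith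
  have hz4 : (4 : ℝ) ≤ z := hH.trans hHz
  have hz2 : 2 ≤ z := by
    have : (2 : ℝ) ≤ z := by linarith
    exact_mod_cast this
  have hz0 : (0 : ℝ) < z := by linarith
  have hlz0 : 0 < Real.log z := Real.log_pos (by linarith)
  have hlH0 : 0 < Real.log H := Real.log_pos (by linarith)
  have hlH : Real.log H ≤ Real.log z := Real.log_le_log hH0 hHz
  set m : ℕ := ⌈4 * Real.log H⌉₊ with hm
  have hm1 : 4 * Real.log H ≤ m := Nat.le_ceil _
  have hm2 : (m : ℝ) < 4 * Real.log H + 1 := Nat.ceil_lt_add_one (by positivity)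
  set L : ℝ := 1 + Real.log z with hL
  have hL1 : 1 ≤ L := by linarith
  have hL0 : 0 < L := by linarith
  rw [← sum_filter_add_sum_filter_not A (fun u => u ≤ z ^ m)]
  -- small part
  have hsmall : ∑ u ∈ A with u ≤ z ^ m, 1 / (u : ℝ) ≤ K * (Nat.log 2 (z ^ m) + 1) := by
    have hmap : ∀ u ∈ A.filter (fun u => u ≤ z ^ m), Nat.log 2 u ∈ range (Nat.log 2 (z ^ m) + 1) := by
      intro u hu
      rw [mem_filter] at hu
      rw [mem_range]
      exact Nat.lt_succ_of_le (Nat.log_mono_right hu.2)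
    rw [← sum_fiberwise_of_maps_to hmap]
    calc ∑ i ∈ range (Nat.log 2 (z ^ m) + 1), ∑ u ∈ (A.filter (fun u => u ≤ z ^ m)) with
          Nat.log 2 u = i, (1 : ℝ) / u ≤ ∑ i ∈ range (Nat.log 2 (z ^ m) + 1), K := by
          apply sum_le_sum
          intro i _
          have hp : (0 : ℝ) < (2 : ℝ) ^ i := by positivity
          calc ∑ u ∈ (A.filter (fun u => u ≤ z ^ m)) with Nat.log 2 u = i, (1 : ℝ) / u
              ≤ ∑ u ∈ (A.filter (fun u => u ≤ z ^ m)) with Nat.log 2 u = i, 1 / (2 : ℝ) ^ i := by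
                apply sum_le_sum
                intro u hu
                rw [mem_filter, mem_filter] at hu
                apply one_div_le_one_div_of_le hp
                have h1 := Nat.pow_log_le_self 2 (hA u hu.1.1).1
                rw [hu.2] at h1
                exact_mod_cast h1
            _ = (((A.filter (fun u => u ≤ z ^ m)).filter (fun u => Nat.log 2 u = i)).card : ℝ) *
                  (1 / (2 : ℝ) ^ i) := by
                rw [sum_const, nsmul_eq_mul]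
            _ ≤ (K * 2 ^ i) * (1 / (2 : ℝ) ^ i) := by
                apply mul_le_mul_of_nonneg_right _ (by positivity)
                refine le_trans ?_ (hcard i)
                exact_mod_cast card_le_card (filter_subset_filter _ (filter_subset _ _))
            _ = K := by field_simp
      _ = K * (Nat.log 2 (z ^ m) + 1) := by
          rw [sum_const, card_range, nsmul_eq_mul]
          push_cast
          ring
  have hlogZ : (Nat.log 2 (z ^ m) : ℝ) + 1 ≤ 16 * L ^ (2 : ℕ) := by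
    have h1 : (Nat.log 2 (z ^ m) : ℝ) ≤ m * Real.log z / Real.log 2 := by
      rw [le_div_iff₀ (Real.log_pos (by norm_num)), ← Real.log_pow, ← Real.log_pow]
      apply Real.log_le_log (by positivity)
      have := Nat.pow_log_le_self 2 (x := z ^ m) (pow_pos (by omega) m).ne'
      exact_mod_cast this
    have hlog2 : (0.6931471803 : ℝ) < Real.log 2 := Real.log_two_gt_d9
    have h2 : (m : ℝ) * Real.log z / Real.log 2 ≤ (m : ℝ) * Real.log z * 1.5 := by
      rw [div_le_iff₀ (by linarith)]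
      have : 0 ≤ (m : ℝ) * Real.log z := by positivity
      nlinarith
    have h3 : (m : ℝ) * Real.log z ≤ (4 * Real.log z + 1) * Real.log z :=
      mul_le_mul_of_nonneg_right (by linarith) hlz0.le
    rw [hL]
    nlinarith
  -- tail
  have htail : ∑ u ∈ A with ¬ u ≤ z ^ m, 1 / (u : ℝ) ≤ 1 / H * (C * L ^ (k : ℝ)) := by
    have h1 := h z hz2 (A.filter (fun u => ¬ u ≤ z ^ m)) (fun u hu => hA u (mem_filter.1 hu).1)
    have h2 : ∀ u ∈ A.filter (fun u => ¬ u ≤ z ^ m), 1 / (u : ℝ) ≤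
        1 / H * (u : ℝ) ^ (1 / (4 * Real.log z) - 1) := by
      intro u hu
      rw [mem_filter, not_le] at hu
      have hu0 : (0 : ℝ) < u := by
        have := (hA u hu.1).1
        exact_mod_cast (by omega : 0 < u)
      have hzm : (0 : ℝ) < (z : ℝ) ^ m := by positivity
      have h3 : (z : ℝ) ^ m ≤ u := by exact_mod_cast hu.2.le
      have h4 : H ≤ (u : ℝ) ^ (1 / (4 * Real.log z)) := by
        calc H = Real.exp (Real.log H) := (Real.exp_log hH0).symm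
          _ ≤ Real.exp (m * Real.log z * (1 / (4 * Real.log z))) := by
              apply Real.exp_le_exp.2
              have : (m : ℝ) * Real.log z * (1 / (4 * Real.log z)) = m / 4 := by
                field_simp
              rw [this]
              linarith
          _ = ((z : ℝ) ^ m) ^ (1 / (4 * Real.log z)) := by
              rw [Real.rpow_def_of_pos hzm, Real.log_pow]
          _ ≤ (u : ℝ) ^ (1 / (4 * Real.log z)) :=
              Real.rpow_le_rpow hzm.le h3 (by positivity)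
      rw [Real.rpow_sub hu0, Real.rpow_one]
      rw [div_le_iff₀ hu0]
      calc (1 : ℝ) = 1 / H * H := by field_simp
        _ ≤ 1 / H * (u : ℝ) ^ (1 / (4 * Real.log z)) :=
            mul_le_mul_of_nonneg_left h4 (by positivity)
        _ = 1 / H * ((u : ℝ) ^ (1 / (4 * Real.log z)) / u) * u := by field_simp
    calc ∑ u ∈ A with ¬ u ≤ z ^ m, 1 / (u : ℝ)
        ≤ ∑ u ∈ A with ¬ u ≤ z ^ m, 1 / H * (u : ℝ) ^ (1 / (4 * Real.log z) - 1) :=
          sum_le_sum h2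
      _ = 1 / H * ∑ u ∈ A with ¬ u ≤ z ^ m, (u : ℝ) ^ (1 / (4 * Real.log z) - 1) := by
          rw [mul_sum]
      _ ≤ 1 / H * (C * L ^ (k : ℝ)) := mul_le_mul_of_nonneg_left h1 (by positivity)
  have hLk : L ^ (k : ℝ) ≤ L ^ (k + 2 : ℝ) :=
    Real.rpow_le_rpow_of_exponent_le hL1 (by linarith)
  have hL2 : L ^ (2 : ℕ) ≤ L ^ (k + 2 : ℝ) := by
    rw [← Real.rpow_natCast L 2]
    apply Real.rpow_le_rpow_of_exponent_le hL1
    push_cast
    linarith
  have hLk0 : 0 < L ^ (k + 2 : ℝ) := Real.rpow_pos_of_pos hL0 _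
  have hH' : 0 < 1 / H := by positivity
  calc (∑ u ∈ A with u ≤ z ^ m, 1 / (u : ℝ)) + ∑ u ∈ A with ¬ u ≤ z ^ m, 1 / (u : ℝ)
      ≤ K * (16 * L ^ (k + 2 : ℝ)) + 1 / H * (C * L ^ (k + 2 : ℝ)) := by
        refine add_le_add (hsmall.trans ?_) (htail.trans ?_)
        · apply mul_le_mul_of_nonneg_left _ hK
          linarith
        · apply mul_le_mul_of_nonneg_left _ hH'.le
          apply mul_le_mul_of_nonneg_left hLk (by linarith)
    _ ≤ (C + 16) * (K + 1 / H) * L ^ (k + 2 : ℝ) := by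
        have e : (C + 16) * (K + 1 / H) * L ^ (k + 2 : ℝ) -
            (K * (16 * L ^ (k + 2 : ℝ)) + 1 / H * (C * L ^ (k + 2 : ℝ)))
            = (C * K + 16 * (1 / H)) * L ^ (k + 2 : ℝ) := by ring
        have : 0 ≤ (C * K + 16 * (1 / H)) * L ^ (k + 2 : ℝ) := by positivity
        linarith

/-- smooth sum over the exceptional set -/
theorem fo_bad : ∃ C ≥ 1, ∃ k ≥ 0, ∀ (z : ℕ) (H s α : ℝ), 4 ≤ H → H ≤ z → 0 < s → s * H ^ 16 ≤ 1 →
    ∀ A : Finset ℕ, (∀ u ∈ A, SmZ z u ∧ BadB H s α u) →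
    ∑ u ∈ A, 1 / (u : ℝ) ≤ C * (1 / H) * (1 + Real.log z) ^ (k : ℝ) := by
  classical
  obtain ⟨C, hC, k, hk, h⟩ := fo_dyadic
  refine ⟨6 * C, by linarith, k, hk, ?_⟩
  intro z H s α hH hHz hs hsH A hA
  have hH0 : 0 < H := by linarith
  have h1 := h z H (5 / H) hH hHz (by positivity) A (fun u hu => (hA u hu).1) ?_
  · refine h1.trans (le_of_eq ?_)
    ring
  · intro i
    set Bi := A.filter (fun u => Nat.log 2 u = i) with hBi
    rcases Bi.eq_empty_or_nonempty with h0 | ⟨u₁, hu₁⟩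
    · rw [h0]; simp only [card_empty, Nat.cast_zero]; positivity
    have hmem : ∀ u ∈ Bi, 2 ^ i ≤ u ∧ u < 2 * 2 ^ i ∧ BadB H s α u := by
      intro u hu
      rw [hBi, mem_filter] at hu
      have h1 := (hA u hu.1).2
      have h2 := Nat.pow_log_le_self 2 h1.1.ne'
      have h3 := Nat.lt_pow_succ_log_self (b := 2) (by norm_num) u
      rw [hu.2] at h2 h3
      rw [pow_succ] at h3
      exact ⟨h2, by omega, h1⟩
    have hbig : H ^ 2 ≤ ((2 ^ i : ℕ) : ℝ) := by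
      obtain ⟨h1, h2, h3⟩ := hmem u₁ hu₁
      have h4 := badB_large hH hs h3
      have h5 : (u₁ : ℝ) < ((2 * 2 ^ i : ℕ) : ℝ) := by exact_mod_cast h2
      rw [Nat.cast_mul] at h5
      push_cast at h5 ⊢
      linarith
    have hc := badB_count hH hs hsH α (2 ^ i) hbig Bi (fun u hu => by
      obtain ⟨h1, h2, h3⟩ := hmem u hu
      exact ⟨h1, h2.le, h3⟩)
    refine hc.trans (le_of_eq ?_)
    push_cast
    ring

/-- the relation of type `O` between the smooth parts when the rough parts are fixed -/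
def RO (H s α β : ℝ) (u v : ℕ) : Prop :=
  distInt (u * α - v * β) < 2 * s ∧ ¬ (FrS H s α u ∧ FrS H s β v) ∧
    ¬ ((u : ℝ) ≤ H ^ 2 ∧ (v : ℝ) ≤ H ^ 2)

theorem distInt_neg_eq (x : ℝ) : distInt (-x) = distInt x := by
  apply le_antisymm
  · have := distInt_le_abs_sub (-x) (-round x)
    refine this.trans (le_of_eq ?_)
    unfold distInt
    rw [← abs_neg]
    congr 1
    push_cast
    ring
  · have := distInt_le_abs_sub x (-round (-x))
    refine this.trans (le_of_eq ?_)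
    unfold distInt
    rw [← abs_neg]
    congr 1
    push_cast
    ring

theorem RO.symm {H s α β : ℝ} {u v : ℕ} (h : RO H s α β u v) : RO H s β α v u := by
  obtain ⟨h1, h2, h3⟩ := h
  refine ⟨?_, fun h => h2 ⟨h.2, h.1⟩, fun h => h3 ⟨h.2, h.1⟩⟩
  rw [← distInt_neg_eq]
  rw [show -((v : ℝ) * β - u * α) = u * α - v * β by ring]
  exact h1

/-- if `u α` is near a fraction of denominator `h ≤ H` and `(u,v)` is a pair of type `O` then `v`
is exceptional provided that `α` is structured at the scale `u`. -/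
theorem RO_bad {H s α β : ℝ} (hH : 4 ≤ H) (hs : 0 < s) {u v : ℕ} (hv : 0 < v)
    (hR : RO H s α β u v) {h : ℕ} {j : ℤ} (hh : 0 < h) (hhH : (h : ℝ) ≤ H)
    (h1 : |(u : ℝ) * α - j / h| ≤ 2 * s * H) (hF : FrS H s α u) : BadB H s β v := by
  obtain ⟨h2, h3, -⟩ := hR
  refine ⟨hv, ⟨h, j - h * round ((u : ℝ) * α - v * β), hh, hhH, ?_⟩, fun h => h3 ⟨hF, h⟩⟩
  have hh0 : (0 : ℝ) < h := by exact_mod_cast hh
  unfold distInt at h2
  set n := round ((u : ℝ) * α - v * β) with hn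
  have e : (v : ℝ) * β - ((j - h * n : ℤ) : ℝ) / h = ((u : ℝ) * α - j / h) -
      ((u : ℝ) * α - v * β - n) := by
    push_cast
    field_simp
    ring
  rw [e]
  refine (abs_sub _ _).trans ?_
  have : 2 * s ≤ 2 * s * H := by nlinarith
  linarith

/-- the number of `u` in a dyadic block which form a pair of type `O` with `v` -/
theorem RO_count {H s α β : ℝ} (hH : 4 ≤ H) (hs : 0 < s) (hsH : s * H ^ 16 ≤ 1) {v : ℕ}
    (hv : 0 < v) (hvB : ¬ BadB H s β v) (U : ℕ) (B : Finset ℕ)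
    (hB : ∀ u ∈ B, U ≤ u ∧ u < 2 * U ∧ H ^ 2 < u ∧ RO H s α β u v) :
    (B.card : ℝ) ≤ 10 * U / H := by
  classical
  have hH0 : 0 < H := by linarith
  have hH1 : 1 ≤ H := by linarith
  rcases B.eq_empty_or_nonempty with h0 | ⟨u₁, hu₁⟩
  · rw [h0]; simp only [card_empty, Nat.cast_zero]; positivity
  have hpow : ∀ k : ℕ, k ≤ 16 → s * H ^ k ≤ 1 := fun k hk =>
    (mul_le_mul_of_nonneg_left (pow_le_pow_right₀ hH1 hk) hs.le).trans hsH
  obtain ⟨b1, b2, b3, b4⟩ := hB u₁ hu₁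
  have hUH : H ^ 2 < 2 * U := by
    have : (u₁ : ℝ) < 2 * U := by exact_mod_cast b2
    linarith
  have hU0 : (0 : ℝ) < U := by nlinarith
  have hw : 0 < 2 * s := by linarith
  have hwH : 2 * (2 * s) * H ≤ 1 := by
    calc 2 * (2 * s) * H = 4 * (s * H) := by ring
      _ ≤ H * (s * H) := mul_le_mul_of_nonneg_right hH (by positivity)
      _ = s * H ^ 2 := by ring
      _ ≤ 1 := hpow 2 (by norm_num)
  rcases bohr_dichotomy hH1 hw hwH α (v * β) (2 * U) with h1 | ⟨h, j, hh, hhH, h1⟩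
  · have hsub : B ⊆ (Icc 1 (2 * U)).filter (fun m : ℕ => distInt (m * α - v * β) ≤ 2 * s) := by
      intro u hu
      obtain ⟨c1, c2, c3, c4⟩ := hB u hu
      rw [mem_filter, mem_Icc]
      have hu0 : 0 < u := by
        have : (0 : ℝ) < u := lt_trans (by positivity) c3
        exact_mod_cast this
      exact ⟨⟨hu0, c2.le⟩, c4.1.le⟩
    have h2 : (B.card : ℝ) ≤ (4 * (2 * s) + 4 / H) * ((2 * U : ℕ) : ℝ) + 2 :=
      le_trans (by exact_mod_cast card_le_card hsub) h1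
    have h3 : s ≤ 1 / H / 16 := by
      have c1 : s * H ^ 3 ≤ 1 := hpow 3 (by norm_num)
      have c2 : 16 * (s * H) ≤ s * H ^ 3 := by
        have : (16 : ℝ) ≤ H ^ 2 := by nlinarith
        calc 16 * (s * H) ≤ H ^ 2 * (s * H) := mul_le_mul_of_nonneg_right this (by positivity)
          _ = s * H ^ 3 := by ring
      rw [div_div, le_div_iff₀ (by positivity)]
      linarith
    have h4 : 1 ≤ U / H := by
      rw [le_div_iff₀ hH0]
      nlinarith
    have h5 : (U : ℝ) / H = U * (1 / H) := by ring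
    calc (B.card : ℝ) ≤ (4 * (2 * s) + 4 / H) * ((2 * U : ℕ) : ℝ) + 2 := h2
      _ = 16 * s * U + 8 * (U / H) + 2 := by push_cast; ring
      _ ≤ 1 * (U / H) + 8 * (U / H) + 2 := by
          have : 16 * s * U ≤ U / H := by
            rw [h5]
            have := mul_le_mul_of_nonneg_left h3 hU0.le
            linarith
          linarith
      _ ≤ 10 * U / H := by
          -- 2 ≤ U / H
          have h6 : 2 ≤ U / H := by
            rw [le_div_iff₀ hH0]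
            nlinarith
          have : 10 * (U : ℝ) / H = 10 * (U / H) := by ring
          linarith
  · exfalso
    apply hvB
    have hh0 : (0 : ℝ) < h := by exact_mod_cast hh
    have hu₁0 : (0 : ℝ) < u₁ := lt_trans (by positivity) b3
    have h2 : |α - j / h| * u₁ ≤ 2 * s * H := by
      have : (u₁ : ℝ) ≤ ((2 * U : ℕ) : ℝ) := by exact_mod_cast b2.le
      exact (mul_le_mul_of_nonneg_left this (abs_nonneg _)).trans h1.le
    have hF : FrS H s α u₁ := by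
      refine ⟨h, j, hh, hhH.trans ?_, h2.trans ?_⟩
      · calc H = H ^ 1 := (pow_one H).symm
          _ ≤ H ^ 7 := pow_le_pow_right₀ hH1 (by norm_num)
      · have h7 : (2 : ℝ) ≤ H ^ 6 := by
          calc (2 : ℝ) ≤ H := by linarith
            _ = H ^ 1 := (pow_one H).symm
            _ ≤ H ^ 6 := pow_le_pow_right₀ hH1 (by norm_num)
        calc 2 * s * H = 2 * (s * H) := by ring
          _ ≤ H ^ 6 * (s * H) := mul_le_mul_of_nonneg_right h7 (by positivity)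
          _ = s * H ^ 7 := by ring
    refine RO_bad hH hs hv b4 (h := h) (j := u₁ * j) hh hhH ?_ hF
    have e : (u₁ : ℝ) * α - ((u₁ * j : ℤ) : ℝ) / h = u₁ * (α - j / h) := by
      push_cast
      ring
    rw [e, abs_mul, abs_of_pos hu₁0]
    linarith

/-- sums of `1 / (u v)` over the pairs of smooth numbers of which one is exceptional -/
theorem fo_pair_bad : ∃ C ≥ 1, ∃ k ≥ 0, ∀ (z : ℕ) (H s α β : ℝ), 4 ≤ H → H ≤ z → 0 < s →
    s * H ^ 16 ≤ 1 → ∀ T : Finset (ℕ × ℕ), (∀ p ∈ T, SmZ z p.1 ∧ SmZ z p.2 ∧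
      (BadB H s α p.1 ∨ BadB H s β p.2)) →
    ∑ p ∈ T, 1 / ((p.1 : ℝ) * p.2) ≤ C * (1 / H) * (1 + Real.log z) ^ (k : ℝ) := by
  classical
  obtain ⟨C₁, hC₁, k₁, hk₁, h₁⟩ := fo_all
  obtain ⟨C₂, hC₂, k₂, hk₂, h₂⟩ := fo_bad
  refine ⟨2 * (C₁ * C₂), by nlinarith, k₁ + k₂, by linarith, ?_⟩
  intro z H s α β hH hHz hs hsH T hT
  have hH0 : 0 < H := by linarith
  have hz4 : (4 : ℝ) ≤ z := hH.trans hHz
  have hz2 : 2 ≤ z := by
    have : (2 : ℝ) ≤ z := by linarith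
    exact_mod_cast this
  have hL0 : 0 < 1 + Real.log z := by
    have := Real.log_nonneg (show (1 : ℝ) ≤ z by linarith)
    linarith
  set A := T.image Prod.fst with hA
  set B := T.image Prod.snd with hB
  have hAs : ∀ u ∈ A, SmZ z u := by
    intro u hu
    rw [hA, mem_image] at hu
    obtain ⟨p, hp, rfl⟩ := hu
    exact (hT p hp).1
  have hBs : ∀ u ∈ B, SmZ z u := by
    intro u hu
    rw [hB, mem_image] at hu
    obtain ⟨p, hp, rfl⟩ := hu
    exact (hT p hp).2.1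
  have hsub : T ⊆ ((A.filter (fun u => BadB H s α u)) ×ˢ B) ∪
      (A ×ˢ (B.filter (fun v => BadB H s β v))) := by
    intro p hp
    rw [mem_union, mem_product, mem_product, mem_filter, mem_filter]
    have h1 : p.1 ∈ A := mem_image_of_mem _ hp
    have h2 : p.2 ∈ B := mem_image_of_mem _ hp
    rcases (hT p hp).2.2 with h3 | h3
    · exact Or.inl ⟨⟨h1, h3⟩, h2⟩
    · exact Or.inr ⟨h1, h2, h3⟩
  have hprod : ∀ X Y : Finset ℕ, ∑ p ∈ X ×ˢ Y, 1 / ((p.1 : ℝ) * p.2) =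
      (∑ u ∈ X, 1 / (u : ℝ)) * ∑ v ∈ Y, 1 / (v : ℝ) := by
    intro X Y
    rw [sum_mul_sum, sum_product]
    refine sum_congr rfl fun u _ => sum_congr rfl fun v _ => ?_
    rw [one_div_mul_one_div]
  have hnn : ∀ X : Finset ℕ, 0 ≤ ∑ u ∈ X, 1 / (u : ℝ) := fun X => sum_nonneg fun u _ => by positivity
  have hA1 := h₁ z hz2 A hAs
  have hB1 := h₁ z hz2 B hBs
  have hA2 := h₂ z H s α hH hHz hs hsH (A.filter (fun u => BadB H s α u)) (fun u hu => by
    rw [mem_filter] at hu; exact ⟨hAs u hu.1, hu.2⟩)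
  have hB2 := h₂ z H s β hH hHz hs hsH (B.filter (fun u => BadB H s β u)) (fun u hu => by
    rw [mem_filter] at hu; exact ⟨hBs u hu.1, hu.2⟩)
  set L := 1 + Real.log z with hL
  calc ∑ p ∈ T, 1 / ((p.1 : ℝ) * p.2)
      ≤ ∑ p ∈ ((A.filter (fun u => BadB H s α u)) ×ˢ B) ∪
          (A ×ˢ (B.filter (fun v => BadB H s β v))), 1 / ((p.1 : ℝ) * p.2) :=
        sum_le_sum_of_subset_of_nonneg hsub (fun p _ _ => by positivity)
    _ ≤ ∑ p ∈ (A.filter (fun u => BadB H s α u)) ×ˢ B, 1 / ((p.1 : ℝ) * p.2) +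
          ∑ p ∈ A ×ˢ (B.filter (fun v => BadB H s β v)), 1 / ((p.1 : ℝ) * p.2) := by
        rw [← sum_union_inter]
        have : 0 ≤ ∑ p ∈ ((A.filter (fun u => BadB H s α u)) ×ˢ B) ∩
          (A ×ˢ (B.filter (fun v => BadB H s β v))), 1 / ((p.1 : ℝ) * p.2) :=
          sum_nonneg fun p _ => by positivity
        linarith
    _ ≤ (C₂ * (1 / H) * L ^ (k₂ : ℝ)) * (C₁ * L ^ (k₁ : ℝ)) +
          (C₁ * L ^ (k₁ : ℝ)) * (C₂ * (1 / H) * L ^ (k₂ : ℝ)) := by
        rw [hprod, hprod]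
        exact add_le_add (mul_le_mul hA2 hB1 (hnn _) (by positivity))
          (mul_le_mul hA1 hB2 (hnn _) (by positivity))
    _ = 2 * (C₁ * C₂) * (1 / H) * L ^ (k₁ + k₂ : ℝ) := by
        rw [Real.rpow_add hL0]; ring

/-- one half of the sum over the pairs of type `O` -/
theorem fo_half : ∃ C ≥ 1, ∃ k ≥ 0, ∀ (z : ℕ) (H s α β : ℝ), 4 ≤ H → H ≤ z → 0 < s →
    s * H ^ 16 ≤ 1 → ∀ T : Finset (ℕ × ℕ), (∀ p ∈ T, SmZ z p.1 ∧ SmZ z p.2 ∧
      RO H s α β p.1 p.2 ∧ H ^ 2 < p.1 ∧ ¬ BadB H s β p.2) →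
    ∑ p ∈ T, 1 / ((p.1 : ℝ) * p.2) ≤ C * (1 / H) * (1 + Real.log z) ^ (k : ℝ) := by
  classical
  obtain ⟨C₁, hC₁, k₁, hk₁, h₁⟩ := fo_all
  obtain ⟨C₂, hC₂, k₂, hk₂, h₂⟩ := fo_dyadic
  refine ⟨11 * (C₁ * C₂), by nlinarith, k₁ + k₂, by linarith, ?_⟩
  intro z H s α β hH hHz hs hsH T hT
  have hH0 : 0 < H := by linarith
  have hz4 : (4 : ℝ) ≤ z := hH.trans hHz
  have hz2 : 2 ≤ z := by
    have : (2 : ℝ) ≤ z := by linarith
    exact_mod_cast this
  have hL0 : 0 < 1 + Real.log z := by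
    have := Real.log_nonneg (show (1 : ℝ) ≤ z by linarith)
    linarith
  set L := 1 + Real.log z with hL
  set B := T.image Prod.snd with hB
  have hmaps : ∀ p ∈ T, p.2 ∈ B := fun p hp => mem_image_of_mem _ hp
  rw [← sum_fiberwise_of_maps_to hmaps]
  have hfib : ∀ v ∈ B, ∑ p ∈ T with p.2 = v, 1 / ((p.1 : ℝ) * p.2) ≤
      1 / (v : ℝ) * (C₂ * (10 / H + 1 / H) * L ^ (k₂ : ℝ)) := by
    intro v hv
    set A := (T.filter (fun p => p.2 = v)).image Prod.fst with hA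
    have hinj : Set.InjOn Prod.fst ((T.filter (fun p => p.2 = v) : Finset (ℕ × ℕ)) : Set (ℕ × ℕ)) := by
      intro p hp p' hp' h
      rw [mem_coe, mem_filter] at hp hp'
      exact Prod.ext h (hp.2.trans hp'.2.symm)
    have e1 : ∑ p ∈ T with p.2 = v, 1 / ((p.1 : ℝ) * p.2) = 1 / (v : ℝ) * ∑ u ∈ A, 1 / (u : ℝ) := by
      rw [hA, sum_image hinj, mul_sum]
      refine sum_congr rfl fun p hp => ?_
      rw [mem_filter] at hp
      rw [hp.2, one_div_mul_one_div, mul_comm]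
    rw [e1]
    apply mul_le_mul_of_nonneg_left _ (by positivity)
    have hAm : ∀ u ∈ A, SmZ z u ∧ SmZ z v ∧ RO H s α β u v ∧ H ^ 2 < u ∧ ¬ BadB H s β v := by
      intro u hu
      rw [hA, mem_image] at hu
      obtain ⟨p, hp, rfl⟩ := hu
      rw [mem_filter] at hp
      have := hT p hp.1
      rw [hp.2] at this
      exact this
    apply h₂ z H (10 / H) hH hHz (by positivity) A (fun u hu => (hAm u hu).1)
    intro i
    rcases (A.filter (fun u => Nat.log 2 u = i)).eq_empty_or_nonempty with h0 | ⟨u₁, hu₁⟩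
    · rw [h0]; simp only [card_empty, Nat.cast_zero]; positivity
    rw [mem_filter] at hu₁
    obtain ⟨c1, c2, c3, c4, c5⟩ := hAm u₁ hu₁.1
    have hc := RO_count (α := α) hH hs hsH (Nat.pos_of_ne_zero c2.1) c5 (2 ^ i)
      (A.filter (fun u => Nat.log 2 u = i)) (by
        intro u hu
        rw [mem_filter] at hu
        obtain ⟨d1, d2, d3, d4, d5⟩ := hAm u hu.1
        have h2 := Nat.pow_log_le_self 2 d1.1
        have h3 := Nat.lt_pow_succ_log_self (b := 2) (by norm_num) u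
        rw [hu.2] at h2 h3
        rw [pow_succ] at h3
        exact ⟨h2, by omega, d4, d3⟩)
    refine hc.trans (le_of_eq ?_)
    push_cast
    ring
  have hBs : ∀ u ∈ B, SmZ z u := by
    intro u hu
    rw [hB, mem_image] at hu
    obtain ⟨p, hp, rfl⟩ := hu
    exact (hT p hp).2.1
  have hB1 := h₁ z hz2 B hBs
  calc ∑ v ∈ B, ∑ p ∈ T with p.2 = v, 1 / ((p.1 : ℝ) * p.2)
      ≤ ∑ v ∈ B, 1 / (v : ℝ) * (C₂ * (10 / H + 1 / H) * L ^ (k₂ : ℝ)) := sum_le_sum hfib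
    _ = (∑ v ∈ B, 1 / (v : ℝ)) * (C₂ * (10 / H + 1 / H) * L ^ (k₂ : ℝ)) := by rw [sum_mul]
    _ ≤ (C₁ * L ^ (k₁ : ℝ)) * (C₂ * (10 / H + 1 / H) * L ^ (k₂ : ℝ)) :=
        mul_le_mul_of_nonneg_right hB1 (by positivity)
    _ = 11 * (C₁ * C₂) * (1 / H) * L ^ (k₁ + k₂ : ℝ) := by
        rw [Real.rpow_add hL0]; ring

/-- `k11`: the sum over the pairs of smooth numbers of type `O` -/
theorem fo_k11 : ∃ C ≥ 1, ∃ k ≥ 0, ∀ (z : ℕ) (H s α β : ℝ), 4 ≤ H → H ≤ z → 0 < s →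
    s * H ^ 16 ≤ 1 → ∀ T : Finset (ℕ × ℕ), (∀ p ∈ T, SmZ z p.1 ∧ SmZ z p.2 ∧
      RO H s α β p.1 p.2) →
    ∑ p ∈ T, 1 / ((p.1 : ℝ) * p.2) ≤ C * (1 / H) * (1 + Real.log z) ^ (k : ℝ) := by
  classical
  obtain ⟨C₁, hC₁, k₁, hk₁, h₁⟩ := fo_pair_bad
  obtain ⟨C₂, hC₂, k₂, hk₂, h₂⟩ := fo_half
  refine ⟨C₁ + 2 * C₂, by linarith, k₁ + k₂, by linarith, ?_⟩
  intro z H s α β hH hHz hs hsH T hT
  have hH0 : 0 < H := by linarith
  have hz4 : (4 : ℝ) ≤ z := hH.trans hHz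
  have hL1 : 1 ≤ 1 + Real.log z := by
    have := Real.log_nonneg (show (1 : ℝ) ≤ z by linarith)
    linarith
  set L := 1 + Real.log z with hL
  have hL0 : 0 < L := by linarith
  set T₁ := T.filter (fun p => BadB H s α p.1 ∨ BadB H s β p.2) with hT₁
  set T₂ := T.filter (fun p => ¬ (BadB H s α p.1 ∨ BadB H s β p.2) ∧ H ^ 2 < (p.1 : ℝ)) with hT₂
  set T₃ := T.filter (fun p => ¬ (BadB H s α p.1 ∨ BadB H s β p.2) ∧ H ^ 2 < (p.2 : ℝ)) with hT₃
  have hsub : T ⊆ T₁ ∪ (T₂ ∪ T₃) := by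
    intro p hp
    rw [mem_union, mem_union, hT₁, hT₂, hT₃, mem_filter, mem_filter, mem_filter]
    by_cases h1 : BadB H s α p.1 ∨ BadB H s β p.2
    · exact Or.inl ⟨hp, h1⟩
    · have h2 := (hT p hp).2.2.2.2
      rw [not_and_or, not_le, not_le] at h2
      rcases h2 with h2 | h2
      · exact Or.inr (Or.inl ⟨hp, h1, h2⟩)
      · exact Or.inr (Or.inr ⟨hp, h1, h2⟩)
  have hnn : ∀ p : ℕ × ℕ, 0 ≤ 1 / ((p.1 : ℝ) * p.2) := fun p => by positivity
  have hunion : ∀ X Y : Finset (ℕ × ℕ), ∑ p ∈ X ∪ Y, 1 / ((p.1 : ℝ) * p.2) ≤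
      ∑ p ∈ X, 1 / ((p.1 : ℝ) * p.2) + ∑ p ∈ Y, 1 / ((p.1 : ℝ) * p.2) := by
    intro X Y
    rw [← sum_union_inter]
    have : 0 ≤ ∑ p ∈ X ∩ Y, 1 / ((p.1 : ℝ) * p.2) := sum_nonneg fun p _ => hnn p
    linarith
  have hs1 : ∑ p ∈ T₁, 1 / ((p.1 : ℝ) * p.2) ≤ C₁ * (1 / H) * L ^ (k₁ : ℝ) :=
    h₁ z H s α β hH hHz hs hsH T₁ (fun p hp => by
      rw [hT₁, mem_filter] at hp
      exact ⟨(hT p hp.1).1, (hT p hp.1).2.1, hp.2⟩)
  have hs2 : ∑ p ∈ T₂, 1 / ((p.1 : ℝ) * p.2) ≤ C₂ * (1 / H) * L ^ (k₂ : ℝ) :=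
    h₂ z H s α β hH hHz hs hsH T₂ (fun p hp => by
      rw [hT₂, mem_filter] at hp
      exact ⟨(hT p hp.1).1, (hT p hp.1).2.1, (hT p hp.1).2.2, hp.2.2, fun h => hp.2.1 (Or.inr h)⟩)
  have hs3 : ∑ p ∈ T₃, 1 / ((p.1 : ℝ) * p.2) ≤ C₂ * (1 / H) * L ^ (k₂ : ℝ) := by
    have h3 := h₂ z H s β α hH hHz hs hsH (T₃.image Prod.swap) (fun p hp => by
      rw [mem_image] at hp
      obtain ⟨p', hp', rfl⟩ := hp
      rw [hT₃, mem_filter] at hp'
      exact ⟨(hT p' hp'.1).2.1, (hT p' hp'.1).1, (hT p' hp'.1).2.2.symm, hp'.2.2,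
        fun h => hp'.2.1 (Or.inl h)⟩)
    rw [sum_image (fun a _ b _ hab => Prod.swap_injective hab)] at h3
    refine le_trans (le_of_eq ?_) h3
    refine sum_congr rfl fun p _ => ?_
    rw [Prod.fst_swap, Prod.snd_swap, mul_comm]
  have hL₁ : L ^ (k₁ : ℝ) ≤ L ^ (k₁ + k₂ : ℝ) :=
    Real.rpow_le_rpow_of_exponent_le hL1 (by linarith)
  have hL₂ : L ^ (k₂ : ℝ) ≤ L ^ (k₁ + k₂ : ℝ) :=
    Real.rpow_le_rpow_of_exponent_le hL1 (by linarith)
  calc ∑ p ∈ T, 1 / ((p.1 : ℝ) * p.2) ≤ ∑ p ∈ T₁ ∪ (T₂ ∪ T₃), 1 / ((p.1 : ℝ) * p.2) :=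
        sum_le_sum_of_subset_of_nonneg hsub (fun p _ _ => hnn p)
    _ ≤ ∑ p ∈ T₁, 1 / ((p.1 : ℝ) * p.2) + (∑ p ∈ T₂, 1 / ((p.1 : ℝ) * p.2) +
          ∑ p ∈ T₃, 1 / ((p.1 : ℝ) * p.2)) :=
        (hunion _ _).trans (by linarith [hunion T₂ T₃])
    _ ≤ C₁ * (1 / H) * L ^ (k₁ + k₂ : ℝ) + (C₂ * (1 / H) * L ^ (k₁ + k₂ : ℝ) +
          C₂ * (1 / H) * L ^ (k₁ + k₂ : ℝ)) := by
        have a1 : C₁ * (1 / H) * L ^ (k₁ : ℝ) ≤ C₁ * (1 / H) * L ^ (k₁ + k₂ : ℝ) :=
          mul_le_mul_of_nonneg_left hL₁ (by positivity)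
        have a2 : C₂ * (1 / H) * L ^ (k₂ : ℝ) ≤ C₂ * (1 / H) * L ^ (k₁ + k₂ : ℝ) :=
          mul_le_mul_of_nonneg_left hL₂ (by positivity)
        linarith
    _ = (C₁ + 2 * C₂) * (1 / H) * L ^ (k₁ + k₂ : ℝ) := by ring

end Vale.P028
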