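import Vale.Agent.P028.MathlibUsed
import Vale.Agent.P028.FO2
attribute [-instance] ProperSMul.toContinuousSMul IsTopologicalTorsor.toContinuousSMul IdemSemiring.toCanonicallyOrderedAdd IdemSemiring.toMulLeftMono IdemSemiring.toMulRightMono AddQuantale.instAddLeftMono AddQuantale.instAddRightMono Quantale.instMulLeftMono Quantale.instMulRightMono FiniteDimensional.rclike_to_real IsScalarTower.complexToReal FiniteDimensional.complexToReal

/-!
# Smooth part and rough part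
-/

namespace Vale.P028

open Finset

/-- the `z`-smooth part of `n` -/
def smp (z n : ℕ) : ℕ := (n.primeFactorsList.filter (fun p => p ≤ z)).prod

/-- the `z`-rough part of `n` -/
def rgp (z n : ℕ) : ℕ := (n.primeFactorsList.filter (fun p => ¬ p ≤ z)).prod

/-- `m` is `z`-rough -/
def RgZ (z m : ℕ) : Prop := 0 < m ∧ ∀ p : ℕ, p.Prime → p ∣ m → z < p

theorem list_filter_prod (l : List ℕ) (P : ℕ → Prop) [DecidablePred P] :
    (l.filter (fun p => P p)).prod * (l.filter (fun p => ¬ P p)).prod = l.prod := by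
  induction l with
  | nil => simp
  | cons a l ih =>
    by_cases h : P a
    · rw [List.filter_cons_of_pos (by simpa using h), List.filter_cons_of_neg (by simpa using h),
        List.prod_cons, List.prod_cons, mul_assoc, ih]
    · rw [List.filter_cons_of_neg (by simpa using h), List.filter_cons_of_pos (by simpa using h),
        List.prod_cons, List.prod_cons, ← ih]
      ring

theorem smp_mul_rgp (z : ℕ) {n : ℕ} (hn : n ≠ 0) : smp z n * rgp z n = n := by
  unfold smp rgp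
  rw [list_filter_prod, Nat.prod_primeFactorsList hn]

theorem list_prime_dvd {l : List ℕ} (hl : ∀ p ∈ l, p.Prime) {p : ℕ} (hp : p.Prime)
    (h : p ∣ l.prod) : p ∈ l := by
  obtain ⟨q, hq, hpq⟩ := (Prime.dvd_prod_iff hp.prime).1 h
  rwa [(Nat.prime_dvd_prime_iff_eq hp (hl q hq)).1 hpq]

theorem list_prod_ne_zero {l : List ℕ} (hl : ∀ p ∈ l, p.Prime) : l.prod ≠ 0 := by
  intro h
  rw [List.prod_eq_zero_iff] at h
  exact Nat.not_prime_zero (hl 0 h)

theorem smp_smz (z n : ℕ) : SmZ z (smp z n) := by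
  have hl : ∀ p ∈ n.primeFactorsList.filter (fun p => p ≤ z), p.Prime := by
    intro p hp
    rw [List.mem_filter] at hp
    exact Nat.prime_of_mem_primeFactorsList hp.1
  refine ⟨list_prod_ne_zero hl, ?_⟩
  intro p hp
  have hpp := Nat.prime_of_mem_primeFactors hp
  have h1 := list_prime_dvd hl hpp (Nat.dvd_of_mem_primeFactors hp)
  rw [List.mem_filter] at h1
  exact mem_PZ.2 ⟨hpp, by simpa using h1.2⟩

theorem rgp_rgz (z n : ℕ) : RgZ z (rgp z n) := by
  have hl : ∀ p ∈ n.primeFactorsList.filter (fun p => ¬ p ≤ z), p.Prime := by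
    intro p hp
    rw [List.mem_filter] at hp
    exact Nat.prime_of_mem_primeFactorsList hp.1
  refine ⟨Nat.pos_of_ne_zero (list_prod_ne_zero hl), ?_⟩
  intro p hpp hp
  have h1 := list_prime_dvd hl hpp hp
  rw [List.mem_filter] at h1
  simpa using h1.2

theorem SmZ.le {z u p : ℕ} (h : SmZ z u) (hp : p.Prime) (hd : p ∣ u) : p ≤ z :=
  (mem_PZ.1 (h.2 (Nat.mem_primeFactors.2 ⟨hp, hd, h.1⟩))).2

theorem SmZ_iff {z u : ℕ} : SmZ z u ↔ u ≠ 0 ∧ ∀ p : ℕ, p.Prime → p ∣ u → p ≤ z := by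
  constructor
  · intro h
    exact ⟨h.1, fun p hp hd => h.le hp hd⟩
  · rintro ⟨h1, h2⟩
    refine ⟨h1, fun p hp => ?_⟩
    have hpp := Nat.prime_of_mem_primeFactors hp
    exact mem_PZ.2 ⟨hpp, h2 p hpp (Nat.dvd_of_mem_primeFactors hp)⟩

theorem SmZ.of_dvd {z u v : ℕ} (h : SmZ z u) (hd : v ∣ u) : SmZ z v := by
  rw [SmZ_iff] at h ⊢
  refine ⟨fun h0 => h.1 ?_, fun p hp hpd => h.2 p hp (hpd.trans hd)⟩
  rw [h0] at hd
  exact Nat.eq_zero_of_zero_dvd hd

theorem RgZ.of_dvd {z u v : ℕ} (h : RgZ z u) (hd : v ∣ u) : RgZ z v :=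
  ⟨Nat.pos_of_dvd_of_pos hd h.1, fun p hp hpd => h.2 p hp (hpd.trans hd)⟩

theorem RgZ.mul {z u v : ℕ} (h : RgZ z u) (h' : RgZ z v) : RgZ z (u * v) := by
  refine ⟨Nat.mul_pos h.1 h'.1, fun p hp hd => ?_⟩
  rcases hp.dvd_mul.1 hd with h1 | h1
  · exact h.2 p hp h1
  · exact h'.2 p hp h1

theorem RgZ_one (z : ℕ) : RgZ z 1 := by
  refine ⟨one_pos, fun p hp hd => ?_⟩
  rw [Nat.dvd_one] at hd
  exact absurd (hd ▸ hp) Nat.not_prime_one

theorem RgZ.pow {z p : ℕ} (hp : p.Prime) (hz : z < p) (l : ℕ) : RgZ z (p ^ l) := by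
  refine ⟨pow_pos hp.pos l, fun q hq hd => ?_⟩
  have := hq.dvd_of_dvd_pow hd
  rw [(Nat.prime_dvd_prime_iff_eq hq hp).1 this]
  exact hz

theorem sm_rg_coprime {z u m : ℕ} (hu : SmZ z u) (hm : RgZ z m) : Nat.Coprime u m := by
  rw [Nat.coprime_iff_gcd_eq_one]
  by_contra hne
  obtain ⟨p, hp, hpd⟩ := Nat.exists_prime_and_dvd hne
  have h1 := hu.le hp (hpd.trans (Nat.gcd_dvd_left _ _))
  have h2 := hm.2 p hp (hpd.trans (Nat.gcd_dvd_right _ _))
  omega

/-- a rough number `> 1` is `> z` -/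
theorem RgZ.lt {z m : ℕ} (h : RgZ z m) (h1 : m ≠ 1) : z < m := by
  obtain ⟨p, hp, hpd⟩ := Nat.exists_prime_and_dvd h1
  exact lt_of_lt_of_le (h.2 p hp hpd) (Nat.le_of_dvd h.1 hpd)

/-- uniqueness of the decomposition -/
theorem parts_unique {z u m u' m' : ℕ} (hu : SmZ z u) (hm : RgZ z m) (hu' : SmZ z u')
    (hm' : RgZ z m') (h : u * m = u' * m') : u = u' ∧ m = m' := by
  have h1 : u = u' := by
    apply Nat.dvd_antisymm
    · exact (sm_rg_coprime hu hm').dvd_of_dvd_mul_right (h ▸ dvd_mul_right u m)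
    · exact (sm_rg_coprime hu' hm).dvd_of_dvd_mul_right (h.symm ▸ dvd_mul_right u' m')
  subst h1
  exact ⟨rfl, Nat.eq_of_mul_eq_mul_left (Nat.pos_of_ne_zero hu.1) h⟩

theorem smp_eq {z u m : ℕ} (hu : SmZ z u) (hm : RgZ z m) : smp z (u * m) = u := by
  have hne : u * m ≠ 0 := Nat.mul_ne_zero hu.1 hm.1.ne'
  exact (parts_unique (smp_smz z _) (rgp_rgz z _) hu hm (smp_mul_rgp z hne)).1

theorem rgp_eq {z u m : ℕ} (hu : SmZ z u) (hm : RgZ z m) : rgp z (u * m) = m := by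
  have hne : u * m ≠ 0 := Nat.mul_ne_zero hu.1 hm.1.ne'
  exact (parts_unique (smp_smz z _) (rgp_rgz z _) hu hm (smp_mul_rgp z hne)).2

/-- cofactors when the gcd is smooth -/
theorem cofac_split {z q m r n : ℕ} (hq : SmZ z q) (hm : RgZ z m) (hr : SmZ z r) (hn : RgZ z n)
    (hg : ∀ p : ℕ, p.Prime → p ∣ Nat.gcd (q * m) (r * n) → p ≤ z) :
    Nat.gcd m n = 1 ∧ cofac (q * m) (r * n) = cofac q r * m := by
  have h1 : Nat.gcd m n = 1 := by
    by_contra hne
    obtain ⟨p, hp, hpd⟩ := Nat.exists_prime_and_dvd hne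
    have h1 := hg p hp (hpd.trans (Nat.dvd_gcd
      ((Nat.gcd_dvd_left m n).mul_left q) ((Nat.gcd_dvd_right m n).mul_left r)))
    have h2 := hm.2 p hp (hpd.trans (Nat.gcd_dvd_left _ _))
    omega
  refine ⟨h1, ?_⟩
  have c1 : Nat.Coprime q n := sm_rg_coprime hq hn
  have c2 : Nat.Coprime r m := sm_rg_coprime hr hm
  have c3 : Nat.Coprime r n := sm_rg_coprime hr hn
  have hgcd : Nat.gcd (q * m) (r * n) = Nat.gcd q r := by
    rw [Nat.Coprime.gcd_mul _ c3]
    have e1 : Nat.gcd (q * m) n = 1 := by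
      have : Nat.Coprime (q * m) n := Nat.Coprime.mul_left c1 h1
      exact this
    have e2 : Nat.gcd (q * m) r = Nat.gcd q r := Nat.Coprime.gcd_mul_right_cancel q c2.symm
    rw [e1, e2, mul_one]
  unfold cofac
  rw [hgcd, Nat.mul_div_right_comm (Nat.gcd_dvd_left q r)]

open Classical in
/-- splitting a sum according to smooth part and rough part -/
theorem sum_parts (z N : ℕ) (G : ℕ → ℝ) :
    ∑ q ∈ Icc 1 N, G q = ∑ q ∈ Icc 1 N, ∑ m ∈ Icc 1 N,
      if SmZ z q ∧ RgZ z m ∧ q * m ≤ N then G (q * m) else 0 := by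
  rw [← sum_product', ← sum_filter]
  symm
  refine sum_nbij' (fun x => x.1 * x.2) (fun q => (smp z q, rgp z q)) ?_ ?_ ?_ ?_ ?_
  · intro x hx
    rw [mem_filter, mem_product, mem_Icc, mem_Icc] at hx
    rw [mem_Icc]
    exact ⟨Nat.mul_pos (by omega) (by omega), hx.2.2.2⟩
  · intro q hq
    rw [mem_Icc] at hq
    have hne : q ≠ 0 := by omega
    have h1 := smp_smz z q
    have h2 := rgp_rgz z q
    have h3 := smp_mul_rgp z hne
    rw [mem_filter, mem_product, mem_Icc, mem_Icc]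
    have h4 : 0 < smp z q := Nat.pos_of_ne_zero h1.1
    have h5 := h2.1
    have h6 : smp z q ≤ q := Nat.le_of_dvd hq.1 ⟨_, h3.symm⟩
    have h7 : rgp z q ≤ q := Nat.le_of_dvd hq.1 ⟨_, by rw [mul_comm]; exact h3.symm⟩
    simp only
    refine ⟨⟨⟨h4, by omega⟩, ⟨h5, by omega⟩⟩, h1, h2, ?_⟩
    rw [h3]
    exact hq.2
  · intro x hx
    rw [mem_filter] at hx
    rw [smp_eq hx.2.1 hx.2.2.1, rgp_eq hx.2.1 hx.2.2.1]
  · intro q hq
    rw [mem_Icc] at hq
    exact smp_mul_rgp z (by omega)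
  · intro x _
    rfl

end Vale.P028
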