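import Vale.Agent.P028.MathlibUsed
import Vale.Agent.P028.FPart
import Vale.Agent.P028.MBase
import Vale.Agent.P028.MTheoremL
attribute [-instance] ProperSMul.toContinuousSMul IsTopologicalTorsor.toContinuousSMul IdemSemiring.toCanonicallyOrderedAdd IdemSemiring.toMulLeftMono IdemSemiring.toMulRightMono AddQuantale.instAddLeftMono AddQuantale.instAddRightMono Quantale.instMulLeftMono Quantale.instMulRightMono FiniteDimensional.rclike_to_real IsScalarTower.complexToReal FiniteDimensional.complexToReal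

/-!
# Density lemma for the inner bound of the pairs of type `O` (module O3 of note 7705)
-/

namespace Vale.P028

open Finset

theorem fo_row {H s : ℝ} (hH : 4 ≤ H) (hs : 0 < s) (hsH : s * H ^ 16 ≤ 1) (β x : ℝ) {Q : ℕ}
    (hQ : H ≤ Q)
    (hbig : 8 / H * Q < (((Icc 1 Q).filter (fun m : ℕ => distInt (m * β - x) ≤ 2 * s)).card : ℝ)) :
    ∃ (h : ℕ) (j : ℤ), 0 < h ∧ (h : ℝ) ≤ H ∧ |β - j / h| * Q < 2 * s * H := by
  have hH0 : 0 < H := by linarith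
  have hH1 : 1 ≤ H := by linarith
  have hpow : ∀ k : ℕ, k ≤ 16 → s * H ^ k ≤ 1 := fun k hk =>
    (mul_le_mul_of_nonneg_left (pow_le_pow_right₀ hH1 hk) hs.le).trans hsH
  have h8 : 8 * (s * H) ≤ 1 := by
    calc 8 * (s * H) ≤ H ^ 2 * (s * H) :=
          mul_le_mul_of_nonneg_right (by nlinarith) (by positivity)
      _ = s * H ^ 3 := by ring
      _ ≤ 1 := hpow 3 (by norm_num)
  rcases bohr_dichotomy hH1 (show 0 < 2 * s by linarith) (by linarith) β x Q with h1 | h1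
  · exfalso
    have hQ0 : (0 : ℝ) < Q := by linarith
    have h2 : 8 * s ≤ 1 / H := by
      rw [le_div_iff₀ hH0]; linarith
    have h3 : 2 ≤ 2 / H * Q := by
      have : 1 ≤ Q / H := by rw [le_div_iff₀ hH0]; linarith
      calc (2 : ℝ) ≤ 2 * (Q / H) := by linarith
        _ = 2 / H * Q := by ring
    have h4 : (4 * (2 * s) + 4 / H) * Q + 2 ≤ 8 / H * Q := by
      have h5 : 8 * s * Q ≤ 1 / H * Q := mul_le_mul_of_nonneg_right h2 hQ0.le
      have e : 8 / H * (Q : ℝ) = 1 / H * Q + 4 / H * Q + 2 / H * Q + 1 / H * Q := by ring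
      have : 0 ≤ 1 / H * (Q : ℝ) := by positivity
      rw [e]
      linarith
    linarith
  · exact h1

theorem FrS_of {H s α u : ℝ} (hH : 4 ≤ H) (hs : 0 < s) {d : ℕ} {k : ℤ} (hd : 0 < d)
    (hdH : (d : ℝ) ≤ H ^ 7) (h : |α - k / d| * u ≤ 2 * s * H) : FrS H s α u := by
  have hH0 : 0 < H := by linarith
  have hH1 : 1 ≤ H := by linarith
  refine ⟨d, k, hd, hdH, ?_⟩
  have h7 : (2 : ℝ) ≤ H ^ 6 := by
    calc (2 : ℝ) ≤ H := by linarith
      _ = H ^ 1 := (pow_one H).symm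
      _ ≤ H ^ 6 := pow_le_pow_right₀ hH1 (by norm_num)
  calc |α - k / d| * u ≤ 2 * s * H := h
    _ = 2 * (s * H) := by ring
    _ ≤ H ^ 6 * (s * H) := mul_le_mul_of_nonneg_right h7 (by positivity)
    _ = s * H ^ 7 := by ring

/-- structure of `α` at the scale `u Q` implies structure of `Q α` at the scale `u`. -/
theorem FrS.mul {H s α u : ℝ} (Q : ℕ) (h : FrS H s α (u * Q)) : FrS H s (Q * α) u := by
  obtain ⟨d, k, hd, hdH, h1⟩ := h
  refine ⟨d, Q * k, hd, hdH, ?_⟩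
  have hQ : (0 : ℝ) ≤ Q := Nat.cast_nonneg _
  have e : (Q : ℝ) * α - ((Q * k : ℤ) : ℝ) / d = Q * (α - k / d) := by
    push_cast
    ring
  rw [e, abs_mul, abs_of_nonneg hQ]
  refine le_trans (le_of_eq ?_) h1
  ring

/-- the density alternative, one side -/
theorem dens_side {H s α β : ℝ} (hH : 4 ≤ H) (hs : 0 < s) (hsH : s * H ^ 16 ≤ 1) {z u₀ v₀ Q R : ℕ}
    (hHz : H ≤ z) (hu₀ : 0 < u₀) (hv₀ : 0 < v₀) (hα : ¬ BadB H s α u₀) (hβ : ¬ BadB H s β v₀)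
    (hQ : RgZ z Q) (hR : RgZ z R) (hQ1 : Q ≠ 1)
    (hd : distInt (Q * (u₀ * α) - R * (v₀ * β)) < 2 * s)
    (hO : ¬ (FrS H s α (u₀ * Q) ∧ FrS H s β (v₀ * R))) :
    (∀ x, (((Icc 1 Q).filter (fun m : ℕ => distInt (m * (u₀ * α) - x) ≤ 2 * s)).card : ℝ)
        ≤ 8 / H * Q) ∨
      (R ≠ 1 ∧ ∀ x, (((Icc 1 R).filter (fun m : ℕ => distInt (m * (v₀ * β) - x) ≤ 2 * s)).card : ℝ)
        ≤ 8 / H * R) := by
  have hH0 : 0 < H := by linarith
  by_contra hcon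
  rw [not_or] at hcon
  obtain ⟨h1, h2⟩ := hcon
  push Not at h1
  obtain ⟨x, hx⟩ := h1
  have hQH : H ≤ Q := hHz.trans (by exact_mod_cast (hQ.lt hQ1).le)
  have hQ1' : (1 : ℝ) ≤ Q := by linarith
  obtain ⟨h, j, hh, hhH, h3⟩ := fo_row hH hs hsH (u₀ * α) x hQH hx
  obtain ⟨d, k, hd0, hdH, h4⟩ := fr_transfer hH hs hsH hu₀ hQ1' hα hh hhH h3.le
  have hF1 : FrS H s α (u₀ * Q) := FrS_of hH hs hd0 hdH h4
  apply hO
  refine ⟨hF1, ?_⟩
  by_cases hR1 : R = 1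
  · subst hR1
    rw [Nat.cast_one, one_mul] at hd
    rw [Nat.cast_one, mul_one]
    by_contra hF
    apply hβ
    have hh0 : (0 : ℝ) < h := by exact_mod_cast hh
    refine ⟨hv₀, ⟨h, Q * j - h * round ((Q : ℝ) * (u₀ * α) - v₀ * β), hh, hhH, ?_⟩, hF⟩
    unfold distInt at hd
    set n := round ((Q : ℝ) * (u₀ * α) - v₀ * β) with hn
    have e : (v₀ : ℝ) * β - ((Q * j - h * n : ℤ) : ℝ) / h = (Q : ℝ) * ((u₀ : ℝ) * α - j / h) -
        ((Q : ℝ) * (u₀ * α) - v₀ * β - n) := by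
      push_cast
      field_simp
      ring
    rw [e]
    refine (abs_sub _ _).trans ?_
    rw [abs_mul, abs_of_pos (by linarith : (0 : ℝ) < Q)]
    have : 2 * s ≤ 2 * s * H := by nlinarith
    linarith
  · rw [not_and] at h2
    have h5 := h2 hR1
    push Not at h5
    obtain ⟨x', hx'⟩ := h5
    have hRH : H ≤ R := hHz.trans (by exact_mod_cast (hR.lt hR1).le)
    have hR1' : (1 : ℝ) ≤ R := by linarith
    obtain ⟨h', j', hh', hhH', h3'⟩ := fo_row hH hs hsH (v₀ * β) x' hRH hx'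
    obtain ⟨d', k', hd0', hdH', h4'⟩ := fr_transfer hH hs hsH hv₀ hR1' hβ hh' hhH' h3'.le
    exact FrS_of hH hs hd0' hdH' h4'

/-- The relation used in the state `(a u₀, b v₀)`: the rough parts are not both `1`. -/
def OmR (H s : ℝ) (z : ℕ) (α β : ℝ) (a b u₀ v₀ x y : ℕ) : Prop :=
  ∃ m n : ℕ, x = a * u₀ * m ∧ y = b * v₀ * n ∧ RgZ z m ∧ RgZ z n ∧ ¬ (m = 1 ∧ n = 1) ∧
    distInt (m * (u₀ * α) - n * (v₀ * β)) < 2 * s ∧
    ¬ (FrS H s α (u₀ * m) ∧ FrS H s β (v₀ * n))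

open Classical in
theorem OmR_density {H s α β : ℝ} (hH : 4 ≤ H) (hs : 0 < s) (hsH : s * H ^ 16 ≤ 1)
    {z a b u₀ v₀ : ℕ} (hHz : H ≤ z) (ha : 0 < a) (hb : 0 < b) (hu₀ : 0 < u₀) (hv₀ : 0 < v₀)
    (hα : ¬ BadB H s α u₀) (hβ : ¬ BadB H s β v₀) (Q R : ℕ) (hQ0 : 0 < Q) (hR0 : 0 < R)
    (hE : OmR H s z α β a b u₀ v₀ (a * u₀ * Q) (b * v₀ * R)) :
    (((Icc 1 Q).filter (fun m => OmR H s z α β a b u₀ v₀ (a * u₀ * m) (b * v₀ * R))).card : ℝ) *
      (((Icc 1 R).filter (fun n => OmR H s z α β a b u₀ v₀ (a * u₀ * Q) (b * v₀ * n))).card : ℝ)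
      ≤ 8 / H * Q * R := by
  have hH0 : 0 < H := by linarith
  have hau : 0 < a * u₀ := Nat.mul_pos ha hu₀
  have hbv : 0 < b * v₀ := Nat.mul_pos hb hv₀
  have hspec : ∀ m n : ℕ, OmR H s z α β a b u₀ v₀ (a * u₀ * m) (b * v₀ * n) →
      RgZ z m ∧ RgZ z n ∧ ¬ (m = 1 ∧ n = 1) ∧
    distInt (m * (u₀ * α) - n * (v₀ * β)) < 2 * s ∧
    ¬ (FrS H s α (u₀ * m) ∧ FrS H s β (v₀ * n)) := by
    intro m n h
    obtain ⟨m', n', h1, h2, h3⟩ := h
    have e1 : m = m' := Nat.eq_of_mul_eq_mul_left hau h1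
    have e2 : n = n' := Nat.eq_of_mul_eq_mul_left hbv h2
    rw [e1, e2]
    exact h3
  obtain ⟨hQr, hRr, hne, hd, hO⟩ := hspec Q R hE
  have hQp : (0 : ℝ) < Q := by exact_mod_cast hQ0
  have hRp : (0 : ℝ) < R := by exact_mod_cast hR0
  have hcard1 : (((Icc 1 Q).filter (fun m => OmR H s z α β a b u₀ v₀ (a * u₀ * m)
      (b * v₀ * R))).card : ℝ) ≤ Q := by
    refine le_trans (b := ((Icc 1 Q).card : ℝ)) (by exact_mod_cast card_filter_le _ _) ?_
    simp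
  have hcard2 : (((Icc 1 R).filter (fun n => OmR H s z α β a b u₀ v₀ (a * u₀ * Q)
      (b * v₀ * n))).card : ℝ) ≤ R := by
    refine le_trans (b := ((Icc 1 R).card : ℝ)) (by exact_mod_cast card_filter_le _ _) ?_
    simp
  -- the two alternatives
  have hfin1 : (∀ x, (((Icc 1 Q).filter (fun m : ℕ => distInt (m * (u₀ * α) - x) ≤ 2 * s)).card : ℝ)
        ≤ 8 / H * Q) → (((Icc 1 Q).filter (fun m => OmR H s z α β a b u₀ v₀ (a * u₀ * m)
          (b * v₀ * R))).card : ℝ) *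
      (((Icc 1 R).filter (fun n => OmR H s z α β a b u₀ v₀ (a * u₀ * Q) (b * v₀ * n))).card : ℝ)
      ≤ 8 / H * Q * R := by
    intro h
    refine mul_le_mul ?_ hcard2 (Nat.cast_nonneg _) (by positivity)
    refine le_trans ?_ (h (R * (v₀ * β)))
    exact_mod_cast card_le_card (fun m hm => by
      rw [mem_filter] at hm ⊢
      exact ⟨hm.1, (hspec m R hm.2).2.2.2.1.le⟩)
  have hfin2 : (∀ x, (((Icc 1 R).filter (fun m : ℕ => distInt (m * (v₀ * β) - x) ≤ 2 * s)).card : ℝ)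
        ≤ 8 / H * R) → (((Icc 1 Q).filter (fun m => OmR H s z α β a b u₀ v₀ (a * u₀ * m)
          (b * v₀ * R))).card : ℝ) *
      (((Icc 1 R).filter (fun n => OmR H s z α β a b u₀ v₀ (a * u₀ * Q) (b * v₀ * n))).card : ℝ)
      ≤ 8 / H * Q * R := by
    intro h
    have e : 8 / H * (Q : ℝ) * R = Q * (8 / H * R) := by ring
    rw [e]
    refine mul_le_mul hcard1 ?_ (Nat.cast_nonneg _) hQp.le
    refine le_trans ?_ (h (Q * (u₀ * α)))
    exact_mod_cast card_le_card (fun n hn => by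
      rw [mem_filter] at hn ⊢
      refine ⟨hn.1, ?_⟩
      have := (hspec Q n hn.2).2.2.2.1.le
      rw [← distInt_neg_eq]
      rw [show -((n : ℝ) * (v₀ * β) - Q * (u₀ * α)) =
        (Q : ℝ) * (u₀ * α) - n * (v₀ * β) by ring]
      exact this)
  by_cases hQ1 : Q = 1
  · have hR1 : R ≠ 1 := fun h => hne ⟨hQ1, h⟩
    have hd' : distInt (R * (v₀ * β) - Q * (u₀ * α)) < 2 * s := by
      rw [← distInt_neg_eq]
      rw [show -((R : ℝ) * (v₀ * β) - Q * (u₀ * α)) =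
        (Q : ℝ) * (u₀ * α) - R * (v₀ * β) by ring]
      exact hd
    rcases dens_side hH hs hsH hHz hv₀ hu₀ hβ hα hRr hQr hR1 hd' (fun h => hO ⟨h.2, h.1⟩) with
      h | ⟨h, -⟩
    · exact hfin2 h
    · exact absurd hQ1 h
  · rcases dens_side hH hs hsH hHz hu₀ hv₀ hα hβ hQr hRr hQ1 hd hO with h | ⟨_, h⟩
    · exact hfin1 h
    · exact hfin2 h

end Vale.P028
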