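import Vale.Agent.P028.MathlibUsed
import Vale.Agent.P028.FO3
attribute [-instance] ProperSMul.toContinuousSMul IsTopologicalTorsor.toContinuousSMul IdemSemiring.toCanonicallyOrderedAdd IdemSemiring.toMulLeftMono IdemSemiring.toMulRightMono AddQuantale.instAddLeftMono AddQuantale.instAddRightMono Quantale.instMulLeftMono Quantale.instMulRightMono FiniteDimensional.rclike_to_real IsScalarTower.complexToReal FiniteDimensional.complexToReal

/-!
# The inner bound for the pairs of type `O` (module O3 of note 7705, in the form of 9179 (3))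
-/

namespace Vale.P028

open Finset

/-- The relation of the inner bound between the cofactors `u, v`: `‖u α - v β‖ < 2 s`, the pair is
not structured on both sides, and not both cofactors are smooth and `≤ H ^ 2`. -/
def OmI (H s : ℝ) (z : ℕ) (α β : ℝ) (u v : ℕ) : Prop :=
  distInt (u * α - v * β) < 2 * s ∧ ¬ (FrS H s α u ∧ FrS H s β v) ∧
    ¬ (SmZ z u ∧ SmZ z v ∧ (u : ℝ) ≤ H ^ 2 ∧ (v : ℝ) ≤ H ^ 2)

/-- The pairs of the inner bound in the state `(a, b)`. -/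
def EdI (H s : ℝ) (z : ℕ) (α β : ℝ) (a b : ℕ) (ψ₁ ψ₂ : ℕ → ℝ) (s₁ s₂ : ℝ) (q r : ℕ) : Prop :=
  (∀ p : ℕ, p.Prime → p ∣ Nat.gcd q r → p ≤ z) ∧ OmI H s z α β (cofac q r) (cofac r q) ∧
    (b : ℝ) * (cofac r q : ℝ) * ψ₁ q ≤ s₁ ∧ (a : ℝ) * (cofac q r : ℝ) * ψ₂ r ≤ s₂

open Classical in
/-- the values of `f` at the numbers with smooth part `q` -/
noncomputable def fpart (z N : ℕ) (f : ℕ → ℝ) (q m : ℕ) : ℝ :=
  if SmZ z q ∧ RgZ z m ∧ q * m ≤ N then f (q * m) else 0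

theorem fpart_nonneg {z N : ℕ} {f : ℕ → ℝ} (hf : ∀ q, 0 ≤ f q) (q m : ℕ) : 0 ≤ fpart z N f q m := by
  unfold fpart
  split_ifs
  · exact hf _
  · exact le_refl _

theorem psum_split (R : ℕ → ℕ → Prop) (S : ℕ → ℕ → Prop) (N : ℕ) (f h : ℕ → ℝ) :
    psum R N f h = psum (fun m n => R m n ∧ S m n) N f h +
      psum (fun m n => R m n ∧ ¬ S m n) N f h := by
  classical
  unfold psum
  rw [← sum_add_distrib]
  refine sum_congr rfl fun m _ => ?_
  rw [← sum_add_distrib]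
  refine sum_congr rfl fun n _ => ?_
  by_cases h1 : R m n
  · by_cases h2 : S m n
    · simp [h1, h2]
    · simp [h1, h2]
  · simp [h1]

theorem psum_parts (z N : ℕ) (R : ℕ → ℕ → Prop) (f h : ℕ → ℝ) :
    psum R N f h = ∑ q ∈ Icc 1 N, ∑ r ∈ Icc 1 N,
      psum (fun m n => R (q * m) (r * n)) N (fpart z N f q) (fpart z N h r) := by
  classical
  unfold psum
  rw [sum_parts z N (fun q => ∑ r ∈ Icc 1 N, if R q r then f q * h r else 0)]
  refine sum_congr rfl fun q _ => ?_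
  have h1 : ∀ m : ℕ, (if SmZ z q ∧ RgZ z m ∧ q * m ≤ N then
      (∑ r ∈ Icc 1 N, if R (q * m) r then f (q * m) * h r else 0) else 0) =
      ∑ r ∈ Icc 1 N, ∑ n ∈ Icc 1 N, if R (q * m) (r * n) then
        fpart z N f q m * fpart z N h r n else 0 := by
    intro m
    split_ifs with hc
    · rw [sum_parts z N (fun r => if R (q * m) r then f (q * m) * h r else 0)]
      refine sum_congr rfl fun r _ => sum_congr rfl fun n _ => ?_
      unfold fpart
      rw [if_pos hc]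
      split_ifs <;> simp
    · symm
      apply sum_eq_zero
      intro r _
      apply sum_eq_zero
      intro n _
      unfold fpart
      rw [if_neg hc]
      split_ifs <;> simp
  rw [sum_congr rfl (fun m _ => h1 m), sum_comm]

theorem sum_fpart (z N : ℕ) (f : ℕ → ℝ) :
    ∑ q ∈ Icc 1 N, ∑ m ∈ Icc 1 N, fpart z N f q m = ∑ q ∈ Icc 1 N, f q := by
  classical
  rw [sum_parts z N f]
  rfl

theorem psum_one_one (R : ℕ → ℕ → Prop) (N : ℕ) (F G : ℕ → ℝ) (K : ℝ) (hK : 0 ≤ K)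
    (h : R 1 1 → 1 ≤ N → F 1 * G 1 ≤ K) :
    psum (fun m n => R m n ∧ (m = 1 ∧ n = 1)) N F G ≤ K := by
  classical
  unfold psum
  rcases Nat.eq_zero_or_pos N with h0 | h0
  · subst h0; simpa using hK
  have h1 : (1 : ℕ) ∈ Icc 1 N := by rw [mem_Icc]; omega
  rw [sum_eq_single_of_mem 1 h1, sum_eq_single_of_mem 1 h1]
  · split_ifs with h2
    · exact h h2.1 h0
    · exact hK
  · intro n _ hn
    rw [if_neg]
    rintro ⟨_, _, h3⟩
    exact hn h3
  · intro m _ hm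
    apply sum_eq_zero
    intro n _
    rw [if_neg]
    rintro ⟨_, h3, _⟩
    exact hm h3

theorem weighted_geom {θ F G A x y X : ℝ} (hθ : 0 < θ) (hθ1 : θ < 1) (hx : 0 ≤ x) (hy : 0 ≤ y)
    (hxF : x ≤ F) (hyG : y ≤ G) (hxy : x * y ≤ X) (hA : A = X ^ (1 - θ)) :
    x * y ≤ A * (F * G) ^ θ := by
  have hxy0 : 0 ≤ x * y := mul_nonneg hx hy
  have hX0 : 0 ≤ X := hxy0.trans hxy
  have hF0 : 0 ≤ F := hx.trans hxF
  have hG0 : 0 ≤ G := hy.trans hyG
  rcases hxy0.lt_or_eq with h0 | h0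
  · calc x * y = (x * y) ^ (1 - θ) * (x * y) ^ θ := by
          rw [← Real.rpow_add h0]
          norm_num
      _ ≤ X ^ (1 - θ) * (F * G) ^ θ := by
          apply mul_le_mul
          · exact Real.rpow_le_rpow hxy0 hxy (by linarith)
          · exact Real.rpow_le_rpow hxy0 (mul_le_mul hxF hyG hy hF0) hθ.le
          · exact Real.rpow_nonneg hxy0 _
          · exact Real.rpow_nonneg hX0 _
      _ = A * (F * G) ^ θ := by rw [hA]
  · rw [← h0, hA]
    exact mul_nonneg (Real.rpow_nonneg hX0 _) (Real.rpow_nonneg (mul_nonneg hF0 hG0) _)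

open Classical in
/-- The bound in one cell: fixed smooth parts. -/
theorem fo_cell {θ : ℝ} (hθ : 1 / 2 < θ) (hθ1 : θ < 1) {H s α β : ℝ} (hH : 4 ≤ H) (hs : 0 < s)
    (hsH : s * H ^ 16 ≤ 1) {z a b : ℕ} (hHz : H ≤ z) (ha : 0 < a) (hb : 0 < b)
    {ψ₁ ψ₂ f h : ℕ → ℝ} {s₁ s₂ : ℝ} {N : ℕ} (hs₁ : 0 < s₁) (hs₂ : 0 < s₂)
    (hf : ∀ q, 0 ≤ f q ∧ f q ≤ ψ₁ q) (hh : ∀ q, 0 ≤ h q ∧ h q ≤ ψ₂ q) {q r : ℕ}
    (hq : SmZ z q) (hr : SmZ z r) :
    psum (fun m n => EdI H s z α β a b ψ₁ ψ₂ s₁ s₂ (q * m) (r * n)) N (fpart z N f q)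
        (fpart z N h r) ≤
      ((if RO H s α β (cofac q r) (cofac r q) then (1 : ℝ) else 0) +
        (if BadB H s α (cofac q r) ∨ BadB H s β (cofac r q) then (16 : ℝ) ^ (1 - θ) else 0) +
          (128 / H) ^ (1 - θ)) *
        ((s₁ * s₂ / (a * b)) ^ (1 - θ) * ((cofac q r : ℝ) * cofac r q) ^ (-(1 - θ))) *
        ((∑ m ∈ Icc 1 N, fpart z N f q m) * ∑ n ∈ Icc 1 N, fpart z N h r n) ^ θ := by
  have hH0 : 0 < H := by linarith
  have hθ0 : 0 < θ := by linarith
  have hq0 : 0 < q := Nat.pos_of_ne_zero hq.1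
  have hr0 : 0 < r := Nat.pos_of_ne_zero hr.1
  set u := cofac q r with hu
  set v := cofac r q with hv
  have hu0 : 0 < u := cofac_pos r hq0
  have hv0 : 0 < v := cofac_pos q hr0
  have huS : SmZ z u := hq.of_dvd (cofac_dvd q r)
  have hvS : SmZ z v := hr.of_dvd (cofac_dvd r q)
  have ha' : (0 : ℝ) < a := by exact_mod_cast ha
  have hb' : (0 : ℝ) < b := by exact_mod_cast hb
  have hu' : (0 : ℝ) < u := by exact_mod_cast hu0
  have hv' : (0 : ℝ) < v := by exact_mod_cast hv0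
  set F := ∑ m ∈ Icc 1 N, fpart z N f q m with hF
  set G := ∑ n ∈ Icc 1 N, fpart z N h r n with hG
  have hF0 : 0 ≤ F := sum_nonneg fun m _ => fpart_nonneg (fun q => (hf q).1) q m
  have hG0 : 0 ≤ G := sum_nonneg fun m _ => fpart_nonneg (fun q => (hh q).1) r m
  set X := (s₁ * s₂ / (a * b)) ^ (1 - θ) * ((u : ℝ) * v) ^ (-(1 - θ)) with hX
  have hX0 : 0 ≤ X := mul_nonneg (Real.rpow_nonneg (by positivity) _)
    (Real.rpow_nonneg (by positivity) _)
  have hXe : ∀ c : ℝ, 0 ≤ c → (c * (s₁ * s₂ / (a * b)) / ((u : ℝ) * v)) ^ (1 - θ) =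
      c ^ (1 - θ) * X := by
    intro c hc
    rw [hX, div_eq_mul_inv, Real.mul_rpow (by positivity) (by positivity),
      Real.mul_rpow hc (by positivity), Real.inv_rpow (by positivity), ← Real.rpow_neg (by positivity)]
    ring
  have hFG0 : 0 ≤ (F * G) ^ θ := Real.rpow_nonneg (mul_nonneg hF0 hG0) _
  rw [psum_split _ (fun m n => m = 1 ∧ n = 1)]
  -- the term `m = n = 1`
  have h1 : psum (fun m n => EdI H s z α β a b ψ₁ ψ₂ s₁ s₂ (q * m) (r * n) ∧ (m = 1 ∧ n = 1)) N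
      (fpart z N f q) (fpart z N h r) ≤
      (if RO H s α β u v then (1 : ℝ) else 0) * X * (F * G) ^ θ := by
    apply psum_one_one
    · split_ifs
      · positivity
      · simp
    · intro hE hN
      rw [mul_one, mul_one] at hE
      obtain ⟨-, hO, hs1, hs2⟩ := hE
      have hRO : RO H s α β u v := by
        refine ⟨hO.1, hO.2.1, fun h => hO.2.2 ⟨huS, hvS, h⟩⟩
      rw [if_pos hRO, one_mul]
      have hx : fpart z N f q 1 ≤ ψ₁ q := by
        unfold fpart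
        split_ifs
        · rw [mul_one]; exact (hf q).2
        · exact (hf q).1.trans (hf q).2
      have hy : fpart z N h r 1 ≤ ψ₂ r := by
        unfold fpart
        split_ifs
        · rw [mul_one]; exact (hh r).2
        · exact (hh r).1.trans (hh r).2
      have hx0 := fpart_nonneg (z := z) (N := N) (fun q => (hf q).1) q 1
      have hy0 := fpart_nonneg (z := z) (N := N) (fun q => (hh q).1) r 1
      have h1N : (1 : ℕ) ∈ Icc 1 N := by rw [mem_Icc]; omega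
      have hxF : fpart z N f q 1 ≤ F :=
        single_le_sum (f := fun m => fpart z N f q m)
          (fun m _ => fpart_nonneg (fun q => (hf q).1) q m) h1N
      have hyG : fpart z N h r 1 ≤ G :=
        single_le_sum (f := fun m => fpart z N h r m)
          (fun m _ => fpart_nonneg (fun q => (hh q).1) r m) h1N
      have hxy : fpart z N f q 1 * fpart z N h r 1 ≤ 1 * (s₁ * s₂ / (a * b)) / ((u : ℝ) * v) := by
        rw [le_div_iff₀ (by positivity), one_mul, le_div_iff₀ (by positivity)]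
        calc fpart z N f q 1 * fpart z N h r 1 * ((u : ℝ) * v) * (a * b)
            = (b * v * fpart z N f q 1) * (a * u * fpart z N h r 1) := by ring
          _ ≤ (b * v * ψ₁ q) * (a * u * ψ₂ r) := by
              apply mul_le_mul
              · exact mul_le_mul_of_nonneg_left hx (by positivity)
              · exact mul_le_mul_of_nonneg_left hy (by positivity)
              · positivity
              · exact mul_nonneg (by positivity) (hx0.trans hx)
          _ ≤ s₁ * s₂ := by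
              apply mul_le_mul hs1 hs2 _ hs₁.le
              exact mul_nonneg (by positivity) (hy0.trans hy)
      refine weighted_geom hθ0 hθ1 hx0 hy0 hxF hyG hxy ?_
      rw [hXe 1 zero_le_one, Real.one_rpow, one_mul]
  -- the other terms
  have h2 : psum (fun m n => EdI H s z α β a b ψ₁ ψ₂ s₁ s₂ (q * m) (r * n) ∧ ¬ (m = 1 ∧ n = 1)) N
      (fpart z N f q) (fpart z N h r) ≤
      Lam (OmR H s z α β a b u v) ∅ (a * u) (b * v) (fun m => ψ₁ (q * m)) (fun n => ψ₂ (r * n))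
        s₁ s₂ N (fpart z N f q) (fpart z N h r) := by
    unfold Lam
    apply psum_le_psum (fun m => fpart_nonneg (fun q => (hf q).1) q m)
      (fun m => fpart_nonneg (fun q => (hh q).1) r m)
    intro m n _ _ hE
    refine ⟨le_refl _, ?_⟩
    by_cases hm : RgZ z m
    · by_cases hn : RgZ z n
      · left
        obtain ⟨⟨hg, hO, hs1, hs2⟩, hne⟩ := hE
        obtain ⟨g1, c1⟩ := cofac_split hq hm hr hn hg
        obtain ⟨g2, c2⟩ := cofac_split hr hn hq hm (fun p hp hd => hg p hp (by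
          rw [Nat.gcd_comm]; exact hd))
        rw [c1, c2] at hO
        rw [c2] at hs1
        rw [c1] at hs2
        have e1 : cofac m n = m := by unfold cofac; rw [g1, Nat.div_one]
        have e2 : cofac n m = n := by unfold cofac; rw [g2, Nat.div_one]
        refine ⟨?_, ?_, ?_, ?_⟩
        · intro p hp hpd
          rw [g1, Nat.dvd_one] at hpd
          exact absurd (hpd ▸ hp) Nat.not_prime_one
        · rw [e1, e2]
          refine ⟨m, n, rfl, rfl, hm, hn, hne, ?_, ?_⟩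
          · have := hO.1
            rw [show ((m : ℝ) * (u * α) - n * (v * β)) =
              (((u * m : ℕ) : ℝ) * α - ((v * n : ℕ) : ℝ) * β) by push_cast; ring]
            exact this
          · intro h
            apply hO.2.1
            push_cast
            exact h
        · rw [e2]
          refine le_trans (le_of_eq ?_) hs1
          push_cast
          ring
        · rw [e1]
          refine le_trans (le_of_eq ?_) hs2
          push_cast
          ring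
      · right
        have e0 : fpart z N h r n = 0 := by
          unfold fpart
          exact if_neg (fun h => hn h.2.1)
        rw [e0, mul_zero]
    · right
      have e0 : fpart z N f q m = 0 := by
        unfold fpart
        exact if_neg (fun h => hm h.2.1)
      rw [e0, zero_mul]
  have hcardle : ∀ (Q : ℕ) (p : ℕ → Prop), (((Icc 1 Q).filter p).card : ℝ) ≤ Q := by
    intro Q p
    refine le_trans (b := ((Icc 1 Q).card : ℝ)) (by exact_mod_cast card_filter_le _ _) ?_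
    simp
  have hfψ : ∀ m, 0 ≤ fpart z N f q m ∧ fpart z N f q m ≤ ψ₁ (q * m) := by
    intro m
    refine ⟨fpart_nonneg (fun q => (hf q).1) q m, ?_⟩
    unfold fpart
    split_ifs
    · exact (hf _).2
    · exact (hf _).1.trans (hf _).2
  have hhψ : ∀ m, 0 ≤ fpart z N h r m ∧ fpart z N h r m ≤ ψ₂ (r * m) := by
    intro m
    refine ⟨fpart_nonneg (fun q => (hh q).1) r m, ?_⟩
    unfold fpart
    split_ifs
    · exact (hh _).2
    · exact (hh _).1.trans (hh _).2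
  have h3 : Lam (OmR H s z α β a b u v) ∅ (a * u) (b * v) (fun m => ψ₁ (q * m))
      (fun n => ψ₂ (r * n)) s₁ s₂ N (fpart z N f q) (fpart z N h r) ≤
      ((if BadB H s α u ∨ BadB H s β v then (16 : ℝ) ^ (1 - θ) else 0) + (128 / H) ^ (1 - θ)) *
        X * (F * G) ^ θ := by
    have h128 : 0 ≤ (128 / H) ^ (1 - θ) := Real.rpow_nonneg (by positivity) _
    by_cases hbad : BadB H s α u ∨ BadB H s β v
    · rw [if_pos hbad]
      have hbt := base_trick (OmR H s z α β a b u v) hθ hθ1 1 zero_le_one (a * u) (b * v)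
        (Nat.mul_pos ha hu0) (Nat.mul_pos hb hv0) (by
          intro Q R hQ hR _
          rw [one_mul]
          exact mul_le_mul (hcardle _ _) (hcardle _ _) (Nat.cast_nonneg _) (Nat.cast_nonneg _))
        (fun m => ψ₁ (q * m)) (fun n => ψ₂ (r * n)) (fpart z N f q) (fpart z N h r) s₁ s₂ N hs₁ hs₂
        hfψ hhψ
      have e : (16 * s₁ * s₂ * 1 / (((a * u : ℕ) : ℝ) * ((b * v : ℕ) : ℝ))) =
          16 * (s₁ * s₂ / (a * b)) / ((u : ℝ) * v) := by
        push_cast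
        field_simp
      rw [e, hXe 16 (by norm_num)] at hbt
      refine hbt.trans ?_
      apply mul_le_mul_of_nonneg_right _ hFG0
      apply mul_le_mul_of_nonneg_right _ hX0
      linarith
    · rw [if_neg hbad, zero_add]
      rw [not_or] at hbad
      have hbt := base_trick (OmR H s z α β a b u v) hθ hθ1 (8 / H) (by positivity) (a * u) (b * v)
        (Nat.mul_pos ha hu0) (Nat.mul_pos hb hv0) (by
          intro Q R hQ hR hE
          exact OmR_density hH hs hsH hHz ha hb hu0 hv0 hbad.1 hbad.2 Q R hQ hR hE)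
        (fun m => ψ₁ (q * m)) (fun n => ψ₂ (r * n)) (fpart z N f q) (fpart z N h r) s₁ s₂ N hs₁ hs₂
        hfψ hhψ
      have e : (16 * s₁ * s₂ * (8 / H) / (((a * u : ℕ) : ℝ) * ((b * v : ℕ) : ℝ))) =
          (128 / H) * (s₁ * s₂ / (a * b)) / ((u : ℝ) * v) := by
        push_cast
        field_simp
        ring
      rw [e, hXe (128 / H) (by positivity)] at hbt
      exact hbt
  calc _ ≤ (if RO H s α β u v then (1 : ℝ) else 0) * X * (F * G) ^ θ +
        ((if BadB H s α u ∨ BadB H s β v then (16 : ℝ) ^ (1 - θ) else 0) + (128 / H) ^ (1 - θ)) *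
        X * (F * G) ^ θ := add_le_add h1 (h2.trans h3)
    _ = _ := by ring

open Classical in
/-- The three weights of the tensor inequality. -/
noncomputable def fz (z : ℕ) (R : ℕ → ℕ → Prop) (u v : ℕ) : ℝ :=
  if SmZ z u ∧ SmZ z v ∧ R u v then 1 / ((u : ℝ) * v) else 0

theorem fz_nonneg (z : ℕ) (R : ℕ → ℕ → Prop) (u v : ℕ) : 0 ≤ fz z R u v := by
  unfold fz
  split_ifs
  · positivity
  · exact le_refl _

open Classical in
theorem fz_rpow {z : ℕ} {R : ℕ → ℕ → Prop} {u v : ℕ} {θ μ : ℝ} (hμ : 0 < μ) (hu : SmZ z u)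
    (hv : SmZ z v) :
    ((u : ℝ) * v) ^ (-(1 - θ - μ)) * (fz z R u v) ^ μ =
      (if R u v then (1 : ℝ) else 0) * ((u : ℝ) * v) ^ (-(1 - θ)) := by
  have hu0 : (0 : ℝ) < u := by
    have := Nat.pos_of_ne_zero hu.1
    exact_mod_cast this
  have hv0 : (0 : ℝ) < v := by
    have := Nat.pos_of_ne_zero hv.1
    exact_mod_cast this
  have hpos : (0 : ℝ) < (u : ℝ) * v := by positivity
  unfold fz
  by_cases h : R u v
  · rw [if_pos ⟨hu, hv, h⟩, if_pos h, one_mul, one_div, Real.inv_rpow hpos.le,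
      ← Real.rpow_neg hpos.le, ← Real.rpow_add hpos]
    congr 1
    ring
  · rw [if_neg (fun h' => h h'.2.2), if_neg h, Real.zero_rpow hμ.ne', mul_zero, zero_mul]

open Classical in
/-- a tensor sum in the form needed here -/
theorem fo_tensor {θ μ : ℝ} (hθ : 1 / 2 < θ) (hθ1 : θ < 1) (hμ : 0 < μ) (hμ1 : μ < 1 - θ) :
    ∃ C ≥ 1, ∃ k ≥ 0, ∀ (z N : ℕ) (R : ℕ → ℕ → Prop) (F G : ℕ → ℝ) (B : ℝ), 2 ≤ z →
      (∀ q, 0 ≤ F q) → (∀ q, 0 ≤ G q) →
      (∀ T : Finset (ℕ × ℕ), (∀ p ∈ T, SmZ z p.1 ∧ SmZ z p.2 ∧ R p.1 p.2) →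
        ∑ p ∈ T, 1 / ((p.1 : ℝ) * p.2) ≤ B) →
      ∑ q ∈ Icc 1 N, ∑ r ∈ Icc 1 N, (if SmZ z q ∧ SmZ z r then
        (if R (cofac q r) (cofac r q) then (1 : ℝ) else 0) *
          ((cofac q r : ℝ) * cofac r q) ^ (-(1 - θ)) * (F q * G r) ^ θ else 0) ≤
      C * (1 + Real.log z) ^ (k : ℝ) * B ^ μ *
        ((∑ q ∈ Icc 1 N, F q) * ∑ r ∈ Icc 1 N, G r) ^ θ := by
  obtain ⟨C₀, hC₀, hSP⟩ := SPn_all hθ hθ1 hμ hμ1
  obtain ⟨C, hC, k, hk, hprod⟩ := prod_one_add_div_prime_le C₀ hC₀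
  refine ⟨max C 1, le_max_right _ _, k, hk, ?_⟩
  intro z N R F G B hz hF hG hB
  have hT := tensorStmt_primes hθ hμ (fun p => 1 + C₀ / (p : ℝ)) (fun p _ => by positivity)
    (fun p hp => hSP p hp) (PZ z) (fun p hp => PZ_prime hp) N F G (fz z R) hF hG (fz_nonneg z R)
  have hK : ∏ p ∈ PZ z, (1 + C₀ / (p : ℝ)) ≤ max C 1 * (1 + Real.log z) ^ (k : ℝ) := by
    refine (hprod z (by omega)).trans ?_
    apply mul_le_mul_of_nonneg_right (le_max_left _ _)
    apply Real.rpow_nonneg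
    have : 0 ≤ Real.log z := Real.log_nonneg (by exact_mod_cast (by omega : 1 ≤ z))
    linarith
  have hFG : 0 ≤ ((∑ q ∈ Icc 1 N, F q) * ∑ r ∈ Icc 1 N, G r) ^ θ :=
    Real.rpow_nonneg (mul_nonneg (sum_nonneg fun q _ => hF q) (sum_nonneg fun q _ => hG q)) _
  have hsum0 : 0 ≤ ∑ u ∈ Icc 1 N, ∑ v ∈ Icc 1 N, if Nat.Coprime u v then fz z R u v else 0 := by
    refine sum_nonneg fun u _ => sum_nonneg fun v _ => ?_
    split_ifs
    · exact fz_nonneg z R u v
    · exact le_refl _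
  have hsum : ∑ u ∈ Icc 1 N, ∑ v ∈ Icc 1 N, (if Nat.Coprime u v then fz z R u v else 0) ≤ B := by
    rw [← sum_product']
    have e1 : ∀ x : ℕ × ℕ, (if Nat.Coprime x.1 x.2 then fz z R x.1 x.2 else 0) =
        if (Nat.Coprime x.1 x.2 ∧ (SmZ z x.1 ∧ SmZ z x.2 ∧ R x.1 x.2)) then
          1 / ((x.1 : ℝ) * x.2) else 0 := by
      intro x
      unfold fz
      by_cases h1 : Nat.Coprime x.1 x.2
      · by_cases h2 : SmZ z x.1 ∧ SmZ z x.2 ∧ R x.1 x.2
        · rw [if_pos h1, if_pos h2, if_pos ⟨h1, h2⟩]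
        · rw [if_pos h1, if_neg h2, if_neg (fun h => h2 h.2)]
      · rw [if_neg h1, if_neg (fun h => h1 h.1)]
    rw [sum_congr rfl (fun x _ => e1 x), ← sum_filter]
    apply hB
    intro p hp
    rw [mem_filter] at hp
    exact hp.2.2
  have hB0 : 0 ≤ B := hsum0.trans hsum
  refine le_trans (sum_le_sum fun q hq => sum_le_sum fun r hr => ?_) (hT.trans ?_)
  · by_cases h1 : SmZ z q ∧ SmZ z r
    · have hcond : ∀ l : ℕ, l.Prime → l ∣ cofac q r * cofac r q → l ∈ PZ z := by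
        intro l hl hd
        rcases hl.dvd_mul.1 hd with h2 | h2
        · exact mem_PZ.2 ⟨hl, h1.1.le hl (h2.trans (cofac_dvd q r))⟩
        · exact mem_PZ.2 ⟨hl, h1.2.le hl (h2.trans (cofac_dvd r q))⟩
      have e := fz_rpow (R := R) (θ := θ) hμ (h1.1.of_dvd (cofac_dvd q r)) (h1.2.of_dvd (cofac_dvd r q))
      rw [if_pos h1, if_pos hcond, ← e]
      apply le_of_eq
      ring
    · rw [if_neg h1]
      split_ifs
      · exact mul_nonneg (mul_nonneg (Real.rpow_nonneg (mul_nonneg (hF _) (hG _)) _)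
          (Real.rpow_nonneg (by positivity) _)) (Real.rpow_nonneg (fz_nonneg _ _ _ _) _)
      · exact le_refl _
  · calc (∏ p ∈ PZ z, (1 + C₀ / (p : ℝ))) * ((∑ q ∈ Icc 1 N, F q) * ∑ r ∈ Icc 1 N, G r) ^ θ *
        (∑ u ∈ Icc 1 N, ∑ v ∈ Icc 1 N, if Nat.Coprime u v then fz z R u v else 0) ^ μ
        ≤ (max C 1 * (1 + Real.log z) ^ (k : ℝ)) *
          ((∑ q ∈ Icc 1 N, F q) * ∑ r ∈ Icc 1 N, G r) ^ θ * B ^ μ := by
          apply mul_le_mul
          · exact mul_le_mul_of_nonneg_right hK hFG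
          · exact Real.rpow_le_rpow hsum0 hsum hμ.le
          · exact Real.rpow_nonneg hsum0 _
          · apply mul_nonneg _ hFG
            apply mul_nonneg (by positivity)
            apply Real.rpow_nonneg
            have : 0 ≤ Real.log z := Real.log_nonneg (by exact_mod_cast (by omega : 1 ≤ z))
            linarith
      _ = _ := by ring

/-- sum over all pairs of smooth numbers -/
theorem fo_pair_all : ∃ C ≥ 1, ∃ k ≥ 0, ∀ z : ℕ, 2 ≤ z → ∀ T : Finset (ℕ × ℕ),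
    (∀ p ∈ T, SmZ z p.1 ∧ SmZ z p.2) →
    ∑ p ∈ T, 1 / ((p.1 : ℝ) * p.2) ≤ C * (1 + Real.log z) ^ (k : ℝ) := by
  classical
  obtain ⟨C₁, hC₁, k₁, hk₁, h₁⟩ := fo_all
  refine ⟨C₁ * C₁, by nlinarith, k₁ + k₁, by linarith, ?_⟩
  intro z hz T hT
  have hL0 : 0 < 1 + Real.log z := by
    have : 0 ≤ Real.log z := Real.log_nonneg (by exact_mod_cast (by omega : 1 ≤ z))
    linarith
  set A := T.image Prod.fst with hA
  set B := T.image Prod.snd with hB
  have hAs : ∀ u ∈ A, SmZ z u := by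
    intro u hu
    rw [hA, mem_image] at hu
    obtain ⟨p, hp, rfl⟩ := hu
    exact (hT p hp).1
  have hBs : ∀ u ∈ B, SmZ z u := by
    intro u hu
    rw [hB, mem_image] at hu
    obtain ⟨p, hp, rfl⟩ := hu
    exact (hT p hp).2
  have hsub : T ⊆ A ×ˢ B := by
    intro p hp
    rw [mem_product]
    exact ⟨mem_image_of_mem _ hp, mem_image_of_mem _ hp⟩
  have hnn : ∀ X : Finset ℕ, 0 ≤ ∑ u ∈ X, 1 / (u : ℝ) := fun X => sum_nonneg fun u _ => by positivity
  calc ∑ p ∈ T, 1 / ((p.1 : ℝ) * p.2) ≤ ∑ p ∈ A ×ˢ B, 1 / ((p.1 : ℝ) * p.2) :=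
        sum_le_sum_of_subset_of_nonneg hsub (fun p _ _ => by positivity)
    _ = (∑ u ∈ A, 1 / (u : ℝ)) * ∑ v ∈ B, 1 / (v : ℝ) := by
        rw [sum_mul_sum, sum_product]
        refine sum_congr rfl fun u _ => sum_congr rfl fun v _ => ?_
        rw [one_div_mul_one_div]
    _ ≤ (C₁ * (1 + Real.log z) ^ (k₁ : ℝ)) * (C₁ * (1 + Real.log z) ^ (k₁ : ℝ)) :=
        mul_le_mul (h₁ z hz A hAs) (h₁ z hz B hBs) (hnn _) (by positivity)
    _ = C₁ * C₁ * (1 + Real.log z) ^ (k₁ + k₁ : ℝ) := by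
        rw [Real.rpow_add hL0]; ring

theorem fo_num {C x L k μ : ℝ} (hC : 1 ≤ C) (hx : 0 ≤ x) (hL : 1 ≤ L) (hk : 0 ≤ k) (_hμ : 0 < μ)
    (hμ1 : μ ≤ 1) : (C * x * L ^ k) ^ μ ≤ C * x ^ μ * L ^ k := by
  have hLk : 1 ≤ L ^ k := Real.one_le_rpow hL hk
  rw [Real.mul_rpow (by positivity) (by positivity), Real.mul_rpow (by positivity) hx]
  have h1 : C ^ μ ≤ C := by
    calc C ^ μ ≤ C ^ (1 : ℝ) := Real.rpow_le_rpow_of_exponent_le hC hμ1
      _ = C := Real.rpow_one C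
  have h2 : (L ^ k) ^ μ ≤ L ^ k := by
    calc (L ^ k) ^ μ ≤ (L ^ k) ^ (1 : ℝ) := Real.rpow_le_rpow_of_exponent_le hLk hμ1
      _ = L ^ k := Real.rpow_one _
  have hx' : 0 ≤ x ^ μ := Real.rpow_nonneg hx _
  apply mul_le_mul (mul_le_mul_of_nonneg_right h1 hx') h2 (by positivity) (by positivity)

open Classical in
/-- THE INNER BOUND. -/
theorem fo_inner {θ μ : ℝ} (hθ : 1 / 2 < θ) (hθ1 : θ < 1) (hμ : 0 < μ) (hμ1 : μ < 1 - θ) :
    ∃ C ≥ 1, ∃ k ≥ 0, ∀ (H s α β : ℝ) (z a b : ℕ), 4 ≤ H → H ≤ z → 0 < s → s * H ^ 16 ≤ 1 →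
      0 < a → 0 < b → ∀ (ψ₁ ψ₂ f h : ℕ → ℝ) (s₁ s₂ : ℝ) (N : ℕ), 0 < s₁ → 0 < s₂ →
      (∀ q, 0 ≤ f q ∧ f q ≤ ψ₁ q) → (∀ q, 0 ≤ h q ∧ h q ≤ ψ₂ q) →
      psum (EdI H s z α β a b ψ₁ ψ₂ s₁ s₂) N f h ≤
        C * (1 / H) ^ μ * (1 + Real.log z) ^ (k : ℝ) * (s₁ * s₂ / (a * b)) ^ (1 - θ) *
          ((∑ q ∈ Icc 1 N, f q) * ∑ r ∈ Icc 1 N, h r) ^ θ := by
  obtain ⟨C₀, hC₀, k₀, hk₀, hT⟩ := fo_tensor hθ hθ1 hμ hμ1
  obtain ⟨C₁, hC₁, k₁, hk₁, h₁⟩ := fo_k11
  obtain ⟨C₂, hC₂, k₂, hk₂, h₂⟩ := fo_pair_bad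
  obtain ⟨C₃, hC₃, k₃, hk₃, h₃⟩ := fo_pair_all
  refine ⟨C₀ * (C₁ + 16 * C₂ + 128 * C₃), by nlinarith, k₀ + (k₁ + k₂ + k₃), by linarith, ?_⟩
  intro H s α β z a b hH hHz hs hsH ha hb ψ₁ ψ₂ f h s₁ s₂ N hs₁ hs₂ hf hh
  have hH0 : 0 < H := by linarith
  have hz4 : (4 : ℝ) ≤ z := hH.trans hHz
  have hz2 : 2 ≤ z := by
    have : (2 : ℝ) ≤ z := by linarith
    exact_mod_cast this
  have hlz : 0 ≤ Real.log z := Real.log_nonneg (by linarith)
  have ha' : (0 : ℝ) < a := by exact_mod_cast ha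
  have hb' : (0 : ℝ) < b := by exact_mod_cast hb
  set L := 1 + Real.log z with hL
  have hL1 : 1 ≤ L := by linarith
  have hL0 : 0 < L := by linarith
  set F : ℕ → ℝ := fun q => ∑ m ∈ Icc 1 N, fpart z N f q m with hF
  set G : ℕ → ℝ := fun q => ∑ m ∈ Icc 1 N, fpart z N h q m with hG
  have hF0 : ∀ q, 0 ≤ F q := fun q => sum_nonneg fun m _ => fpart_nonneg (fun q => (hf q).1) q m
  have hG0 : ∀ q, 0 ≤ G q := fun q => sum_nonneg fun m _ => fpart_nonneg (fun q => (hh q).1) q m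
  have hFs : ∑ q ∈ Icc 1 N, F q = ∑ q ∈ Icc 1 N, f q := sum_fpart z N f
  have hGs : ∑ q ∈ Icc 1 N, G q = ∑ q ∈ Icc 1 N, h q := sum_fpart z N h
  set X := (s₁ * s₂ / (a * b)) ^ (1 - θ) with hX
  have hX0 : 0 ≤ X := Real.rpow_nonneg (by positivity) _
  set W := ((∑ q ∈ Icc 1 N, F q) * ∑ r ∈ Icc 1 N, G r) ^ θ with hW
  have hW0 : 0 ≤ W := Real.rpow_nonneg (mul_nonneg (sum_nonneg fun q _ => hF0 q)
    (sum_nonneg fun q _ => hG0 q)) _
  -- the three sums
  set S : (ℕ → ℕ → Prop) → ℝ := fun R => ∑ q ∈ Icc 1 N, ∑ r ∈ Icc 1 N, (if SmZ z q ∧ SmZ z r then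
        (if R (cofac q r) (cofac r q) then (1 : ℝ) else 0) *
          ((cofac q r : ℝ) * cofac r q) ^ (-(1 - θ)) * (F q * G r) ^ θ else 0) with hS
  have hmain : psum (EdI H s z α β a b ψ₁ ψ₂ s₁ s₂) N f h ≤
      X * (S (RO H s α β) + 16 ^ (1 - θ) * S (fun u v => BadB H s α u ∨ BadB H s β v) +
        (128 / H) ^ (1 - θ) * S (fun _ _ => True)) := by
    rw [psum_parts z N]
    have hterm : ∀ q ∈ Icc 1 N, ∀ r ∈ Icc 1 N,
        psum (fun m n => EdI H s z α β a b ψ₁ ψ₂ s₁ s₂ (q * m) (r * n)) N (fpart z N f q)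
          (fpart z N h r) ≤
        X * (if SmZ z q ∧ SmZ z r then
          (if RO H s α β (cofac q r) (cofac r q) then (1 : ℝ) else 0) *
            ((cofac q r : ℝ) * cofac r q) ^ (-(1 - θ)) * (F q * G r) ^ θ else 0) +
        X * 16 ^ (1 - θ) * (if SmZ z q ∧ SmZ z r then
          (if BadB H s α (cofac q r) ∨ BadB H s β (cofac r q) then (1 : ℝ) else 0) *
            ((cofac q r : ℝ) * cofac r q) ^ (-(1 - θ)) * (F q * G r) ^ θ else 0) +
        X * (128 / H) ^ (1 - θ) * (if SmZ z q ∧ SmZ z r then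
          (if True then (1 : ℝ) else 0) *
            ((cofac q r : ℝ) * cofac r q) ^ (-(1 - θ)) * (F q * G r) ^ θ else 0) := by
      intro q _ r _
      by_cases hqr : SmZ z q ∧ SmZ z r
      · have hc := fo_cell hθ hθ1 hH hs hsH hHz ha hb (N := N) hs₁ hs₂ hf hh hqr.1 hqr.2 (α := α)
          (β := β)
        rw [if_pos hqr, if_pos hqr, if_pos hqr]
        refine hc.trans (le_of_eq ?_)
        simp only [hF, hG, ← hX, if_true]
        by_cases hb : BadB H s α (cofac q r) ∨ BadB H s β (cofac r q)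
        · rw [if_pos hb, if_pos hb]; ring
        · rw [if_neg hb, if_neg hb]; ring
      · rw [if_neg hqr, if_neg hqr, if_neg hqr, mul_zero, mul_zero, mul_zero, add_zero, add_zero]
        apply le_of_eq
        unfold psum
        apply sum_eq_zero
        intro m _
        apply sum_eq_zero
        intro n _
        have e0 : fpart z N f q m * fpart z N h r n = 0 := by
          by_cases hq : SmZ z q
          · have : fpart z N h r n = 0 := by
              unfold fpart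
              exact if_neg (fun h => hqr ⟨hq, h.1⟩)
            rw [this, mul_zero]
          · have : fpart z N f q m = 0 := by
              unfold fpart
              exact if_neg (fun h => hq h.1)
            rw [this, zero_mul]
        rw [e0]
        split_ifs <;> rfl
    refine (sum_le_sum fun q hq => sum_le_sum fun r hr => hterm q hq r hr).trans (le_of_eq ?_)
    simp only [sum_add_distrib, ← mul_sum, hS]
    ring_nf
  -- estimates
  have hμ1' : μ ≤ 1 := by linarith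
  have e1 : S (RO H s α β) ≤ C₀ * L ^ (k₀ : ℝ) * (C₁ * (1 / H) ^ μ * L ^ (k₁ : ℝ)) * W := by
    refine (hT z N (RO H s α β) F G (C₁ * (1 / H) * L ^ (k₁ : ℝ)) hz2 hF0 hG0 ?_).trans ?_
    · intro T hT'
      exact h₁ z H s α β hH hHz hs hsH T hT'
    · apply mul_le_mul_of_nonneg_right _ hW0
      apply mul_le_mul_of_nonneg_left _ (by positivity)
      exact fo_num hC₁ (by positivity) hL1 hk₁ hμ hμ1'
  have e2 : S (fun u v => BadB H s α u ∨ BadB H s β v) ≤
      C₀ * L ^ (k₀ : ℝ) * (C₂ * (1 / H) ^ μ * L ^ (k₂ : ℝ)) * W := by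
    refine (hT z N (fun u v => BadB H s α u ∨ BadB H s β v) F G (C₂ * (1 / H) * L ^ (k₂ : ℝ)) hz2
      hF0 hG0 ?_).trans ?_
    · intro T hT'
      exact h₂ z H s α β hH hHz hs hsH T hT'
    · apply mul_le_mul_of_nonneg_right _ hW0
      apply mul_le_mul_of_nonneg_left _ (by positivity)
      exact fo_num hC₂ (by positivity) hL1 hk₂ hμ hμ1'
  have e3 : S (fun _ _ => True) ≤ C₀ * L ^ (k₀ : ℝ) * (C₃ * 1 ^ μ * L ^ (k₃ : ℝ)) * W := by
    refine (hT z N (fun _ _ => True) F G (C₃ * 1 * L ^ (k₃ : ℝ)) hz2 hF0 hG0 ?_).trans ?_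
    · intro T hT'
      rw [mul_one]
      exact h₃ z hz2 T (fun p hp => ⟨(hT' p hp).1, (hT' p hp).2.1⟩)
    · apply mul_le_mul_of_nonneg_right _ hW0
      apply mul_le_mul_of_nonneg_left _ (by positivity)
      exact fo_num hC₃ zero_le_one hL1 hk₃ hμ hμ1'
  rw [Real.one_rpow, mul_one] at e3
  have h16 : (16 : ℝ) ^ (1 - θ) ≤ 16 := by
    calc (16 : ℝ) ^ (1 - θ) ≤ 16 ^ (1 : ℝ) :=
          Real.rpow_le_rpow_of_exponent_le (by norm_num) (by linarith)
      _ = 16 := Real.rpow_one _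
  have h128 : (128 / H) ^ (1 - θ) ≤ 128 * (1 / H) ^ μ := by
    rw [div_eq_mul_one_div, Real.mul_rpow (by norm_num) (by positivity)]
    have a1 : (128 : ℝ) ^ (1 - θ) ≤ 128 := by
      calc (128 : ℝ) ^ (1 - θ) ≤ 128 ^ (1 : ℝ) :=
            Real.rpow_le_rpow_of_exponent_le (by norm_num) (by linarith)
        _ = 128 := Real.rpow_one _
    have a2 : (1 / H) ^ (1 - θ) ≤ (1 / H) ^ μ := by
      apply Real.rpow_le_rpow_of_exponent_ge (by positivity)
      · rw [div_le_one hH0]; linarith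
      · linarith
    exact mul_le_mul a1 a2 (by positivity) (by norm_num)
  have hE0 : 0 ≤ (1 / H) ^ μ := by positivity
  set E := (1 / H) ^ μ with hE
  have hLk : ∀ k' : ℝ, k' ≤ k₁ + k₂ + k₃ → L ^ (k' : ℝ) ≤ L ^ (k₁ + k₂ + k₃ : ℝ) := fun k' hk' =>
    Real.rpow_le_rpow_of_exponent_le hL1 hk'
  have b1 := hLk k₁ (by linarith)
  have b2 := hLk k₂ (by linarith)
  have b3 := hLk k₃ (by linarith)
  set M := L ^ (k₁ + k₂ + k₃ : ℝ) with hM
  have hM0 : 0 < M := Real.rpow_pos_of_pos hL0 _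
  have hP : 0 ≤ C₀ * L ^ (k₀ : ℝ) * W := by positivity
  have hS2 : 0 ≤ S (fun u v => BadB H s α u ∨ BadB H s β v) := by
    simp only [hS]
    refine sum_nonneg fun q _ => sum_nonneg fun r _ => ?_
    split_ifs
    · exact mul_nonneg (by positivity) (Real.rpow_nonneg (mul_nonneg (hF0 _) (hG0 _)) _)
    · exact mul_nonneg (by simp) (Real.rpow_nonneg (mul_nonneg (hF0 _) (hG0 _)) _)
    · exact le_refl _
  have hS3 : 0 ≤ S (fun _ _ => True) := by
    simp only [hS]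
    refine sum_nonneg fun q _ => sum_nonneg fun r _ => ?_
    split_ifs
    · exact mul_nonneg (by positivity) (Real.rpow_nonneg (mul_nonneg (hF0 _) (hG0 _)) _)
    · exact le_refl _
  have f1 : S (RO H s α β) ≤ (C₀ * L ^ (k₀ : ℝ) * W) * (C₁ * E * M) := by
    refine e1.trans ?_
    have : C₁ * E * L ^ (k₁ : ℝ) ≤ C₁ * E * M := mul_le_mul_of_nonneg_left b1 (by positivity)
    calc C₀ * L ^ (k₀ : ℝ) * (C₁ * E * L ^ (k₁ : ℝ)) * W
        = (C₀ * L ^ (k₀ : ℝ) * W) * (C₁ * E * L ^ (k₁ : ℝ)) := by ring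
      _ ≤ _ := mul_le_mul_of_nonneg_left this hP
  have f2 : 16 ^ (1 - θ) * S (fun u v => BadB H s α u ∨ BadB H s β v) ≤
      (C₀ * L ^ (k₀ : ℝ) * W) * (16 * C₂ * E * M) := by
    have : 16 * (C₂ * E * L ^ (k₂ : ℝ)) ≤ 16 * (C₂ * E * M) :=
      mul_le_mul_of_nonneg_left (mul_le_mul_of_nonneg_left b2 (by positivity)) (by norm_num)
    calc 16 ^ (1 - θ) * S (fun u v => BadB H s α u ∨ BadB H s β v)
        ≤ 16 * (C₀ * L ^ (k₀ : ℝ) * (C₂ * E * L ^ (k₂ : ℝ)) * W) :=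
          mul_le_mul h16 e2 hS2 (by norm_num)
      _ = (C₀ * L ^ (k₀ : ℝ) * W) * (16 * (C₂ * E * L ^ (k₂ : ℝ))) := by ring
      _ ≤ (C₀ * L ^ (k₀ : ℝ) * W) * (16 * (C₂ * E * M)) := mul_le_mul_of_nonneg_left this hP
      _ = _ := by ring
  have f3 : (128 / H) ^ (1 - θ) * S (fun _ _ => True) ≤
      (C₀ * L ^ (k₀ : ℝ) * W) * (128 * C₃ * E * M) := by
    have : 128 * E * (C₃ * L ^ (k₃ : ℝ)) ≤ 128 * E * (C₃ * M) :=
      mul_le_mul_of_nonneg_left (mul_le_mul_of_nonneg_left b3 (by positivity)) (by positivity)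
    calc (128 / H) ^ (1 - θ) * S (fun _ _ => True)
        ≤ (128 * E) * (C₀ * L ^ (k₀ : ℝ) * (C₃ * L ^ (k₃ : ℝ)) * W) :=
          mul_le_mul h128 e3 hS3 (by positivity)
      _ = (C₀ * L ^ (k₀ : ℝ) * W) * (128 * E * (C₃ * L ^ (k₃ : ℝ))) := by ring
      _ ≤ (C₀ * L ^ (k₀ : ℝ) * W) * (128 * E * (C₃ * M)) := mul_le_mul_of_nonneg_left this hP
      _ = _ := by ring
  calc psum (EdI H s z α β a b ψ₁ ψ₂ s₁ s₂) N f h
      ≤ X * (S (RO H s α β) + 16 ^ (1 - θ) * S (fun u v => BadB H s α u ∨ BadB H s β v) +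
        (128 / H) ^ (1 - θ) * S (fun _ _ => True)) := hmain
    _ ≤ X * ((C₀ * L ^ (k₀ : ℝ) * W) * (C₁ * E * M) + (C₀ * L ^ (k₀ : ℝ) * W) * (16 * C₂ * E * M) +
        (C₀ * L ^ (k₀ : ℝ) * W) * (128 * C₃ * E * M)) := by
        apply mul_le_mul_of_nonneg_left _ hX0
        linarith
    _ = C₀ * (C₁ + 16 * C₂ + 128 * C₃) * E * L ^ (k₀ + (k₁ + k₂ + k₃) : ℝ) * X *
          ((∑ q ∈ Icc 1 N, f q) * ∑ r ∈ Icc 1 N, h r) ^ θ := by
        rw [Real.rpow_add hL0 k₀ (k₁ + k₂ + k₃), ← hM, hW, hFs, hGs]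
        ring

end Vale.P028
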