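import Vale.Agent.P028.MathlibUsed
import Vale.Agent.P028.FDefs

/-!
# Scaling and subsets (auxiliary lemmas for Theorem F)
-/

namespace Vale.P028

open Finset MeasureTheory

theorem exists_subset_sum_half (T : Finset ℕ) (g : ℕ → ℝ) (hg : ∀ q ∈ T, 0 ≤ g q ∧ g q ≤ 1 / 2)
    (h : 1 / 2 < ∑ q ∈ T, g q) : ∃ T' ⊆ T, 1 / 2 < ∑ q ∈ T', g q ∧ ∑ q ∈ T', g q ≤ 1 := by
  classical
  induction T using Finset.induction_on with
  | empty =>
    rw [sum_empty] at h
    norm_num at h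
  | insert a T ha ih =>
    by_cases h1 : 1 / 2 < ∑ q ∈ T, g q
    · obtain ⟨T', hT', h2⟩ := ih (fun q hq => hg q (mem_insert_of_mem hq)) h1
      exact ⟨T', hT'.trans (subset_insert _ _), h2⟩
    · refine ⟨insert a T, Subset.refl _, h, ?_⟩
      rw [sum_insert ha]
      have := (hg a (mem_insert_self _ _)).2
      linarith only [this, not_lt.1 h1]

theorem GS_mul (γ x : ℝ) (n q : ℕ) (P : ℤ → Prop) :
    GS γ (n * q) x P = (fun y : ℝ => (n : ℝ) * y) ⁻¹' GS γ q x P := by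
  ext y
  simp only [GS, Set.mem_ofPred_eq, Set.mem_preimage]
  refine exists_congr fun al => and_congr_right fun _ => ?_
  have : ((n * q : ℕ) : ℝ) * y = (q : ℝ) * ((n : ℝ) * y) := by push_cast; ring
  rw [this]

theorem AC_add {c : ℕ → ℤ} {Ps : Finset ℕ} {q : ℕ} (h : ∀ p ∈ Ps, p ∣ q) (al : ℤ) :
    AC c Ps (al + q) ↔ AC c Ps al := by
  unfold AC
  refine forall₂_congr fun p hp => not_congr ?_
  have h1 : (p : ℤ) ∣ (q : ℤ) := Int.natCast_dvd_natCast.2 (h p hp)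
  have h2 : al + (q : ℤ) - c p = (al - c p) + q := by ring
  rw [h2]
  exact dvd_add_left h1

/-- the sifted sets have period one -/
theorem GC_periodic {γ x : ℝ} {c : ℕ → ℤ} {Ps : Finset ℕ} {q : ℕ} (h : ∀ p ∈ Ps, p ∣ q) (y : ℝ) :
    y + 1 ∈ GC γ x c Ps q ↔ y ∈ GC γ x c Ps q := by
  simp only [GC, GS, Set.mem_ofPred_eq]
  constructor
  · rintro ⟨al, h1, h2⟩
    refine ⟨al - q, ?_, ?_⟩
    · rw [← AC_add h]
      simpa using h1
    · have : (q : ℝ) * y - γ - ((al - q : ℤ) : ℝ) = (q : ℝ) * (y + 1) - γ - al := by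
        push_cast; ring
      rw [this]
      exact h2
  · rintro ⟨al, h1, h2⟩
    refine ⟨al + q, ?_, ?_⟩
    · rw [AC_add h]
      exact h1
    · have : (q : ℝ) * (y + 1) - γ - ((al + q : ℤ) : ℝ) = (q : ℝ) * y - γ - al := by
        push_cast; ring
      rw [this]
      exact h2

theorem periodic_volume {E : Set ℝ} (hE : MeasurableSet E) (hper : ∀ y : ℝ, y + 1 ∈ E ↔ y ∈ E)
    (n : ℕ) : volume (E ∩ Set.Ioc (0 : ℝ) n) = n * volume (E ∩ Set.Ioc (0 : ℝ) 1) := by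
  have hpern : ∀ (n : ℕ) (y : ℝ), y + n ∈ E ↔ y ∈ E := by
    intro n
    induction n with
    | zero => intro y; simp
    | succ n ih =>
      intro y
      have : y + ((n + 1 : ℕ) : ℝ) = (y + n) + 1 := by push_cast; ring
      rw [this, hper, ih]
  induction n with
  | zero => simp
  | succ n ih =>
    have h1 : E ∩ Set.Ioc (0 : ℝ) ((n + 1 : ℕ) : ℝ) =
        (E ∩ Set.Ioc (0 : ℝ) n) ∪ (E ∩ Set.Ioc (n : ℝ) ((n + 1 : ℕ) : ℝ)) := by
      rw [← Set.inter_union_distrib_left, Set.Ioc_union_Ioc_eq_Ioc (Nat.cast_nonneg n) (by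
        push_cast; linarith only [])]
    have h2 : Disjoint (E ∩ Set.Ioc (0 : ℝ) n) (E ∩ Set.Ioc (n : ℝ) ((n + 1 : ℕ) : ℝ)) := by
      rw [Set.disjoint_left]
      rintro y ⟨-, h3⟩ ⟨-, h4⟩
      exact absurd h3.2 (not_le.2 h4.1)
    have h3 : volume (E ∩ Set.Ioc (n : ℝ) ((n + 1 : ℕ) : ℝ)) = volume (E ∩ Set.Ioc (0 : ℝ) 1) := by
      have h4 := measure_preimage_add_right volume (n : ℝ)
        (E ∩ Set.Ioc (n : ℝ) ((n + 1 : ℕ) : ℝ))
      rw [← h4]
      congr 1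
      ext y
      simp only [Set.mem_preimage, Set.mem_inter_iff, Set.mem_Ioc, hpern]
      push_cast
      constructor
      · rintro ⟨a, b, c⟩
        exact ⟨a, by linarith only [b], by linarith only [c]⟩
      · rintro ⟨a, b, c⟩
        exact ⟨a, by linarith only [b], by linarith only [c]⟩
    rw [h1, measure_union h2 (hE.inter measurableSet_Ioc), ih, h3]
    push_cast
    ring

theorem scaled_volume {E : Set ℝ} (hE : MeasurableSet E) (hper : ∀ y : ℝ, y + 1 ∈ E ↔ y ∈ E)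
    {n : ℕ} (hn : 0 < n) :
    volume.real ((fun y : ℝ => (n : ℝ) * y) ⁻¹' E ∩ Set.Ioc (0 : ℝ) 1) =
      volume.real (E ∩ Set.Ioc (0 : ℝ) 1) := by
  have hnR : (0 : ℝ) < n := by exact_mod_cast hn
  have h1 : (fun y : ℝ => (n : ℝ) * y) ⁻¹' E ∩ Set.Ioc (0 : ℝ) 1 =
      (fun y : ℝ => (n : ℝ) * y) ⁻¹' (E ∩ Set.Ioc (0 : ℝ) n) := by
    ext y
    simp only [Set.mem_preimage, Set.mem_inter_iff, Set.mem_Ioc]
    refine and_congr_right fun _ => ?_
    constructor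
    · rintro ⟨a, b⟩
      exact ⟨by positivity, by nlinarith only [a, b, hnR]⟩
    · rintro ⟨a, b⟩
      refine ⟨by_contra fun h => ?_, by_contra fun h => ?_⟩
      · nlinarith only [h, a, hnR]
      · nlinarith only [h, b, hnR]
  rw [h1, Measure.real, Real.volume_preimage_mul_left hnR.ne', periodic_volume hE hper,
    Measure.real, abs_of_pos (inv_pos.2 hnR), ← mul_assoc]
  congr 1
  have : ENNReal.ofReal (n : ℝ)⁻¹ * (n : ENNReal) = 1 := by
    rw [← ENNReal.ofReal_natCast, ← ENNReal.ofReal_mul (inv_nonneg.2 hnR.le),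
      inv_mul_cancel₀ hnR.ne', ENNReal.ofReal_one]
  rw [this, one_mul]

theorem GC_scaled_volume (γ x x' : ℝ) (c c' : ℕ → ℤ) (Pa Pb : Finset ℕ) (q r : ℕ)
    (ha : ∀ p ∈ Pa, p ∣ q) (hb : ∀ p ∈ Pb, p ∣ r) {n : ℕ} (hn : 0 < n) :
    volume.real (GS γ (n * q) x (AC c Pa) ∩ GS γ (n * r) x' (AC c' Pb) ∩ Set.Ioc 0 1) =
      volume.real (GC γ x c Pa q ∩ GC γ x' c' Pb r ∩ Set.Ioc 0 1) := by
  rw [GS_mul, GS_mul, ← Set.preimage_inter]
  exact scaled_volume ((isOpen_GS _ _ _ _).measurableSet.inter (isOpen_GS _ _ _ _).measurableSet)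
    (fun y => by
      rw [Set.mem_inter_iff, Set.mem_inter_iff]
      exact and_congr (GC_periodic ha y) (GC_periodic hb y)) hn

end Vale.P028
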