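import Vale.Agent.P028.MDefs

/-!
P028, full question: energy of families of pairs in which the partner is determined by the gcd.

For `q = g u`, `r = g v` (`g` the gcd) the energy of the pair is at most
`f q * f r / (u * psi r) <= f q * (phi r / r) / u <= f q * phi g / q <= f q * phi (q / l) / q` for every
divisor `l` of `u`, and the sum of `phi (q / l)` over the divisors `l` of `q` is `q`. So if every pair
has a label `l` dividing `u` such that `(q, l)` determines `r`, then all the pairs together (all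
scales, any arcs) have energy at most `sum f`.
-/

namespace Vale.P028

open Finset

/-- `phi (g v) <= phi g * v`. -/
theorem totient_mul_le' (g v : ℕ) : Nat.totient (g * v) ≤ Nat.totient g * v := by
  rcases Nat.eq_zero_or_pos g with rfl | hg
  · simp
  rcases Nat.eq_zero_or_pos v with rfl | hv
  · simp
  have h1 : ((g * v).totient : ℚ) = g * v * ∏ p ∈ (g * v).primeFactors, (1 - (p : ℚ)⁻¹) := by
    rw [Nat.totient_eq_mul_prod_factors]
    push_cast
    rfl
  have h2 : (g.totient : ℚ) = g * ∏ p ∈ g.primeFactors, (1 - (p : ℚ)⁻¹) :=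
    Nat.totient_eq_mul_prod_factors g
  have h3 : ∏ p ∈ (g * v).primeFactors, (1 - (p : ℚ)⁻¹) ≤ ∏ p ∈ g.primeFactors, (1 - (p : ℚ)⁻¹) := by
    refine Finset.prod_le_prod_of_subset_of_le_one (Nat.primeFactors_mono (Dvd.intro v rfl)
      (Nat.mul_ne_zero hg.ne' hv.ne')) ?_ ?_
    · intro p hp
      have : (1 : ℚ) ≤ p := by exact_mod_cast (Nat.prime_of_mem_primeFactors hp).one_lt.le
      have := inv_le_one_of_one_le₀ this
      linarith
    · intro p hp _
      have : (0 : ℚ) ≤ (p : ℚ)⁻¹ := by positivity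
      linarith
  have h4 : ((g * v).totient : ℚ) ≤ (g.totient * v : ℕ) := by
    rw [h1]
    push_cast
    rw [h2]
    have : (0 : ℚ) ≤ g * v := by positivity
    calc (g : ℚ) * v * ∏ p ∈ (g * v).primeFactors, (1 - (p : ℚ)⁻¹)
        ≤ g * v * ∏ p ∈ g.primeFactors, (1 - (p : ℚ)⁻¹) := mul_le_mul_of_nonneg_left h3 this
      _ = _ := by ring
  exact_mod_cast h4

/-- One `q`, labels: every partner `r` has a label `l r` dividing the cofactor `q / gcd q r`, and the
label determines the partner. Then the cofactor weights sum to at most `1`. -/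
theorem label_one {q : ℕ} (hq : 0 < q) (T : Finset ℕ) (hT : ∀ r ∈ T, 0 < r) (l : ℕ → ℕ)
    (hl : ∀ r ∈ T, l r ∣ cofac q r) (hinj : Set.InjOn l T) :
    ∑ r ∈ T, (Nat.totient r : ℝ) / r / cofac q r ≤ 1 := by
  have hq' : (0 : ℝ) < q := by exact_mod_cast hq
  have hlq : ∀ r ∈ T, l r ∣ q := fun r hr =>
    (hl r hr).trans (Nat.div_dvd_of_dvd (Nat.gcd_dvd_left q r))
  have h1 : ∀ r ∈ T, (Nat.totient r : ℝ) / r / cofac q r ≤ (Nat.totient (q / l r) : ℝ) / q := by
    intro r hr
    have hr0 := hT r hr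
    set g := Nat.gcd q r with hg
    have hg0 : 0 < g := Nat.gcd_pos_of_pos_left _ hq
    obtain ⟨u, hu⟩ := Nat.gcd_dvd_left q r
    obtain ⟨v, hv⟩ := Nat.gcd_dvd_right q r
    rw [← hg] at hu hv
    have hu0 : 0 < u := Nat.pos_of_ne_zero fun h => by rw [h, mul_zero] at hu; omega
    have hv0 : 0 < v := Nat.pos_of_ne_zero fun h => by rw [h, mul_zero] at hv; omega
    have hc : cofac q r = u := by
      rw [cofac, ← hg, hu, Nat.mul_div_cancel_left _ hg0]
    have hlu : l r ∣ u := by rw [← hc]; exact hl r hr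
    obtain ⟨w, hw⟩ := hlu
    have hl0 : 0 < l r := Nat.pos_of_ne_zero fun h => by rw [h, zero_mul] at hw; omega
    have hw0 : 0 < w := Nat.pos_of_ne_zero fun h => by rw [h, mul_zero] at hw; omega
    have hql : q / l r = g * w := by
      rw [hu, hw, show g * (l r * w) = g * w * l r by ring, Nat.mul_div_cancel _ hl0]
    have h5 : g.totient ≤ (q / l r).totient := by
      rw [hql]
      exact Nat.le_of_dvd (Nat.totient_pos.2 (Nat.mul_pos hg0 hw0))
        (Nat.totient_dvd_of_dvd (Dvd.intro w rfl))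
    rw [hc, div_div, div_le_div_iff₀ (by positivity) hq']
    have h2 : ((r.totient : ℕ) : ℝ) ≤ (g.totient : ℝ) * v := by
      have := totient_mul_le' g v
      rw [← hv] at this
      exact_mod_cast this
    have h3 : (r : ℝ) = g * v := by rw [hv]; push_cast; ring
    have h4 : (q : ℝ) = g * u := by rw [hu]; push_cast; ring
    have h6 : (g.totient : ℝ) ≤ (q / l r).totient := by exact_mod_cast h5
    calc (r.totient : ℝ) * q ≤ (g.totient * v) * q := mul_le_mul_of_nonneg_right h2 hq'.le
      _ = g.totient * (r * u) := by rw [h3, h4]; ring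
      _ ≤ (q / l r).totient * (r * u) := mul_le_mul_of_nonneg_right h6 (by positivity)
  refine (sum_le_sum h1).trans ?_
  rw [← sum_div, div_le_one hq']
  have h2 : ∑ r ∈ T, (Nat.totient (q / l r) : ℝ) =
      ∑ d ∈ T.image l, (Nat.totient (q / d) : ℝ) :=
    (sum_image (f := fun d => (Nat.totient (q / d) : ℝ)) hinj).symm
  rw [h2]
  have h3 : T.image l ⊆ q.divisors := by
    intro d hd
    obtain ⟨r, hr, rfl⟩ := mem_image.1 hd
    exact Nat.mem_divisors.2 ⟨hlq r hr, hq.ne'⟩
  calc ∑ d ∈ T.image l, (Nat.totient (q / d) : ℝ)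
      ≤ ∑ d ∈ q.divisors, (Nat.totient (q / d) : ℝ) :=
        sum_le_sum_of_subset_of_nonneg h3 fun _ _ _ => by positivity
    _ = ∑ d ∈ q.divisors, (Nat.totient d : ℝ) :=
        Nat.sum_div_divisors q fun d => (Nat.totient d : ℝ)
    _ = q := by exact_mod_cast Nat.sum_totient q

open Classical in
/-- **Label principle.** If every pair of the relation `Rl` carries a label dividing the cofactor of
`q` and `(q, label)` determines `r`, all the pairs together (all scales, any arcs) have energy at most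
`sum f`. -/
theorem label_energy {N : ℕ} {ψ f : ℕ → ℝ} (h0 : ∀ q, 0 ≤ f q)
    (hf : ∀ q, f q ≤ ψ q * ((Nat.totient q : ℝ) / q)) (Rl : ℕ → ℕ → Prop) (l : ℕ → ℕ → ℕ)
    (hl : ∀ q r, Rl q r → l q r ∣ cofac q r)
    (huniq : ∀ q r r', Rl q r → Rl q r' → l q r = l q r' → r = r') :
    ∑ q ∈ Icc 1 N, ∑ r ∈ Icc 1 N, (if Rl q r then f q * f r / (cofac q r * ψ r) else 0) ≤
      ∑ q ∈ Icc 1 N, f q := by
  refine sum_le_sum fun q hq => ?_
  have hq1 := (mem_Icc.1 hq).1
  have h1 : ∀ r ∈ Icc 1 N, (if Rl q r then f q * f r / (cofac q r * ψ r) else 0) ≤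
      if Rl q r then f q * ((Nat.totient r : ℝ) / r / cofac q r) else 0 := by
    intro r hr
    split_ifs
    · have hr1 : 0 < r := (mem_Icc.1 hr).1
      have hc : (0 : ℝ) ≤ cofac q r := Nat.cast_nonneg _
      have ht : (0 : ℝ) < (Nat.totient r : ℝ) / r := by
        have := Nat.totient_pos.2 hr1
        positivity
      rcases lt_or_ge 0 (ψ r) with hψ | hψ
      · rw [mul_div_assoc]
        refine mul_le_mul_of_nonneg_left ?_ (h0 q)
        rcases eq_or_lt_of_le hc with hc0 | hc0
        · rw [← hc0]; simp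
        · rw [div_le_div_iff₀ (mul_pos hc0 hψ) hc0]
          calc f r * cofac q r ≤ (ψ r * ((Nat.totient r : ℝ) / r)) * cofac q r :=
                mul_le_mul_of_nonneg_right (hf r) hc
            _ = (Nat.totient r : ℝ) / r * (cofac q r * ψ r) := by ring
      · have hfr : f r = 0 := le_antisymm ((hf r).trans (mul_nonpos_of_nonpos_of_nonneg hψ ht.le)) (h0 r)
        rw [hfr, mul_zero, zero_div]
        exact mul_nonneg (h0 q) (div_nonneg ht.le hc)
    · exact le_rfl
  refine (sum_le_sum h1).trans ?_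
  rw [← sum_filter, ← mul_sum]
  have h2 := label_one hq1 ((Icc 1 N).filter fun r => Rl q r)
    (fun r hr => (mem_Icc.1 (mem_filter.1 hr).1).1) (l q)
    (fun r hr => hl q r (mem_filter.1 hr).2)
    (fun r hr r' hr' h => huniq q r r' (mem_filter.1 hr).2 (mem_filter.1 hr').2 h)
  calc f q * ∑ r ∈ (Icc 1 N).filter fun r => Rl q r, (Nat.totient r : ℝ) / r / cofac q r
      ≤ f q * 1 := mul_le_mul_of_nonneg_left h2 (h0 q)
    _ = f q := mul_one _

/-- Special case: the gcd determines the partner. -/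
theorem tel_energy {N : ℕ} {ψ f : ℕ → ℝ} (h0 : ∀ q, 0 ≤ f q)
    (hf : ∀ q, f q ≤ ψ q * ((Nat.totient q : ℝ) / q)) (Rl : ℕ → ℕ → Prop) [∀ q r, Decidable (Rl q r)]
    (huniq : ∀ q r r', Rl q r → Rl q r' → cofac q r = cofac q r' → r = r') :
    ∑ q ∈ Icc 1 N, ∑ r ∈ Icc 1 N, (if Rl q r then f q * f r / (cofac q r * ψ r) else 0) ≤
      ∑ q ∈ Icc 1 N, f q := by
  have h := label_energy (N := N) h0 hf Rl cofac (fun _ _ _ => dvd_rfl) huniq
  convert h

end Vale.P028
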