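import Vale.Agent.P028.MathlibUsed
import Vale.Agent.P028.KDefs
import Vale.Agent.P028.MT1

/-!
# Anatomy bound (weighted version of `T1`)
-/

namespace Vale.P028

open Finset

theorem LL_nonneg (T : ℝ) (n : ℕ) : 0 ≤ LL T n := sum_nonneg fun p _ => by positivity

theorem LL_mul_le (T : ℝ) {a m : ℕ} (ha : a ≠ 0) (hm : m ≠ 0) : LL T (a * m) ≤ LL T a + LL T m := by
  classical
  unfold LL
  rw [Nat.primeFactors_mul ha hm, filter_union]
  have h1 := sum_union_inter (s₁ := a.primeFactors.filter (fun p : ℕ => T < (p : ℝ)))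
    (s₂ := m.primeFactors.filter (fun p : ℕ => T < (p : ℝ))) (f := fun p : ℕ => 1 / (p : ℝ))
  have h2 : 0 ≤ ∑ p ∈ (a.primeFactors.filter (fun p : ℕ => T < (p : ℝ))) ∩
      (m.primeFactors.filter (fun p : ℕ => T < (p : ℝ))), 1 / (p : ℝ) :=
    sum_nonneg fun p _ => by positivity
  linarith only [h1, h2]

theorem LL_mul_pow_le (T : ℝ) {a p : ℕ} (ha : a ≠ 0) (hp : p.Prime) (l : ℕ) :
    LL T (a * p ^ l) ≤ LL T a + l * (if T < (p : ℝ) then 1 / (p : ℝ) else 0) := by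
  classical
  have hnn : 0 ≤ (if T < (p : ℝ) then 1 / (p : ℝ) else 0) := by split_ifs <;> positivity
  rcases Nat.eq_zero_or_pos l with rfl | hl
  · simp
  · refine (LL_mul_le T ha (pow_ne_zero _ hp.ne_zero)).trans ?_
    have h1 : LL T (p ^ l) = if T < (p : ℝ) then 1 / (p : ℝ) else 0 := by
      unfold LL
      rw [Nat.primeFactors_prime_pow hl.ne' hp, filter_singleton]
      split_ifs <;> simp
    rw [h1]
    have h2 : (1 : ℝ) ≤ l := by exact_mod_cast hl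
    nlinarith only [hnn, h2]

theorem sum_inv_sq_gt {T : ℝ} (hT : 2 ≤ T) (S : Finset ℕ) (hS : ∀ p ∈ S, T < (p : ℝ)) :
    ∑ p ∈ S, 1 / (p : ℝ) ^ 2 ≤ 2 / T := by
  classical
  set k : ℕ := ⌊T⌋₊ with hk
  have hkT : (k : ℝ) ≤ T := Nat.floor_le (by linarith only [hT])
  have hkT1 : T < k + 1 := Nat.lt_floor_add_one T
  have hk0 : k ≠ 0 := by
    intro h
    rw [h] at hkT1
    norm_num at hkT1
    linarith only [hT, hkT1]
  set n : ℕ := max k (S.sup id) with hn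
  have hsub : S ⊆ Ioc k n := by
    intro p hp
    rw [mem_Ioc]
    refine ⟨?_, (le_sup (f := id) hp).trans (le_max_right _ _)⟩
    have := hS p hp
    have h1 : (k : ℝ) < p := by linarith only [hkT, this]
    exact_mod_cast h1
  have h1 : ∑ p ∈ S, 1 / (p : ℝ) ^ 2 ≤ ∑ i ∈ Ioc k n, ((i : ℝ) ^ 2)⁻¹ := by
    simp_rw [one_div]
    exact sum_le_sum_of_subset_of_nonneg hsub fun p _ _ => by positivity
  have h2 := sum_Ioc_inv_sq_le_sub (α := ℝ) hk0 (le_max_left k (S.sup id))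
  rw [← hn] at h2
  have h3 : (0 : ℝ) ≤ (n : ℝ)⁻¹ := by positivity
  have h4 : (k : ℝ)⁻¹ ≤ 2 / T := by
    rw [inv_eq_one_div, div_le_div_iff₀ (by
      have : 0 < k := Nat.pos_of_ne_zero hk0
      exact_mod_cast this) (by linarith only [hT])]
    linarith only [hT, hkT1]
  linarith only [h1, h2, h3, h4]

/-- moment bound -/
theorem LL_moment {T : ℝ} (hT : 2 ≤ T) (M : ℕ) :
    ∑ m ∈ Icc 1 M, Real.exp (T * LL T m) ≤ Real.exp 4 * M := by
  classical
  have hT0 : 0 < T := by linarith only [hT]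
  set PM : Finset ℕ := (Icc 1 M).filter (fun p => p.Prime ∧ T < (p : ℝ)) with hPM
  have h1 : ∀ m ∈ Icc 1 M, Real.exp (T * LL T m) ≤
      ∑ s ∈ PM.powerset, if (∏ p ∈ s, p) ∣ m then ∏ p ∈ s, (2 * T / (p : ℝ)) else 0 := by
    intro m hm
    rw [mem_Icc] at hm
    set Q := m.primeFactors.filter (fun p : ℕ => T < (p : ℝ)) with hQ
    have hQsub : Q ⊆ PM := by
      intro p hp
      rw [hQ, mem_filter] at hp
      rw [hPM, mem_filter, mem_Icc]
      have hpp := Nat.prime_of_mem_primeFactors hp.1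
      exact ⟨⟨hpp.one_lt.le, (Nat.le_of_mem_primeFactors hp.1).trans hm.2⟩, hpp, hp.2⟩
    have e1 : Real.exp (T * LL T m) = ∏ p ∈ Q, Real.exp (T / p) := by
      unfold LL
      rw [← Real.exp_sum, mul_sum]
      congr 1
      refine sum_congr rfl fun p _ => ?_
      ring
    rw [e1]
    have e2 : ∏ p ∈ Q, Real.exp (T / p) ≤ ∏ p ∈ Q, (1 + 2 * T / (p : ℝ)) := by
      refine prod_le_prod (fun p _ => (Real.exp_pos _).le) fun p hp => ?_
      rw [hQ, mem_filter] at hp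
      have hp0 : (0 : ℝ) < p := by linarith only [hT, hp.2]
      have hx1 : T / p ≤ 1 := by
        rw [div_le_one hp0]
        exact hp.2.le
      have hx0 : 0 ≤ T / p := by positivity
      have h3 := Real.abs_exp_sub_one_sub_id_le (x := T / p) (by rw [abs_of_nonneg hx0]; exact hx1)
      have h4 := (abs_le.mp h3).2
      have e : 2 * T / (p : ℝ) = 2 * (T / p) := by ring
      rw [e]
      nlinarith only [hx1, hx0, h4]
    refine e2.trans ?_
    rw [prod_one_add]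
    rw [← sum_filter]
    apply sum_le_sum_of_subset_of_nonneg
    · intro s hs
      rw [mem_powerset] at hs
      rw [mem_filter, mem_powerset]
      refine ⟨hs.trans hQsub, ?_⟩
      have h5 : ∏ p ∈ s, p ∣ ∏ p ∈ m.primeFactors, p :=
        prod_dvd_prod_of_subset _ _ _ (hs.trans (filter_subset _ _))
      exact h5.trans (Nat.prod_primeFactors_dvd m)
    · intro s _ _
      exact prod_nonneg fun p _ => by positivity
  have h2 : ∑ m ∈ Icc 1 M, Real.exp (T * LL T m) ≤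
      ∑ s ∈ PM.powerset, (∏ p ∈ s, (2 * T / (p : ℝ))) * (M / ∏ p ∈ s, (p : ℝ)) := by
    refine (sum_le_sum h1).trans ?_
    rw [sum_comm]
    refine sum_le_sum fun s hs => ?_
    rw [mem_powerset] at hs
    rw [← sum_filter, sum_const, nsmul_eq_mul, mul_comm]
    have hs0 : 0 < ∏ p ∈ s, p := prod_pos fun p hp => by
      have := (mem_filter.1 (hs hp)).2.1
      exact this.pos
    apply mul_le_mul_of_nonneg_left _ (prod_nonneg fun p _ => by positivity)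
    have h6 : ((Icc 1 M).filter (fun m => (∏ p ∈ s, p) ∣ m)).card = M / ∏ p ∈ s, p := by
      have := Nat.Ioc_filter_dvd_card_eq_div M (∏ p ∈ s, p)
      rw [← this]
      congr 1
    rw [h6]
    refine Nat.cast_div_le.trans ?_
    rw [Nat.cast_prod]
  refine h2.trans ?_
  have h3 : ∑ s ∈ PM.powerset, (∏ p ∈ s, (2 * T / (p : ℝ))) * (M / ∏ p ∈ s, (p : ℝ)) =
      M * ∏ p ∈ PM, (1 + 2 * T / (p : ℝ) ^ 2) := by
    rw [prod_one_add, mul_sum]
    refine sum_congr rfl fun s _ => ?_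
    have : ∏ p ∈ s, (2 * T / (p : ℝ) ^ 2) = (∏ p ∈ s, (2 * T / (p : ℝ))) / ∏ p ∈ s, (p : ℝ) := by
      rw [← prod_div_distrib]
      refine prod_congr rfl fun p _ => ?_
      rw [div_div, sq]
    rw [this]
    ring
  rw [h3, mul_comm]
  apply mul_le_mul_of_nonneg_right _ (Nat.cast_nonneg _)
  calc ∏ p ∈ PM, (1 + 2 * T / (p : ℝ) ^ 2) ≤ ∏ p ∈ PM, Real.exp (2 * T / (p : ℝ) ^ 2) := by
        refine prod_le_prod (fun p _ => by positivity) fun p _ => ?_
        have := Real.add_one_le_exp (2 * T / (p : ℝ) ^ 2)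
        linarith only [this]
    _ = Real.exp (∑ p ∈ PM, 2 * T / (p : ℝ) ^ 2) := (Real.exp_sum _ _).symm
    _ ≤ Real.exp 4 := by
        apply Real.exp_le_exp.mpr
        have h5 := sum_inv_sq_gt hT PM (fun p hp => (mem_filter.1 hp).2.2)
        have h6 : ∑ p ∈ PM, 2 * T / (p : ℝ) ^ 2 = 2 * T * ∑ p ∈ PM, 1 / (p : ℝ) ^ 2 := by
          rw [mul_sum]
          refine sum_congr rfl fun p _ => ?_
          ring
        rw [h6]
        calc 2 * T * ∑ p ∈ PM, 1 / (p : ℝ) ^ 2 ≤ 2 * T * (2 / T) := by gcongr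
          _ = 4 := by field_simp; norm_num

/-- growth rate of the kernel -/
noncomputable def bT (T : ℝ) (p : ℕ) : ℝ := if T < (p : ℝ) then Real.exp (T / p) / p else 1 / p

theorem bT_bounds {T : ℝ} (hT : 2 ≤ T) {p : ℕ} (hp : p.Prime) :
    1 / (p : ℝ) ≤ bT T p ∧ bT T p ≤ 3 / p ∧ bT T p ≤ 10 / 11 ∧
      bT T p - 1 / p ≤ if T < (p : ℝ) then 2 * T / (p : ℝ) ^ 2 else 0 := by
  have hp0 : (0 : ℝ) < p := by exact_mod_cast hp.pos
  have hp2 : (2 : ℝ) ≤ p := by exact_mod_cast hp.two_le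
  unfold bT
  split_ifs with h
  · have hT0 : 0 < T := by linarith
    have hx0 : 0 < T / p := by positivity
    have hx1 : T / p ≤ 1 := by
      rw [div_le_one hp0]; exact h.le
    have he1 : 1 ≤ Real.exp (T / p) := Real.one_le_exp hx0.le
    have he2 : Real.exp (T / p) ≤ Real.exp 1 := Real.exp_le_exp.mpr hx1
    have he3 := Real.exp_one_lt_d9
    have hp3 : (3 : ℝ) ≤ p := by
      have : 2 < p := by exact_mod_cast (lt_of_le_of_lt hT h)
      exact_mod_cast this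
    refine ⟨?_, ?_, ?_, ?_⟩
    · gcongr
    · gcongr; linarith only [he2, he3]
    · rw [div_le_iff₀ hp0]; linarith only [he2, he3, hp3]
    · have h3 := Real.abs_exp_sub_one_sub_id_le (x := T / p) (by
        rw [abs_of_nonneg hx0.le]; exact hx1)
      have h4 := (abs_le.mp h3).2
      have h5 : Real.exp (T / p) - 1 ≤ 2 * (T / p) := by nlinarith only [hx0, hx1, h4]
      have e1 : Real.exp (T / p) / p - 1 / p = (Real.exp (T / p) - 1) / p := by ring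
      have e2 : 2 * T / (p : ℝ) ^ 2 = 2 * (T / p) / p := by
        rw [sq]; field_simp
      rw [e1, e2]
      gcongr
  · refine ⟨le_rfl, ?_, ?_, by simp⟩
    · gcongr; norm_num
    · rw [div_le_iff₀ hp0]; linarith only [hp2]

/-- Markov -/
theorem LL_count {T I : ℝ} (hT : 2 ≤ T) {a : ℕ} (ha : 0 < a) (M : ℕ) (R : ℕ → Prop)
    [DecidablePred R] (hR : ∀ m, R m → I ≤ LL T (a * m)) :
    (((Icc 1 M).filter R).card : ℝ) ≤
      Real.exp 4 * Real.exp (-(T * I)) * Real.exp (T * LL T a) * M := by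
  have hT0 : 0 < T := by linarith only [hT]
  have h1 : (((Icc 1 M).filter R).card : ℝ) ≤
      ∑ m ∈ Icc 1 M, Real.exp (-(T * I)) * Real.exp (T * LL T a) * Real.exp (T * LL T m) := by
    rw [card_filter, Nat.cast_sum]
    refine sum_le_sum fun m hm => ?_
    split_ifs with h
    · rw [mem_Icc] at hm
      have h2 := hR m h
      have h3 := LL_mul_le T ha.ne' (show m ≠ 0 by omega)
      rw [← Real.exp_add, ← Real.exp_add]
      push_cast
      apply Real.one_le_exp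
      nlinarith only [hT, h2, h3]
    · rw [Nat.cast_zero]
      positivity
  refine h1.trans ?_
  rw [← mul_sum]
  have h2 := LL_moment hT M
  calc Real.exp (-(T * I)) * Real.exp (T * LL T a) * ∑ m ∈ Icc 1 M, Real.exp (T * LL T m)
      ≤ Real.exp (-(T * I)) * Real.exp (T * LL T a) * (Real.exp 4 * M) := by gcongr
    _ = _ := by ring

/-- the kernel -/
noncomputable def KT (θ T I : ℝ) (a b : ℕ) : ℝ :=
  (16 * (Real.exp 4 * Real.exp (-(T * I)) * Real.exp (T * LL T a)) / ((a : ℝ) * b)) ^ (1 - θ)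

theorem KT_base {θ T I : ℝ} (hθ : 1 / 2 < θ) (hθ1 : θ < 1) (hT : 2 ≤ T) :
    BaseBound (fun u _ => I ≤ LL T u) θ (KT θ T I) := by
  classical
  intro a b ha hb ψ₁ ψ₂ f h s₁ s₂ N hs₁ hs₂ hf hh
  have ha' : (0 : ℝ) < a := by exact_mod_cast ha
  have hb' : (0 : ℝ) < b := by exact_mod_cast hb
  have h1 := base_trick (fun u _ => I ≤ LL T u) hθ hθ1
    (Real.exp 4 * Real.exp (-(T * I)) * Real.exp (T * LL T a)) (by positivity) a b ha hb (by
      intro q₀ r₀ hq₀ hr₀ _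
      have h2 := LL_count (I := I) hT ha q₀ (fun m => I ≤ LL T (a * m)) (fun m hm => hm)
      have h3 := card_filter_cl (fun _ : ℕ => I ≤ LL T (a * q₀)) r₀
      calc _ ≤ (Real.exp 4 * Real.exp (-(T * I)) * Real.exp (T * LL T a) * q₀) * r₀ :=
            mul_le_mul h2 h3 (by positivity) (by positivity)
        _ = _ := by ring) ψ₁ ψ₂ f h s₁ s₂ N hs₁ hs₂ hf hh
  refine h1.trans (le_of_eq ?_)
  congr 1
  unfold KT
  rw [← Real.mul_rpow (by positivity) (by positivity)]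
  congr 1
  field_simp

theorem KT_grow1 {θ T I : ℝ} (hθ1 : θ < 1) (hT : 2 ≤ T) {p : ℕ} (hp : p.Prime) (a b l : ℕ)
    (ha : 0 < a) (hb : 0 < b) :
    KT θ T I (a * p ^ l) b ≤ ((bT T p) ^ (1 - θ)) ^ l * KT θ T I a b := by
  have ha' : (0 : ℝ) < a := by exact_mod_cast ha
  have hb' : (0 : ℝ) < b := by exact_mod_cast hb
  have hp' : (0 : ℝ) < p := by exact_mod_cast hp.pos
  have hT0 : 0 < T := by linarith only [hT]
  have hb0 : 0 < bT T p := lt_of_lt_of_le (by positivity) (bT_bounds hT hp).1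
  have hl0 : 0 ≤ 1 - θ := by linarith only [hθ1]
  unfold KT
  rw [← Real.rpow_natCast, ← Real.rpow_mul hb0.le, mul_comm (1 - θ), Real.rpow_mul hb0.le,
    Real.rpow_natCast, ← Real.mul_rpow (by positivity) (by positivity)]
  apply Real.rpow_le_rpow (by positivity) _ hl0
  have h1 := LL_mul_pow_le T ha.ne' hp l
  have h2 : Real.exp (T * LL T (a * p ^ l)) ≤ Real.exp (T * LL T a) *
      (Real.exp (T * (if T < (p : ℝ) then 1 / (p : ℝ) else 0))) ^ l := by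
    rw [← Real.exp_nat_mul, ← Real.exp_add]
    apply Real.exp_le_exp.mpr
    nlinarith only [hT, h1]
  have h3 : Real.exp (T * (if T < (p : ℝ) then 1 / (p : ℝ) else 0)) = bT T p * p := by
    unfold bT
    split_ifs
    · rw [mul_one_div, div_mul_cancel₀ _ hp'.ne']
    · simp [hp'.ne']
  rw [h3, mul_pow] at h2
  calc 16 * (Real.exp 4 * Real.exp (-(T * I)) * Real.exp (T * LL T (a * p ^ l))) /
        (((a * p ^ l : ℕ) : ℝ) * b)
      ≤ 16 * (Real.exp 4 * Real.exp (-(T * I)) * (Real.exp (T * LL T a) *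
        (bT T p ^ l * (p : ℝ) ^ l))) / (((a * p ^ l : ℕ) : ℝ) * b) := by gcongr
    _ = bT T p ^ l * (16 * (Real.exp 4 * Real.exp (-(T * I)) * Real.exp (T * LL T a)) /
        ((a : ℝ) * b)) := by
        push_cast
        field_simp

theorem KT_grow2 {θ T I : ℝ} (hθ1 : θ < 1) (hT : 2 ≤ T) {p : ℕ} (hp : p.Prime) (a b l : ℕ)
    (ha : 0 < a) (hb : 0 < b) :
    KT θ T I a (b * p ^ l) ≤ ((bT T p) ^ (1 - θ)) ^ l * KT θ T I a b := by
  have ha' : (0 : ℝ) < a := by exact_mod_cast ha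
  have hb' : (0 : ℝ) < b := by exact_mod_cast hb
  have hp' : (0 : ℝ) < p := by exact_mod_cast hp.pos
  have hT0 : 0 < T := by linarith only [hT]
  have hb1 := (bT_bounds hT hp).1
  have hb0 : 0 < bT T p := lt_of_lt_of_le (by positivity) hb1
  have hl0 : 0 ≤ 1 - θ := by linarith only [hθ1]
  unfold KT
  rw [← Real.rpow_natCast, ← Real.rpow_mul hb0.le, mul_comm (1 - θ), Real.rpow_mul hb0.le,
    Real.rpow_natCast, ← Real.mul_rpow (by positivity) (by positivity)]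
  apply Real.rpow_le_rpow (by positivity) _ hl0
  have h1 : (1 / (p : ℝ)) ^ l ≤ bT T p ^ l := pow_le_pow_left₀ (by positivity) hb1 l
  calc 16 * (Real.exp 4 * Real.exp (-(T * I)) * Real.exp (T * LL T a)) /
        ((a : ℝ) * ((b * p ^ l : ℕ) : ℝ))
      = (1 / (p : ℝ)) ^ l * (16 * (Real.exp 4 * Real.exp (-(T * I)) * Real.exp (T * LL T a)) /
        ((a : ℝ) * b)) := by
        push_cast
        rw [one_div, inv_pow]
        field_simp
    _ ≤ _ := by gcongr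

theorem sum_eT (T : ℝ) (P : Finset ℕ) :
    ∑ p ∈ P, (if T < (p : ℝ) then 2 * T / (p : ℝ) ^ 2 else 0) =
      2 * T * ∑ p ∈ P.filter (fun p : ℕ => T < (p : ℝ)), 1 / (p : ℝ) ^ 2 := by
  rw [← sum_filter, mul_sum]
  refine sum_congr rfl fun p _ => ?_
  ring

theorem WT_cc {θ B₀ C b₂ M : ℝ} (hθ : 1 / 2 < θ) (hθ1 : θ < 1) (hC : 0 ≤ C)
    (hb₂1 : b₂ < 1) (hM : M = (1 + C) + (1 + b₂) / (1 - b₂))
    (hMb : 1 ≤ (1 + b₂) / (1 - b₂)) {T : ℝ} (hT : 2 ≤ T) {p : ℕ} (hp : p.Prime)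
    (h3 : 0 ≤ bT T p ^ (1 - θ)) (h4 : bT T p ^ (1 - θ) ≤ b₂) :
    (if bT T p ≤ B₀ then
      1 + 2 * (1 - θ) * (bT T p - 1 / p) + C * (bT T p) ^ (2 * θ)
      else (1 + bT T p ^ (1 - θ)) / (1 - bT T p ^ (1 - θ))) ≤
    (if 1 / (p : ℝ) ≤ B₀ / 3 then 1 + 9 * C * (1 / (p : ℝ)) ^ (2 * θ)
    else M) * Real.exp (if T < (p : ℝ) then 2 * T / (p : ℝ) ^ 2 else 0) := by
  obtain ⟨g1, g2, g3, g4⟩ := bT_bounds hT hp
  have hp0 : (0 : ℝ) < p := by exact_mod_cast hp.pos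
  have h6 : 0 < bT T p := lt_of_lt_of_le (by positivity) g1
  have he0 : (0 : ℝ) ≤ if T < (p : ℝ) then 2 * T / (p : ℝ) ^ 2 else 0 := by
    split_ifs
    · have : 0 < T := by linarith only [hT]
      positivity
    · exact le_rfl
  generalize (if T < (p : ℝ) then 2 * T / (p : ℝ) ^ 2 else 0) = e at g4 he0 ⊢
  have hexp1 := Real.add_one_le_exp e
  have hexp0 : 1 ≤ Real.exp e := Real.one_le_exp he0
  have hM0 : 1 ≤ M := by linarith only [hC, hM, hMb]
  have hb1 : bT T p ^ (2 * θ) ≤ 1 := Real.rpow_le_one h6.le (by linarith only [g3]) (by linarith only [hθ])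
  have hb9 : bT T p ^ (2 * θ) ≤ 9 * (1 / (p : ℝ)) ^ (2 * θ) := by
    calc bT T p ^ (2 * θ) ≤ (3 / (p : ℝ)) ^ (2 * θ) :=
          Real.rpow_le_rpow h6.le g2 (by linarith only [hθ])
      _ = (3 : ℝ) ^ (2 * θ) * (1 / (p : ℝ)) ^ (2 * θ) := by
          rw [← Real.mul_rpow (by norm_num) (by positivity)]
          congr 1
          ring
      _ ≤ (3 : ℝ) ^ (2 : ℝ) * (1 / (p : ℝ)) ^ (2 * θ) := by
          gcongr
          · norm_num
          · linarith only [hθ1]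
      _ = 9 * (1 / (p : ℝ)) ^ (2 * θ) := by norm_num
  have hdiff : 2 * (1 - θ) * (bT T p - 1 / p) ≤ e := by
    have h8 : 0 ≤ bT T p - 1 / (p : ℝ) := by linarith only [g1]
    nlinarith only [hθ, g1, g4]
  have hx9 : 0 ≤ (1 / (p : ℝ)) ^ (2 * θ) := by positivity
  by_cases h1 : 1 / (p : ℝ) ≤ B₀ / 3
  · have h2 : bT T p ≤ B₀ := by
      refine g2.trans ?_
      have : 3 / (p : ℝ) = 3 * (1 / (p : ℝ)) := by ring
      rw [this]; linarith only [h1]
    rw [if_pos h2, if_pos h1]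
    have h9 : C * bT T p ^ (2 * θ) ≤ C * (9 * (1 / (p : ℝ)) ^ (2 * θ)) :=
      mul_le_mul_of_nonneg_left hb9 hC
    have h10 : 0 ≤ 9 * C * (1 / (p : ℝ)) ^ (2 * θ) := by positivity
    nlinarith only [g1, g4, hexp1, hdiff, h9, h10]
  · rw [if_neg h1]
    by_cases h2 : bT T p ≤ B₀
    · rw [if_pos h2]
      have h9 : C * bT T p ^ (2 * θ) ≤ C * 1 := mul_le_mul_of_nonneg_left hb1 hC
      nlinarith only [hC, hM, hMb, g1, g4, hexp1, hdiff, h9]
    · rw [if_neg h2]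
      have h9 : (1 + bT T p ^ (1 - θ)) / (1 - bT T p ^ (1 - θ)) ≤ (1 + b₂) / (1 - b₂) := by
        apply div_le_div₀ <;> linarith only [h3, h4, hb₂1]
      nlinarith only [hC, hM, hMb, g1, g4, hexp1, h9]

theorem WT_prod {θ : ℝ} (hθ : 1 / 2 < θ) (hθ1 : θ < 1) :
    ∃ K > 0, ∀ T : ℝ, 2 ≤ T → ∃ c : ℕ → ℝ,
      (∀ p : ℕ, p.Prime → 0 ≤ c p ∧ SP θ ((bT T p) ^ (1 - θ)) (1 / (p : ℝ)) (c p)) ∧
      ∀ P : Finset ℕ, (∀ p ∈ P, p.Prime) → ∏ p ∈ P, c p ≤ K := by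
  classical
  obtain ⟨B₀, hB₀, C, hC, hB₀1, hSPs⟩ := SP_small hθ hθ1
  have hl0 : 0 < 1 - θ := by linarith only [hθ1]
  obtain ⟨b₂, hb₂⟩ : ∃ b₂ : ℝ, b₂ = (10 / 11 : ℝ) ^ (1 - θ) := ⟨_, rfl⟩
  have hb₂1 : b₂ < 1 := by rw [hb₂]; exact Real.rpow_lt_one (by norm_num) (by norm_num) hl0
  have hb₂0 : 0 < b₂ := by rw [hb₂]; positivity
  obtain ⟨M, hM⟩ : ∃ M : ℝ, M = (1 + C) + (1 + b₂) / (1 - b₂) := ⟨_, rfl⟩
  have hMb : 1 ≤ (1 + b₂) / (1 - b₂) := by
    rw [le_div_iff₀ (by linarith only [hb₂1])]; linarith only [hb₂0]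
  obtain ⟨K₀, hK₀, hprod⟩ := prod_bounded (θ := θ) (B₀ := B₀ / 3) (C := 9 * C) (M := M) hθ
    (by positivity) (by positivity) (by linarith only [hC, hM, hMb])
    (fun p => if 1 / (p : ℝ) ≤ B₀ / 3 then 1 + 9 * C * (1 / (p : ℝ)) ^ (2 * θ) else M) (by
      intro p _
      split_ifs
      · positivity
      · linarith only [hC, hM, hMb]) (by
      intro p _ h
      rw [if_pos h]) (by
      intro p _ h
      rw [if_neg h])
  refine ⟨K₀ * Real.exp 4, by positivity, ?_⟩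
  intro T hT
  have hT0 : 0 < T := by linarith only [hT]
  have hpinv : ∀ p : ℕ, p.Prime → 0 < 1 / (p : ℝ) ∧ 1 / (p : ℝ) ≤ 1 / 2 := by
    intro p hp
    have h2' : (2 : ℝ) ≤ p := by exact_mod_cast hp.two_le
    exact ⟨by positivity, one_div_le_one_div_of_le (by norm_num) h2'⟩
  have hbpos : ∀ p : ℕ, p.Prime → 0 < bT T p := fun p hp =>
    (hpinv p hp).1.trans_le (bT_bounds hT hp).1
  have hBp : ∀ p : ℕ, p.Prime → 0 ≤ bT T p ^ (1 - θ) ∧ bT T p ^ (1 - θ) ≤ b₂ := by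
    intro p hp
    rw [hb₂]
    exact ⟨Real.rpow_nonneg (hbpos p hp).le _,
      Real.rpow_le_rpow (hbpos p hp).le (bT_bounds hT hp).2.2.1 hl0.le⟩
  refine ⟨fun p => if bT T p ≤ B₀ then
    1 + 2 * (1 - θ) * (bT T p - 1 / p) + C * (bT T p) ^ (2 * θ)
    else (1 + bT T p ^ (1 - θ)) / (1 - bT T p ^ (1 - θ)), ?_, ?_⟩
  · intro p hp
    obtain ⟨h1, h2⟩ := hpinv p hp
    obtain ⟨h3, h4⟩ := hBp p hp
    have g1 := (bT_bounds hT hp).1
    have hbp := hbpos p hp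
    dsimp only
    by_cases h : bT T p ≤ B₀
    · rw [if_pos h]
      refine ⟨?_, hSPs (bT T p) (1 / (p : ℝ)) hbp h h1.le g1⟩
      have : 0 ≤ bT T p - 1 / (p : ℝ) := by linarith only [g1]
      positivity
    · rw [if_neg h]
      refine ⟨?_, SP_large hθ hθ1 h3 (lt_of_le_of_lt h4 hb₂1) h1.le (by linarith only [h2])⟩
      apply div_nonneg <;> linarith only [h3, hb₂1, h4]
  · intro P hP
    have hcc : ∀ p ∈ P, (if bT T p ≤ B₀ then
        1 + 2 * (1 - θ) * (bT T p - 1 / p) + C * (bT T p) ^ (2 * θ)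
        else (1 + bT T p ^ (1 - θ)) / (1 - bT T p ^ (1 - θ))) ≤
        (if 1 / (p : ℝ) ≤ B₀ / 3 then 1 + 9 * C * (1 / (p : ℝ)) ^ (2 * θ)
          else M) * Real.exp (if T < (p : ℝ) then 2 * T / (p : ℝ) ^ 2 else 0) :=
      fun p hp => WT_cc hθ hθ1 hC hb₂1 hM hMb hT (hP p hp) (hBp p (hP p hp)).1
        (hBp p (hP p hp)).2
    refine (prod_le_prod ?_ hcc).trans ?_
    · intro p hp
      have h3 := (hBp p (hP p hp)).1
      have h4 := (hBp p (hP p hp)).2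
      have g1 := (bT_bounds hT (hP p hp)).1
      have hbp := hbpos p (hP p hp)
      split_ifs
      · have : 0 ≤ bT T p - 1 / (p : ℝ) := by linarith only [g1]
        positivity
      · apply div_nonneg <;> linarith only [h3, hb₂1, h4]
    · rw [prod_mul_distrib, ← Real.exp_sum, sum_eT]
      apply mul_le_mul (hprod P hP) _ (Real.exp_pos _).le hK₀.le
      apply Real.exp_le_exp.mpr
      have h2 := sum_inv_sq_gt hT (P.filter (fun p : ℕ => T < (p : ℝ)))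
        (fun p hp => (mem_filter.1 hp).2)
      calc 2 * T * ∑ p ∈ P.filter (fun p : ℕ => T < (p : ℝ)), 1 / (p : ℝ) ^ 2
          ≤ 2 * T * (2 / T) := by gcongr
        _ = 4 := by field_simp; norm_num

theorem WT1 {θ : ℝ} (hθ : 1 / 2 < θ) (hθ1 : θ < 1) :
    ∃ C > 0, ∃ c > 0, ∀ (T I : ℝ), 2 ≤ T → 0 ≤ I →
      ∀ (ψ₁ ψ₂ f h : ℕ → ℝ) (s₁ s₂ : ℝ) (N : ℕ), 0 < s₁ → 0 < s₂ →
      (∀ q, 0 ≤ ψ₁ q) → (∀ q, 0 ≤ ψ₂ q) →
      (∀ q, 0 ≤ f q ∧ f q ≤ ψ₁ q * (q.totient / q)) →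
      (∀ r, 0 ≤ h r ∧ h r ≤ ψ₂ r * (r.totient / r)) →
      psum (fun q r => (cofac r q : ℝ) * ψ₁ q ≤ s₁ ∧ (cofac q r : ℝ) * ψ₂ r ≤ s₂ ∧
        I ≤ LL T (cofac q r)) N f h ≤
        C * Real.exp (-(c * T * I)) * (s₁ * s₂) ^ (1 - θ) *
          ((∑ q ∈ Icc 1 N, f q) * ∑ r ∈ Icc 1 N, h r) ^ θ := by
  classical
  obtain ⟨K₀, hK₀, hprod⟩ := WT_prod hθ hθ1
  have hl0 : 0 < 1 - θ := by linarith only [hθ1]
  refine ⟨K₀ * (16 * Real.exp 4) ^ (1 - θ), by positivity, 1 - θ, hl0, ?_⟩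
  intro T I hT hI ψ₁ ψ₂ f h s₁ s₂ N hs₁ hs₂ hψ₁ hψ₂ hf hh
  obtain ⟨c, hc, hcP⟩ := hprod T hT
  have hP : ∀ p ∈ (Icc 1 N).filter Nat.Prime, p.Prime := fun p hp => (mem_filter.1 hp).2
  have hF0 : 0 ≤ ∑ q ∈ Icc 1 N, f q := sum_nonneg fun q _ => (hf q).1
  have hH0 : 0 ≤ ∑ q ∈ Icc 1 N, h q := sum_nonneg fun q _ => (hh q).1
  have hKT0 : ∀ a b, 0 ≤ KT θ T I a b := by
    intro a b
    unfold KT
    positivity
  have hpinv : ∀ p : ℕ, p.Prime → 0 < 1 / (p : ℝ) ∧ 1 / (p : ℝ) < 1 := by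
    intro p hp
    have h2' : (2 : ℝ) ≤ p := by exact_mod_cast hp.two_le
    refine ⟨by positivity, ?_⟩
    rw [div_lt_one (by linarith only [h2'])]
    linarith only [h2']
  have hL := theoremL (fun u _ => I ≤ LL T u) hθ hθ1 (KT θ T I) hKT0 (KT_base hθ hθ1 hT)
    ((Icc 1 N).filter Nat.Prime) hP (fun p => bT T p ^ (1 - θ)) (fun p => 1 / (p : ℝ)) c
    (fun p hp => Real.rpow_nonneg ((hpinv p (hP p hp)).1.le.trans (bT_bounds hT (hP p hp)).1) _)
    (fun p hp => ⟨(hpinv p (hP p hp)).1.le, (hpinv p (hP p hp)).2⟩)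
    (fun p hp => (hc p (hP p hp)).1)
    (fun p hp a b l ha hb => KT_grow1 hθ1 hT (hP p hp) a b l ha hb)
    (fun p hp a b l ha hb => KT_grow2 hθ1 hT (hP p hp) a b l ha hb)
    (fun p hp => (hc p (hP p hp)).2) 1 1 one_pos one_pos ψ₁ ψ₂ f h s₁ s₂ N hs₁ hs₂ hψ₁ hψ₂
    (fun q => ⟨(hf q).1, (hf q).2.trans
      (mul_le_mul_of_nonneg_left (totient_weight_le _ hP q) (hψ₁ q))⟩)
    (fun q => ⟨(hh q).1, (hh q).2.trans
      (mul_le_mul_of_nonneg_left (totient_weight_le _ hP q) (hψ₂ q))⟩)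
  have hmono : psum (fun q r => (cofac r q : ℝ) * ψ₁ q ≤ s₁ ∧ (cofac q r : ℝ) * ψ₂ r ≤ s₂ ∧
      I ≤ LL T (cofac q r)) N f h ≤
      Lam (fun u _ => I ≤ LL T u) ((Icc 1 N).filter Nat.Prime) 1 1 ψ₁ ψ₂ s₁ s₂ N f h := by
    unfold Lam
    refine psum_mono _ _ N f h f h (fun q => (hf q).1) (fun q => (hh q).1) ?_
    intro q hq r hr hqr _
    refine ⟨⟨?_, ?_, ?_, ?_⟩, le_rfl⟩
    · intro p hp hpd
      rw [mem_Icc] at hq
      have h1 : p ∣ q := hpd.trans (Nat.gcd_dvd_left q r)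
      have h2 : p ≤ q := Nat.le_of_dvd (by omega) h1
      simp only [mem_filter, mem_Icc]
      exact ⟨⟨hp.one_lt.le, by omega⟩, hp⟩
    · simpa using hqr.2.2
    · simpa using hqr.1
    · simpa using hqr.2.1
  refine hmono.trans (hL.trans ?_)
  have hK11 : KT θ T I 1 1 = (16 * Real.exp 4) ^ (1 - θ) * Real.exp (-((1 - θ) * T * I)) := by
    unfold KT
    have h1 : LL T 1 = 0 := by
      unfold LL
      simp
    rw [h1, mul_zero, Real.exp_zero]
    have h2 : 16 * (Real.exp 4 * Real.exp (-(T * I)) * 1) / (((1 : ℕ) : ℝ) * ((1 : ℕ) : ℝ)) =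
        (16 * Real.exp 4) * Real.exp (-(T * I)) := by
      push_cast
      ring
    rw [h2, Real.mul_rpow (by positivity) (by positivity), ← Real.exp_mul]
    congr 2
    ring
  rw [hK11]
  have hprodle := hcP _ hP
  have h2 : 0 ≤ (s₁ * s₂) ^ (1 - θ) := by positivity
  have h3 : 0 ≤ ((∑ q ∈ Icc 1 N, f q) * ∑ r ∈ Icc 1 N, h r) ^ θ := by positivity
  have h4 : 0 ≤ (16 * Real.exp 4) ^ (1 - θ) * Real.exp (-((1 - θ) * T * I)) := by positivity
  generalize (∏ p ∈ (Icc 1 N).filter Nat.Prime, c p) = X1 at *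
  generalize ((∑ q ∈ Icc 1 N, f q) * ∑ r ∈ Icc 1 N, h r) ^ θ = X3 at *
  generalize (s₁ * s₂) ^ (1 - θ) = X2 at *
  generalize (16 * Real.exp 4) ^ (1 - θ) = X4 at *
  generalize Real.exp (-((1 - θ) * T * I)) = X5 at *
  calc X1 * X2 * (X4 * X5) * X3 = X1 * (X2 * (X4 * X5) * X3) := by ring
    _ ≤ K₀ * (X2 * (X4 * X5) * X3) := mul_le_mul_of_nonneg_right hprodle (by positivity)
    _ = K₀ * X4 * X5 * X2 * X3 := by ring

theorem WT1' {θ : ℝ} (hθ : 1 / 2 < θ) (hθ1 : θ < 1) :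
    ∃ C > 0, ∃ c > 0, ∀ (T I : ℝ), 2 ≤ T → 0 ≤ I →
      ∀ (ψ f : ℕ → ℝ) (s : ℝ) (N : ℕ), 0 < s → (∀ q, 0 ≤ ψ q) →
      (∀ q, 0 ≤ f q ∧ f q ≤ ψ q * (q.totient / q)) →
      psum (fun q r => (cofac r q : ℝ) * ψ q ≤ s ∧ (cofac q r : ℝ) * ψ r ≤ s ∧
        2 * I ≤ LL T (cofac q r * cofac r q)) N f f ≤
        C * Real.exp (-(c * T * I)) * s ^ (2 * (1 - θ)) * (∑ q ∈ Icc 1 N, f q) ^ (2 * θ) := by
  obtain ⟨C, hC, c, hc, hW⟩ := WT1 hθ hθ1
  refine ⟨2 * C, by positivity, c, hc, ?_⟩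
  intro T I hT hI ψ f s N hs hψ hf
  have hf0 : ∀ q, 0 ≤ f q := fun q => (hf q).1
  have hF0 : 0 ≤ ∑ q ∈ Icc 1 N, f q := sum_nonneg fun q _ => hf0 q
  have h1 := hW T I hT hI ψ ψ f f s s N hs hs hψ hψ hf hf
  have e1 : (s * s) ^ (1 - θ) = s ^ (2 * (1 - θ)) := by
    rw [← sq, ← Real.rpow_natCast, ← Real.rpow_mul hs.le]
    norm_num
  have e2 : ((∑ q ∈ Icc 1 N, f q) * ∑ r ∈ Icc 1 N, f r) ^ θ =
      (∑ q ∈ Icc 1 N, f q) ^ (2 * θ) := by
    rw [← sq, ← Real.rpow_natCast, ← Real.rpow_mul hF0]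
    norm_num
  rw [e1, e2] at h1
  set R₁ : ℕ → ℕ → Prop := fun q r => (cofac r q : ℝ) * ψ q ≤ s ∧ (cofac q r : ℝ) * ψ r ≤ s ∧
        I ≤ LL T (cofac q r) with hR₁
  have hswap : psum (fun q r => R₁ r q) N f f = psum R₁ N f f := by
    classical
    unfold psum
    rw [sum_comm]
    refine sum_congr rfl fun q _ => sum_congr rfl fun r _ => ?_
    rw [mul_comm]
  -- restrict to positive integers
  have hor : psum (fun q r => (cofac r q : ℝ) * ψ q ≤ s ∧ (cofac q r : ℝ) * ψ r ≤ s ∧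
        2 * I ≤ LL T (cofac q r * cofac r q)) N f f ≤
      psum R₁ N f f + psum (fun q r => R₁ r q) N f f := by
    classical
    unfold psum
    rw [← sum_add_distrib]
    refine sum_le_sum fun q hq => ?_
    rw [← sum_add_distrib]
    refine sum_le_sum fun r hr => ?_
    rw [mem_Icc] at hq hr
    have hnn : 0 ≤ f q * f r := mul_nonneg (hf0 q) (hf0 r)
    have hu : cofac q r ≠ 0 := (Nat.div_pos (Nat.gcd_le_left _ (by omega))
      (Nat.gcd_pos_of_pos_left _ (by omega))).ne'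
    have hv : cofac r q ≠ 0 := (Nat.div_pos (Nat.gcd_le_left _ (by omega))
      (Nat.gcd_pos_of_pos_left _ (by omega))).ne'
    have hLL := LL_mul_le T hu hv
    by_cases h : (cofac r q : ℝ) * ψ q ≤ s ∧ (cofac q r : ℝ) * ψ r ≤ s ∧
        2 * I ≤ LL T (cofac q r * cofac r q)
    · rw [if_pos h]
      obtain ⟨g1, g2, g3⟩ := h
      rcases le_or_gt I (LL T (cofac q r)) with g4 | g4
      · have : R₁ q r := ⟨g1, g2, g4⟩
        rw [if_pos this]
        split_ifs <;> linarith only [hnn]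
      · have : R₁ r q := ⟨g2, g1, by linarith only [hLL, g3, g4]⟩
        rw [if_pos this]
        split_ifs <;> linarith only [hnn]
    · rw [if_neg h]
      split_ifs <;> linarith only [hnn]
  rw [hswap] at hor
  linarith only [h1, hor]

end Vale.P028
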