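import Vale.Agent.P028.MathlibUsed
import Vale.Agent.P028.KAnat
import Vale.Agent.P028.BSel
import Vale.Agent.P028.MSums
import Vale.Agent.P028.Overlap
import Vale.Agent.P028.MDyadic
attribute [-instance] ProperSMul.toContinuousSMul IsTopologicalTorsor.toContinuousSMul IdemSemiring.toCanonicallyOrderedAdd IdemSemiring.toMulLeftMono IdemSemiring.toMulRightMono AddQuantale.instAddLeftMono AddQuantale.instAddRightMono Quantale.instMulLeftMono Quantale.instMulRightMono FiniteDimensional.rclike_to_real IsScalarTower.complexToReal FiniteDimensional.complexToReal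

/-!
# Anatomical factors
-/

namespace Vale.P028

open Finset

/-- `t_j = 2^(2^j)` -/
noncomputable def tj (j : ℕ) : ℝ := (2 : ℝ) ^ (2 ^ j)

theorem tj_succ (j : ℕ) : tj (j + 1) = tj j ^ 2 := by
  unfold tj
  rw [← pow_mul, pow_succ]

theorem tj_ge_two (j : ℕ) : 2 ≤ tj j := by
  unfold tj
  calc (2 : ℝ) = 2 ^ 1 := by norm_num
    _ ≤ 2 ^ (2 ^ j) := pow_le_pow_right₀ (by norm_num) Nat.one_le_two_pow

theorem tj_ge (j : ℕ) : (2 : ℝ) ^ j ≤ tj j := by
  unfold tj
  exact pow_le_pow_right₀ (by norm_num) Nat.lt_two_pow_self.le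

theorem tj_mono {i j : ℕ} (h : i ≤ j) : tj i ≤ tj j := by
  unfold tj
  exact pow_le_pow_right₀ (by norm_num) (Nat.pow_le_pow_right (by norm_num) h)

theorem exp_le_tj (b : ℝ) : ∃ C > 0, ∀ j : ℕ, Real.exp (b * j) ≤ C * tj j := by
  obtain ⟨M, hM⟩ : ∃ M : ℕ, Real.exp b ≤ (2 : ℝ) ^ M := by
    obtain ⟨M, hM⟩ := pow_unbounded_of_one_lt (Real.exp b) (by norm_num : (1 : ℝ) < 2)
    exact ⟨M, hM.le⟩
  have hl : 0 < Real.log 2 := Real.log_pos (by norm_num)
  refine ⟨(M.factorial : ℝ) / (Real.log 2) ^ M, by positivity, ?_⟩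
  intro j
  have h1 : tj j = Real.exp (Real.log 2 * 2 ^ j) := by
    unfold tj
    rw [← Real.rpow_natCast 2 (2 ^ j), Real.rpow_def_of_pos (by norm_num)]
    push_cast
    rfl
  have h2 := Real.pow_div_factorial_le_exp (Real.log 2 * 2 ^ j) (by (clear * -; positivity)) M
  rw [← h1, mul_pow] at h2
  have h3 : Real.exp (b * j) ≤ ((2 : ℝ) ^ j) ^ M := by
    rw [mul_comm, Real.exp_nat_mul, ← pow_mul, mul_comm j M, pow_mul]
    exact pow_le_pow_left₀ (Real.exp_pos _).le hM j
  have hlM : 0 < (Real.log 2) ^ M := by positivity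
  have hf : (0 : ℝ) < M.factorial := by exact_mod_cast Nat.factorial_pos M
  calc Real.exp (b * j) ≤ ((2 : ℝ) ^ j) ^ M := h3
    _ = (M.factorial : ℝ) / (Real.log 2) ^ M *
        ((Real.log 2) ^ M * ((2 : ℝ) ^ j) ^ M / M.factorial) := by field_simp
    _ ≤ (M.factorial : ℝ) / (Real.log 2) ^ M * tj j := by (clear * - h2; gcongr)

theorem exp_tj_decay {c : ℝ} (hc : 0 < c) (b : ℝ) : ∃ C > 0, ∀ j : ℕ,
    Real.exp (b * j) * tj j * Real.exp (-(c * tj j)) ≤ C * (1 / 2 : ℝ) ^ j := by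
  obtain ⟨M, hM⟩ : ∃ M : ℕ, Real.exp b ≤ (2 : ℝ) ^ M := by
    obtain ⟨M, hM⟩ := pow_unbounded_of_one_lt (Real.exp b) (by norm_num : (1 : ℝ) < 2)
    exact ⟨M, hM.le⟩
  refine ⟨((M + 2).factorial : ℝ) / c ^ (M + 2), by (clear * - hc; positivity), ?_⟩
  intro j
  have ht0 : 0 < tj j := by linarith only [tj_ge_two j]
  have h2 := Real.pow_div_factorial_le_exp (c * tj j) (by (clear * - hc ht0; positivity)) (M + 2)
  have hf : (0 : ℝ) < (M + 2).factorial := by exact_mod_cast Nat.factorial_pos (M + 2)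
  have h3 : Real.exp (b * j) ≤ ((2 : ℝ) ^ j) ^ M := by
    rw [mul_comm, Real.exp_nat_mul, ← pow_mul, mul_comm j M, pow_mul]
    exact pow_le_pow_left₀ (Real.exp_pos _).le hM j
  have h4 : Real.exp (-(c * tj j)) ≤ (M + 2).factorial / (c * tj j) ^ (M + 2) := by
    rw [Real.exp_neg, inv_le_comm₀ (Real.exp_pos _) (by positivity), inv_div]
    exact h2
  have h5 := tj_ge j
  have h6 : ((2 : ℝ) ^ j) ^ M * tj j * (2 : ℝ) ^ j ≤ tj j ^ (M + 2) := by
    calc ((2 : ℝ) ^ j) ^ M * tj j * (2 : ℝ) ^ j ≤ (tj j) ^ M * tj j * tj j := by gcongr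
      _ = tj j ^ (M + 2) := by ring
  have h7 : ((2 : ℝ) ^ j) ^ M * tj j ≤ tj j ^ (M + 2) * (1 / 2 : ℝ) ^ j := by
    have h8 : (0 : ℝ) < 2 ^ j := by positivity
    rw [one_div, inv_pow, ← div_eq_mul_inv, le_div_iff₀ h8]
    exact h6
  calc Real.exp (b * j) * tj j * Real.exp (-(c * tj j))
      ≤ ((2 : ℝ) ^ j) ^ M * tj j * ((M + 2).factorial / (c * tj j) ^ (M + 2)) := by (clear * - h3 ht0 h4; gcongr)
    _ ≤ (tj j ^ (M + 2) * (1 / 2 : ℝ) ^ j) * ((M + 2).factorial / (c * tj j) ^ (M + 2)) := by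
        gcongr
    _ = _ := by
        rw [mul_pow]
        field_simp

theorem LL_anti {T T' : ℝ} (h : T ≤ T') (n : ℕ) : LL T' n ≤ LL T n := by
  unfold LL
  apply sum_le_sum_of_subset_of_nonneg
  · intro p hp
    rw [mem_filter] at hp ⊢
    exact ⟨hp.1, h.trans_lt hp.2⟩
  · intro p _ _
    positivity

theorem LL_eq_zero {T : ℝ} {n : ℕ} (h : (n : ℝ) ≤ T) : LL T n = 0 := by
  unfold LL
  rw [filter_eq_empty_iff.mpr, sum_empty]
  intro p hp hlt
  have := Nat.le_of_mem_primeFactors hp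
  have h2 : (p : ℝ) ≤ n := by exact_mod_cast this
  linarith only [h, hlt, h2]

/-- Mertens between `x` and `x ^ 2`. -/
theorem LL_step : ∃ C₁ > 0, ∀ (x : ℝ) (n : ℕ), 2 ≤ x → LL x n ≤ LL (x ^ 2) n + C₁ := by
  obtain ⟨C, hC, hM⟩ := Vale.Agent.P013.mertens_two
  have hl2 : 0 < Real.log 2 := Real.log_pos (by norm_num)
  refine ⟨Real.log 4 + C / Real.log 2, by
    have : 0 < Real.log 4 := Real.log_pos (by norm_num)
    (clear * - hC; positivity), ?_⟩
  intro x n hx
  classical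
  set a : ℕ := ⌊x⌋₊ with ha
  have ha2 : 2 ≤ a := Nat.le_floor (by exact_mod_cast hx)
  have hax : (a : ℝ) ≤ x := Nat.floor_le (by linarith only [hx])
  have hax1 : x < a + 1 := Nat.lt_floor_add_one x
  have ha2' : (2 : ℝ) ≤ a := by exact_mod_cast ha2
  have haz : a ≤ a ^ 4 := Nat.le_self_pow (by norm_num) a
  have h1 := hM a (a ^ 4) ha2 haz
  have hla : Real.log 2 ≤ Real.log a := Real.log_le_log (by norm_num) ha2'
  have h2 : Real.log (Real.log ((a ^ 4 : ℕ) : ℝ)) - Real.log (Real.log a) = Real.log 4 := by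
    push_cast
    rw [Real.log_pow, Real.log_mul (by norm_num) (by linarith only [hl2, hla])]
    push_cast
    ring
  have h3 : C / Real.log a ≤ C / Real.log 2 := by gcongr
  have h4 : LL x n - LL (x ^ 2) n ≤ ∑ p ∈ (Ico a (a ^ 4)).filter Nat.Prime, 1 / (p : ℝ) := by
    unfold LL
    have hxx : x ≤ x ^ 2 := by nlinarith only [hx]
    have e : n.primeFactors.filter (fun p : ℕ => x < (p : ℝ)) =
        n.primeFactors.filter (fun p : ℕ => x ^ 2 < (p : ℝ)) ∪
        (n.primeFactors.filter (fun p : ℕ => x < (p : ℝ) ∧ (p : ℝ) ≤ x ^ 2)) := by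
      ext p
      simp only [mem_filter, mem_union]
      constructor
      · rintro ⟨h, h'⟩
        rcases lt_or_ge (x ^ 2) (p : ℝ) with h'' | h''
        · exact Or.inl ⟨h, h''⟩
        · exact Or.inr ⟨h, h', h''⟩
      · rintro (⟨h, h'⟩ | ⟨h, h', h''⟩)
        · exact ⟨h, hxx.trans_lt h'⟩
        · exact ⟨h, h'⟩
    have hd : Disjoint (n.primeFactors.filter (fun p : ℕ => x ^ 2 < (p : ℝ)))
        (n.primeFactors.filter (fun p : ℕ => x < (p : ℝ) ∧ (p : ℝ) ≤ x ^ 2)) := by
      rw [disjoint_filter]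
      intro p _ h1 h2
      linarith only [h1, h2.2]
    rw [e, sum_union hd, add_sub_cancel_left]
    apply sum_le_sum_of_subset_of_nonneg
    · intro p hp
      rw [mem_filter] at hp ⊢
      obtain ⟨hp1, hp2, hp3⟩ := hp
      refine ⟨?_, Nat.prime_of_mem_primeFactors hp1⟩
      rw [mem_Ico]
      constructor
      · have : (a : ℝ) < p := by linarith only [hax, hp2]
        exact_mod_cast this.le
      · have h5 : (p : ℝ) < (a : ℝ) ^ 4 := by
          have : x ^ 2 < ((a : ℝ) + 1) ^ 2 := by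
            apply pow_lt_pow_left₀ hax1 (by linarith only [hx]) (by norm_num)
          have h6 : ((a : ℝ) + 1) ^ 2 ≤ (a : ℝ) ^ 4 := by
            have h7 : (a : ℝ) + 1 ≤ (a : ℝ) ^ 2 := by nlinarith only [ha2']
            calc ((a : ℝ) + 1) ^ 2 ≤ ((a : ℝ) ^ 2) ^ 2 := by (clear * - ha2 h7; gcongr)
              _ = (a : ℝ) ^ 4 := by ring
          linarith only [hp3, this, h6]
        exact_mod_cast h5
    · intro p _ _
      (clear * -; positivity)
  linarith only [h1, h2, h3, h4]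

theorem LL_steps {C₁ : ℝ} (hC₁ : 0 < C₁)
    (hstep : ∀ (x : ℝ) (n : ℕ), 2 ≤ x → LL x n ≤ LL (x ^ 2) n + C₁) (n i k : ℕ) :
    LL (tj i) n ≤ LL (tj (i + k)) n + k * C₁ := by
  induction k with
  | zero => simp
  | succ k ih =>
    have h1 := hstep (tj (i + k)) n (tj_ge_two _)
    rw [← tj_succ] at h1
    push_cast
    have : i + (k + 1) = i + k + 1 := by ring
    rw [this]
    linarith only [ih, h1]

/-- dichotomy -/
theorem LL_dich {C₁ : ℝ} (hC₁ : 0 < C₁)
    (hstep : ∀ (x : ℝ) (n : ℕ), 2 ≤ x → LL x n ≤ LL (x ^ 2) n + C₁) {n J : ℕ}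
    (hJ : (n : ℝ) ≤ tj J) (i : ℕ) :
    LL (tj i) n ≤ 10 ∨ ∃ j, i ≤ j ∧ j < J ∧ 10 ≤ LL (tj j) n ∧
      LL (tj i) n ≤ 10 + ((j : ℝ) + 1) * C₁ := by
  classical
  by_cases h : LL (tj i) n ≤ 10
  · exact Or.inl h
  · right
    push Not at h
    -- the largest `j` with `10 < LL (tj j) n`
    have hbd : ∀ j, 10 < LL (tj j) n → j < J := by
      intro j hj
      by_contra hne
      push Not at hne
      have : LL (tj j) n = 0 := LL_eq_zero (hJ.trans (tj_mono hne))
      linarith only [hj, this]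
    set T := (range J).filter (fun j => 10 < LL (tj j) n) with hT
    have hiT : i ∈ T := by
      rw [hT, mem_filter, mem_range]
      exact ⟨hbd i h, h⟩
    have hne : T.Nonempty := ⟨i, hiT⟩
    set j := T.max' hne with hj
    have hjT : j ∈ T := T.max'_mem hne
    have hij : i ≤ j := T.le_max' i hiT
    rw [hT, mem_filter, mem_range] at hjT
    have hj1 : LL (tj (j + 1)) n ≤ 10 := by
      by_contra hlt
      push Not at hlt
      have : j + 1 ∈ T := by
        rw [hT, mem_filter, mem_range]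
        exact ⟨hbd _ hlt, hlt⟩
      have := T.le_max' _ this
      omega
    refine ⟨j, hij, hjT.1, hjT.2.le, ?_⟩
    have h2 := LL_steps hC₁ hstep n i (j + 1 - i)
    have h3 : i + (j + 1 - i) = j + 1 := by omega
    rw [h3] at h2
    have h4 : ((j + 1 - i : ℕ) : ℝ) ≤ (j : ℝ) + 1 := by
      have : ((j + 1 - i : ℕ) : ℝ) ≤ ((j + 1 : ℕ) : ℝ) := by exact_mod_cast Nat.sub_le _ _
      push_cast at this
      exact this
    nlinarith only [hC₁, hj1, h2, h4]

theorem GT_le (D : ℝ) (n : ℕ) : GT D n ≤ Real.exp (2 * LL D n) := by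
  unfold GT LL
  exact bs_prod_le_exp _ fun p hp => Nat.prime_of_mem_primeFactors (mem_filter.1 hp).1

theorem GG_le (n : ℕ) : GG n ≤ Real.exp (1 + 2 * LL 2 n) := by
  classical
  unfold GG
  refine (bs_prod_le_exp _ fun p hp => Nat.prime_of_mem_primeFactors hp).trans ?_
  apply Real.exp_le_exp.mpr
  have h1 : ∑ p ∈ n.primeFactors, 1 / (p : ℝ) ≤ 1 / 2 + LL 2 n := by
    unfold LL
    rw [← sum_filter_add_sum_filter_not n.primeFactors (fun p : ℕ => (2 : ℝ) < (p : ℝ))]
    have h2 : ∑ p ∈ n.primeFactors.filter (fun p : ℕ => ¬ (2 : ℝ) < (p : ℝ)), 1 / (p : ℝ) ≤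
        1 / 2 := by
      have hsub : n.primeFactors.filter (fun p : ℕ => ¬ (2 : ℝ) < (p : ℝ)) ⊆ {2} := by
        intro p hp
        rw [mem_filter] at hp
        have hp2 := (Nat.prime_of_mem_primeFactors hp.1).two_le
        have hp3 : (p : ℝ) ≤ 2 := not_lt.mp hp.2
        have hp4 : p ≤ 2 := by exact_mod_cast hp3
        rw [mem_singleton]
        omega
      refine (sum_le_sum_of_subset_of_nonneg hsub fun p _ _ => by (clear * -; positivity)).trans ?_
      simp only [one_div, sum_singleton, Nat.cast_ofNat, Std.le_refl]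
    linarith only [h2]
  linarith only [h1]

theorem rpow_le_add_sq {F a : ℝ} (hF : 0 ≤ F) (ha : 1 ≤ a) (ha2 : a ≤ 2) : F ^ a ≤ F + F ^ 2 := by
  rcases le_or_gt F 1 with h | h
  · rcases hF.eq_or_lt with h0 | h0
    · rw [← h0, Real.zero_rpow (by linarith only [ha])]; simp
    · have : F ^ a ≤ F ^ (1 : ℝ) := Real.rpow_le_rpow_of_exponent_ge h0 h ha
      rw [Real.rpow_one] at this
      nlinarith only [this]
  · have : F ^ a ≤ F ^ (2 : ℝ) := Real.rpow_le_rpow_of_exponent_le h.le ha2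
    rw [Real.rpow_two] at this
    linarith only [h, this]

/-- the pairs with a large anatomy at the level `T` -/
def RJ (ψ : ℕ → ℝ) (s : ℝ) (j : ℕ) (q r : ℕ) : Prop :=
  (cofac r q : ℝ) * ψ q ≤ s ∧ (cofac q r : ℝ) * ψ r ≤ s ∧ 2 * 5 ≤ LL (tj j) (cofac q r * cofac r q)

theorem anat_level : ∃ C > 0, ∃ c > 0, ∀ (N : ℕ) (ψ f : ℕ → ℝ) (s : ℝ), 0 < s → (∀ q, 0 ≤ ψ q) →
    (∀ q, 0 ≤ f q ∧ f q ≤ ψ q * (q.totient / q)) → ∀ j : ℕ,
    psum (RJ ψ s j) N f f ≤ C * Real.exp (-(c * tj j)) * s ^ (1 / 2 : ℝ) *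
      ((∑ q ∈ Icc 1 N, f q) + (∑ q ∈ Icc 1 N, f q) ^ 2) := by
  obtain ⟨C, hC, c, hc, h⟩ := WT1' (θ := 3 / 4) (by norm_num) (by norm_num)
  refine ⟨C, hC, c * 5, by positivity, ?_⟩
  intro N ψ f s hs hψ hf j
  have hF0 : 0 ≤ ∑ q ∈ Icc 1 N, f q := sum_nonneg fun q _ => (hf q).1
  have h1 := h (tj j) 5 (tj_ge_two j) (by norm_num) ψ f s N hs hψ hf
  unfold RJ
  refine h1.trans ?_
  have e1 : (2 * (1 - 3 / 4) : ℝ) = 1 / 2 := by norm_num
  have e2 : -(c * tj j * 5) = -(c * 5 * tj j) := by ring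
  rw [e1, e2]
  have h2 : (∑ q ∈ Icc 1 N, f q) ^ (2 * (3 / 4) : ℝ) ≤
      (∑ q ∈ Icc 1 N, f q) + (∑ q ∈ Icc 1 N, f q) ^ 2 :=
    rpow_le_add_sq hF0 (by norm_num) (by norm_num)
  have h3 : 0 ≤ s ^ (1 / 2 : ℝ) := Real.rpow_nonneg hs.le _
  (clear * - h2 hC hs; gcongr)

theorem natCast_le_tj (n : ℕ) : (n : ℝ) ≤ tj n := by
  have h1 : (n : ℝ) ≤ 2 ^ n := by exact_mod_cast (Nat.lt_two_pow_self (n := n)).le
  exact h1.trans (tj_ge n)

theorem cofac_mul_le_sq {N q r : ℕ} (hq : q ∈ Icc 1 N) (hr : r ∈ Icc 1 N) :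
    ((cofac q r * cofac r q : ℕ) : ℝ) ≤ tj (N * N) := by
  rw [mem_Icc] at hq hr
  refine le_trans ?_ (natCast_le_tj _)
  have h1 : cofac q r ≤ N := (cofac_le r (by omega)).trans hq.2
  have h2 : cofac r q ≤ N := (cofac_le q (by omega)).trans hr.2
  exact_mod_cast Nat.mul_le_mul h1 h2

theorem sum_half_pow_le (J : ℕ) : ∑ j ∈ range J, (1 / 2 : ℝ) ^ j ≤ 2 := by
  have h := Summable.sum_le_tsum (range J) (fun j _ => by positivity) summable_geometric_two
  rw [tsum_geometric_two] at h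
  exact h

open Classical in
/-- exchange of summations -/
theorem kpv_pairs_le {N J : ℕ} {f : ℕ → ℝ} (hf : ∀ q, 0 ≤ f q) (G : ℕ → ℕ → ℝ) (E₀ : ℝ)
    (E : ℕ → ℝ) (R : ℕ → ℕ → ℕ → Prop)
    (h : ∀ q ∈ Icc 1 N, ∀ r ∈ Icc 1 N, G q r ≤ E₀ ∨ ∃ j ∈ range J, R j q r ∧ G q r ≤ E j)
    (hE₀ : 0 ≤ E₀) (hE : ∀ j, 0 ≤ E j) :
    ∑ q ∈ Icc 1 N, ∑ r ∈ Icc 1 N, f q * f r * G q r ≤
      E₀ * (∑ q ∈ Icc 1 N, f q) ^ 2 + ∑ j ∈ range J, E j * psum (R j) N f f := by
  have h1 : ∀ q ∈ Icc 1 N, ∀ r ∈ Icc 1 N, f q * f r * G q r ≤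
      E₀ * (f q * f r) + ∑ j ∈ range J, E j * (if R j q r then f q * f r else 0) := by
    intro q hq r hr
    have hnn : 0 ≤ f q * f r := mul_nonneg (hf q) (hf r)
    have hterm : ∀ j ∈ range J, 0 ≤ E j * (if R j q r then f q * f r else 0) := by
      intro j _
      refine mul_nonneg (hE j) ?_
      split_ifs
      · exact hnn
      · exact le_rfl
    rcases h q hq r hr with h2 | ⟨j, hj, hR, h2⟩
    · have := sum_nonneg hterm
      nlinarith
    · have h3 := single_le_sum hterm hj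
      rw [if_pos hR] at h3
      have h4 : 0 ≤ E₀ * (f q * f r) := by (clear * - hE₀ hnn; positivity)
      nlinarith only [hnn, h2, h3, h4]
  calc ∑ q ∈ Icc 1 N, ∑ r ∈ Icc 1 N, f q * f r * G q r
      ≤ ∑ q ∈ Icc 1 N, ∑ r ∈ Icc 1 N, (E₀ * (f q * f r) +
        ∑ j ∈ range J, E j * (if R j q r then f q * f r else 0)) :=
        sum_le_sum fun q hq => sum_le_sum fun r hr => h1 q hq r hr
    _ = _ := by
        simp_rw [sum_add_distrib]
        congr 1
        · rw [sq, sum_mul_sum, mul_sum]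
          simp_rw [mul_sum]
        · unfold psum
          simp_rw [mul_sum]
          rw [sum_comm]
          rw [← sum_comm]
          conv_lhs =>
            enter [2, q]
            rw [sum_comm]
          rw [sum_comm]

/-- anatomy sum over all pairs -/
theorem anat_sum : ∃ C > 0, ∀ (N : ℕ) (ψ f : ℕ → ℝ), (∀ q, 0 ≤ ψ q) →
    (∀ q, 0 ≤ f q ∧ f q ≤ ψ q * (q.totient / q)) →
    ∑ q ∈ Icc 1 N, ∑ r ∈ Icc 1 N, f q * f r *
      GT (max 2 (DD q r (ψ q) (ψ r))) (cofac q r * cofac r q) ≤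
      C * ((∑ q ∈ Icc 1 N, f q) + (∑ q ∈ Icc 1 N, f q) ^ 2) := by
  obtain ⟨C₁, hC₁, hstep⟩ := LL_step
  obtain ⟨C, hC, c, hc, hlev⟩ := anat_level
  obtain ⟨C₂, hC₂, hdec⟩ := exp_tj_decay hc (2 * C₁)
  refine ⟨Real.exp (20 + 2 * C₁) + Real.exp (20 + 4 * C₁) * C * C₂ * 2, by (clear * - hC hC₂; positivity), ?_⟩
  intro N ψ f hψ hf
  have hf0 : ∀ q, 0 ≤ f q := fun q => (hf q).1
  set F := ∑ q ∈ Icc 1 N, f q with hF
  have hF0 : 0 ≤ F := sum_nonneg fun q _ => hf0 q
  have hmain := kpv_pairs_le (N := N) (J := N * N) hf0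
    (fun q r => GT (max 2 (DD q r (ψ q) (ψ r))) (cofac q r * cofac r q))
    (Real.exp (20 + 2 * C₁)) (fun j => Real.exp (20 + 4 * C₁) * Real.exp (2 * C₁ * j))
    (fun j => RJ ψ (tj j) j) (by
      intro q hq r hr
      have hq0 : 0 < q := by rw [mem_Icc] at hq; omega
      have hr0 : 0 < r := by rw [mem_Icc] at hr; omega
      set D := DD q r (ψ q) (ψ r) with hD
      set D' := max 2 D with hD'
      set n := cofac q r * cofac r q with hn
      have hDv : (cofac r q : ℝ) * ψ q ≤ D := by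
        rw [hD, DD_eq q r hq0]
        refine le_trans (le_of_eq ?_) (le_max_left _ _)
        rw [cofac, Nat.gcd_comm]
      have hDu : (cofac q r : ℝ) * ψ r ≤ D := by
        rw [hD, DD_eq q r hq0]
        exact le_max_right _ _
      -- the first index `i` with `D' ≤ tj i`
      have hex : ∃ i : ℕ, D' ≤ tj i := by
        obtain ⟨i, hi⟩ := exists_nat_ge D'
        exact ⟨i, hi.trans (natCast_le_tj i)⟩
      classical
      set i := Nat.find hex with hi
      have hi1 : D' ≤ tj i := Nat.find_spec hex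
      have h2D : 2 ≤ D' := le_max_left _ _
      have hi2 : tj i ≤ D' ^ 2 := by
        rcases Nat.eq_zero_or_pos i with h0 | h0
        · rw [h0]
          unfold tj
          norm_num
          nlinarith only [h2D]
        · have h1 : ¬ D' ≤ tj (i - 1) := Nat.find_min hex (by omega)
          push Not at h1
          have h2 : i = (i - 1) + 1 := by omega
          rw [h2, tj_succ]
          have := tj_ge_two (i - 1)
          nlinarith only [h1, this]
      have hLi : LL D' n ≤ LL (tj i) n + C₁ := by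
        have h1 := hstep D' n h2D
        have h2 := LL_anti hi2 n
        linarith only [h1, h2]
      have hGT := GT_le D' n
      rcases LL_dich hC₁ hstep (cofac_mul_le_sq hq hr) i with h10 | ⟨j, hij, hjJ, hj10, hjL⟩
      · left
        refine hGT.trans (Real.exp_le_exp.mpr ?_)
        linarith only [hLi, h10]
      · right
        refine ⟨j, mem_range.mpr hjJ, ⟨?_, ?_, ?_⟩, ?_⟩
        · exact hDv.trans ((le_max_right _ _).trans (hi1.trans (tj_mono hij)))
        · exact hDu.trans ((le_max_right _ _).trans (hi1.trans (tj_mono hij)))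
        · linarith only [hj10]
        · refine hGT.trans ?_
          rw [← Real.exp_add]
          apply Real.exp_le_exp.mpr
          linarith only [hLi, hjL]) (by positivity) (fun j => by positivity)
  refine hmain.trans ?_
  have hsum : ∑ j ∈ range (N * N), (Real.exp (20 + 4 * C₁) * Real.exp (2 * C₁ * j)) *
      psum (RJ ψ (tj j) j) N f f ≤ Real.exp (20 + 4 * C₁) * C * C₂ * 2 * (F + F ^ 2) := by
    calc ∑ j ∈ range (N * N), (Real.exp (20 + 4 * C₁) * Real.exp (2 * C₁ * j)) *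
        psum (RJ ψ (tj j) j) N f f
        ≤ ∑ j ∈ range (N * N), Real.exp (20 + 4 * C₁) * C * C₂ * (F + F ^ 2) *
          (1 / 2 : ℝ) ^ j := by
          apply sum_le_sum
          intro j _
          have ht := tj_ge_two j
          have h1 := hlev N ψ f (tj j) (by linarith only [ht]) hψ hf j
          have h2 : (tj j) ^ (1 / 2 : ℝ) ≤ tj j := by
            calc (tj j) ^ (1 / 2 : ℝ) ≤ (tj j) ^ (1 : ℝ) :=
                  Real.rpow_le_rpow_of_exponent_le (by linarith only [ht]) (by norm_num)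
              _ = tj j := Real.rpow_one _
          have h3 := hdec j
          have hFF : 0 ≤ F + F ^ 2 := by (clear * - hF0; positivity)
          calc (Real.exp (20 + 4 * C₁) * Real.exp (2 * C₁ * j)) * psum (RJ ψ (tj j) j) N f f
              ≤ (Real.exp (20 + 4 * C₁) * Real.exp (2 * C₁ * j)) *
                (C * Real.exp (-(c * tj j)) * tj j * (F + F ^ 2)) := by
                have : psum (RJ ψ (tj j) j) N f f ≤
                    C * Real.exp (-(c * tj j)) * tj j * (F + F ^ 2) := by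
                  refine h1.trans ?_
                  (clear * - h2 hC hF0; gcongr)
                (clear * - this; gcongr)
            _ = Real.exp (20 + 4 * C₁) * C * (F + F ^ 2) *
                (Real.exp (2 * C₁ * j) * tj j * Real.exp (-(c * tj j))) := by ring
            _ ≤ Real.exp (20 + 4 * C₁) * C * (F + F ^ 2) * (C₂ * (1 / 2 : ℝ) ^ j) := by (clear * - h3 hC hF0; gcongr)
            _ = _ := by ring
      _ = Real.exp (20 + 4 * C₁) * C * C₂ * (F + F ^ 2) * ∑ j ∈ range (N * N), (1 / 2 : ℝ) ^ j := by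
          rw [mul_sum]
      _ ≤ Real.exp (20 + 4 * C₁) * C * C₂ * (F + F ^ 2) * 2 := by
          have := sum_half_pow_le (N * N)
          (clear * - this hC hC₂ hF0; gcongr)
      _ = _ := by ring
  have h5 : Real.exp (20 + 2 * C₁) * F ^ 2 ≤ Real.exp (20 + 2 * C₁) * (F + F ^ 2) := by
    gcongr
    linarith only [hF0]
  calc _ ≤ Real.exp (20 + 2 * C₁) * (F + F ^ 2) +
      Real.exp (20 + 4 * C₁) * C * C₂ * 2 * (F + F ^ 2) := add_le_add h5 hsum
    _ = _ := by ring

open Classical in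
theorem wsum_pairs_le {N : ℕ} {f : ℕ → ℝ} (hf : ∀ q, 0 ≤ f q) (G : ℕ → ℕ → ℝ) (E₀ : ℝ)
    (T : Finset ℕ) (E : ℕ → ℝ) (R₀ : ℕ → ℕ → Prop) (R : ℕ → ℕ → ℕ → Prop)
    (h : ∀ q ∈ Icc 1 N, ∀ r ∈ Icc 1 N, R₀ q r →
      (G q r ≤ E₀ ∨ ∃ j ∈ T, R j q r ∧ G q r ≤ E j))
    (hE₀ : 0 ≤ E₀) (hE : ∀ j, 0 ≤ E j) :
    wsum R₀ N f f G ≤
      E₀ * psum R₀ N f f + ∑ j ∈ T, E j * psum (R j) N f f := by
  have h1 : ∀ q ∈ Icc 1 N, ∀ r ∈ Icc 1 N, (if R₀ q r then f q * f r * G q r else 0) ≤
      E₀ * (if R₀ q r then f q * f r else 0) +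
        ∑ j ∈ T, E j * (if R j q r then f q * f r else 0) := by
    intro q hq r hr
    have hnn : 0 ≤ f q * f r := mul_nonneg (hf q) (hf r)
    have hterm : ∀ j ∈ T, 0 ≤ E j * (if R j q r then f q * f r else 0) := by
      intro j _
      refine mul_nonneg (hE j) ?_
      split_ifs
      · exact hnn
      · exact le_rfl
    have hs := sum_nonneg hterm
    by_cases hR₀ : R₀ q r
    · rw [if_pos hR₀, if_pos hR₀]
      rcases h q hq r hr hR₀ with h2 | ⟨j, hj, hR, h2⟩
      · nlinarith only [hs, hnn, h2]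
      · have h3 := single_le_sum hterm hj
        rw [if_pos hR] at h3
        have h4 : 0 ≤ E₀ * (f q * f r) := by (clear * - hE₀ hnn; positivity)
        nlinarith only [hnn, h2, h3, h4]
    · rw [if_neg hR₀, if_neg hR₀, mul_zero, zero_add]
      exact hs
  unfold wsum
  calc ∑ q ∈ Icc 1 N, ∑ r ∈ Icc 1 N, (if R₀ q r then f q * f r * G q r else 0)
      ≤ ∑ q ∈ Icc 1 N, ∑ r ∈ Icc 1 N, (E₀ * (if R₀ q r then f q * f r else 0) +
        ∑ j ∈ T, E j * (if R j q r then f q * f r else 0)) :=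
        sum_le_sum fun q hq => sum_le_sum fun r hr => h1 q hq r hr
    _ = _ := by
        simp_rw [sum_add_distrib]
        congr 1
        · unfold psum
          simp_rw [mul_sum]
        · unfold psum
          simp_rw [mul_sum]
          conv_lhs =>
            enter [2, q]
            rw [sum_comm]
          rw [sum_comm]

/-- inserting the anatomical factor -/
theorem GG_transfer {η : ℝ} (hη : 0 < η) : ∃ C > 0, ∀ (R : ℕ → ℕ → Prop) (s : ℝ) (N : ℕ)
    (ψ f : ℕ → ℝ), 0 < s → s ≤ 1 / 1000 → (∀ q, 0 ≤ ψ q) →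
    (∀ q, 0 ≤ f q ∧ f q ≤ ψ q * (q.totient / q)) →
    (∀ q r, R q r → (cofac r q : ℝ) * ψ q ≤ s ∧ (cofac q r : ℝ) * ψ r ≤ s) →
    wsum R N f f (fun q r => GG (cofac q r * cofac r q)) ≤
      C * s ^ (-η) * psum R N f f +
        C * s ^ 2 * ((∑ q ∈ Icc 1 N, f q) + (∑ q ∈ Icc 1 N, f q) ^ 2) := by
  obtain ⟨C₁, hC₁, hstep⟩ := LL_step
  obtain ⟨C, hC, c, hc, hlev⟩ := anat_level
  obtain ⟨C₂, hC₂, hdec⟩ := exp_tj_decay (half_pos hc) (4 * C₁)
  obtain ⟨C₃, hC₃, hgrow⟩ := exp_le_tj (2 * C₁ / η)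
  set K : ℝ := 4 / c with hK
  have hK0 : 0 < K := by positivity
  set A₁ : ℝ := Real.exp (21 + 2 * C₁) * (1 + (C₃ * K) ^ η) with hA₁
  set A₂ : ℝ := Real.exp (21 + 2 * C₁) * C * C₂ * 2 with hA₂
  have hA₁0 : 0 < A₁ := by positivity
  have hA₂0 : 0 < A₂ := by positivity
  refine ⟨A₁ + A₂, by positivity, ?_⟩
  intro R s N ψ f hs hs1 hψ hf hR
  have hf0 : ∀ q, 0 ≤ f q := fun q => (hf q).1
  set F := ∑ q ∈ Icc 1 N, f q with hF
  have hF0 : 0 ≤ F := sum_nonneg fun q _ => hf0 q
  set L := Real.log (1 / s) with hL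
  have hLs : L ≤ 1 / s := by
    have := Real.log_le_sub_one_of_pos (x := 1 / s) (by (clear * - hs; positivity))
    linarith only [this]
  have hL0 : 0 < L := Real.log_pos (by
    rw [lt_div_iff₀ hs]
    linarith only [hs1])
  have hsη : s ^ (-η) = (1 / s) ^ η := by
    rw [Real.rpow_neg hs.le, one_div, Real.inv_rpow hs.le]
  have hsη1 : 1 ≤ s ^ (-η) := by
    rw [hsη]
    apply Real.one_le_rpow _ hη.le
    rw [le_div_iff₀ hs]
    linarith only [hs1]
  -- the index `i`
  have hex : ∃ i : ℕ, K * L ≤ tj i := by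
    obtain ⟨i, hi⟩ := exists_nat_ge (K * L)
    exact ⟨i, hi.trans (natCast_le_tj i)⟩
  classical
  set i := Nat.find hex with hi
  have hi1 : K * L ≤ tj i := Nat.find_spec hex
  have hEi : Real.exp (21 + 2 * (i * C₁)) ≤ A₁ * s ^ (-η) := by
    rcases Nat.eq_zero_or_pos i with h0 | h0
    · rw [h0]
      have h1 : Real.exp (21 + 2 * ((0 : ℕ) * C₁)) ≤ Real.exp (21 + 2 * C₁) := by
        apply Real.exp_le_exp.mpr
        push_cast
        linarith only [hC₁]
      have h2 : 1 ≤ 1 + (C₃ * K) ^ η := by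
        have : 0 ≤ (C₃ * K) ^ η := by (clear * - hC₃ hc; positivity)
        linarith only [this]
      calc Real.exp (21 + 2 * ((0 : ℕ) * C₁)) ≤ Real.exp (21 + 2 * C₁) * 1 * 1 := by
            linarith only [h1]
        _ ≤ Real.exp (21 + 2 * C₁) * (1 + (C₃ * K) ^ η) * s ^ (-η) := by (clear * - h2 hsη1 hC₃ hc; gcongr)
    · have h1 : ¬ K * L ≤ tj (i - 1) := Nat.find_min hex (by omega)
      push Not at h1
      have h2 : (i : ℝ) = ((i - 1 : ℕ) : ℝ) + 1 := by
        have : i = (i - 1) + 1 := by omega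
        exact_mod_cast this
      have h3 := hgrow (i - 1)
      have h4 : Real.exp (2 * C₁ * ((i - 1 : ℕ) : ℝ)) ≤ (C₃ * K) ^ η * s ^ (-η) := by
        have e : Real.exp (2 * C₁ * ((i - 1 : ℕ) : ℝ)) =
            (Real.exp (2 * C₁ / η * ((i - 1 : ℕ) : ℝ))) ^ η := by
          rw [← Real.exp_mul]
          congr 1
          (clear * - hη hC₁; field_simp)
        rw [e, hsη, ← Real.mul_rpow (by positivity) (by positivity)]
        apply Real.rpow_le_rpow (Real.exp_pos _).le _ hη.le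
        calc Real.exp (2 * C₁ / η * ((i - 1 : ℕ) : ℝ)) ≤ C₃ * tj (i - 1) := h3
          _ ≤ C₃ * (K * L) := by (clear * - h1 hC₃; gcongr)
          _ ≤ C₃ * (K * (1 / s)) := by (clear * - hLs hc hC₃; gcongr)
          _ = C₃ * K * (1 / s) := by ring
      calc Real.exp (21 + 2 * (i * C₁)) = Real.exp (21 + 2 * C₁) *
            Real.exp (2 * C₁ * ((i - 1 : ℕ) : ℝ)) := by
            rw [← Real.exp_add, h2]
            congr 1
            ring
        _ ≤ Real.exp (21 + 2 * C₁) * ((C₃ * K) ^ η * s ^ (-η)) := by (clear * - h4; gcongr)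
        _ ≤ Real.exp (21 + 2 * C₁) * ((1 + (C₃ * K) ^ η) * s ^ (-η)) := by
            gcongr
            linarith only []
        _ = _ := by rw [hA₁]; ring
  have hmain := wsum_pairs_le (N := N) hf0
    (fun q r => GG (cofac q r * cofac r q)) (A₁ * s ^ (-η))
    ((range (N * N)).filter (fun j => i ≤ j))
    (fun j => Real.exp (21 + 2 * C₁) * Real.exp (4 * C₁ * j))
    R (fun j => RJ ψ s j) (by
      intro q hq r hr hqr
      set n := cofac q r * cofac r q with hn
      have hGG := GG_le n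
      have h2 : LL 2 n ≤ LL (tj i) n + i * C₁ := by
        have h := LL_steps hC₁ hstep n 0 i
        have e0 : tj 0 = 2 := by unfold tj; norm_num
        rw [zero_add, e0] at h
        exact h
      rcases LL_dich hC₁ hstep (cofac_mul_le_sq hq hr) i with h10 | ⟨j, hij, hjJ, hj10, hjL⟩
      · left
        refine hGG.trans (le_trans (Real.exp_le_exp.mpr ?_) hEi)
        linarith only [h2, h10]
      · right
        refine ⟨j, mem_filter.mpr ⟨mem_range.mpr hjJ, hij⟩,
          ⟨(hR q r hqr).1, (hR q r hqr).2, ?_⟩, ?_⟩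
        · linarith only [hj10]
        · refine hGG.trans ?_
          rw [← Real.exp_add]
          apply Real.exp_le_exp.mpr
          have h3 : (i : ℝ) ≤ j := by exact_mod_cast hij
          nlinarith only [hC₁, h2, hjL, h3]) (by (clear * - hC₃ hc hs; positivity)) (fun j => by positivity)
  refine hmain.trans ?_
  have hpR : 0 ≤ psum R N f f := psum_nonneg R N f f hf0 hf0
  have hFF : 0 ≤ F + F ^ 2 := by (clear * - hF0; positivity)
  have hsum : ∑ j ∈ (range (N * N)).filter (fun j => i ≤ j),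
      (Real.exp (21 + 2 * C₁) * Real.exp (4 * C₁ * j)) *
      psum (RJ ψ s j) N f f ≤ A₂ * s ^ 2 * (F + F ^ 2) := by
    calc ∑ j ∈ (range (N * N)).filter (fun j => i ≤ j),
        (Real.exp (21 + 2 * C₁) * Real.exp (4 * C₁ * j)) * psum (RJ ψ s j) N f f
        ≤ ∑ j ∈ (range (N * N)).filter (fun j => i ≤ j),
          Real.exp (21 + 2 * C₁) * C * C₂ * s ^ 2 * (F + F ^ 2) * (1 / 2 : ℝ) ^ j := by
          apply sum_le_sum
          intro j hj
          rw [mem_filter] at hj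
          have ht := tj_ge_two j
          have htj : K * L ≤ tj j := hi1.trans (tj_mono hj.2)
          have h1 := hlev N ψ f s hs hψ hf j
          have h2 : s ^ (1 / 2 : ℝ) ≤ 1 := Real.rpow_le_one hs.le (by linarith only [hs1]) (by norm_num)
          have h3 := hdec j
          have h4 : Real.exp (-(c * tj j)) ≤ Real.exp (-(c / 2 * tj j)) * s ^ 2 := by
            have e : s ^ 2 = Real.exp (-(2 * L)) := by
              rw [hL, one_div, Real.log_inv]
              rw [show -(2 * -Real.log s) = ((2 : ℕ) : ℝ) * Real.log s by push_cast; ring,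
                Real.exp_nat_mul, Real.exp_log hs]
            rw [e, ← Real.exp_add]
            apply Real.exp_le_exp.mpr
            have h5 : c / 2 * (K * L) ≤ c / 2 * tj j := by (clear * - htj hc; gcongr)
            have h6 : c / 2 * (K * L) = 2 * L := by
              rw [hK]; field_simp; ring
            linarith only [h5, h6]
          have h5 : psum (RJ ψ s j) N f f ≤
              C * (Real.exp (-(c / 2 * tj j)) * s ^ 2) * 1 * (F + F ^ 2) := by
            refine h1.trans ?_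
            (clear * - h4 hC h2 hs hF0; gcongr)
          have h6 : Real.exp (4 * C₁ * j) * Real.exp (-(c / 2 * tj j)) ≤
              C₂ * (1 / 2 : ℝ) ^ j := by
            refine le_trans ?_ h3
            have : Real.exp (4 * C₁ * j) * 1 ≤ Real.exp (4 * C₁ * j) * tj j := by
              gcongr
              linarith only [ht]
            have h7 := (Real.exp_pos (-(c / 2 * tj j))).le
            nlinarith only [this, h7]
          calc (Real.exp (21 + 2 * C₁) * Real.exp (4 * C₁ * j)) * psum (RJ ψ s j) N f f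
              ≤ (Real.exp (21 + 2 * C₁) * Real.exp (4 * C₁ * j)) *
                (C * (Real.exp (-(c / 2 * tj j)) * s ^ 2) * 1 * (F + F ^ 2)) := by (clear * - h5; gcongr)
            _ = Real.exp (21 + 2 * C₁) * C * s ^ 2 * (F + F ^ 2) *
                (Real.exp (4 * C₁ * j) * Real.exp (-(c / 2 * tj j))) := by ring
            _ ≤ Real.exp (21 + 2 * C₁) * C * s ^ 2 * (F + F ^ 2) *
                (C₂ * (1 / 2 : ℝ) ^ j) := by (clear * - h6 hC hs hF0; gcongr)
            _ = _ := by ring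
      _ ≤ ∑ j ∈ range (N * N),
          Real.exp (21 + 2 * C₁) * C * C₂ * s ^ 2 * (F + F ^ 2) * (1 / 2 : ℝ) ^ j := by
          apply sum_le_sum_of_subset_of_nonneg (filter_subset _ _)
          intro j _ _
          (clear * - hC hC₂ hs hF0; positivity)
      _ = Real.exp (21 + 2 * C₁) * C * C₂ * s ^ 2 * (F + F ^ 2) *
          ∑ j ∈ range (N * N), (1 / 2 : ℝ) ^ j := by
          rw [mul_sum]
      _ ≤ Real.exp (21 + 2 * C₁) * C * C₂ * s ^ 2 * (F + F ^ 2) * 2 := by
          have := sum_half_pow_le (N * N)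
          (clear * - this hC hC₂ hs hF0; gcongr)
      _ = _ := by rw [hA₂]; ring
  have h7 : A₁ * s ^ (-η) * psum R N f f ≤ (A₁ + A₂) * s ^ (-η) * psum R N f f := by
    gcongr
    linarith only [hA₂0]
  have h8 : A₂ * s ^ 2 * (F + F ^ 2) ≤ (A₁ + A₂) * s ^ 2 * (F + F ^ 2) := by
    gcongr
    linarith only [hA₁0]
  exact add_le_add h7 (hsum.trans h8)

end Vale.P028
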