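import Vale.Agent.P028.MathlibUsed
import Vale.Agent.P028.KPV
import Vale.Agent.P028.KDefs
import Vale.Agent.P028.MTensor
attribute [-instance] ProperSMul.toContinuousSMul IsTopologicalTorsor.toContinuousSMul IdemSemiring.toCanonicallyOrderedAdd IdemSemiring.toMulLeftMono IdemSemiring.toMulRightMono AddQuantale.instAddLeftMono AddQuantale.instAddRightMono Quantale.instMulLeftMono Quantale.instMulRightMono FiniteDimensional.rclike_to_real IsScalarTower.complexToReal FiniteDimensional.complexToReal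

/-!
# Sheets with vanishing form and different denominators
-/

namespace Vale.P028

open Finset

theorem kb_b1_le {b₁ b₂ : ℕ} (h : 3 / 16 * (b₁ : ℝ) ^ 4 ≤ b₂) :
    (b₁ : ℝ) ≤ 2 * (b₂ : ℝ) ^ (1 / 4 : ℝ) := by
  have hb0 : (0 : ℝ) ≤ b₂ := Nat.cast_nonneg _
  have h1 : ((b₂ : ℝ) ^ (1 / 4 : ℝ)) ^ 4 = b₂ := by
    rw [← Real.rpow_natCast, ← Real.rpow_mul hb0]
    norm_num
  have h2 : (b₁ : ℝ) ^ 4 ≤ (2 * (b₂ : ℝ) ^ (1 / 4 : ℝ)) ^ 4 := by
    rw [mul_pow, h1]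
    linarith only [h]
  exact le_of_pow_le_pow_left₀ (by norm_num) (by (clear * -; positivity)) h2

theorem kb_d_ge {b₁ b₂ : ℕ} (hb₁ : 0 < b₁) (hlt : b₁ < b₂) (h : 3 / 16 * (b₁ : ℝ) ^ 4 ≤ b₂) :
    (b₂ : ℝ) ^ (3 / 4 : ℝ) / 2 ≤ ((b₂ / Nat.gcd b₁ b₂ : ℕ) : ℝ) := by
  have hb2 : (0 : ℝ) < b₂ := by exact_mod_cast (by omega : 0 < b₂)
  have hb1 : (0 : ℝ) < b₁ := by exact_mod_cast hb₁
  have hg : 0 < Nat.gcd b₁ b₂ := Nat.gcd_pos_of_pos_left _ hb₁
  have hgR : (0 : ℝ) < Nat.gcd b₁ b₂ := by exact_mod_cast hg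
  have hgle : (Nat.gcd b₁ b₂ : ℝ) ≤ b₁ := by exact_mod_cast Nat.gcd_le_left _ hb₁
  rw [Nat.cast_div (Nat.gcd_dvd_right _ _) hgR.ne', le_div_iff₀ hgR]
  have h1 := kb_b1_le h
  have h2 : (b₂ : ℝ) ^ (3 / 4 : ℝ) * (b₂ : ℝ) ^ (1 / 4 : ℝ) = b₂ := by
    rw [← Real.rpow_add hb2]; norm_num
  calc (b₂ : ℝ) ^ (3 / 4 : ℝ) / 2 * (Nat.gcd b₁ b₂ : ℝ)
      ≤ (b₂ : ℝ) ^ (3 / 4 : ℝ) / 2 * (2 * (b₂ : ℝ) ^ (1 / 4 : ℝ)) :=
        mul_le_mul_of_nonneg_left (hgle.trans h1) (by (clear * - hb2; positivity))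
    _ = (b₂ : ℝ) ^ (3 / 4 : ℝ) * (b₂ : ℝ) ^ (1 / 4 : ℝ) := by ring
    _ = b₂ := h2

/-- the numerical bound at one level -/
theorem kb_level {x d e : ℝ} (hx : 1 ≤ x) (he : -4 ≤ e) (hd : x ^ (3 / 4 : ℝ) / 2 ≤ d) :
    x ^ (1 / 8 : ℝ) / x ^ e * (x ^ e * x ^ e / (d * 1)) ^ (31 / 64 : ℝ) ≤
      2 * x ^ (-(1 / 10) : ℝ) := by
  have hx0 : 0 < x := by linarith only [hx]
  have h34 : 0 < x ^ (3 / 4 : ℝ) := Real.rpow_pos_of_pos hx0 _
  have hd0 : 0 < d := by linarith only [hd, h34]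
  have hxe : 0 < x ^ e := Real.rpow_pos_of_pos hx0 _
  have h1 : x ^ e * x ^ e / (d * 1) ≤ 2 * x ^ (2 * e - 3 / 4) := by
    rw [mul_one, div_le_iff₀ hd0]
    have e1 : x ^ (2 * e - 3 / 4) = x ^ e * x ^ e / x ^ (3 / 4 : ℝ) := by
      rw [Real.rpow_sub hx0, two_mul, Real.rpow_add hx0]
    rw [e1]
    calc x ^ e * x ^ e = 2 * (x ^ e * x ^ e / x ^ (3 / 4 : ℝ)) * (x ^ (3 / 4 : ℝ) / 2) := by
          field_simp
      _ ≤ 2 * (x ^ e * x ^ e / x ^ (3 / 4 : ℝ)) * d :=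
          mul_le_mul_of_nonneg_left hd (by positivity)
  have h2 : (x ^ e * x ^ e / (d * 1)) ^ (31 / 64 : ℝ) ≤
      2 * x ^ ((2 * e - 3 / 4) * (31 / 64)) := by
    calc (x ^ e * x ^ e / (d * 1)) ^ (31 / 64 : ℝ)
        ≤ (2 * x ^ (2 * e - 3 / 4)) ^ (31 / 64 : ℝ) :=
          Real.rpow_le_rpow (by (clear * - hx hd0; positivity)) h1 (by norm_num)
      _ = (2 : ℝ) ^ (31 / 64 : ℝ) * x ^ ((2 * e - 3 / 4) * (31 / 64)) := by
          rw [Real.mul_rpow (by norm_num) (by positivity), ← Real.rpow_mul hx0.le]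
      _ ≤ 2 * x ^ ((2 * e - 3 / 4) * (31 / 64)) := by
          apply mul_le_mul_of_nonneg_right _ (by positivity)
          calc (2 : ℝ) ^ (31 / 64 : ℝ) ≤ (2 : ℝ) ^ (1 : ℝ) :=
                Real.rpow_le_rpow_of_exponent_le (by norm_num) (by norm_num)
            _ = 2 := Real.rpow_one 2
  calc x ^ (1 / 8 : ℝ) / x ^ e * (x ^ e * x ^ e / (d * 1)) ^ (31 / 64 : ℝ)
      ≤ x ^ (1 / 8 : ℝ) / x ^ e * (2 * x ^ ((2 * e - 3 / 4) * (31 / 64))) :=
        mul_le_mul_of_nonneg_left h2 (by positivity)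
    _ = 2 * x ^ (1 / 8 - e + (2 * e - 3 / 4) * (31 / 64)) := by
        rw [Real.rpow_add hx0, Real.rpow_sub hx0]; ring
    _ ≤ 2 * x ^ (-(1 / 10) : ℝ) := by
        apply mul_le_mul_of_nonneg_left _ (by norm_num)
        apply Real.rpow_le_rpow_of_exponent_le hx
        linarith only [he]

/-- the pairs with given denominators -/
theorem kb_pair : ∃ C > 0, ∀ (N : ℕ) (ψ f : ℕ → ℝ) (b₁ b₂ : ℕ), (∀ q, 0 ≤ ψ q) →
    (∀ q, 0 ≤ f q ∧ f q ≤ ψ q * (q.totient / q)) → 0 < b₁ → b₁ < b₂ →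
    3 / 16 * (b₁ : ℝ) ^ 4 ≤ b₂ →
    ∑ q ∈ Icc 1 N, ∑ r ∈ Icc 1 N, (if (b₂ / Nat.gcd b₁ b₂) ∣ cofac q r ∧
        1 < (b₂ : ℝ) ^ 4 * ψ q then f q * f r / DD q r (ψ q) (ψ r) else 0) ≤
      C * (b₂ : ℝ) ^ (-(1 / 10) : ℝ) * ((∑ q ∈ Icc 1 N, f q) + (∑ q ∈ Icc 1 N, f q) ^ 2) := by
  classical
  obtain ⟨C, hC, hT⟩ := T1div (θ := 33 / 64) (by norm_num) (by norm_num)
  refine ⟨82 * C + 1, by (clear * - hC; positivity), ?_⟩
  intro N ψ f b₁ b₂ hψ hf hb₁ hlt hgap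
  set F := ∑ q ∈ Icc 1 N, f q with hF
  have hF0 : 0 ≤ F := sum_nonneg fun q _ => (hf q).1
  set x : ℝ := (b₂ : ℝ) with hx
  have hx2 : 2 ≤ x := by rw [hx]; exact_mod_cast (by omega : 2 ≤ b₂)
  have hx0 : 0 < x := by linarith only [hx2]
  set d : ℕ := b₂ / Nat.gcd b₁ b₂ with hd
  have hdge : x ^ (3 / 4 : ℝ) / 2 ≤ (d : ℝ) := kb_d_ge hb₁ hlt hgap
  have hd0 : 0 < d := by
    have : (0 : ℝ) < d := lt_of_lt_of_le (by (clear * - hx2; positivity)) hdge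
    exact_mod_cast this
  set s : ℕ → ℝ := fun i => x ^ ((i : ℝ) / 8 - 4) with hs
  have hs0 : ∀ i, 0 < s i := fun i => Real.rpow_pos_of_pos hx0 _
  set E : ℕ → ℕ → ℕ → Prop := fun i q r => d ∣ cofac q r ∧ 1 ∣ cofac r q ∧
    (cofac r q : ℝ) * ψ q ≤ s i ∧ (cofac q r : ℝ) * ψ r ≤ s i with hE
  have hpt : ∀ q ∈ Icc 1 N, ∀ r ∈ Icc 1 N,
      (if d ∣ cofac q r ∧ 1 < x ^ 4 * ψ q then f q * f r / DD q r (ψ q) (ψ r) else 0) ≤
      (∑ i ∈ range 41, x ^ (1 / 8 : ℝ) / s i * (if E i q r then f q * f r else 0)) +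
        x⁻¹ * (f q * f r) := by
    intro q hq r hr
    have hq0 : 0 < q := (mem_Icc.mp hq).1
    have hff : 0 ≤ f q * f r := mul_nonneg (hf q).1 (hf r).1
    have hterm : ∀ i, 0 ≤ x ^ (1 / 8 : ℝ) / s i * (if E i q r then f q * f r else 0) := by
      intro i
      have := hs0 i
      split_ifs
      · (clear * - hx2 hff; positivity)
      · simp
    have hsum0 : 0 ≤ ∑ i ∈ range 41, x ^ (1 / 8 : ℝ) / s i *
        (if E i q r then f q * f r else 0) := sum_nonneg fun i _ => hterm i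
    split_ifs with hc
    · obtain ⟨hc1, hc2⟩ := hc
      have hr0 : 0 < r := (mem_Icc.mp hr).1
      have hv1 : (1 : ℝ) ≤ cofac r q := by exact_mod_cast cofac_pos q hr0
      have hDe : DD q r (ψ q) (ψ r) = max ((cofac r q : ℝ) * ψ q) ((cofac q r : ℝ) * ψ r) := by
        rw [DD_eq q r hq0]
        unfold cofac
        rw [Nat.gcd_comm r q]
      set D := DD q r (ψ q) (ψ r) with hD
      have hD1 : (cofac r q : ℝ) * ψ q ≤ D := by rw [hDe]; exact le_max_left _ _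
      have hD2 : (cofac q r : ℝ) * ψ r ≤ D := by rw [hDe]; exact le_max_right _ _
      have hψD : ψ q ≤ D := by
        calc ψ q = 1 * ψ q := (one_mul _).symm
          _ ≤ (cofac r q : ℝ) * ψ q := mul_le_mul_of_nonneg_right hv1 (hψ q)
          _ ≤ D := hD1
      have hs00 : s 0 = (x ^ 4)⁻¹ := by
        simp only [hs]
        rw [Nat.cast_zero, zero_div, zero_sub, Real.rpow_neg hx0.le]
        congr 1
        exact_mod_cast Real.rpow_natCast x 4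
      have hx4 : 0 < x ^ 4 := by (clear * - hx2; positivity)
      have hDs0 : s 0 ≤ D := by
        rw [hs00, inv_le_iff_one_le_mul₀ hx4]
        nlinarith only [hc2, hv1, hD1, hx4]
      have hD0 : 0 < D := lt_of_lt_of_le (hs0 0) hDs0
      rcases le_or_gt D x with hDx | hDx
      · have hex : ∃ i, D ≤ s i := ⟨40, by
          have : s 40 = x := by
            simp only [hs]
            norm_num
          rw [this]; exact hDx⟩
        have hi40 : Nat.find hex ≤ 40 := Nat.find_min' hex (by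
          have : s 40 = x := by
            simp only [hs]
            norm_num
          rw [this]; exact hDx)
        set i := Nat.find hex with hi
        have hiD : D ≤ s i := Nat.find_spec hex
        have hsi : s i ≤ x ^ (1 / 8 : ℝ) * D := by
          rcases Nat.eq_zero_or_pos i with h0 | hpos
          · rw [h0]
            have h18 : 1 ≤ x ^ (1 / 8 : ℝ) := Real.one_le_rpow (by linarith only [hx2]) (by norm_num)
            nlinarith only [hDs0, hD0, h18]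
          · have h1 : ¬ D ≤ s (i - 1) := Nat.find_min hex (by (clear * - hex hi40 hpos; omega))
            rw [not_le] at h1
            have h2 : s i = x ^ (1 / 8 : ℝ) * s (i - 1) := by
              simp only [hs]
              rw [← Real.rpow_add hx0]
              congr 1
              have : ((i - 1 : ℕ) : ℝ) = i - 1 := by
                rw [Nat.cast_sub hpos]; simp
              rw [this]; ring
            rw [h2]
            exact mul_le_mul_of_nonneg_left h1.le (by (clear * - hx2; positivity))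
        have hEi : E i q r := ⟨hc1, one_dvd _, hD1.trans hiD, hD2.trans hiD⟩
        have h3 : f q * f r / D ≤ x ^ (1 / 8 : ℝ) / s i * (if E i q r then f q * f r else 0) := by
          rw [if_pos hEi, div_le_iff₀ hD0]
          have h4 : 1 ≤ x ^ (1 / 8 : ℝ) / s i * D := by
            rw [div_mul_eq_mul_div, le_div_iff₀ (hs0 i), one_mul]
            exact hsi
          calc f q * f r = 1 * (f q * f r) := (one_mul _).symm
            _ ≤ (x ^ (1 / 8 : ℝ) / s i * D) * (f q * f r) := mul_le_mul_of_nonneg_right h4 hff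
            _ = _ := by ring
        have h5 : x ^ (1 / 8 : ℝ) / s i * (if E i q r then f q * f r else 0) ≤
            ∑ i ∈ range 41, x ^ (1 / 8 : ℝ) / s i * (if E i q r then f q * f r else 0) :=
          single_le_sum (f := fun i => x ^ (1 / 8 : ℝ) / s i * (if E i q r then f q * f r else 0))
            (fun i _ => hterm i) (mem_range.mpr (by omega))
        have h6 : 0 ≤ x⁻¹ * (f q * f r) := by (clear * - hx2 hff; positivity)
        linarith only [h3, h5, h6]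
      · have h3 : f q * f r / D ≤ x⁻¹ * (f q * f r) := by
          rw [div_eq_inv_mul]
          exact mul_le_mul_of_nonneg_right ((inv_le_inv₀ hD0 hx0).mpr hDx.le) hff
        linarith only [hsum0, h3]
    · (clear * - hx2 hff; positivity)
  have hsum : ∑ q ∈ Icc 1 N, ∑ r ∈ Icc 1 N, (if d ∣ cofac q r ∧ 1 < x ^ 4 * ψ q then
      f q * f r / DD q r (ψ q) (ψ r) else 0) ≤
      (∑ i ∈ range 41, x ^ (1 / 8 : ℝ) / s i * psum (E i) N f f) + x⁻¹ * F ^ 2 := by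
    refine (sum_le_sum fun q hq => sum_le_sum fun r hr => hpt q hq r hr).trans (le_of_eq ?_)
    simp only [sum_add_distrib]
    congr 1
    · unfold psum
      simp only [mul_sum]
      have hsw : ∀ g : ℕ → ℕ → ℕ → ℝ, ∑ q ∈ Icc 1 N, ∑ r ∈ Icc 1 N, ∑ i ∈ range 41, g q r i =
          ∑ i ∈ range 41, ∑ q ∈ Icc 1 N, ∑ r ∈ Icc 1 N, g q r i := by
        intro g
        have h1 : ∑ q ∈ Icc 1 N, ∑ r ∈ Icc 1 N, ∑ i ∈ range 41, g q r i =
            ∑ q ∈ Icc 1 N, ∑ i ∈ range 41, ∑ r ∈ Icc 1 N, g q r i :=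
          sum_congr rfl (fun q _ => sum_comm)
        rw [h1]
        exact sum_comm
      have h2 := hsw (fun q r i => x ^ (1 / 8 : ℝ) / s i * (if E i q r then f q * f r else 0))
      refine h2.trans ?_
      congr!
    · rw [hF, sq, sum_mul_sum, mul_sum]
      apply sum_congr rfl
      intro q _
      rw [mul_sum]
  have hps : ∀ i ∈ range 41, x ^ (1 / 8 : ℝ) / s i * psum (E i) N f f ≤
      2 * C * x ^ (-(1 / 10) : ℝ) * (F + F ^ 2) := by
    intro i _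
    have h1 : psum (E i) N f f ≤ C * (s i * s i / (d * ((1 : ℕ) : ℝ))) ^ (1 - 33 / 64 : ℝ) *
        (F * F) ^ (33 / 64 : ℝ) :=
      hT ψ ψ f f (s i) (s i) N d 1 (hs0 i) (hs0 i) hd0 one_pos hψ hψ hf hf
    have h2 : (F * F) ^ (33 / 64 : ℝ) ≤ F + F ^ 2 := by
      have h3 : (F * F) ^ (33 / 64 : ℝ) = F ^ (33 / 32 : ℝ) := by
        rw [← sq, ← Real.rpow_natCast, ← Real.rpow_mul hF0]
        norm_num
      rw [h3]
      rcases le_or_gt F 1 with h | h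
      · have h4 : F ^ (33 / 32 : ℝ) ≤ F ^ (1 : ℝ) :=
          Real.rpow_le_rpow_of_exponent_ge' hF0 h (by norm_num) (by norm_num)
        rw [Real.rpow_one] at h4
        nlinarith only [h4]
      · have h4 : F ^ (33 / 32 : ℝ) ≤ F ^ (2 : ℝ) :=
          Real.rpow_le_rpow_of_exponent_le h.le (by norm_num)
        rw [Real.rpow_two] at h4
        linarith only [h, h4]
    have h3 := kb_level (x := x) (d := d) (e := (i : ℝ) / 8 - 4) (by linarith only [hx2])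
      (by have : (0 : ℝ) ≤ (i : ℝ) / 8 := by (clear * -; positivity)
          linarith only [this]) hdge
    have hFF : 0 ≤ F + F ^ 2 := by (clear * - hF0; positivity)
    have e1 : (1 - 33 / 64 : ℝ) = 31 / 64 := by norm_num
    rw [e1, Nat.cast_one] at h1
    calc x ^ (1 / 8 : ℝ) / s i * psum (E i) N f f
        ≤ x ^ (1 / 8 : ℝ) / s i * (C * (s i * s i / (d * 1)) ^ (31 / 64 : ℝ) *
          (F * F) ^ (33 / 64 : ℝ)) := by
          apply mul_le_mul_of_nonneg_left h1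
          have := hs0 i
          (clear * - hx2; positivity)
      _ = C * (x ^ (1 / 8 : ℝ) / s i * (s i * s i / (d * 1)) ^ (31 / 64 : ℝ)) *
          (F * F) ^ (33 / 64 : ℝ) := by ring
      _ ≤ C * (2 * x ^ (-(1 / 10) : ℝ)) * (F + F ^ 2) := by
          apply mul_le_mul _ h2 (by (clear * - hF0; positivity)) (by (clear * - hC hx2; positivity))
          exact mul_le_mul_of_nonneg_left h3 hC.le
      _ = _ := by ring
  have hxinv : x⁻¹ ≤ x ^ (-(1 / 10) : ℝ) := by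
    rw [← Real.rpow_neg_one]
    exact Real.rpow_le_rpow_of_exponent_le (by linarith only [hx2]) (by norm_num)
  have hx10 : 0 < x ^ (-(1 / 10) : ℝ) := Real.rpow_pos_of_pos hx0 _
  calc ∑ q ∈ Icc 1 N, ∑ r ∈ Icc 1 N, (if d ∣ cofac q r ∧ 1 < x ^ 4 * ψ q then
      f q * f r / DD q r (ψ q) (ψ r) else 0)
      ≤ (∑ i ∈ range 41, x ^ (1 / 8 : ℝ) / s i * psum (E i) N f f) + x⁻¹ * F ^ 2 := hsum
    _ ≤ (∑ i ∈ range 41, 2 * C * x ^ (-(1 / 10) : ℝ) * (F + F ^ 2)) +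
        x ^ (-(1 / 10) : ℝ) * (F + F ^ 2) := by
        apply add_le_add (sum_le_sum hps)
        apply mul_le_mul hxinv (by linarith only [hF0]) (by (clear * -; positivity)) hx10.le
    _ = (82 * C + 1) * x ^ (-(1 / 10) : ℝ) * (F + F ^ 2) := by
        rw [sum_const, card_range]; simp only [nsmul_eq_mul]; push_cast; ring

theorem kb_values_double {γ : ℝ} {x y : ℝ} (h : Bq γ x < Bq γ y) : 2 * Bq γ x ≤ Bq γ y := by
  have hpos : 0 < Bq γ x := Bsel_pos _ _ _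
  have hy : Bad γ (1 / 1024) (Bq γ y) := by
    rcases Bsel_spec γ (1 / 1024) (min y (1 / 1024)) with h1 | h1
    · exfalso
      have : Bq γ y = 1 := h1
      omega
    · exact h1.1
  rcases Bsel_spec γ (1 / 1024) (min x (1 / 1024)) with h1 | h1
  · have h2 : Bq γ x = 1 := h1
    omega
  · exact Bad.two_mul_le (by norm_num) (by norm_num) h1.1 hy h

/-- the sum over the denominators -/
theorem kb_sum_values : ∃ K > 0, ∀ (𝓑 : Finset ℕ), (∀ b ∈ 𝓑, 0 < b) →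
    (∀ b ∈ 𝓑, ∀ b' ∈ 𝓑, b < b' → 2 * b ≤ b') → ∀ Y : ℝ, 0 < Y →
    ∑ b₂ ∈ 𝓑.filter (fun b₂ : ℕ => Y < (b₂ : ℝ)), ∑ b₁ ∈ 𝓑.filter (fun b₁ => b₁ < b₂),
      (b₂ : ℝ) ^ (-(1 / 10) : ℝ) ≤ K * Y ^ (-(1 / 20) : ℝ) := by
  classical
  set ρ : ℝ := (2 : ℝ) ^ (-(1 / 20) : ℝ) with hρ
  have hρ0 : 0 < ρ := Real.rpow_pos_of_pos (by norm_num) _
  have hρ1 : ρ < 1 := Real.rpow_lt_one_of_one_lt_of_neg (by norm_num) (by norm_num)
  have hsummable : Summable (fun k : ℕ => ((k : ℝ) + 1) * ρ ^ k) := by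
    have h1 : Summable (fun k : ℕ => (k : ℝ) ^ 1 * ρ ^ k) :=
      summable_pow_mul_geometric_of_norm_lt_one 1 (by rw [Real.norm_of_nonneg hρ0.le]; exact hρ1)
    have h2 : Summable (fun k : ℕ => ρ ^ k) := summable_geometric_of_lt_one hρ0.le hρ1
    refine (h1.add h2).congr fun k => ?_
    ring
  refine ⟨(∑' k : ℕ, ((k : ℝ) + 1) * ρ ^ k) + 1, by
    have : 0 ≤ ∑' k : ℕ, ((k : ℝ) + 1) * ρ ^ k := tsum_nonneg fun k => by positivity
    linarith only [this], ?_⟩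
  intro 𝓑 hpos hdouble Y hY
  have hinj : ∀ b ∈ 𝓑, ∀ b' ∈ 𝓑, b < b' → Nat.log 2 b < Nat.log 2 b' := by
    intro b hb b' hb' hlt
    have h1 := hdouble b hb b' hb' hlt
    have h2 : Nat.log 2 (b * 2) = Nat.log 2 b + 1 :=
      Nat.log_mul_base (by norm_num) (hpos b hb).ne'
    have h3 : Nat.log 2 (b * 2) ≤ Nat.log 2 b' := Nat.log_mono_right (by omega)
    omega
  have hY20 : 0 < Y ^ (-(1 / 20) : ℝ) := Real.rpow_pos_of_pos hY _
  have hb2 : ∀ b₂ ∈ 𝓑.filter (fun b₂ : ℕ => Y < (b₂ : ℝ)),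
      ∑ b₁ ∈ 𝓑.filter (fun b₁ => b₁ < b₂), (b₂ : ℝ) ^ (-(1 / 10) : ℝ) ≤
      Y ^ (-(1 / 20) : ℝ) * (((Nat.log 2 b₂ : ℕ) : ℝ) + 1) * ρ ^ (Nat.log 2 b₂) := by
    intro b₂ hb₂
    rw [mem_filter] at hb₂
    have hb0 : 0 < b₂ := hpos b₂ hb₂.1
    have hbR : (0 : ℝ) < b₂ := by exact_mod_cast hb0
    rw [sum_const, nsmul_eq_mul]
    have hcard : ((𝓑.filter (fun b₁ => b₁ < b₂)).card : ℝ) ≤ ((Nat.log 2 b₂ : ℕ) : ℝ) + 1 := by
      have h1 : (𝓑.filter (fun b₁ => b₁ < b₂)).card ≤ (range (Nat.log 2 b₂ + 1)).card := by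
        apply card_le_card_of_injOn (fun b => Nat.log 2 b)
        · intro b hb
          rw [mem_coe, mem_filter] at hb
          rw [mem_coe, mem_range]
          have h5 := Nat.log_mono_right (b := 2) hb.2.le
          show Nat.log 2 b < Nat.log 2 b₂ + 1
          omega
        · intro b hb b' hb' hbb
          rw [mem_coe, mem_filter] at hb hb'
          rcases lt_trichotomy b b' with h | h | h
          · have := hinj b hb.1 b' hb'.1 h
            simp only at hbb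
            omega
          · exact h
          · have := hinj b' hb'.1 b hb.1 h
            simp only at hbb
            omega
      rw [card_range] at h1
      exact_mod_cast h1
    have hpow : (b₂ : ℝ) ^ (-(1 / 10) : ℝ) ≤ Y ^ (-(1 / 20) : ℝ) * ρ ^ (Nat.log 2 b₂) := by
      have e1 : (b₂ : ℝ) ^ (-(1 / 10) : ℝ) = (b₂ : ℝ) ^ (-(1 / 20) : ℝ) * (b₂ : ℝ) ^ (-(1 / 20) : ℝ) := by
        rw [← Real.rpow_add hbR]; norm_num
      rw [e1]
      apply mul_le_mul _ _ (by (clear * - hb0; positivity)) hY20.le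
      · exact Real.rpow_le_rpow_of_nonpos hY hb₂.2.le (by norm_num)
      · have h2 : ((2 : ℝ) ^ (Nat.log 2 b₂)) ≤ b₂ := by
          exact_mod_cast Nat.pow_log_le_self 2 hb0.ne'
        calc (b₂ : ℝ) ^ (-(1 / 20) : ℝ) ≤ ((2 : ℝ) ^ (Nat.log 2 b₂)) ^ (-(1 / 20) : ℝ) :=
              Real.rpow_le_rpow_of_nonpos (by positivity) h2 (by norm_num)
          _ = ρ ^ (Nat.log 2 b₂) := by
              rw [hρ, ← Real.rpow_natCast, ← Real.rpow_natCast, ← Real.rpow_mul (by norm_num),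
                ← Real.rpow_mul (by norm_num), mul_comm]
    calc ((𝓑.filter (fun b₁ => b₁ < b₂)).card : ℝ) * (b₂ : ℝ) ^ (-(1 / 10) : ℝ)
        ≤ (((Nat.log 2 b₂ : ℕ) : ℝ) + 1) * (Y ^ (-(1 / 20) : ℝ) * ρ ^ (Nat.log 2 b₂)) :=
          mul_le_mul hcard hpow (by positivity) (by (clear * -; positivity))
      _ = _ := by ring
  refine (sum_le_sum hb2).trans ?_
  have hsum : ∑ b₂ ∈ 𝓑.filter (fun b₂ : ℕ => Y < (b₂ : ℝ)),
      (((Nat.log 2 b₂ : ℕ) : ℝ) + 1) * ρ ^ (Nat.log 2 b₂) ≤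
      ∑' k : ℕ, ((k : ℝ) + 1) * ρ ^ k := by
    rw [← sum_image (f := fun k : ℕ => ((k : ℝ) + 1) * ρ ^ k) (g := fun b => Nat.log 2 b)
      (s := 𝓑.filter (fun b₂ : ℕ => Y < (b₂ : ℝ)))]
    · exact hsummable.sum_le_tsum _ (fun k _ => by (clear * -; positivity))
    · intro b hb b' hb' hbb
      rw [mem_coe, mem_filter] at hb hb'
      rcases lt_trichotomy b b' with h | h | h
      · have := hinj b hb.1 b' hb'.1 h
        simp only at hbb
        omega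
      · exact h
      · have := hinj b' hb'.1 b hb.1 h
        simp only at hbb
        omega
  calc ∑ b₂ ∈ 𝓑.filter (fun b₂ : ℕ => Y < (b₂ : ℝ)),
        Y ^ (-(1 / 20) : ℝ) * (((Nat.log 2 b₂ : ℕ) : ℝ) + 1) * ρ ^ (Nat.log 2 b₂)
      = Y ^ (-(1 / 20) : ℝ) * ∑ b₂ ∈ 𝓑.filter (fun b₂ : ℕ => Y < (b₂ : ℝ)),
        (((Nat.log 2 b₂ : ℕ) : ℝ) + 1) * ρ ^ (Nat.log 2 b₂) := by
        rw [mul_sum]
        apply sum_congr rfl
        intro b _
        ring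
    _ ≤ Y ^ (-(1 / 20) : ℝ) * ((∑' k : ℕ, ((k : ℝ) + 1) * ρ ^ k) + 1) := by
        apply mul_le_mul_of_nonneg_left _ hY20.le
        linarith only [hsum]
    _ = _ := by ring

theorem bad_sum {δ : ℝ} (hδ : 0 < δ) : ∃ C X₀ : ℝ, 0 < C ∧ ∀ γ X : ℝ, X₀ ≤ X →
    ∀ (N : ℕ) (ψ f : ℕ → ℝ), (∀ q, 0 ≤ ψ q) → (∀ q, 0 ≤ f q ∧ f q ≤ ψ q * (q.totient / q)) →
    (∀ q, f q ≠ 0 → 0 < ψ q ∧ ψ q ≤ Real.exp (-(Real.log (Real.log X)) ^ (1 + δ))) →
    wsum (fun q r => Bq γ (ψ q) < Bq γ (ψ r) ∧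
        (Bq γ (ψ r) / Nat.gcd (Bq γ (ψ q)) (Bq γ (ψ r))) ∣ cofac q r) N f f
      (fun q r => (Real.log (Real.log X)) ^ 2 / DD q r (ψ q) (ψ r)) ≤
      C * ((∑ q ∈ Icc 1 N, f q) + (∑ q ∈ Icc 1 N, f q) ^ 2) := by
  classical
  obtain ⟨C, hC, hpair⟩ := kb_pair
  obtain ⟨K, hK, hval⟩ := kb_sum_values
  refine ⟨12800 * (C * K), Real.exp (Real.exp 1), by (clear * - hC hK; positivity), ?_⟩
  intro γ X hX N ψ f hψ hf hsupp
  set F := ∑ q ∈ Icc 1 N, f q with hF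
  have hF0 : 0 ≤ F := sum_nonneg fun q _ => (hf q).1
  have hFF : 0 ≤ F + F ^ 2 := by (clear * - hF0; positivity)
  set ℓ := Real.log (Real.log X) with hℓ
  have hX0 : 0 < X := lt_of_lt_of_le (Real.exp_pos _) hX
  have hlX : Real.exp 1 ≤ Real.log X := by
    have := Real.log_le_log (Real.exp_pos _) hX
    rwa [Real.log_exp] at this
  have hℓ1 : 1 ≤ ℓ := by
    have := Real.log_le_log (Real.exp_pos _) hlX
    rwa [Real.log_exp] at this
  set L := ℓ ^ (1 + δ) with hL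
  have hLℓ : ℓ ≤ L := by
    calc ℓ = ℓ ^ (1 : ℝ) := (Real.rpow_one _).symm
      _ ≤ L := Real.rpow_le_rpow_of_exponent_le hℓ1 (by linarith only [hδ])
  set Y : ℝ := Real.exp (L / 4) with hY
  have hY0 : 0 < Y := Real.exp_pos _
  set 𝓑 : Finset ℕ := (Icc 1 N).image (fun q => Bq γ (ψ q)) with h𝓑
  have hBpos : ∀ b ∈ 𝓑, 0 < b := by
    intro b hb
    rw [h𝓑, mem_image] at hb
    obtain ⟨q, _, rfl⟩ := hb
    exact Bsel_pos _ _ _
  have hBdouble : ∀ b ∈ 𝓑, ∀ b' ∈ 𝓑, b < b' → 2 * b ≤ b' := by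
    intro b hb b' hb' hlt
    rw [h𝓑, mem_image] at hb hb'
    obtain ⟨q, _, rfl⟩ := hb
    obtain ⟨r, _, rfl⟩ := hb'
    exact kb_values_double hlt
  -- the gap condition, as a decidable condition
  set G : ℕ → ℕ → ℕ → ℕ → ℝ := fun b₁ b₂ q r => (if (b₂ / Nat.gcd b₁ b₂) ∣ cofac q r ∧
        1 < (b₂ : ℝ) ^ 4 * ψ q then f q * f r / DD q r (ψ q) (ψ r) else 0) with hG
  have hDpos : ∀ q r, 0 ≤ DD q r (ψ q) (ψ r) := by
    intro q r
    rw [DD]
    apply div_nonneg _ (Nat.cast_nonneg _)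
    exact le_max_of_le_left (mul_nonneg (Nat.cast_nonneg _) (hψ q))
  have hG0 : ∀ b₁ b₂ q r, 0 ≤ G b₁ b₂ q r := by
    intro b₁ b₂ q r
    simp only [hG]
    split_ifs
    · exact div_nonneg (mul_nonneg (hf q).1 (hf r).1) (hDpos q r)
    · exact le_rfl
  set Gp : ℕ → ℕ → ℝ := fun b₁ b₂ => if 3 / 16 * (b₁ : ℝ) ^ 4 ≤ b₂ then
    ∑ q ∈ Icc 1 N, ∑ r ∈ Icc 1 N, G b₁ b₂ q r else 0 with hGp
  have hGple : ∀ b₁ b₂, 0 < b₁ → b₁ < b₂ →
      Gp b₁ b₂ ≤ C * (b₂ : ℝ) ^ (-(1 / 10) : ℝ) * (F + F ^ 2) := by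
    intro b₁ b₂ h1 h2
    simp only [hGp]
    split_ifs with h3
    · exact hpair N ψ f b₁ b₂ hψ hf h1 h2 h3
    · (clear * - hC hF0; positivity)
  have hpt : ∀ q ∈ Icc 1 N, ∀ r ∈ Icc 1 N,
      (if Bq γ (ψ q) < Bq γ (ψ r) ∧
        (Bq γ (ψ r) / Nat.gcd (Bq γ (ψ q)) (Bq γ (ψ r))) ∣ cofac q r then
        f q * f r * (ℓ ^ 2 / DD q r (ψ q) (ψ r)) else 0) ≤
      ∑ b₂ ∈ 𝓑.filter (fun b₂ : ℕ => Y < (b₂ : ℝ)), ∑ b₁ ∈ 𝓑.filter (fun b₁ => b₁ < b₂),
        (if 3 / 16 * (b₁ : ℝ) ^ 4 ≤ b₂ then ℓ ^ 2 * G b₁ b₂ q r else 0) := by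
    intro q hq r hr
    have hnn : ∀ b₁ b₂ : ℕ, 0 ≤ (if 3 / 16 * (b₁ : ℝ) ^ 4 ≤ b₂ then ℓ ^ 2 * G b₁ b₂ q r else 0) := by
      intro b₁ b₂
      split_ifs
      · exact mul_nonneg (sq_nonneg _) (hG0 _ _ _ _)
      · exact le_rfl
    have hsumnn : 0 ≤ ∑ b₂ ∈ 𝓑.filter (fun b₂ : ℕ => Y < (b₂ : ℝ)),
        ∑ b₁ ∈ 𝓑.filter (fun b₁ => b₁ < b₂),
        (if 3 / 16 * (b₁ : ℝ) ^ 4 ≤ b₂ then ℓ ^ 2 * G b₁ b₂ q r else 0) :=
      sum_nonneg fun b₂ _ => sum_nonneg fun b₁ _ => hnn b₁ b₂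
    split_ifs with hc
    · obtain ⟨hc1, hc2⟩ := hc
      by_cases hfq : f q = 0
      · rw [hfq, zero_mul, zero_mul]; exact hsumnn
      obtain ⟨hψq, hψq2⟩ := hsupp q hfq
      set b₁ := Bq γ (ψ q) with hb₁
      set b₂ := Bq γ (ψ r) with hb₂
      have hb₁pos : 0 < b₁ := Bsel_pos _ _ _
      have hb₂bad : Bad γ (1 / 1024) b₂ := by
        rcases Bsel_spec γ (1 / 1024) (min (ψ r) (1 / 1024)) with h1 | h1
        · exfalso
          have : b₂ = 1 := h1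
          omega
        · exact h1.1
      have hbig : 1 < (b₂ : ℝ) ^ 4 * ψ q := by
        by_contra hne
        rw [not_lt] at hne
        have h1 : (b₂ : ℝ) ^ 4 * min (ψ q) (1 / 1024) ≤ 1 :=
          (mul_le_mul_of_nonneg_left (min_le_left _ _) (by (clear * -; positivity))).trans hne
        have h2 : b₂ ≤ b₁ := Bsel_ge (lt_min hψq (by norm_num)) hb₂bad h1
        omega
      have hgap : 3 / 16 * (b₁ : ℝ) ^ 4 ≤ b₂ := by
        rcases Bsel_spec γ (1 / 1024) (min (ψ q) (1 / 1024)) with h1 | h1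
        · have h2 : b₁ = 1 := h1
          rw [h2]
          have h3 : (1 : ℝ) ≤ b₂ := by exact_mod_cast (by omega : 1 ≤ b₂)
          norm_num
          linarith only [h3]
        · have h2 := Bad.gap (by norm_num) h1.1 hb₂bad hc1
          exact (mul_le_mul_of_nonneg_left (le_max_left _ _) (by norm_num)).trans h2
      have hYb : Y < b₂ := by
        by_contra hne
        rw [not_lt] at hne
        have h1 : (b₂ : ℝ) ^ 4 ≤ Y ^ 4 := pow_le_pow_left₀ (Nat.cast_nonneg _) hne 4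
        have h2 : Y ^ 4 = Real.exp L := by
          rw [hY, ← Real.exp_nat_mul]; congr 1; push_cast; ring
        rw [h2] at h1
        have h3 : (b₂ : ℝ) ^ 4 * ψ q ≤ Real.exp L * Real.exp (-L) :=
          mul_le_mul h1 hψq2 hψq.le (Real.exp_pos _).le
        rw [← Real.exp_add, add_neg_cancel, Real.exp_zero] at h3
        linarith only [hbig, h3]
      have hmem2 : b₂ ∈ 𝓑.filter (fun b₂ : ℕ => Y < (b₂ : ℝ)) := by
        rw [mem_filter, h𝓑, mem_image]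
        exact ⟨⟨r, hr, rfl⟩, hYb⟩
      have hmem1 : b₁ ∈ 𝓑.filter (fun b₁ => b₁ < b₂) := by
        rw [mem_filter, h𝓑, mem_image]
        exact ⟨⟨q, hq, rfl⟩, hc1⟩
      have h5 : f q * f r * (ℓ ^ 2 / DD q r (ψ q) (ψ r)) =
          (if 3 / 16 * (b₁ : ℝ) ^ 4 ≤ b₂ then ℓ ^ 2 * G b₁ b₂ q r else 0) := by
        rw [if_pos hgap]
        simp only [hG]
        rw [if_pos ⟨hc2, hbig⟩]
        ring
      rw [h5]
      refine (single_le_sum (f := fun b₁ : ℕ => (if 3 / 16 * (b₁ : ℝ) ^ 4 ≤ b₂ then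
        ℓ ^ 2 * G b₁ b₂ q r else 0)) (fun b _ => hnn b b₂) hmem1).trans ?_
      exact single_le_sum (f := fun b₂ : ℕ => ∑ b₁ ∈ 𝓑.filter (fun b₁ => b₁ < b₂),
        (if 3 / 16 * (b₁ : ℝ) ^ 4 ≤ b₂ then ℓ ^ 2 * G b₁ b₂ q r else 0))
        (fun b _ => sum_nonneg fun b' _ => hnn b' b) hmem2
    · exact hsumnn
  have hmain : wsum (fun q r => Bq γ (ψ q) < Bq γ (ψ r) ∧
        (Bq γ (ψ r) / Nat.gcd (Bq γ (ψ q)) (Bq γ (ψ r))) ∣ cofac q r) N f f
      (fun q r => ℓ ^ 2 / DD q r (ψ q) (ψ r)) ≤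
      ∑ b₂ ∈ 𝓑.filter (fun b₂ : ℕ => Y < (b₂ : ℝ)), ∑ b₁ ∈ 𝓑.filter (fun b₁ => b₁ < b₂),
        ℓ ^ 2 * Gp b₁ b₂ := by
    unfold wsum
    refine le_trans (le_of_eq ?_) ((sum_le_sum fun q hq => sum_le_sum fun r hr =>
      hpt q hq r hr).trans (le_of_eq ?_))
    · congr!
    · rw [sum_congr rfl (fun q _ => sum_comm), sum_comm]
      apply sum_congr rfl
      intro b₂ _
      rw [sum_congr rfl (fun q _ => sum_comm), sum_comm]
      apply sum_congr rfl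
      intro b₁ _
      simp only [hGp]
      split_ifs
      · simp only [mul_sum]
      · simp
  refine hmain.trans ?_
  calc ∑ b₂ ∈ 𝓑.filter (fun b₂ : ℕ => Y < (b₂ : ℝ)), ∑ b₁ ∈ 𝓑.filter (fun b₁ => b₁ < b₂),
        ℓ ^ 2 * Gp b₁ b₂
      ≤ ∑ b₂ ∈ 𝓑.filter (fun b₂ : ℕ => Y < (b₂ : ℝ)), ∑ b₁ ∈ 𝓑.filter (fun b₁ => b₁ < b₂),
        (ℓ ^ 2 * C * (F + F ^ 2)) * (b₂ : ℝ) ^ (-(1 / 10) : ℝ) := by
        apply sum_le_sum
        intro b₂ _
        apply sum_le_sum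
        intro b₁ hb₁
        rw [mem_filter] at hb₁
        have := hGple b₁ b₂ (hBpos b₁ hb₁.1) hb₁.2
        calc ℓ ^ 2 * Gp b₁ b₂ ≤ ℓ ^ 2 * (C * (b₂ : ℝ) ^ (-(1 / 10) : ℝ) * (F + F ^ 2)) :=
              mul_le_mul_of_nonneg_left this (sq_nonneg _)
          _ = _ := by ring
    _ = (ℓ ^ 2 * C * (F + F ^ 2)) * ∑ b₂ ∈ 𝓑.filter (fun b₂ : ℕ => Y < (b₂ : ℝ)),
        ∑ b₁ ∈ 𝓑.filter (fun b₁ => b₁ < b₂), (b₂ : ℝ) ^ (-(1 / 10) : ℝ) := by
        simp only [mul_sum]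
    _ ≤ (ℓ ^ 2 * C * (F + F ^ 2)) * (K * Y ^ (-(1 / 20) : ℝ)) :=
        mul_le_mul_of_nonneg_left (hval 𝓑 hBpos hBdouble Y hY0) (by (clear * - hℓ1 hC hF0; positivity))
    _ = (C * K) * (ℓ ^ 2 * Y ^ (-(1 / 20) : ℝ)) * (F + F ^ 2) := by ring
    _ ≤ (C * K) * 12800 * (F + F ^ 2) := by
        apply mul_le_mul_of_nonneg_right _ hFF
        apply mul_le_mul_of_nonneg_left _ (by positivity)
        have h1 : Y ^ (-(1 / 20) : ℝ) = Real.exp (-(L / 80)) := by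
          rw [hY, ← Real.exp_mul]; congr 1; ring
        have h2 : Real.exp (-(L / 80)) ≤ Real.exp (-(ℓ / 80)) := by
          apply Real.exp_le_exp.mpr; linarith only [hLℓ]
        have h3 : Real.exp (-(ℓ / 80)) ≤ 2 / (ℓ / 80) ^ 2 := by
          have h4 := Real.pow_div_factorial_le_exp (ℓ / 80) (by positivity) 2
          rw [Real.exp_neg, inv_le_comm₀ (Real.exp_pos _) (by positivity), inv_div]
          simpa [Nat.factorial] using h4
        rw [h1]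
        calc ℓ ^ 2 * Real.exp (-(L / 80)) ≤ ℓ ^ 2 * (2 / (ℓ / 80) ^ 2) :=
              mul_le_mul_of_nonneg_left (h2.trans h3) (sq_nonneg _)
          _ = 12800 := by field_simp; norm_num
    _ = _ := by ring

end Vale.P028
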