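import Vale.Agent.P028.MathlibUsed
import Vale.Agent.P028.KOver
import Vale.Agent.P028.KDefs
import Vale.Agent.P028.BSel

/-!
# The bound for one pair
-/

namespace Vale.P028

open Finset MeasureTheory

/-! ### products -/

theorem kp_pos {p : ℕ} (hp : p.Prime) : 0 < 1 - 1 / (p : ℝ) ∧ 1 - 1 / (p : ℝ) ≤ 1 := by
  have hp2 : (2 : ℝ) ≤ p := by exact_mod_cast hp.two_le
  have h1 : 1 / (p : ℝ) ≤ 1 / 2 := one_div_le_one_div_of_le (by norm_num) hp2
  have h0 : 0 < 1 / (p : ℝ) := by positivity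
  constructor <;> linarith

theorem pr_pos {Ps : Finset ℕ} (h : ∀ p ∈ Ps, p.Prime) : 0 < pr Ps :=
  prod_pos fun p hp => (kp_pos (h p hp)).1

theorem pr_le_one {Ps : Finset ℕ} (h : ∀ p ∈ Ps, p.Prime) : pr Ps ≤ 1 :=
  prod_le_one (fun p hp => (kp_pos (h p hp)).1.le) fun p hp => (kp_pos (h p hp)).2

theorem pr_anti {A B : Finset ℕ} (hAB : A ⊆ B) (hB : ∀ p ∈ B, p.Prime) : pr B ≤ pr A := by
  classical
  have h1 : pr B = pr (B \ A) * pr A := by
    unfold pr
    exact (prod_sdiff hAB).symm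
  rw [h1]
  have h2 : pr (B \ A) ≤ 1 := pr_le_one fun p hp => hB p (mem_sdiff.mp hp).1
  have h3 : 0 ≤ pr A := (pr_pos fun p hp => hB p (hAB hp)).le
  nlinarith

theorem pr_filter_mul (Ps : Finset ℕ) (P : ℕ → Prop) [DecidablePred P] :
    pr (Ps.filter P) * pr (Ps.filter (fun p => ¬ P p)) = pr Ps := by
  unfold pr
  exact prod_filter_mul_prod_filter_not _ _ _

theorem pr_union {A B : Finset ℕ} (h : Disjoint A B) : pr (A ∪ B) = pr A * pr B := by
  unfold pr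
  exact prod_union h

theorem pr_primeFactors {q : ℕ} (hq : 0 < q) : pr q.primeFactors = (q.totient : ℝ) / q := by
  have h : (q.totient : ℚ) = q * ∏ p ∈ q.primeFactors, (1 - (p : ℚ)⁻¹) :=
    Nat.totient_eq_mul_prod_factors q
  have h' : (q.totient : ℝ) = q * ∏ p ∈ q.primeFactors, (1 - (p : ℝ)⁻¹) := by
    have := congrArg (fun x : ℚ => (x : ℝ)) h
    push_cast at this
    exact this
  have hq0 : (q : ℝ) ≠ 0 := by exact_mod_cast hq.ne'
  rw [h', mul_div_assoc, mul_comm, div_mul_cancel₀ _ hq0]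
  unfold pr
  refine prod_congr rfl fun p _ => ?_
  rw [one_div]

theorem totient_ratio_pos {q : ℕ} (hq : 0 < q) : 0 < (q.totient : ℝ) / q := by
  have h1 : (0 : ℝ) < q.totient := by exact_mod_cast Nat.totient_pos.mpr hq
  have h2 : (0 : ℝ) < q := by exact_mod_cast hq
  positivity

theorem totient_ratio_le {q : ℕ} (hq : 0 < q) {Ps : Finset ℕ} (h : Ps ⊆ q.primeFactors) :
    (q.totient : ℝ) / q ≤ pr Ps := by
  rw [← pr_primeFactors hq]
  exact pr_anti h fun p hp => Nat.prime_of_mem_primeFactors hp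

/-! ### the objects of a pair -/

/-- The integer of the sheet `k`. -/
noncomputable def nk (γ x x' : ℝ) (u v : ℕ) (k : ℤ) : ℤ :=
  (Bq γ x : ℤ) * Bq γ x' * k + (v : ℤ) * Bq γ x' * Aq γ x - (u : ℤ) * Bq γ x * Aq γ x'

/-- The active sheets. -/
def Sh (γ x x' : ℝ) (q r : ℕ) (k : ℤ) : Prop :=
  |(k : ℝ) - ((cofac q r : ℝ) - cofac r q) * γ| < 2 * DD q r x x' ∧
    ∃ al be : ℤ, AK γ x q al ∧ AK γ x' r be ∧ k = al * (cofac r q : ℤ) - be * (cofac q r : ℤ)

open Classical in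
/-- The finite set of active sheets. -/
noncomputable def Shs (γ x x' : ℝ) (q r : ℕ) : Finset ℤ :=
  (Icc ⌊((cofac q r : ℝ) - cofac r q) * γ - 2 * DD q r x x'⌋
    ⌈((cofac q r : ℝ) - cofac r q) * γ + 2 * DD q r x x'⌉).filter (Sh γ x x' q r)

theorem mem_Shs {γ x x' : ℝ} {q r : ℕ} {k : ℤ} : k ∈ Shs γ x x' q r ↔ Sh γ x x' q r k := by
  classical
  unfold Shs
  rw [mem_filter, mem_Icc]
  constructor
  · exact fun h => h.2
  · intro h
    refine ⟨?_, h⟩
    obtain ⟨h1, -⟩ := h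
    rw [abs_lt] at h1
    constructor
    · have : ((⌊((cofac q r : ℝ) - cofac r q) * γ - 2 * DD q r x x'⌋ : ℤ) : ℝ) ≤ k := by
        have := Int.floor_le (((cofac q r : ℝ) - cofac r q) * γ - 2 * DD q r x x')
        linarith
      exact_mod_cast this
    · have : (k : ℝ) ≤ ((⌈((cofac q r : ℝ) - cofac r q) * γ + 2 * DD q r x x'⌉ : ℤ) : ℝ) := by
        have := Int.le_ceil (((cofac q r : ℝ) - cofac r q) * γ + 2 * DD q r x x')
        linarith
      exact_mod_cast this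

/-- primes of the factor of a sheet -/
noncomputable def Fk (γ x x' : ℝ) (q r : ℕ) (k : ℤ) : Finset ℕ :=
  (PK γ x q ∩ PK γ x' r).filter (fun p : ℕ => ¬ p ∣ cofac q r ∧ ¬ p ∣ cofac r q ∧
    (p : ℤ) ∣ nk γ x x' (cofac q r) (cofac r q) k)

theorem mem_PK {γ x : ℝ} {q p : ℕ} (hp : p ∈ PK γ x q) :
    p.Prime ∧ p ∣ q ∧ yK γ x < (p : ℝ) ∧ ¬ p ∣ Bq γ x := by
  unfold PK at hp
  rw [mem_filter] at hp
  exact ⟨Nat.prime_of_mem_primeFactors hp.1, Nat.dvd_of_mem_primeFactors hp.1, hp.2.1, hp.2.2⟩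

theorem PK_prime {γ x : ℝ} {q : ℕ} : ∀ p ∈ PK γ x q, p.Prime := fun _ hp => (mem_PK hp).1

theorem PK_subset (γ x : ℝ) (q : ℕ) : PK γ x q ⊆ q.primeFactors := filter_subset _ _

theorem DD_pos {q r : ℕ} (hq : 0 < q) (hr : 0 < r) {x x' : ℝ} (hx : 0 < x) : 0 < DD q r x x' := by
  have hg0 : (0 : ℝ) < Nat.gcd q r := by exact_mod_cast Nat.gcd_pos_of_pos_left _ hq
  have hrR : (0 : ℝ) < r := by exact_mod_cast hr
  rw [DD]
  apply div_pos _ hg0
  exact lt_max_of_lt_left (mul_pos hrR hx)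

theorem DD_eq' {q r : ℕ} (hq : 0 < q) (x x' : ℝ) :
    DD q r x x' = max ((cofac r q : ℝ) * x) ((cofac q r : ℝ) * x') := by
  rw [DD_eq q r hq]
  unfold cofac
  rw [Nat.gcd_comm r q]

/-- the weighted overlap -/
theorem pair_one (γ : ℝ) {q r : ℕ} (hq : 0 < q) (hr : 0 < r) {x x' : ℝ} (hx : 0 < x)
    (hx' : 0 < x') (hx2 : x ≤ 1 / 2) (hx2' : x' ≤ 1 / 2) :
    wK γ x q * wK γ x' r *
      volume.real (GS γ q x (AK γ x q) ∩ GS γ r x' (AK γ x' r) ∩ Set.Ioc 0 1) ≤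
      16 * ((q.totient : ℝ) / q * x * ((r.totient : ℝ) / r * x') / DD q r x x') *
        (pr ((PK γ x q).filter (fun p => p ∣ cofac q r)))⁻¹ *
        (pr ((PK γ x' r).filter (fun p => p ∣ cofac r q)))⁻¹ *
        ∑ k ∈ Shs γ x x' q r, (pr (Fk γ x x' q r k))⁻¹ := by
  have hov := overlap γ q r hq hr x x' hx hx' hx2 hx2' (Bq γ x) (Bq γ x') (Aq γ x) (Aq γ x')
    (PK γ x q) (PK γ x' r) (fun p hp => ⟨(mem_PK hp).1, (mem_PK hp).2.1, (mem_PK hp).2.2.2⟩)
    (fun p hp => ⟨(mem_PK hp).1, (mem_PK hp).2.1, (mem_PK hp).2.2.2⟩)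
    (AK γ x q) (AK γ x' r) (fun al h => h) (fun al h => h) (Shs γ x x' q r) (by
      intro al be hal hbe hlt
      rw [mem_Shs]
      refine ⟨?_, al, be, hal, hbe, rfl⟩
      have h1 : ((al * (cofac r q : ℤ) - be * (cofac q r : ℤ) : ℤ) : ℝ) -
          ((cofac q r : ℝ) - cofac r q) * γ =
          ((al : ℝ) + γ) * (cofac r q : ℝ) - ((be : ℝ) + γ) * (cofac q r : ℝ) := by
        push_cast
        ring
      rw [h1]
      refine hlt.trans_le ?_
      rw [DD_eq' hq]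
      have h2 := le_max_left ((cofac r q : ℝ) * x) ((cofac q r : ℝ) * x')
      have h3 := le_max_right ((cofac r q : ℝ) * x) ((cofac q r : ℝ) * x')
      linarith)
  have hD0 : 0 < DD q r x x' := DD_pos hq hr hx
  have hP1 : 0 < pr (PK γ x q) := pr_pos PK_prime
  have hP2 : 0 < pr (PK γ x' r) := pr_pos PK_prime
  have hPa : 0 < pr ((PK γ x q).filter (fun p => p ∣ cofac q r)) :=
    pr_pos fun p hp => PK_prime p (mem_filter.mp hp).1
  have hPb : 0 < pr ((PK γ x' r).filter (fun p => p ∣ cofac r q)) :=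
    pr_pos fun p hp => PK_prime p (mem_filter.mp hp).1
  have e1 := pr_filter_mul (PK γ x q) (fun p => p ∣ cofac q r)
  have e2 := pr_filter_mul (PK γ x' r) (fun p => p ∣ cofac r q)
  have hw1 : 0 ≤ wK γ x q := by
    unfold wK
    exact div_nonneg (totient_ratio_pos hq).le hP1.le
  have hw2 : 0 ≤ wK γ x' r := by
    unfold wK
    exact div_nonneg (totient_ratio_pos hr).le hP2.le
  calc wK γ x q * wK γ x' r *
      volume.real (GS γ q x (AK γ x q) ∩ GS γ r x' (AK γ x' r) ∩ Set.Ioc 0 1)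
      ≤ wK γ x q * wK γ x' r * (16 * (x * x' / DD q r x x') *
        pr ((PK γ x q).filter (fun p : ℕ => ¬ p ∣ cofac q r)) *
        pr ((PK γ x' r).filter (fun p : ℕ => ¬ p ∣ cofac r q)) *
        ∑ k ∈ Shs γ x x' q r, (pr (Fk γ x x' q r k))⁻¹) := by
        apply mul_le_mul_of_nonneg_left _ (mul_nonneg hw1 hw2)
        exact hov
    _ = _ := by
        unfold wK
        rw [← e1, ← e2]
        have h1 : pr ((PK γ x q).filter (fun p : ℕ => ¬ p ∣ cofac q r)) ≠ 0 :=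
          (pr_pos fun p hp => PK_prime p (mem_filter.mp hp).1).ne'
        have h2 : pr ((PK γ x' r).filter (fun p : ℕ => ¬ p ∣ cofac r q)) ≠ 0 :=
          (pr_pos fun p hp => PK_prime p (mem_filter.mp hp).1).ne'
        field_simp

end Vale.P028
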