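import Vale.Agent.P028.MathlibUsed
import Vale.Agent.P013.Mertens
import Vale.Agent.P013.J.PartV3
import Vale.Agent.P028.KDefs

/-!
# Upper bound sieves (K3)
-/

namespace Vale.P028

open Finset

theorem ks_factor_pos {p : ℕ} (hp : p.Prime) : 0 < 1 - 1 / (p : ℝ) := by
  have h : (2 : ℝ) ≤ p := by exact_mod_cast hp.two_le
  rw [sub_pos, div_lt_one (by linarith only [h])]
  linarith only [h]

theorem ks_factor_le_one (p : ℕ) : 1 - 1 / (p : ℝ) ≤ 1 := by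
  have : 0 ≤ 1 / (p : ℝ) := by positivity
  linarith only [this]

theorem ks_pr_pos {Ps : Finset ℕ} (h : ∀ p ∈ Ps, p.Prime) : 0 < pr Ps :=
  Finset.prod_pos fun p hp => ks_factor_pos (h p hp)

theorem ks_pr_le_one {Ps : Finset ℕ} (h : ∀ p ∈ Ps, p.Prime) : pr Ps ≤ 1 :=
  Finset.prod_le_one (fun p hp => (ks_factor_pos (h p hp)).le) fun p _ => ks_factor_le_one p

theorem ks_pr_mono {Ps Qs : Finset ℕ} (h : ∀ p ∈ Qs, p.Prime) (hs : Ps ⊆ Qs) : pr Qs ≤ pr Ps := by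
  unfold pr
  exact Finset.prod_le_prod_of_subset_of_le_one hs (fun p hp => (ks_factor_pos (h p hp)).le)
    (fun p _ _ => ks_factor_le_one p)

theorem ks_inv_le_exp {p : ℕ} (hp : p.Prime) :
    (1 - 1 / (p : ℝ))⁻¹ ≤ Real.exp (2 * (1 / (p : ℝ))) := by
  have h : (2 : ℝ) ≤ p := by exact_mod_cast hp.two_le
  have h1 : (1 - 1 / (p : ℝ))⁻¹ = 1 / ((p : ℝ) - 1) + 1 := by
    have : (p : ℝ) - 1 ≠ 0 := by linarith only [h]
    field_simp
    ring
  rw [h1]
  refine le_trans ?_ (Real.add_one_le_exp _)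
  have h2 : 1 / ((p : ℝ) - 1) ≤ 2 * (1 / (p : ℝ)) := by
    rw [mul_one_div, div_le_div_iff₀ (by linarith only [h]) (by linarith only [h])]
    linarith only [h]
  linarith only [h2]

theorem ks_pr_inv_le_exp {Ps : Finset ℕ} (h : ∀ p ∈ Ps, p.Prime) :
    (pr Ps)⁻¹ ≤ Real.exp (2 * ∑ p ∈ Ps, 1 / (p : ℝ)) := by
  unfold pr
  rw [← Finset.prod_inv_distrib, Finset.mul_sum, Real.exp_sum]
  exact Finset.prod_le_prod (fun p hp => (inv_pos.2 (ks_factor_pos (h p hp))).le)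
    fun p hp => ks_inv_le_exp (h p hp)

/-- primes between `x` and `x ^ K` -/
theorem ks_sum_ratio {K : ℝ} (hK : 1 ≤ K) : ∃ C > 0, ∀ (Qs : Finset ℕ) (x y : ℝ),
    (∀ p ∈ Qs, p.Prime ∧ x ≤ (p : ℝ) ∧ (p : ℝ) ≤ y) → 2 ≤ x → y ≤ x ^ K →
    ∑ p ∈ Qs, 1 / (p : ℝ) ≤ C := by
  obtain ⟨C₁, hC₁, hM⟩ := Vale.Agent.P013.mertens_one
  have hl2 : 0 < Real.log 2 := Real.log_pos (by norm_num)
  refine ⟨K + (Real.log 2 + 2 * C₁) / Real.log 2, by positivity, ?_⟩
  intro Qs x y hQ hx hy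
  have hlx : Real.log 2 ≤ Real.log x := Real.log_le_log (by norm_num) hx
  have hlx0 : 0 < Real.log x := hl2.trans_le hlx
  rcases lt_or_ge y x with hyx | hxy
  · have : Qs = ∅ := by
      rw [Finset.eq_empty_iff_forall_notMem]
      intro p hp
      have := hQ p hp
      linarith [this.2.1, this.2.2]
    rw [this, Finset.sum_empty]
    positivity
  have hy0 : 0 < y := by linarith only [hx, hxy]
  set a := ⌈x⌉₊ with ha
  set b := ⌊y⌋₊ + 1 with hb
  have hab : a ≤ b := by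
    have h1 : ⌈x⌉₊ ≤ ⌈y⌉₊ := Nat.ceil_le_ceil hxy
    exact h1.trans (Nat.ceil_le_floor_add_one y)
  have ha1 : (x : ℝ) ≤ a := Nat.le_ceil x
  have ha2 : 1 ≤ a := by
    have : (0 : ℝ) < a := by linarith only [hx, ha1]
    exact_mod_cast this
  have hb1 : (b : ℝ) ≤ 2 * y := by
    have := Nat.floor_le hy0.le
    rw [hb]
    push_cast
    linarith only [hx, hxy, this]
  have hMa := (abs_le.1 (hM a ha2)).1
  have hMb := (abs_le.1 (hM b (ha2.trans hab))).2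
  have hsub : Qs ⊆ ((range b).filter Nat.Prime) \ ((range a).filter Nat.Prime) := by
    intro p hp
    obtain ⟨h1, h2, h3⟩ := hQ p hp
    have h4 : p < b := by
      rw [hb, Nat.lt_add_one_iff]
      exact Nat.le_floor h3
    have h5 : a ≤ p := by
      rw [ha]
      exact Nat.ceil_le.2 h2
    simp only [mem_sdiff, mem_filter, mem_range, not_and]
    exact ⟨⟨h4, h1⟩, fun h => absurd h (by omega)⟩
  have hsum : ∑ p ∈ Qs, Real.log p / p ≤ Real.log b - Real.log a + 2 * C₁ := by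
    calc ∑ p ∈ Qs, Real.log p / p
        ≤ ∑ p ∈ ((range b).filter Nat.Prime) \ ((range a).filter Nat.Prime),
            Real.log p / (p : ℝ) := by
          refine Finset.sum_le_sum_of_subset_of_nonneg hsub fun p _ _ => ?_
          exact div_nonneg (Real.log_natCast_nonneg p) (Nat.cast_nonneg p)
      _ = ∑ p ∈ (range b).filter Nat.Prime, Real.log p / (p : ℝ) -
            ∑ p ∈ (range a).filter Nat.Prime, Real.log p / (p : ℝ) := by
          rw [eq_sub_iff_add_eq]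
          refine Finset.sum_sdiff ?_
          exact Finset.filter_subset_filter _ (Finset.range_subset_range.2 hab)
      _ ≤ _ := by linarith only [hMa, hMb]
  have hlb : Real.log b ≤ Real.log 2 + K * Real.log x := by
    calc Real.log b ≤ Real.log (2 * y) :=
          Real.log_le_log (by exact_mod_cast (lt_of_lt_of_le (by omega : 0 < a) hab)) hb1
      _ = Real.log 2 + Real.log y := Real.log_mul (by norm_num) hy0.ne'
      _ ≤ Real.log 2 + Real.log (x ^ K) := by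
          have := Real.log_le_log hy0 hy
          linarith only [this]
      _ = _ := by rw [Real.log_rpow (by linarith only [hx])]
  have hla : Real.log x ≤ Real.log a := Real.log_le_log (by linarith only [hx]) ha1
  have hfin : Real.log x * ∑ p ∈ Qs, 1 / (p : ℝ) ≤ ∑ p ∈ Qs, Real.log p / p := by
    rw [Finset.mul_sum]
    refine Finset.sum_le_sum fun p hp => ?_
    obtain ⟨h1, h2, h3⟩ := hQ p hp
    rw [mul_one_div]
    exact div_le_div_of_nonneg_right (Real.log_le_log (by linarith only [hx]) h2) (Nat.cast_nonneg p)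
  have h6 : Real.log x * ∑ p ∈ Qs, 1 / (p : ℝ) ≤
      Real.log x * (K + (Real.log 2 + 2 * C₁) / Real.log 2) := by
    have h7 : Real.log 2 + 2 * C₁ ≤ Real.log x * ((Real.log 2 + 2 * C₁) / Real.log 2) := by
      rw [mul_div_assoc', le_div_iff₀ hl2, mul_comm]
      exact mul_le_mul_of_nonneg_right hlx (by positivity)
    have h8 : 0 ≤ Real.log x * K := by positivity
    nlinarith only [hl2, hlx, hsum, hlb, hla, hfin, h7]
  exact le_of_mul_le_mul_left h6 hlx0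

theorem ks_pr_ratio {K : ℝ} (hK : 1 ≤ K) : ∃ C > 0, ∀ (Qs : Finset ℕ) (x y : ℝ),
    (∀ p ∈ Qs, p.Prime) → 2 ≤ x → y ≤ x ^ K →
    pr (Qs.filter (fun p : ℕ => (p : ℝ) < x)) ≤ C * pr (Qs.filter (fun p : ℕ => (p : ℝ) ≤ y)) := by
  obtain ⟨C, hC, h⟩ := ks_sum_ratio hK
  refine ⟨Real.exp (2 * C), Real.exp_pos _, ?_⟩
  intro Qs x y hQ hx hy
  set M := Qs.filter (fun p : ℕ => x ≤ (p : ℝ) ∧ (p : ℝ) ≤ y) with hM
  set L := Qs.filter (fun p : ℕ => (p : ℝ) < x) with hL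
  have hMp : ∀ p ∈ M, p.Prime := fun p hp => hQ p (Finset.mem_filter.1 hp).1
  have hLp : ∀ p ∈ L, p.Prime := fun p hp => hQ p (Finset.mem_filter.1 hp).1
  have h1 := h M x y (fun p hp => by
    rw [hM, Finset.mem_filter] at hp
    exact ⟨hQ p hp.1, hp.2⟩) hx hy
  have h2 : (pr M)⁻¹ ≤ Real.exp (2 * C) :=
    (ks_pr_inv_le_exp hMp).trans (Real.exp_le_exp.2 (by linarith only [h1]))
  have hdisj : Disjoint L M := by
    rw [Finset.disjoint_left]
    intro p hp hp'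
    rw [hL, Finset.mem_filter] at hp
    rw [hM, Finset.mem_filter] at hp'
    linarith only [hp.2, hp'.2.1]
  have h3 : pr L * pr M ≤ pr (Qs.filter (fun p : ℕ => (p : ℝ) ≤ y)) := by
    have h4 : pr (L ∪ M) = pr L * pr M := Finset.prod_union hdisj
    rw [← h4]
    refine ks_pr_mono (fun p hp => ?_) ?_
    · rcases Finset.mem_union.1 hp with hp | hp
      · exact hLp p hp
      · exact hMp p hp
    · intro p hp
      rw [Finset.mem_filter] at hp
      rw [Finset.mem_union, hL, hM, Finset.mem_filter, Finset.mem_filter]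
      rcases lt_or_ge (p : ℝ) x with h | h
      · exact Or.inl ⟨hp.1, h⟩
      · exact Or.inr ⟨hp.1, h, hp.2⟩
  have hM0 := ks_pr_pos hMp
  calc pr L = (pr M)⁻¹ * (pr L * pr M) := by
        field_simp
    _ ≤ (pr M)⁻¹ * pr (Qs.filter (fun p : ℕ => (p : ℝ) ≤ y)) :=
        mul_le_mul_of_nonneg_left h3 (inv_pos.2 hM0).le
    _ ≤ _ := mul_le_mul_of_nonneg_right h2
        (ks_pr_pos fun p hp => hQ p (Finset.mem_filter.1 hp).1).le

/-- the basic sieve: an interval of length `10 D` -/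
theorem ks_base : ∃ C > 0, ∀ (Qs : Finset ℕ) (c : ℕ → ℤ) (c₀ D : ℝ) (Ks : Finset ℤ),
    (∀ p ∈ Qs, p.Prime) → 1 / 1024 ≤ D → (∀ k ∈ Ks, |(k : ℝ) - c₀| ≤ 5 * D) →
    (∀ k ∈ Ks, ∀ p ∈ Qs, ¬ (p : ℤ) ∣ k - c p) →
    (Ks.card : ℝ) ≤ C * D * pr (Qs.filter (fun p : ℕ => (p : ℝ) ≤ D)) := by
  obtain ⟨C₁, s, hC₁, hs, hsv⟩ := Vale.Agent.P013.J.upper_sieve
  obtain ⟨C₂, hC₂, h2⟩ := ks_pr_ratio (K := 2 * s) (by linarith only [hs])
  obtain ⟨C₃, hC₃, h3⟩ := ks_pr_ratio (K := s) hs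
  refine ⟨C₁ * 13 * C₂ + 1034 * C₃, by positivity, ?_⟩
  intro Qs c c₀ D Ks hQ hD hK hc
  have hD0 : 0 < D := by linarith only [hD]
  have hp0 : 0 < pr (Qs.filter (fun p : ℕ => (p : ℝ) ≤ D)) :=
    ks_pr_pos fun p hp => hQ p (Finset.mem_filter.1 hp).1
  rcases lt_or_ge D ((2 : ℝ) ^ s) with hlt | hge
  · -- bounded range
    have h4 := h3 Qs 2 D hQ le_rfl hlt.le
    have h5 : Qs.filter (fun p : ℕ => (p : ℝ) < 2) = ∅ := by
      rw [Finset.filter_eq_empty_iff]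
      intro p hp h
      have : (2 : ℝ) ≤ p := by exact_mod_cast (hQ p hp).two_le
      linarith only [h, this]
    rw [h5] at h4
    have h6 : pr ∅ = 1 := Finset.prod_empty
    rw [h6] at h4
    have hcard : (Ks.card : ℝ) ≤ 1034 * D := by
      have hsub : Ks ⊆ Finset.Icc ⌈c₀ - 5 * D⌉ ⌊c₀ + 5 * D⌋ := by
        intro k hk
        have := abs_le.1 (hK k hk)
        rw [Finset.mem_Icc]
        exact ⟨Int.ceil_le.2 (by linarith only [this]), Int.le_floor.2 (by linarith only [this])⟩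
      have h7 := Finset.card_le_card hsub
      rw [Int.card_Icc] at h7
      have h8 : (((⌊c₀ + 5 * D⌋ + 1 - ⌈c₀ - 5 * D⌉).toNat : ℤ) : ℝ) ≤ 10 * D + 1 := by
        rw [Int.toNat_eq_max]
        push_cast
        rw [max_le_iff]
        refine ⟨?_, by linarith only [hD0]⟩
        have h9 := Int.floor_le (c₀ + 5 * D)
        have h10 := Int.le_ceil (c₀ - 5 * D)
        linarith only [h9, h10]
      have h9 : (Ks.card : ℝ) ≤ (((⌊c₀ + 5 * D⌋ + 1 - ⌈c₀ - 5 * D⌉).toNat : ℤ) : ℝ) := by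
        exact_mod_cast h7
      linarith only [hD, h8, h9]
    calc (Ks.card : ℝ) ≤ 1034 * D * 1 := by linarith only [hcard]
      _ ≤ 1034 * D * (C₃ * pr (Qs.filter (fun p : ℕ => (p : ℝ) ≤ D))) :=
          mul_le_mul_of_nonneg_left h4 (by positivity)
      _ ≤ _ := by
          have : 0 ≤ C₁ * 13 * C₂ * D * pr (Qs.filter (fun p : ℕ => (p : ℝ) ≤ D)) := by
            positivity
          nlinarith only [this]
  · -- the sieve
    have hs0 : 0 < s := by linarith only [hs]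
    have hD1 : 2 ≤ D := by
      calc (2 : ℝ) = 2 ^ (1 : ℝ) := (Real.rpow_one 2).symm
        _ ≤ 2 ^ s := Real.rpow_le_rpow_of_exponent_le (by norm_num) hs
        _ ≤ D := hge
    set w : ℝ := D ^ (1 / s) with hw
    have hw0 : 0 < w := Real.rpow_pos_of_pos hD0 _
    have hws : w ^ s = D := by
      rw [hw, ← Real.rpow_mul hD0.le, one_div, inv_mul_cancel₀ hs0.ne', Real.rpow_one]
    have hw2 : 2 ≤ w := by
      have : ((2 : ℝ) ^ s) ^ (1 / s) ≤ w := Real.rpow_le_rpow (by positivity) hge (by positivity)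
      rwa [← Real.rpow_mul (by norm_num), mul_one_div_cancel hs0.ne', Real.rpow_one] at this
    set z := ⌊w⌋₊ with hz
    have hz2 : 2 ≤ z := Nat.le_floor (by exact_mod_cast hw2)
    have hz2' : (2 : ℝ) ≤ z := by exact_mod_cast hz2
    have hzw : (z : ℝ) ≤ w := Nat.floor_le hw0.le
    have hwz : w < z + 1 := Nat.lt_floor_add_one w
    set N := ⌈12 * D⌉₊ with hN
    have hN1 : 12 * D ≤ N := Nat.le_ceil _
    have hN2 : (N : ℝ) ≤ 13 * D := by
      have := Nat.ceil_lt_add_one (by linarith only [hD1] : 0 ≤ 12 * D)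
      linarith only [hD1, this]
    have hzs : (z : ℝ) ^ s ≤ N := by
      calc (z : ℝ) ^ s ≤ w ^ s := Real.rpow_le_rpow (by linarith only []) hzw hs0.le
        _ = D := hws
        _ ≤ N := by linarith only [hN1]
    have hDz : D ≤ (z : ℝ) ^ (2 * s) := by
      calc D = w ^ s := hws.symm
        _ ≤ ((z : ℝ) ^ 2) ^ s := Real.rpow_le_rpow hw0.le (by nlinarith only [hz2', hwz]) hs0.le
        _ = (z : ℝ) ^ (2 * s) := by
            rw [← Real.rpow_natCast, ← Real.rpow_mul (by linarith only [])]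
            norm_num
    have h5 := hsv z N ⌈c₀ - 5 * D⌉ (fun p => if p ∈ Qs then 1 else 0) Ks hz2 hzs
      (by
        intro k hk
        have := abs_le.1 (hK k hk)
        refine ⟨Int.ceil_le.2 (by linarith only [this]), ?_⟩
        have h10 := Int.le_ceil (c₀ - 5 * D)
        have h11 : (k : ℝ) < ⌈c₀ - 5 * D⌉ + N := by linarith only [hD1, hN1, this, h10]
        exact_mod_cast h11)
      (by
        intro p hp
        have hpp : p.Prime := (Vale.Agent.P013.J.mem_PP.1 hp).2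
        have h2p := hpp.two_le
        by_cases hpQ : p ∈ Qs
        · simp only [hpQ, if_true]
          refine ⟨by norm_num, by omega, ?_⟩
          have := Vale.Agent.P013.J.image_card_add p hpp.pos Ks {((c p : ℤ) : ZMod p)} (by
            intro k hk h
            rw [Finset.mem_singleton, eq_comm, ZMod.intCast_eq_intCast_iff_dvd_sub] at h
            exact hc k hk p hpQ h)
          rwa [Finset.card_singleton] at this
        · simp only [hpQ, if_false]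
          refine ⟨by norm_num, by omega, ?_⟩
          have := Vale.Agent.P013.J.image_card_add p hpp.pos Ks ∅ (by simp)
          rwa [Finset.card_empty] at this)
    have h6 : ∏ p ∈ Vale.Agent.P013.J.PP z, (1 - (((if p ∈ Qs then 1 else 0 : ℕ) : ℕ) : ℝ) / p) =
        pr (Qs.filter (fun p : ℕ => (p : ℝ) < z)) := by
      unfold pr
      have h7 : Qs.filter (fun p : ℕ => (p : ℝ) < z) =
          (Vale.Agent.P013.J.PP z).filter (fun p => p ∈ Qs) := by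
        ext p
        rw [Finset.mem_filter, Finset.mem_filter, Vale.Agent.P013.J.mem_PP, Nat.cast_lt]
        constructor
        · rintro ⟨h1, h2⟩; exact ⟨⟨h2, hQ p h1⟩, h1⟩
        · rintro ⟨⟨h1, _⟩, h3⟩; exact ⟨h3, h1⟩
      rw [h7, Finset.prod_filter]
      refine Finset.prod_congr rfl fun p _ => ?_
      by_cases hpQ : p ∈ Qs <;> simp [hpQ]
    rw [h6] at h5
    have h7 := h2 Qs z D hQ hz2' hDz
    calc (Ks.card : ℝ) ≤ C₁ * N * pr (Qs.filter (fun p : ℕ => (p : ℝ) < z)) := h5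
      _ ≤ C₁ * (13 * D) * (C₂ * pr (Qs.filter (fun p : ℕ => (p : ℝ) ≤ D))) := by
          refine mul_le_mul (mul_le_mul_of_nonneg_left hN2 hC₁.le) h7 ?_ (by positivity)
          exact (ks_pr_pos fun p hp => hQ p (Finset.mem_filter.1 hp).1).le
      _ ≤ _ := by
          have : 0 ≤ 1034 * C₃ * D * pr (Qs.filter (fun p : ℕ => (p : ℝ) ≤ D)) := by
            positivity
          nlinarith only [this]

/-- upper bound sieve, one class for each prime of `Qs` -/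
theorem sieve_one : ∃ C > 0, ∀ (Qs : Finset ℕ) (c : ℕ → ℤ) (c₀ D : ℝ) (Ks : Finset ℤ),
    (∀ p ∈ Qs, p.Prime) → 1 / 1024 ≤ D → (∀ k ∈ Ks, |(k : ℝ) - c₀| < 2 * D) →
    (∀ k ∈ Ks, ∀ p ∈ Qs, ¬ (p : ℤ) ∣ k - c p) →
    (Ks.card : ℝ) ≤ C * D * pr (Qs.filter (fun p : ℕ => (p : ℝ) ≤ D)) := by
  obtain ⟨C, hC, h⟩ := ks_base
  refine ⟨C, hC, fun Qs c c₀ D Ks hQ hD hK hc => h Qs c c₀ D Ks hQ hD (fun k hk => ?_) hc⟩
  have := hK k hk
  linarith only [hD, this]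

/-- sieve in an arithmetic progression -/
theorem ks_ap : ∃ C > 0, ∀ (Qs : Finset ℕ) (c : ℕ → ℤ) (c₀ D : ℝ) (Ks : Finset ℤ) (m : ℕ) (a : ℤ),
    (∀ p ∈ Qs, p.Prime ∧ ¬ p ∣ m) → 1 ≤ m → (m : ℝ) ^ 2 ≤ D →
    (∀ k ∈ Ks, |(k : ℝ) - c₀| ≤ 5 * D) → (∀ k ∈ Ks, (m : ℤ) ∣ k - a) →
    (∀ k ∈ Ks, ∀ p ∈ Qs, ¬ (p : ℤ) ∣ k - c p) →
    (Ks.card : ℝ) ≤ C * (D / m) * pr (Qs.filter (fun p : ℕ => (p : ℝ) ≤ D)) := by
  obtain ⟨C₁, hC₁, h1⟩ := ks_base
  obtain ⟨C₂, hC₂, h2⟩ := ks_pr_ratio (K := 2) (by norm_num)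
  refine ⟨C₁ * C₂, by positivity, ?_⟩
  intro Qs c c₀ D Ks m a hQ hm hmD hK ha hc
  have hm1 : (1 : ℝ) ≤ m := by exact_mod_cast hm
  have hm0 : (0 : ℝ) < m := by linarith only [hm1]
  have hmz : (m : ℤ) ≠ 0 := by exact_mod_cast (by omega : m ≠ 0)
  have hroot : ∀ p : ℕ, ∃ e : ℤ, p ∈ Qs → (p : ℤ) ∣ m * e - (c p - a) := by
    intro p
    by_cases hp : p ∈ Qs
    · have hco : IsCoprime (p : ℤ) (m : ℤ) := by
        rw [Nat.isCoprime_iff_coprime]
        exact (Nat.Prime.coprime_iff_not_dvd (hQ p hp).1).2 (hQ p hp).2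
      obtain ⟨x, y, hxy⟩ := hco
      refine ⟨y * (c p - a), fun _ => ⟨-(x * (c p - a)), ?_⟩⟩
      have : (m : ℤ) * (y * (c p - a)) - (c p - a) = (x * p + y * m - 1) * (c p - a) -
          x * p * (c p - a) := by ring
      rw [this, hxy]
      ring
    · exact ⟨0, fun h => absurd h hp⟩
  choose e he using hroot
  set φ : ℤ → ℤ := fun k => (k - a) / m with hφ
  have hφS : ∀ k ∈ Ks, (m : ℤ) * φ k = k - a := fun k hk => Int.mul_ediv_cancel' (ha k hk)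
  have hinj : Set.InjOn φ (Ks : Set ℤ) := by
    intro n hn n' hn' h
    have h1 := hφS n hn
    have h2 := hφS n' hn'
    rw [h] at h1
    linarith only [h1, h2]
  have hcard : (Ks.image φ).card = Ks.card := Finset.card_image_of_injOn hinj
  have hDm : (m : ℝ) ≤ D / m := by
    rw [le_div_iff₀ hm0]
    nlinarith only [hmD]
  have h3 := h1 Qs e ((c₀ - a) / m) (D / m) (Ks.image φ) (fun p hp => (hQ p hp).1) (by linarith only [hm1, hDm])
    (by
      intro k' hk'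
      obtain ⟨k, hk, rfl⟩ := Finset.mem_image.1 hk'
      have h4 := hK k hk
      have h5 : (m : ℝ) * (φ k : ℝ) = (k : ℝ) - a := by exact_mod_cast hφS k hk
      have h6 : (φ k : ℝ) - (c₀ - a) / m = ((k : ℝ) - c₀) / m := by
        field_simp
        linarith only [h5]
      rw [h6, abs_div, abs_of_pos hm0, ← mul_div_assoc]
      exact div_le_div_of_nonneg_right h4 hm0.le)
    (by
      intro k' hk' p hp hdvd
      obtain ⟨k, hk, rfl⟩ := Finset.mem_image.1 hk'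
      refine hc k hk p hp ?_
      have h4 := he p hp
      have h5 : k - c p = m * (φ k - e p) + (m * e p - (c p - a)) := by
        have := hφS k hk
        linear_combination -this
      rw [h5]
      exact dvd_add (Dvd.dvd.mul_left hdvd _) h4)
  rw [hcard] at h3
  have h4 : pr (Qs.filter (fun p : ℕ => (p : ℝ) ≤ D / m)) ≤
      C₂ * pr (Qs.filter (fun p : ℕ => (p : ℝ) ≤ D)) := by
    have h5 : D ≤ (max 2 (D / m)) ^ (2 : ℝ) := by
      rw [Real.rpow_two]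
      have h6 : D ≤ (D / m) ^ 2 := by
        have h7 : D = (D / m) * m := by field_simp
        calc D = (D / m) * m := h7
          _ ≤ (D / m) * (D / m) := mul_le_mul_of_nonneg_left hDm (by linarith only [hDm])
          _ = _ := by ring
      exact h6.trans (pow_le_pow_left₀ (by linarith only [hDm]) (le_max_right _ _) 2)
    have h6 := h2 Qs (max 2 (D / m)) D (fun p hp => (hQ p hp).1) (le_max_left _ _) h5
    refine le_trans ?_ h6
    refine ks_pr_mono (fun p hp => (hQ p (Finset.mem_filter.1 hp).1).1) ?_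
    intro p hp
    rw [Finset.mem_filter] at hp ⊢
    refine ⟨hp.1, ?_⟩
    have h7 : (2 : ℝ) ≤ p := by exact_mod_cast (hQ p hp.1).1.two_le
    rcases lt_max_iff.1 hp.2 with h8 | h8
    · linarith only [h7, h8]
    · exact h8.le
  calc (Ks.card : ℝ) ≤ C₁ * (D / m) * pr (Qs.filter (fun p : ℕ => (p : ℝ) ≤ D / m)) := h3
    _ ≤ C₁ * (D / m) * (C₂ * pr (Qs.filter (fun p : ℕ => (p : ℝ) ≤ D))) :=
        mul_le_mul_of_nonneg_left h4 (mul_nonneg hC₁.le (by linarith only [hDm]))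
    _ = _ := by ring

/-- pointwise bound of the weight -/
theorem ks_pointwise : ∃ C > 0, ∀ E : Finset ℕ, (∀ p ∈ E, p.Prime) →
    (pr E)⁻¹ ≤ C * (1 + ∑ p ∈ E, (p : ℝ) ^ (-(1 / 3 : ℝ))) := by
  obtain ⟨C₁, hC₁, hM⟩ := Vale.Agent.P013.sum_inv_prime_le
  refine ⟨Real.exp (2 * C₁ + 2) * 25, by positivity, ?_⟩
  intro E hE
  set A : ℝ := 1 + ∑ p ∈ E, (p : ℝ) ^ (-(1 / 3 : ℝ)) with hA
  have hA1 : 1 ≤ A := by
    have : 0 ≤ ∑ p ∈ E, (p : ℝ) ^ (-(1 / 3 : ℝ)) := Finset.sum_nonneg fun p _ => by positivity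
    linarith only [this]
  have hA0 : 0 < A := by linarith only [hA1]
  set n : ℕ := ⌈A ^ (3 / 2 : ℝ)⌉₊ + 2 with hn
  have hn1 : A ^ (3 / 2 : ℝ) ≤ n := by
    have := Nat.le_ceil (A ^ (3 / 2 : ℝ))
    rw [hn]; push_cast; linarith only [this]
  have hA32 : 1 ≤ A ^ (3 / 2 : ℝ) := Real.one_le_rpow hA1 (by norm_num)
  have hn2 : (n : ℝ) ≤ 4 * A ^ (3 / 2 : ℝ) := by
    have := Nat.ceil_lt_add_one (by positivity : 0 ≤ A ^ (3 / 2 : ℝ))
    rw [hn]; push_cast; linarith only [hA32, this]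
  have hn3 : 2 ≤ n := by omega
  have hn3' : (3 : ℝ) ≤ n := by
    have := Nat.le_ceil (A ^ (3 / 2 : ℝ))
    rw [hn]; push_cast; linarith only [hA32, this]
  have hlogn : 1 ≤ Real.log n := by
    rw [Real.le_log_iff_exp_le (by linarith only [hn3'])]
    have := Real.exp_one_lt_d9
    linarith only [hn3', this]
  have hlogn2 : Real.log n ≤ 5 * A ^ (1 / 2 : ℝ) := by
    have h1 : Real.log n ≤ Real.log 4 + 3 / 2 * Real.log A := by
      calc Real.log n ≤ Real.log (4 * A ^ (3 / 2 : ℝ)) := Real.log_le_log (by linarith only [hn3']) hn2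
        _ = _ := by rw [Real.log_mul (by norm_num) (by positivity), Real.log_rpow hA0]
    have h2 : Real.log A ≤ A ^ (1 / 2 : ℝ) / (1 / 2) := Real.log_le_rpow_div hA0.le (by norm_num)
    have h3 : Real.log 4 ≤ 2 := by
      have : Real.log 4 = 2 * Real.log 2 := by
        rw [show (4 : ℝ) = 2 ^ 2 by norm_num, Real.log_pow]; norm_num
      have := Real.log_two_lt_d9
      linarith
    have h4 : 1 ≤ A ^ (1 / 2 : ℝ) := Real.one_le_rpow hA1 (by norm_num)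
    linarith only [h1, h2, h3, h4]
  have hsum1 : ∑ p ∈ E.filter (fun p => p < n), 1 / (p : ℝ) ≤ Real.log (Real.log n) + C₁ := by
    refine le_trans ?_ (hM n hn3)
    refine Finset.sum_le_sum_of_subset_of_nonneg ?_ (fun p _ _ => by positivity)
    intro p hp
    rw [Finset.mem_filter] at hp ⊢
    exact ⟨Finset.mem_range.2 hp.2, hE p hp.1⟩
  have hsum2 : ∑ p ∈ E.filter (fun p => ¬ p < n), 1 / (p : ℝ) ≤ 1 := by
    have h1 : ∀ p ∈ E.filter (fun p => ¬ p < n), 1 / (p : ℝ) ≤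
        A⁻¹ * (p : ℝ) ^ (-(1 / 3 : ℝ)) := by
      intro p hp
      rw [Finset.mem_filter, not_lt] at hp
      have hp0 : (0 : ℝ) < p := by exact_mod_cast (hE p hp.1).pos
      have hpn : A ^ (3 / 2 : ℝ) ≤ p := hn1.trans (by exact_mod_cast hp.2)
      have h2 : A ≤ (p : ℝ) ^ (2 / 3 : ℝ) := by
        calc A = (A ^ (3 / 2 : ℝ)) ^ (2 / 3 : ℝ) := by
              rw [← Real.rpow_mul hA0.le]; norm_num
          _ ≤ _ := Real.rpow_le_rpow (by positivity) hpn (by norm_num)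
      have h3 : 1 / (p : ℝ) = ((p : ℝ) ^ (2 / 3 : ℝ))⁻¹ * (p : ℝ) ^ (-(1 / 3 : ℝ)) := by
        rw [← Real.rpow_neg hp0.le, ← Real.rpow_add hp0, one_div, ← Real.rpow_neg_one]
        norm_num
      rw [h3]
      exact mul_le_mul_of_nonneg_right (inv_anti₀ hA0 h2) (by positivity)
    calc ∑ p ∈ E.filter (fun p => ¬ p < n), 1 / (p : ℝ)
        ≤ ∑ p ∈ E.filter (fun p => ¬ p < n), A⁻¹ * (p : ℝ) ^ (-(1 / 3 : ℝ)) :=
          Finset.sum_le_sum h1
      _ = A⁻¹ * ∑ p ∈ E.filter (fun p => ¬ p < n), (p : ℝ) ^ (-(1 / 3 : ℝ)) := by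
          rw [Finset.mul_sum]
      _ ≤ A⁻¹ * A := by
          refine mul_le_mul_of_nonneg_left ?_ (by positivity)
          have : ∑ p ∈ E.filter (fun p => ¬ p < n), (p : ℝ) ^ (-(1 / 3 : ℝ)) ≤
              ∑ p ∈ E, (p : ℝ) ^ (-(1 / 3 : ℝ)) :=
            Finset.sum_le_sum_of_subset_of_nonneg (Finset.filter_subset _ _)
              (fun p _ _ => by positivity)
          linarith only [this]
      _ = 1 := inv_mul_cancel₀ hA0.ne'
  have hsum : ∑ p ∈ E, 1 / (p : ℝ) ≤ Real.log (Real.log n) + C₁ + 1 := by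
    rw [← Finset.sum_filter_add_sum_filter_not E (fun p => p < n)]
    linarith only [hsum1, hsum2]
  have hl0 : 0 < Real.log n := by linarith only [hlogn]
  calc (pr E)⁻¹ ≤ Real.exp (2 * ∑ p ∈ E, 1 / (p : ℝ)) := ks_pr_inv_le_exp hE
    _ ≤ Real.exp (2 * (Real.log (Real.log n) + C₁ + 1)) := Real.exp_le_exp.2 (by linarith only [hsum])
    _ = Real.exp (2 * C₁ + 2) * (Real.log n) ^ 2 := by
        have : 2 * (Real.log (Real.log n) + C₁ + 1) = (2 * C₁ + 2) +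
          (Real.log (Real.log n) + Real.log (Real.log n)) := by ring
        rw [this, Real.exp_add, Real.exp_add (Real.log (Real.log n)), Real.exp_log hl0, sq]
    _ ≤ Real.exp (2 * C₁ + 2) * (25 * A) := by
        refine mul_le_mul_of_nonneg_left ?_ (Real.exp_pos _).le
        have h1 : (Real.log n) ^ 2 ≤ (5 * A ^ (1 / 2 : ℝ)) ^ 2 :=
          pow_le_pow_left₀ hl0.le hlogn2 2
        have h2 : (5 * A ^ (1 / 2 : ℝ)) ^ 2 = 25 * A := by
          rw [mul_pow, ← Real.rpow_natCast (A ^ (1 / 2 : ℝ)), ← Real.rpow_mul hA0.le]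
          norm_num
        linarith only [h1, h2]
    _ = _ := by ring

/-- the sieve with the weights -/
theorem ks_core : ∃ C > 0, ∀ (Qs G : Finset ℕ) (c : ℕ → ℤ) (c₀ D : ℝ) (Ks : Finset ℤ),
    (∀ p ∈ Qs, p.Prime) → (∀ p ∈ G, p.Prime ∧ (p : ℝ) ≤ D) → Disjoint Qs G → 1 / 1024 ≤ D →
    (∀ k ∈ Ks, |(k : ℝ) - c₀| ≤ 5 * D) → (∀ k ∈ Ks, ∀ p ∈ Qs, ¬ (p : ℤ) ∣ k - c p) →
    ∑ k ∈ Ks, (pr (G.filter (fun p : ℕ => (p : ℤ) ∣ k - c p)))⁻¹ ≤
      C * D * pr (Qs.filter (fun p : ℕ => (p : ℝ) ≤ D)) := by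
  obtain ⟨C₁, hC₁, h1⟩ := ks_base
  obtain ⟨C₂, hC₂, h2⟩ := ks_sum_ratio (K := 2) (by norm_num)
  obtain ⟨C₃, hC₃, h3⟩ := ks_pointwise
  obtain ⟨C₄, hC₄, h4⟩ := ks_ap
  have hsm : Summable (fun n : ℕ => 1 / (n : ℝ) ^ (4 / 3 : ℝ)) :=
    Real.summable_one_div_nat_rpow.2 (by norm_num)
  set Z : ℝ := ∑' n : ℕ, 1 / (n : ℝ) ^ (4 / 3 : ℝ) with hZ
  have hZ0 : 0 ≤ Z := tsum_nonneg fun n => by positivity
  refine ⟨Real.exp (2 * C₂) * C₃ * (C₁ + C₄ * Z), by positivity, ?_⟩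
  intro Qs G c c₀ D Ks hQ hG hdis hD hK hc
  have hD0 : 0 < D := by linarith only [hD]
  set Pi₀ := pr (Qs.filter (fun p : ℕ => (p : ℝ) ≤ D)) with hPi₀
  have hPi₀0 : 0 < Pi₀ := ks_pr_pos fun p hp => hQ p (Finset.mem_filter.1 hp).1
  set Gs := G.filter (fun p : ℕ => (p : ℝ) ^ 2 ≤ D) with hGs
  set Gl := G.filter (fun p : ℕ => ¬ (p : ℝ) ^ 2 ≤ D) with hGl
  have hGp : ∀ p ∈ G, p.Prime := fun p hp => (hG p hp).1
  -- pointwise bound
  have hpt : ∀ k ∈ Ks, (pr (G.filter (fun p : ℕ => (p : ℤ) ∣ k - c p)))⁻¹ ≤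
      Real.exp (2 * C₂) * C₃ *
        (1 + ∑ p ∈ Gs, if (p : ℤ) ∣ k - c p then (p : ℝ) ^ (-(1 / 3 : ℝ)) else 0) := by
    intro k _
    set El := (G.filter (fun p : ℕ => (p : ℤ) ∣ k - c p)).filter
      (fun p : ℕ => ¬ (p : ℝ) ^ 2 ≤ D) with hEl
    set Es := (G.filter (fun p : ℕ => (p : ℤ) ∣ k - c p)).filter
      (fun p : ℕ => (p : ℝ) ^ 2 ≤ D) with hEs
    have hElp : ∀ p ∈ El, p.Prime := fun p hp =>
      hGp p (Finset.mem_filter.1 (Finset.mem_filter.1 hp).1).1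
    have hEsp : ∀ p ∈ Es, p.Prime := fun p hp =>
      hGp p (Finset.mem_filter.1 (Finset.mem_filter.1 hp).1).1
    have hsplit : pr (G.filter (fun p : ℕ => (p : ℤ) ∣ k - c p)) = pr Es * pr El :=
      (Finset.prod_filter_mul_prod_filter_not _ _ _).symm
    have hlarge : (pr El)⁻¹ ≤ Real.exp (2 * C₂) := by
      refine (ks_pr_inv_le_exp hElp).trans (Real.exp_le_exp.2 ?_)
      have := h2 El (max 2 (Real.sqrt D)) D (fun p hp => by
        have h5 := Finset.mem_filter.1 hp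
        have h6 := hG p (Finset.mem_filter.1 h5.1).1
        refine ⟨h6.1, ?_, h6.2⟩
        rw [max_le_iff]
        refine ⟨by exact_mod_cast h6.1.two_le, ?_⟩
        rw [Real.sqrt_le_left (Nat.cast_nonneg p)]
        exact (not_le.1 h5.2).le) (le_max_left _ _) (by
          rw [Real.rpow_two]
          calc D = (Real.sqrt D) ^ 2 := (Real.sq_sqrt hD0.le).symm
            _ ≤ _ := pow_le_pow_left₀ (Real.sqrt_nonneg _) (le_max_right _ _) 2)
      linarith only [this]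
    have hsmall := h3 Es hEsp
    have hEs' : Es = Gs.filter (fun p : ℕ => (p : ℤ) ∣ k - c p) := by
      rw [hEs, hGs, Finset.filter_filter, Finset.filter_filter]
      refine Finset.filter_congr fun p _ => ?_
      exact and_comm
    rw [hsplit, mul_inv, mul_comm]
    rw [mul_assoc]
    refine mul_le_mul hlarge ?_ (inv_pos.2 (ks_pr_pos hEsp)).le (Real.exp_pos _).le
    refine hsmall.trans (le_of_eq ?_)
    rw [hEs', Finset.sum_filter]
  have hcard := h1 Qs c c₀ D Ks hQ hD hK hc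
  have hap : ∀ p ∈ Gs, ((Ks.filter (fun k => (p : ℤ) ∣ k - c p)).card : ℝ) ≤
      C₄ * (D / p) * Pi₀ := by
    intro p hp
    rw [hGs, Finset.mem_filter] at hp
    have hpp := hGp p hp.1
    refine h4 Qs c c₀ D (Ks.filter (fun k => (p : ℤ) ∣ k - c p)) p (c p) ?_ hpp.one_le hp.2 ?_ ?_ ?_
    · intro r hr
      refine ⟨hQ r hr, fun hrp => ?_⟩
      have : r = p := (Nat.prime_dvd_prime_iff_eq (hQ r hr) hpp).1 hrp
      subst this
      exact Finset.disjoint_left.1 hdis hr hp.1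
    · exact fun k hk => hK k (Finset.mem_filter.1 hk).1
    · exact fun k hk => (Finset.mem_filter.1 hk).2
    · exact fun k hk => hc k (Finset.mem_filter.1 hk).1
  have hdbl : ∑ k ∈ Ks, ∑ p ∈ Gs, (if (p : ℤ) ∣ k - c p then (p : ℝ) ^ (-(1 / 3 : ℝ)) else 0) ≤
      C₄ * Z * D * Pi₀ := by
    rw [Finset.sum_comm]
    calc ∑ p ∈ Gs, ∑ k ∈ Ks, (if (p : ℤ) ∣ k - c p then (p : ℝ) ^ (-(1 / 3 : ℝ)) else 0)
        = ∑ p ∈ Gs, ((Ks.filter (fun k => (p : ℤ) ∣ k - c p)).card : ℝ) *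
            (p : ℝ) ^ (-(1 / 3 : ℝ)) := by
          refine Finset.sum_congr rfl fun p _ => ?_
          rw [← Finset.sum_filter, Finset.sum_const, nsmul_eq_mul]
      _ ≤ ∑ p ∈ Gs, C₄ * D * Pi₀ * (1 / (p : ℝ) ^ (4 / 3 : ℝ)) := by
          refine Finset.sum_le_sum fun p hp => ?_
          have hp0 : (0 : ℝ) < p := by
            exact_mod_cast (hGp p (Finset.mem_filter.1 hp).1).pos
          have h5 : 1 / (p : ℝ) ^ (4 / 3 : ℝ) = 1 / (p : ℝ) * (p : ℝ) ^ (-(1 / 3 : ℝ)) := by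
            rw [one_div, one_div, ← Real.rpow_neg hp0.le, ← Real.rpow_neg_one (p : ℝ),
              ← Real.rpow_add hp0]
            norm_num
          rw [h5]
          calc ((Ks.filter (fun k => (p : ℤ) ∣ k - c p)).card : ℝ) * (p : ℝ) ^ (-(1 / 3 : ℝ))
              ≤ (C₄ * (D / p) * Pi₀) * (p : ℝ) ^ (-(1 / 3 : ℝ)) :=
                mul_le_mul_of_nonneg_right (hap p hp) (by positivity)
            _ = _ := by ring
      _ = C₄ * D * Pi₀ * ∑ p ∈ Gs, (1 / (p : ℝ) ^ (4 / 3 : ℝ)) := by rw [Finset.mul_sum]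
      _ ≤ C₄ * D * Pi₀ * Z := by
          refine mul_le_mul_of_nonneg_left ?_ (by positivity)
          exact hsm.sum_le_tsum Gs (fun n _ => by positivity)
      _ = _ := by ring
  calc ∑ k ∈ Ks, (pr (G.filter (fun p : ℕ => (p : ℤ) ∣ k - c p)))⁻¹
      ≤ ∑ k ∈ Ks, Real.exp (2 * C₂) * C₃ *
        (1 + ∑ p ∈ Gs, if (p : ℤ) ∣ k - c p then (p : ℝ) ^ (-(1 / 3 : ℝ)) else 0) :=
        Finset.sum_le_sum hpt
    _ = Real.exp (2 * C₂) * C₃ * ((Ks.card : ℝ) +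
        ∑ k ∈ Ks, ∑ p ∈ Gs, (if (p : ℤ) ∣ k - c p then (p : ℝ) ^ (-(1 / 3 : ℝ)) else 0)) := by
        rw [← Finset.mul_sum, Finset.sum_add_distrib, Finset.sum_const, nsmul_eq_mul, mul_one]
    _ ≤ Real.exp (2 * C₂) * C₃ * (C₁ * D * Pi₀ + C₄ * Z * D * Pi₀) :=
        mul_le_mul_of_nonneg_left (add_le_add hcard hdbl) (by positivity)
    _ = _ := by ring

/-- few large primes divide a number which is not too large -/
theorem ks_large {Ps : Finset ℕ} {n : ℤ} {Y : ℝ} (h : ∀ p ∈ Ps, p.Prime ∧ Y < (p : ℝ) ∧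
    (p : ℤ) ∣ n) (hY : 2 ≤ Y) (hn : n ≠ 0) (hl : Real.log |(n : ℝ)| ≤ 2 * Y) :
    (pr Ps)⁻¹ ≤ Real.exp (4 / Real.log 2) := by
  have hl2 : 0 < Real.log 2 := Real.log_pos (by norm_num)
  have hY0 : 0 < Y := by linarith only [hY]
  refine (ks_pr_inv_le_exp fun p hp => (h p hp).1).trans (Real.exp_le_exp.2 ?_)
  have hdvd : ∏ p ∈ Ps, p ∣ n.natAbs := by
    refine Finset.prod_primes_dvd _ (fun p hp => (h p hp).1.prime) fun p hp => ?_
    exact Int.natCast_dvd.1 (h p hp).2.2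
  have hle : ((∏ p ∈ Ps, p : ℕ) : ℝ) ≤ |(n : ℝ)| := by
    have h1 := Nat.le_of_dvd (Int.natAbs_pos.2 hn) hdvd
    have h2 : ((n.natAbs : ℕ) : ℝ) = |(n : ℝ)| := by
      rw [Nat.cast_natAbs]
      push_cast
      rfl
    rw [← h2]
    exact_mod_cast h1
  have hlog : (Ps.card : ℝ) * Real.log 2 ≤ 2 * Y := by
    have h0 : (2 : ℝ) ^ Ps.card ≤ ((∏ p ∈ Ps, p : ℕ) : ℝ) := by
      push_cast
      rw [← Finset.prod_const]
      exact Finset.prod_le_prod (fun _ _ => by norm_num)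
        (fun p hp => by exact_mod_cast (h p hp).1.two_le)
    have h1 := Real.log_le_log (by positivity) (h0.trans hle)
    rw [Real.log_pow] at h1
    linarith only [hl, h1]
  have hsum : ∑ p ∈ Ps, 1 / (p : ℝ) ≤ Ps.card * (1 / Y) := by
    rw [← nsmul_eq_mul]
    refine Finset.sum_le_card_nsmul _ _ _ fun p hp => ?_
    exact one_div_le_one_div_of_le hY0 (h p hp).2.1.le
  have h3 : (Ps.card : ℝ) * (1 / Y) ≤ 2 / Real.log 2 := by
    rw [mul_one_div, div_le_div_iff₀ hY0 hl2]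
    linarith only [hlog]
  have : 4 / Real.log 2 = 2 * (2 / Real.log 2) := by ring
  rw [this]
  linarith only [hsum, h3]

/-- `n_k = B₁ B₂ k + v B₂ A₁ - u B₁ A₂` -/
theorem pv_sum : ∃ C > 0, ∀ (B₁ B₂ u v : ℕ) (A₁ A₂ : ℤ) (Pa Pb : Finset ℕ) (y W D c₀ : ℝ)
    (Ks : Finset ℤ), u.Coprime v → (∀ p ∈ Pa, p.Prime ∧ ¬ p ∣ B₁) → (∀ p ∈ Pb, p.Prime ∧ ¬ p ∣ B₂) →
    (∀ p ∈ Pa ∩ Pb, y < (p : ℝ)) → 2 ≤ y → 1 ≤ W → Real.log W ≤ y → 1 / 1024 ≤ D →
    (∀ k ∈ Ks, |(k : ℝ) - c₀| < 2 * D) →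
    (∀ k ∈ Ks, (B₁ : ℤ) * B₂ * k + (v : ℤ) * B₂ * A₁ - (u : ℤ) * B₁ * A₂ ≠ 0 ∧
      |(((B₁ : ℤ) * B₂ * k + (v : ℤ) * B₂ * A₁ - (u : ℤ) * B₁ * A₂ : ℤ) : ℝ)| ≤ D * W ∧
      (∀ p ∈ Pa, p ∣ u → ¬ (p : ℤ) ∣ (B₁ : ℤ) * k + ((v : ℤ) - u) * A₁) ∧
      (∀ p ∈ Pb, p ∣ v → ¬ (p : ℤ) ∣ (B₂ : ℤ) * k + ((v : ℤ) - u) * A₂)) →
    ∑ k ∈ Ks, (pr ((Pa ∩ Pb).filter (fun p : ℕ => ¬ p ∣ u ∧ ¬ p ∣ v ∧
        (p : ℤ) ∣ (B₁ : ℤ) * B₂ * k + (v : ℤ) * B₂ * A₁ - (u : ℤ) * B₁ * A₂)))⁻¹ ≤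
      C * D * pr ((Pa.filter (fun p : ℕ => p ∣ u) ∪ Pb.filter (fun p : ℕ => p ∣ v)).filter
        (fun p : ℕ => (p : ℝ) ≤ D)) := by
  obtain ⟨C₁, hC₁, h1⟩ := ks_core
  refine ⟨Real.exp (4 / Real.log 2) * C₁, by positivity, ?_⟩
  intro B₁ B₂ u v A₁ A₂ Pa Pb y W D c₀ Ks huv hPa hPb hy hy2 hW hWy hD hK hn
  have hD0 : 0 < D := by linarith only [hD]
  -- the classes
  have hcl : ∀ (p : ℕ) (b z : ℤ), p.Prime → ¬ (p : ℤ) ∣ b → ∃ x : ℤ, (p : ℤ) ∣ b * x + z := by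
    intro p b z hp hb
    have hco : IsCoprime (p : ℤ) b := by
      rw [Int.isCoprime_iff_gcd_eq_one]
      have := (Nat.Prime.coprime_iff_not_dvd hp).2 (fun h => hb (Int.natCast_dvd.2 h))
      exact this
    obtain ⟨x, w, hxw⟩ := hco
    refine ⟨-w * z, x * z, ?_⟩
    linear_combination (-z) * hxw
  have hc : ∃ c : ℕ → ℤ, ∀ p : ℕ,
      (p ∈ Pa → p ∣ u → (p : ℤ) ∣ (B₁ : ℤ) * c p + ((v : ℤ) - u) * A₁) ∧
      (p ∈ Pb → p ∣ v → (p : ℤ) ∣ (B₂ : ℤ) * c p + ((v : ℤ) - u) * A₂) ∧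
      (p ∈ Pa → p ∈ Pb → ¬ p ∣ u → ¬ p ∣ v →
        (p : ℤ) ∣ (B₁ : ℤ) * B₂ * c p + ((v : ℤ) * B₂ * A₁ - (u : ℤ) * B₁ * A₂)) := by
    refine Classical.axiom_of_choice (r := fun (p : ℕ) (c : ℤ) =>
      (p ∈ Pa → p ∣ u → (p : ℤ) ∣ (B₁ : ℤ) * c + ((v : ℤ) - u) * A₁) ∧
      (p ∈ Pb → p ∣ v → (p : ℤ) ∣ (B₂ : ℤ) * c + ((v : ℤ) - u) * A₂) ∧
      (p ∈ Pa → p ∈ Pb → ¬ p ∣ u → ¬ p ∣ v →
        (p : ℤ) ∣ (B₁ : ℤ) * B₂ * c + ((v : ℤ) * B₂ * A₁ - (u : ℤ) * B₁ * A₂))) ?_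
    intro p
    have hnot : p.Prime → ¬ (p ∣ u ∧ p ∣ v) := fun hp h =>
      hp.one_lt.ne' (Nat.dvd_one.1 (huv ▸ Nat.dvd_gcd h.1 h.2))
    by_cases ha : p ∈ Pa ∧ p ∣ u
    · have hp := (hPa p ha.1).1
      obtain ⟨x, hx⟩ := hcl p B₁ (((v : ℤ) - u) * A₁) hp
        (fun h => (hPa p ha.1).2 (Int.natCast_dvd_natCast.1 h))
      exact ⟨x, fun _ _ => hx, fun _ h => absurd ⟨ha.2, h⟩ (hnot hp),
        fun _ _ h => absurd ha.2 h⟩
    · by_cases hb : p ∈ Pb ∧ p ∣ v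
      · have hp := (hPb p hb.1).1
        obtain ⟨x, hx⟩ := hcl p B₂ (((v : ℤ) - u) * A₂) hp
          (fun h => (hPb p hb.1).2 (Int.natCast_dvd_natCast.1 h))
        exact ⟨x, fun h h' => absurd ⟨h, h'⟩ ha, fun _ _ => hx,
          fun _ _ _ h => absurd hb.2 h⟩
      · by_cases hab : p ∈ Pa ∧ p ∈ Pb
        · have hp := (hPb p hab.2).1
          have hnd : ¬ (p : ℤ) ∣ (B₁ : ℤ) * B₂ := by
            intro h
            rcases (Nat.prime_iff_prime_int.1 hp).dvd_or_dvd h with h | h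
            · exact (hPa p hab.1).2 (Int.natCast_dvd_natCast.1 h)
            · exact (hPb p hab.2).2 (Int.natCast_dvd_natCast.1 h)
          obtain ⟨x, hx⟩ := hcl p ((B₁ : ℤ) * B₂) ((v : ℤ) * B₂ * A₁ - (u : ℤ) * B₁ * A₂) hp hnd
          exact ⟨x, fun h h' => absurd ⟨h, h'⟩ ha, fun h h' => absurd ⟨h, h'⟩ hb,
            fun _ _ _ _ => hx⟩
        · exact ⟨0, fun h h' => absurd ⟨h, h'⟩ ha, fun h h' => absurd ⟨h, h'⟩ hb,
            fun h h' => absurd ⟨h, h'⟩ hab⟩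
  obtain ⟨c, hc⟩ := hc
  set Qs := Pa.filter (fun p : ℕ => p ∣ u) ∪ Pb.filter (fun p : ℕ => p ∣ v) with hQs
  set G := (Pa ∩ Pb).filter (fun p : ℕ => ¬ p ∣ u ∧ ¬ p ∣ v ∧ (p : ℝ) ≤ D) with hG
  have hQp : ∀ p ∈ Qs, p.Prime := by
    intro p hp
    rw [hQs, Finset.mem_union, Finset.mem_filter, Finset.mem_filter] at hp
    rcases hp with hp | hp
    · exact (hPa p hp.1).1
    · exact (hPb p hp.1).1
  have hGp : ∀ p ∈ G, p.Prime ∧ (p : ℝ) ≤ D := by
    intro p hp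
    rw [hG, Finset.mem_filter, Finset.mem_inter] at hp
    exact ⟨(hPa p hp.1.1).1, hp.2.2.2⟩
  have hdis : Disjoint Qs G := by
    rw [Finset.disjoint_left]
    intro p hp hp'
    rw [hQs, Finset.mem_union, Finset.mem_filter, Finset.mem_filter] at hp
    rw [hG, Finset.mem_filter] at hp'
    rcases hp with hp | hp
    · exact hp'.2.1 hp.2
    · exact hp'.2.2.1 hp.2
  have h2 := h1 Qs G c c₀ D Ks hQp hGp hdis hD (fun k hk => by
      have := hK k hk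
      linarith only [hD0, this]) (fun k hk p hp hdvd => by
      rw [hQs, Finset.mem_union, Finset.mem_filter, Finset.mem_filter] at hp
      obtain ⟨-, -, hka, hkb⟩ := hn k hk
      rcases hp with hp | hp
      · refine hka p hp.1 hp.2 ?_
        have h3 := (hc p).1 hp.1 hp.2
        have h4 : (B₁ : ℤ) * k + ((v : ℤ) - u) * A₁ = B₁ * (k - c p) +
            ((B₁ : ℤ) * c p + ((v : ℤ) - u) * A₁) := by ring
        rw [h4]
        exact dvd_add (Dvd.dvd.mul_left hdvd _) h3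
      · refine hkb p hp.1 hp.2 ?_
        have h3 := (hc p).2.1 hp.1 hp.2
        have h4 : (B₂ : ℤ) * k + ((v : ℤ) - u) * A₂ = B₂ * (k - c p) +
            ((B₂ : ℤ) * c p + ((v : ℤ) - u) * A₂) := by ring
        rw [h4]
        exact dvd_add (Dvd.dvd.mul_left hdvd _) h3)
  have h3 : ∀ k ∈ Ks, (pr ((Pa ∩ Pb).filter (fun p : ℕ => ¬ p ∣ u ∧ ¬ p ∣ v ∧
        (p : ℤ) ∣ (B₁ : ℤ) * B₂ * k + (v : ℤ) * B₂ * A₁ - (u : ℤ) * B₁ * A₂)))⁻¹ ≤
      Real.exp (4 / Real.log 2) * (pr (G.filter (fun p : ℕ => (p : ℤ) ∣ k - c p)))⁻¹ := by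
    intro k hk
    obtain ⟨hn0, hnW, -, -⟩ := hn k hk
    set n : ℤ := (B₁ : ℤ) * B₂ * k + (v : ℤ) * B₂ * A₁ - (u : ℤ) * B₁ * A₂ with hndef
    set E := (Pa ∩ Pb).filter (fun p : ℕ => ¬ p ∣ u ∧ ¬ p ∣ v ∧ (p : ℤ) ∣ n) with hE
    have hEp : ∀ p ∈ E, p.Prime := fun p hp =>
      (hPa p (Finset.mem_inter.1 (Finset.mem_filter.1 hp).1).1).1
    have hsplit : pr E = pr (E.filter (fun p : ℕ => (p : ℝ) ≤ D)) *
        pr (E.filter (fun p : ℕ => ¬ (p : ℝ) ≤ D)) :=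
      (Finset.prod_filter_mul_prod_filter_not _ _ _).symm
    have hsm : (pr (E.filter (fun p : ℕ => (p : ℝ) ≤ D)))⁻¹ ≤
        (pr (G.filter (fun p : ℕ => (p : ℤ) ∣ k - c p)))⁻¹ := by
      refine inv_anti₀ (ks_pr_pos fun p hp => (hGp p (Finset.mem_filter.1 hp).1).1) ?_
      refine ks_pr_mono (fun p hp => (hGp p (Finset.mem_filter.1 hp).1).1) ?_
      intro p hp
      rw [Finset.mem_filter, hE, Finset.mem_filter] at hp
      obtain ⟨⟨hp1, hpu, hpv, hpn⟩, hpD⟩ := hp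
      rw [Finset.mem_filter, hG, Finset.mem_filter]
      refine ⟨⟨hp1, hpu, hpv, hpD⟩, ?_⟩
      rw [Finset.mem_inter] at hp1
      have hpp := (hPa p hp1.1).1
      have h4 := (hc p).2.2 hp1.1 hp1.2 hpu hpv
      have h5 : n - ((B₁ : ℤ) * B₂ * c p + ((v : ℤ) * B₂ * A₁ - (u : ℤ) * B₁ * A₂)) =
          (B₁ : ℤ) * B₂ * (k - c p) := by rw [hndef]; ring
      have h6 := dvd_sub hpn h4
      rw [h5] at h6
      have hpz := Nat.prime_iff_prime_int.1 hpp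
      rcases hpz.dvd_or_dvd h6 with h7 | h7
      · exfalso
        rcases hpz.dvd_or_dvd h7 with h8 | h8
        · exact (hPa p hp1.1).2 (Int.natCast_dvd_natCast.1 h8)
        · exact (hPb p hp1.2).2 (Int.natCast_dvd_natCast.1 h8)
      · exact h7
    have hlg : (pr (E.filter (fun p : ℕ => ¬ (p : ℝ) ≤ D)))⁻¹ ≤ Real.exp (4 / Real.log 2) := by
      refine ks_large (n := n) (Y := max D y) (fun p hp => ?_) (hy2.trans (le_max_right _ _)) hn0 ?_
      · rw [Finset.mem_filter, hE, Finset.mem_filter] at hp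
        exact ⟨(hPa p (Finset.mem_inter.1 hp.1.1).1).1,
          max_lt (not_le.1 hp.2) (hy p hp.1.1), hp.1.2.2.2⟩
      · have h4 : 0 < |(n : ℝ)| := abs_pos.2 (by exact_mod_cast hn0)
        calc Real.log |(n : ℝ)| ≤ Real.log (D * W) := Real.log_le_log h4 hnW
          _ = Real.log D + Real.log W := Real.log_mul hD0.ne' (by linarith only [hW])
          _ ≤ D + y := by
              have := Real.log_le_sub_one_of_pos hD0
              linarith only [hWy, this]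
          _ ≤ 2 * max D y := by
              have := le_max_left D y
              have := le_max_right D y
              linarith
    rw [hsplit, mul_inv, mul_comm]
    exact mul_le_mul hlg hsm (inv_pos.2 (ks_pr_pos fun p hp =>
      hEp p (Finset.mem_filter.1 hp).1)).le (Real.exp_pos _).le
  calc _ ≤ ∑ k ∈ Ks, Real.exp (4 / Real.log 2) *
        (pr (G.filter (fun p : ℕ => (p : ℤ) ∣ k - c p)))⁻¹ := Finset.sum_le_sum h3
    _ = Real.exp (4 / Real.log 2) *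
        ∑ k ∈ Ks, (pr (G.filter (fun p : ℕ => (p : ℤ) ∣ k - c p)))⁻¹ := by rw [Finset.mul_sum]
    _ ≤ Real.exp (4 / Real.log 2) * (C₁ * D * pr (Qs.filter (fun p : ℕ => (p : ℝ) ≤ D))) :=
        mul_le_mul_of_nonneg_left h2 (Real.exp_pos _).le
    _ = _ := by ring

end Vale.P028
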