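import Vale.Agent.P028.MathlibUsed
import Vale.Agent.P028.KDefs
import Vale.Agent.P028.BSel

set_option linter.all false

/-!
# `(pr Ps)⁻¹` is bounded when `Ps` consists of primes `> y` dividing one `n ≠ 0`
-/

namespace Vale.P028

open Finset

theorem pr_inv_eq (Ps : Finset ℕ) : (pr Ps)⁻¹ = ∏ p ∈ Ps, (1 - 1 / (p : ℝ))⁻¹ := by
  unfold pr
  rw [prod_inv_distrib]

/-- the factor is bounded for a single `n ≠ 0` -/
theorem pr_inv_le : ∃ C > 0, ∀ (Ps : Finset ℕ) (n : ℤ) (y W : ℝ), (∀ p ∈ Ps, p.Prime ∧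
    y < (p : ℝ) ∧ (p : ℤ) ∣ n) → 2 ≤ y → 1 ≤ W → Real.log W ≤ y → n ≠ 0 → |(n : ℝ)| ≤ W →
    (pr Ps)⁻¹ ≤ C := by
  refine ⟨Real.exp 4, Real.exp_pos _, ?_⟩
  intro Ps n y W hPs hy hW hlW hn hnW
  have hn0 : 0 < n.natAbs := Int.natAbs_pos.2 hn
  have hcast : ((n.natAbs : ℕ) : ℝ) = |(n : ℝ)| := by
    rw [Nat.cast_natAbs, Int.cast_abs]
  rw [pr_inv_eq]
  refine (bs_prod_le_exp Ps fun p hp => (hPs p hp).1).trans ?_
  apply Real.exp_le_exp.2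
  have h1 : ∑ p ∈ Ps, 1 / (p : ℝ) ≤
      ∑ p ∈ n.natAbs.primeFactors.filter (fun p : ℕ => y < (p : ℝ)), 1 / (p : ℝ) := by
    refine sum_le_sum_of_subset_of_nonneg ?_ fun p _ _ => by positivity
    intro p hp
    obtain ⟨h1, h2, h3⟩ := hPs p hp
    rw [mem_filter, Nat.mem_primeFactors]
    exact ⟨⟨h1, Int.natCast_dvd.1 h3, hn0.ne'⟩, h2⟩
  have h2 := bs_sum_large hn0 hy
  have h3 : 2 * Real.log (n.natAbs : ℝ) / y ≤ 2 := by
    rw [div_le_iff₀ (by linarith), hcast]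
    have : Real.log |(n : ℝ)| ≤ Real.log W := by
      apply Real.log_le_log _ hnW
      rw [← hcast]
      exact_mod_cast hn0
    linarith
  linarith

end Vale.P028
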