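import Vale.Agent.P028.MathlibUsed
import Vale.Agent.P028.KPair
import Vale.Agent.P028.KSieve
import Vale.Agent.P028.KSieveB
attribute [-instance] ProperSMul.toContinuousSMul IsTopologicalTorsor.toContinuousSMul IdemSemiring.toCanonicallyOrderedAdd IdemSemiring.toMulLeftMono IdemSemiring.toMulRightMono AddQuantale.instAddLeftMono AddQuantale.instAddRightMono Quantale.instMulLeftMono Quantale.instMulRightMono FiniteDimensional.rclike_to_real IsScalarTower.complexToReal FiniteDimensional.complexToReal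

/-!
# The bound for one pair, split according to the sheets
-/

namespace Vale.P028

open Finset MeasureTheory

theorem Bq_pos (γ x : ℝ) : 0 < Bq γ x := Bsel_pos _ _ _

theorem Bq_one_le (γ x : ℝ) : (1 : ℝ) ≤ Bq γ x := by exact_mod_cast Bq_pos γ x

theorem KK_one_le (γ x : ℝ) : 1 ≤ KK γ x := le_max_left _ _

theorem Aq_coprime (γ x : ℝ) : IsCoprime (Bq γ x : ℤ) (Aq γ x) :=
  Bsel_coprime (by (clear * -; norm_num))

theorem abs_Aq_sub (γ x : ℝ) : |(Bq γ x : ℝ) * γ - Aq γ x| = distInt ((Bq γ x : ℝ) * γ) := rfl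

theorem dist_le_KK (γ : ℝ) {x : ℝ} (hx : 0 < x) : distInt ((Bq γ x : ℝ) * γ) ≤ KK γ x * x := by
  have h1 : distInt ((Bq γ x : ℝ) * γ) / x ≤ KK γ x := le_max_right _ _
  rwa [div_le_iff₀ hx] at h1

theorem yK_gt_two (γ x : ℝ) : 2 < yK γ x := by
  unfold yK
  have h1 : 1 < 2 * (Bq γ x : ℝ) * KK γ x := by
    have := Bq_one_le γ x
    have := KK_one_le γ x
    nlinarith
  have := Real.log_pos h1
  linarith only [this]

/-- `W = 4 B₁ K₁ B₂ K₂` -/
noncomputable def WW (γ x x' : ℝ) : ℝ := 4 * Bq γ x * KK γ x * (Bq γ x' * KK γ x')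

theorem WW_ge_one (γ x x' : ℝ) : 1 ≤ WW γ x x' := by
  unfold WW
  have h1 := Bq_one_le γ x
  have h2 := KK_one_le γ x
  have h3 := Bq_one_le γ x'
  have h4 := KK_one_le γ x'
  have h5 : 1 ≤ (Bq γ x : ℝ) * KK γ x := by nlinarith only [h1, h2]
  have h6 : 1 ≤ (Bq γ x' : ℝ) * KK γ x' := by nlinarith only [h3, h4]
  calc (1 : ℝ) ≤ 4 * (1 * 1) := by norm_num
    _ ≤ 4 * (((Bq γ x : ℝ) * KK γ x) * ((Bq γ x' : ℝ) * KK γ x')) := by gcongr
    _ = _ := by ring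

theorem log_WW_le (γ x x' : ℝ) : Real.log (WW γ x x') ≤ max (yK γ x) (yK γ x') := by
  have h1 := Bq_one_le γ x
  have h2 := KK_one_le γ x
  have h3 := Bq_one_le γ x'
  have h4 := KK_one_le γ x'
  have e : WW γ x x' = (2 * Bq γ x * KK γ x) * (2 * Bq γ x' * KK γ x') := by
    unfold WW; ring
  rw [e, Real.log_mul (by (clear * - h1 h2; positivity)) (by (clear * - h3 h4; positivity))]
  have h5 : yK γ x = 2 + 2 * Real.log (2 * Bq γ x * KK γ x) := rfl
  have h6 : yK γ x' = 2 + 2 * Real.log (2 * Bq γ x' * KK γ x') := rfl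
  have h7 := le_max_left (yK γ x) (yK γ x')
  have h8 := le_max_right (yK γ x) (yK γ x')
  linarith only [h5, h6, h7, h8]

theorem nk_abs_le (γ : ℝ) {q r : ℕ} (hq : 0 < q) {x x' : ℝ} (hx : 0 < x) (hx' : 0 < x') {k : ℤ}
    (h : Sh γ x x' q r k) :
    |((nk γ x x' (cofac q r) (cofac r q) k : ℤ) : ℝ)| ≤ DD q r x x' * WW γ x x' := by
  obtain ⟨h1, -⟩ := h
  set u := cofac q r with hu
  set v := cofac r q with hv
  set D := DD q r x x' with hD
  have hDe : D = max ((v : ℝ) * x) ((u : ℝ) * x') := DD_eq' hq x x'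
  have hDv : (v : ℝ) * x ≤ D := by rw [hDe]; exact le_max_left _ _
  have hDu : (u : ℝ) * x' ≤ D := by rw [hDe]; exact le_max_right _ _
  have hB₁ := Bq_one_le γ x
  have hK₁ := KK_one_le γ x
  have hB₂ := Bq_one_le γ x'
  have hK₂ := KK_one_le γ x'
  set B₁ : ℝ := (Bq γ x : ℝ) with hB₁d
  set B₂ : ℝ := (Bq γ x' : ℝ) with hB₂d
  have hA₁ := dist_le_KK γ hx
  have hA₂ := dist_le_KK γ hx'
  rw [← abs_Aq_sub] at hA₁ hA₂
  set A₁ : ℝ := (Aq γ x : ℝ) with hA₁d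
  set A₂ : ℝ := (Aq γ x' : ℝ) with hA₂d
  set K₁ := KK γ x
  set K₂ := KK γ x'
  have hu0 : (0 : ℝ) ≤ u := Nat.cast_nonneg _
  have hv0 : (0 : ℝ) ≤ v := Nat.cast_nonneg _
  have hD0 : 0 ≤ D := le_trans (by (clear * - hx; positivity)) hDv
  have e : ((nk γ x x' u v k : ℤ) : ℝ) = B₁ * B₂ * ((k : ℝ) - ((u : ℝ) - v) * γ) -
      v * B₂ * (B₁ * γ - A₁) + u * B₁ * (B₂ * γ - A₂) := by
    unfold nk
    push_cast
    ring
  rw [e]
  have t1 : |B₁ * B₂ * ((k : ℝ) - ((u : ℝ) - v) * γ)| ≤ B₁ * B₂ * (2 * D) := by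
    rw [abs_mul, abs_of_nonneg (by (clear * - hB₁ hB₂; positivity))]
    (clear * - h1 hB₁ hB₂; gcongr)
  have t2 : |v * B₂ * (B₁ * γ - A₁)| ≤ B₂ * K₁ * D := by
    rw [abs_mul, abs_of_nonneg (by (clear * - hB₂; positivity))]
    calc (v : ℝ) * B₂ * |B₁ * γ - A₁| ≤ v * B₂ * (K₁ * x) := by (clear * - hA₁ hB₂; gcongr)
      _ = B₂ * K₁ * (v * x) := by ring
      _ ≤ B₂ * K₁ * D := by (clear * - hDv hB₂ hK₁; gcongr)
  have t3 : |u * B₁ * (B₂ * γ - A₂)| ≤ B₁ * K₂ * D := by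
    rw [abs_mul, abs_of_nonneg (by (clear * - hB₁; positivity))]
    calc (u : ℝ) * B₁ * |B₂ * γ - A₂| ≤ u * B₁ * (K₂ * x') := by (clear * - hA₂ hB₁; gcongr)
      _ = B₁ * K₂ * (u * x') := by ring
      _ ≤ B₁ * K₂ * D := by (clear * - hDu hB₁ hK₂; gcongr)
  have t4 : |B₁ * B₂ * ((k : ℝ) - ((u : ℝ) - v) * γ) -
      v * B₂ * (B₁ * γ - A₁) + u * B₁ * (B₂ * γ - A₂)| ≤
      B₁ * B₂ * (2 * D) + B₂ * K₁ * D + B₁ * K₂ * D := by
    refine (abs_add_le _ _).trans (add_le_add ?_ t3)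
    exact (abs_sub _ _).trans (add_le_add t1 t2)
  refine t4.trans ?_
  have hBB : 1 ≤ B₁ * B₂ := by nlinarith only [hB₁, hB₂]
  have hKK : 1 ≤ K₁ * K₂ := by nlinarith only [hK₁, hK₂]
  have f1 : B₁ * B₂ * (2 * D) ≤ 2 * (B₁ * B₂ * (K₁ * K₂)) * D := by
    have : B₁ * B₂ * 1 ≤ B₁ * B₂ * (K₁ * K₂) := by (clear * - hKK hB₁ hB₂; gcongr)
    nlinarith only [hD0, this]
  have f2 : B₂ * K₁ * D ≤ (B₁ * B₂ * (K₁ * K₂)) * D := by
    have : B₂ * K₁ ≤ B₁ * B₂ * (K₁ * K₂) := by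
      calc B₂ * K₁ = (1 * B₂) * (K₁ * 1) := by ring
        _ ≤ (B₁ * B₂) * (K₁ * K₂) := by (clear * - hB₁ hB₂ hK₂ hK₁; gcongr)
    (clear * - this hD0; gcongr)
  have f3 : B₁ * K₂ * D ≤ (B₁ * B₂ * (K₁ * K₂)) * D := by
    have : B₁ * K₂ ≤ B₁ * B₂ * (K₁ * K₂) := by
      calc B₁ * K₂ = (B₁ * 1) * (1 * K₂) := by ring
        _ ≤ (B₁ * B₂) * (K₁ * K₂) := by (clear * - hB₂ hB₁ hK₁ hK₂; gcongr)
    (clear * - this hD0; gcongr)
  have f4 : D * WW γ x x' = 4 * (B₁ * B₂ * (K₁ * K₂)) * D := by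
    unfold WW
    ring
  rw [f4]
  linarith only [f1, f2, f3]

theorem Sh_class {γ : ℝ} {q r : ℕ} (hq : 0 < q) {x x' : ℝ} {k : ℤ} (h : Sh γ x x' q r k) :
    (∀ p ∈ PK γ x q, p ∣ cofac q r → ¬ (p : ℤ) ∣ (Bq γ x : ℤ) * k +
      ((cofac r q : ℤ) - cofac q r) * Aq γ x) ∧
    (∀ p ∈ PK γ x' r, p ∣ cofac r q → ¬ (p : ℤ) ∣ (Bq γ x' : ℤ) * k +
      ((cofac r q : ℤ) - cofac q r) * Aq γ x') := by
  obtain ⟨-, al, be, hal, hbe, hk⟩ := h
  have hcop := cofac_coprime (r := r) hq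
  constructor
  · intro p hp hpu hdvd
    have hpp := (mem_PK hp).1
    have hpp' := Nat.prime_iff_prime_int.mp hpp
    have hpv : ¬ p ∣ cofac r q := fun h' =>
      hpp.one_lt.ne' (Nat.eq_one_of_dvd_coprimes hcop hpu h')
    have hpu' : (p : ℤ) ∣ (cofac q r : ℤ) := by exact_mod_cast hpu
    have h1 : (Bq γ x : ℤ) * k + ((cofac r q : ℤ) - cofac q r) * Aq γ x =
        (cofac r q : ℤ) * (al * Bq γ x + Aq γ x) -
          (cofac q r : ℤ) * (Bq γ x * be + Aq γ x) := by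
      rw [hk]; ring
    rw [h1] at hdvd
    have h2 : (p : ℤ) ∣ (cofac r q : ℤ) * (al * Bq γ x + Aq γ x) :=
      (dvd_sub_left (dvd_mul_of_dvd_left hpu' _)).mp hdvd
    rcases hpp'.dvd_or_dvd h2 with h3 | h3
    · exact hpv (by exact_mod_cast h3)
    · exact hal p hp h3
  · intro p hp hpv hdvd
    have hpp := (mem_PK hp).1
    have hpp' := Nat.prime_iff_prime_int.mp hpp
    have hpu : ¬ p ∣ cofac q r := fun h' =>
      hpp.one_lt.ne' (Nat.eq_one_of_dvd_coprimes hcop h' hpv)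
    have hpv' : (p : ℤ) ∣ (cofac r q : ℤ) := by exact_mod_cast hpv
    have h1 : (Bq γ x' : ℤ) * k + ((cofac r q : ℤ) - cofac q r) * Aq γ x' =
        (cofac r q : ℤ) * (al * Bq γ x' + Aq γ x') -
          (cofac q r : ℤ) * (be * Bq γ x' + Aq γ x') := by
      rw [hk]; ring
    rw [h1] at hdvd
    have h2 : (p : ℤ) ∣ (cofac q r : ℤ) * (be * Bq γ x' + Aq γ x') :=
      (dvd_sub_right (dvd_mul_of_dvd_left hpv' _)).mp hdvd
    rcases hpp'.dvd_or_dvd h2 with h3 | h3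
    · exact hpu (by exact_mod_cast h3)
    · exact hbe p hp h3

theorem nk_inj {γ x x' : ℝ} {u v : ℕ} {k k' : ℤ} (h : nk γ x x' u v k = nk γ x x' u v k') :
    k = k' := by
  unfold nk at h
  have h1 : (Bq γ x : ℤ) * Bq γ x' * k = (Bq γ x : ℤ) * Bq γ x' * k' := by linarith only [h]
  have h2 : (Bq γ x : ℤ) * Bq γ x' ≠ 0 := by
    have := Bq_pos γ x
    have := Bq_pos γ x'
    (clear u v k k' h h1; positivity)
  exact mul_left_cancel₀ h2 h1

/-- the primes of `Fk` for the sheet with `nk = 0` -/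
noncomputable def F0 (γ x x' : ℝ) (q r : ℕ) : Finset ℕ :=
  (PK γ x q ∩ PK γ x' r).filter (fun p : ℕ => ¬ p ∣ cofac q r ∧ ¬ p ∣ cofac r q)

/-- the product of the inverse factors over the primes dividing the cofactors -/
noncomputable def GU (γ x x' : ℝ) (q r : ℕ) : ℝ :=
  (pr ((PK γ x q).filter (fun p => p ∣ cofac q r)))⁻¹ *
    (pr ((PK γ x' r).filter (fun p => p ∣ cofac r q)))⁻¹

theorem GU_pos {γ x x' : ℝ} {q r : ℕ} : 0 < GU γ x x' q r := by
  unfold GU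
  have h1 : 0 < pr ((PK γ x q).filter (fun p => p ∣ cofac q r)) :=
    pr_pos fun p hp => PK_prime p (mem_filter.mp hp).1
  have h2 : 0 < pr ((PK γ x' r).filter (fun p => p ∣ cofac r q)) :=
    pr_pos fun p hp => PK_prime p (mem_filter.mp hp).1
  positivity

/-- union of the primes dividing the cofactors -/
noncomputable def Uu (γ x x' : ℝ) (q r : ℕ) : Finset ℕ :=
  (PK γ x q).filter (fun p : ℕ => p ∣ cofac q r) ∪ (PK γ x' r).filter (fun p : ℕ => p ∣ cofac r q)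

theorem Uu_mem {γ x x' : ℝ} {q r : ℕ} (hq : 0 < q) (hr : 0 < r) {p : ℕ} (hp : p ∈ Uu γ x x' q r) :
    p.Prime ∧ (2 : ℝ) < p ∧ p ∈ (cofac q r * cofac r q).primeFactors := by
  have hu : 0 < cofac q r := cofac_pos r hq
  have hv : 0 < cofac r q := cofac_pos q hr
  unfold Uu at hp
  rw [mem_union, mem_filter, mem_filter] at hp
  rcases hp with ⟨h1, h2⟩ | ⟨h1, h2⟩
  · obtain ⟨a, b, c, d⟩ := mem_PK h1
    refine ⟨a, (yK_gt_two γ x).trans c, ?_⟩
    rw [Nat.mem_primeFactors]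
    exact ⟨a, dvd_mul_of_dvd_left h2 _, by positivity⟩
  · obtain ⟨a, b, c, d⟩ := mem_PK h1
    refine ⟨a, (yK_gt_two γ x').trans c, ?_⟩
    rw [Nat.mem_primeFactors]
    exact ⟨a, dvd_mul_of_dvd_right h2 _, by positivity⟩

theorem GU_eq {γ x x' : ℝ} {q r : ℕ} (hq : 0 < q) : GU γ x x' q r = (pr (Uu γ x x' q r))⁻¹ := by
  unfold GU Uu
  rw [pr_union, mul_inv]
  rw [disjoint_left]
  intro p hp hp'
  rw [mem_filter] at hp hp'
  have hcop := cofac_coprime (r := r) hq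
  exact (mem_PK hp.1).1.one_lt.ne' (Nat.eq_one_of_dvd_coprimes hcop hp.2 hp'.2)

theorem GG_eq (n : ℕ) : GG n = (pr n.primeFactors)⁻¹ := by
  unfold GG pr
  rw [prod_inv_distrib]

theorem GT_eq (D : ℝ) (n : ℕ) :
    GT D n = (pr (n.primeFactors.filter (fun p : ℕ => D < (p : ℝ))))⁻¹ := by
  unfold GT pr
  rw [prod_inv_distrib]

theorem pr_inv_mono {A B : Finset ℕ} (hAB : A ⊆ B) (hB : ∀ p ∈ B, p.Prime) :
    (pr A)⁻¹ ≤ (pr B)⁻¹ :=
  inv_anti₀ (pr_pos hB) (pr_anti hAB hB)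

theorem GU_le_GG {γ x x' : ℝ} {q r : ℕ} (hq : 0 < q) (hr : 0 < r) :
    GU γ x x' q r ≤ GG (cofac q r * cofac r q) := by
  rw [GU_eq hq, GG_eq]
  exact pr_inv_mono (fun p hp => (Uu_mem hq hr hp).2.2) fun p hp =>
    Nat.prime_of_mem_primeFactors hp

theorem GU_le_GT {γ x x' : ℝ} {q r : ℕ} (hq : 0 < q) (hr : 0 < r) (D : ℝ) :
    GU γ x x' q r * pr ((Uu γ x x' q r).filter (fun p : ℕ => (p : ℝ) ≤ D)) ≤
      GT (max 2 D) (cofac q r * cofac r q) := by
  have hU : ∀ p ∈ Uu γ x x' q r, p.Prime := fun p hp => (Uu_mem hq hr hp).1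
  rw [GU_eq hq, GT_eq]
  have e := pr_filter_mul (Uu γ x x' q r) (fun p : ℕ => (p : ℝ) ≤ D)
  have h1 : 0 < pr ((Uu γ x x' q r).filter (fun p : ℕ => (p : ℝ) ≤ D)) :=
    pr_pos fun p hp => hU p (mem_filter.mp hp).1
  have h2 : (pr (Uu γ x x' q r))⁻¹ * pr ((Uu γ x x' q r).filter (fun p : ℕ => (p : ℝ) ≤ D)) =
      (pr ((Uu γ x x' q r).filter (fun p : ℕ => ¬ (p : ℝ) ≤ D)))⁻¹ := by
    rw [← e, mul_inv]
    (clear * - h1; field_simp)
  rw [h2]
  apply pr_inv_mono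
  · intro p hp
    rw [mem_filter] at hp ⊢
    obtain ⟨_, h3, h4⟩ := Uu_mem hq hr hp.1
    exact ⟨h4, max_lt h3 (not_le.mp hp.2)⟩
  · intro p hp
    exact Nat.prime_of_mem_primeFactors (mem_filter.mp hp).1

open Classical in
/-- the bound for one pair, split -/
theorem pair_two : ∃ C > 0, ∀ (γ : ℝ) (q r : ℕ) (x x' : ℝ), 0 < q → 0 < r → 0 < x →
    0 < x' → x ≤ 1 / 2 → x' ≤ 1 / 2 →
    wK γ x q * wK γ x' r *
      volume.real (GS γ q x (AK γ x q) ∩ GS γ r x' (AK γ x' r) ∩ Set.Ioc 0 1) ≤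
      (if 1 / 1024 ≤ DD q r x x' then
        C * ((q.totient : ℝ) / q * x * ((r.totient : ℝ) / r * x') *
          GT (max 2 (DD q r x x')) (cofac q r * cofac r q)) else 0) +
      (if DD q r x x' < 1 / 1024 ∧ ∃ k, Sh γ x x' q r k ∧
          nk γ x x' (cofac q r) (cofac r q) k ≠ 0 then
        C * ((q.totient : ℝ) / q * x * ((r.totient : ℝ) / r * x') *
          GG (cofac q r * cofac r q) / DD q r x x') else 0) +
      (if ∃ k, Sh γ x x' q r k ∧ nk γ x x' (cofac q r) (cofac r q) k = 0 then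
        16 * ((q.totient : ℝ) / q * x * ((r.totient : ℝ) / r * x') / DD q r x x') *
          GU γ x x' q r * (pr (F0 γ x x' q r))⁻¹ else 0) := by
  obtain ⟨C₁, hC₁, hpv⟩ := pv_sum
  obtain ⟨C₂, hC₂, hinv⟩ := pr_inv_le
  refine ⟨16 * C₁ + 16 * C₂, by positivity, ?_⟩
  intro γ q r x x' hq hr hx hx' hx2 hx2'
  have hone := pair_one γ hq hr hx hx' hx2 hx2'
  have hD0 : 0 < DD q r x x' := DD_pos hq hr hx
  set D := DD q r x x' with hD
  set u := cofac q r with hu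
  set v := cofac r q with hv
  have hu0 : 0 < u := cofac_pos r hq
  have hv0 : 0 < v := cofac_pos q hr
  have hμ : 0 < (q.totient : ℝ) / q * x := mul_pos (totient_ratio_pos hq) hx
  have hμ' : 0 < (r.totient : ℝ) / r * x' := mul_pos (totient_ratio_pos hr) hx'
  set M : ℝ := (q.totient : ℝ) / q * x * ((r.totient : ℝ) / r * x') with hM
  have hM0 : 0 < M := mul_pos hμ hμ'
  have hGU0 : 0 < GU γ x x' q r := GU_pos
  have hFp : ∀ k, ∀ p ∈ Fk γ x x' q r k, p.Prime := fun k p hp =>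
    PK_prime p (mem_inter.mp (mem_filter.mp hp).1).1
  have hFk0 : ∀ k, 0 ≤ (pr (Fk γ x x' q r k))⁻¹ := fun k => inv_nonneg.mpr (pr_pos (hFp k)).le
  have hyy : ∀ p ∈ PK γ x q ∩ PK γ x' r, max (yK γ x) (yK γ x') < (p : ℝ) := by
    intro p hp
    rw [mem_inter] at hp
    exact max_lt (mem_PK hp.1).2.2.1 (mem_PK hp.2).2.2.1
  have hy2 : 2 ≤ max (yK γ x) (yK γ x') := (yK_gt_two γ x).le.trans (le_max_left _ _)
  -- split of the sum over the sheets
  set Ks := Shs γ x x' q r with hKs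
  have hsplit : ∑ k ∈ Ks, (pr (Fk γ x x' q r k))⁻¹ =
      ∑ k ∈ Ks.filter (fun k => nk γ x x' u v k ≠ 0), (pr (Fk γ x x' q r k))⁻¹ +
      ∑ k ∈ Ks.filter (fun k => ¬ nk γ x x' u v k ≠ 0), (pr (Fk γ x x' q r k))⁻¹ :=
    (sum_filter_add_sum_filter_not _ _ _).symm
  have hzero : ∑ k ∈ Ks.filter (fun k => ¬ nk γ x x' u v k ≠ 0), (pr (Fk γ x x' q r k))⁻¹ ≤
      if ∃ k, Sh γ x x' q r k ∧ nk γ x x' u v k = 0 then (pr (F0 γ x x' q r))⁻¹ else 0 := by
    by_cases hex : ∃ k, Sh γ x x' q r k ∧ nk γ x x' u v k = 0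
    · rw [if_pos hex]
      obtain ⟨k₀, hk₀, hk₀'⟩ := hex
      have h1 : Ks.filter (fun k => ¬ nk γ x x' u v k ≠ 0) ⊆ {k₀} := by
        intro k hk
        rw [mem_filter, not_not] at hk
        rw [mem_singleton]
        exact nk_inj (hk.2.trans hk₀'.symm)
      refine (sum_le_sum_of_subset_of_nonneg h1 fun k _ _ => hFk0 k).trans ?_
      rw [sum_singleton]
      apply pr_inv_mono
      · intro p hp
        unfold Fk at hp
        unfold F0
        rw [mem_filter] at hp ⊢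
        exact ⟨hp.1, hp.2.1, hp.2.2.1⟩
      · intro p hp
        exact PK_prime p (mem_inter.mp (mem_filter.mp hp).1).1
    · rw [if_neg hex]
      apply le_of_eq
      apply sum_eq_zero
      intro k hk
      rw [mem_filter, not_not, mem_Shs] at hk
      exact absurd ⟨k, hk.1, hk.2⟩ hex
  have hnz1 : 1 / 1024 ≤ D → GU γ x x' q r *
      ∑ k ∈ Ks.filter (fun k => nk γ x x' u v k ≠ 0), (pr (Fk γ x x' q r k))⁻¹ ≤
      C₁ * D * GT (max 2 D) (u * v) := by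
    intro hD1
    have h1 := hpv (Bq γ x) (Bq γ x') u v (Aq γ x) (Aq γ x') (PK γ x q) (PK γ x' r)
      (max (yK γ x) (yK γ x')) (WW γ x x') D (((u : ℝ) - v) * γ)
      (Ks.filter (fun k => nk γ x x' u v k ≠ 0)) (cofac_coprime hq)
      (fun p hp => ⟨(mem_PK hp).1, (mem_PK hp).2.2.2⟩)
      (fun p hp => ⟨(mem_PK hp).1, (mem_PK hp).2.2.2⟩) hyy hy2 (WW_ge_one γ x x')
      (log_WW_le γ x x') hD1
      (by
        intro k hk
        rw [mem_filter, mem_Shs] at hk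
        exact hk.1.1)
      (by
        intro k hk
        rw [mem_filter, mem_Shs] at hk
        obtain ⟨h2, h3⟩ := Sh_class hq hk.1
        exact ⟨hk.2, nk_abs_le γ hq hx hx' hk.1, h2, h3⟩)
    have h2 := GU_le_GT (γ := γ) (x := x) (x' := x') hq hr D
    have h3 : ∑ k ∈ Ks.filter (fun k => nk γ x x' u v k ≠ 0), (pr (Fk γ x x' q r k))⁻¹ ≤
        C₁ * D * pr ((Uu γ x x' q r).filter (fun p : ℕ => (p : ℝ) ≤ D)) := h1
    calc GU γ x x' q r *
        ∑ k ∈ Ks.filter (fun k => nk γ x x' u v k ≠ 0), (pr (Fk γ x x' q r k))⁻¹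
        ≤ GU γ x x' q r *
          (C₁ * D * pr ((Uu γ x x' q r).filter (fun p : ℕ => (p : ℝ) ≤ D))) := by (clear * - h3 hGU0; gcongr)
      _ = C₁ * D * (GU γ x x' q r *
          pr ((Uu γ x x' q r).filter (fun p : ℕ => (p : ℝ) ≤ D))) := by ring
      _ ≤ C₁ * D * GT (max 2 D) (u * v) := by (clear * - h2 hC₁ hD0; gcongr)
  have hnz2 : D < 1 / 1024 →
      ∑ k ∈ Ks.filter (fun k => nk γ x x' u v k ≠ 0), (pr (Fk γ x x' q r k))⁻¹ ≤
      if ∃ k, Sh γ x x' q r k ∧ nk γ x x' u v k ≠ 0 then C₂ else 0 := by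
    intro hD1
    by_cases hex : ∃ k, Sh γ x x' q r k ∧ nk γ x x' u v k ≠ 0
    · rw [if_pos hex]
      obtain ⟨k₀, hk₀, hk₀'⟩ := hex
      have h1 : Ks.filter (fun k => nk γ x x' u v k ≠ 0) ⊆ {k₀} := by
        intro k hk
        rw [mem_filter, mem_Shs] at hk
        rw [mem_singleton]
        have h2 := hk.1.1
        have h3 := hk₀.1
        rw [abs_lt] at h2 h3
        have h4 : |(k : ℝ) - k₀| < 1 := by
          rw [abs_lt]
          constructor <;> linarith only [hD1, h2.1, h3.2, h2.2, h3.1]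
        have h5 : |k - k₀| < 1 := by exact_mod_cast h4
        rw [Int.abs_lt_one_iff] at h5
        omega
      refine (sum_le_sum_of_subset_of_nonneg h1 fun k _ _ => hFk0 k).trans ?_
      rw [sum_singleton]
      have h6 := nk_abs_le γ hq hx hx' hk₀
      have hW1 := WW_ge_one γ x x'
      exact hinv (Fk γ x x' q r k₀) (nk γ x x' u v k₀) (max (yK γ x) (yK γ x')) (WW γ x x')
        (fun p hp => ⟨hFp k₀ p hp, hyy p (mem_filter.mp hp).1, (mem_filter.mp hp).2.2.2⟩)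
        hy2 hW1 (log_WW_le γ x x') hk₀' (h6.trans (by nlinarith only [hD1, hW1]))
    · rw [if_neg hex]
      apply le_of_eq
      apply sum_eq_zero
      intro k hk
      rw [mem_filter, mem_Shs] at hk
      exact absurd ⟨k, hk.1, hk.2⟩ hex
  have hone' : wK γ x q * wK γ x' r *
      volume.real (GS γ q x (AK γ x q) ∩ GS γ r x' (AK γ x' r) ∩ Set.Ioc 0 1) ≤
      16 * (M / D) * (GU γ x x' q r * ∑ k ∈ Ks, (pr (Fk γ x x' q r k))⁻¹) := by
    refine hone.trans (le_of_eq ?_)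
    unfold GU
    ring
  refine hone'.trans ?_
  rw [hsplit, mul_add, mul_add]
  have hMD : 0 < 16 * (M / D) := by (clear * - hq hx hr hx' hD0; positivity)
  have hpart0 : 16 * (M / D) * (GU γ x x' q r *
      ∑ k ∈ Ks.filter (fun k => ¬ nk γ x x' u v k ≠ 0), (pr (Fk γ x x' q r k))⁻¹) ≤
      (if ∃ k, Sh γ x x' q r k ∧ nk γ x x' u v k = 0 then
        16 * (M / D) * GU γ x x' q r * (pr (F0 γ x x' q r))⁻¹ else 0) := by
    calc _ ≤ 16 * (M / D) * (GU γ x x' q r * (if ∃ k, Sh γ x x' q r k ∧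
          nk γ x x' u v k = 0 then (pr (F0 γ x x' q r))⁻¹ else 0)) := by (clear * - hzero hGU0 hq hx hr hx' hD0; gcongr)
      _ = _ := by
          split_ifs
          · ring
          · ring
  have hpart1 : 16 * (M / D) * (GU γ x x' q r *
      ∑ k ∈ Ks.filter (fun k => nk γ x x' u v k ≠ 0), (pr (Fk γ x x' q r k))⁻¹) ≤
      (if 1 / 1024 ≤ D then (16 * C₁ + 16 * C₂) * (M * GT (max 2 D) (u * v)) else 0) +
      (if D < 1 / 1024 ∧ ∃ k, Sh γ x x' q r k ∧ nk γ x x' u v k ≠ 0 then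
        (16 * C₁ + 16 * C₂) * (M * GG (u * v) / D) else 0) := by
    have hGT0 : 0 ≤ GT (max 2 D) (u * v) := by
      rw [GT_eq]
      exact inv_nonneg.mpr (pr_pos fun p hp =>
        Nat.prime_of_mem_primeFactors (mem_filter.mp hp).1).le
    have hGG0 : 0 ≤ GG (u * v) := by
      rw [GG_eq]
      exact inv_nonneg.mpr (pr_pos fun p hp => Nat.prime_of_mem_primeFactors hp).le
    rcases le_or_gt (1 / 1024) D with h1 | h1
    · rw [if_pos h1, if_neg (fun h => absurd h.1 (not_lt.mpr h1)), add_zero]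
      calc _ ≤ 16 * (M / D) * (C₁ * D * GT (max 2 D) (u * v)) := by
            have := hnz1 h1
            (clear * - this hq hx hr hx' hD0; gcongr)
        _ = 16 * C₁ * (M * GT (max 2 D) (u * v)) := by
            (clear * - hD0 hC₁ hM0; field_simp)
        _ ≤ (16 * C₁ + 16 * C₂) * (M * GT (max 2 D) (u * v)) := by
            gcongr
            linarith only [hC₂]
    · rw [if_neg (not_le.mpr h1), zero_add]
      have h2 := hnz2 h1
      by_cases hex : ∃ k, Sh γ x x' q r k ∧ nk γ x x' u v k ≠ 0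
      · rw [if_pos ⟨h1, hex⟩]
        rw [if_pos hex] at h2
        have h3 : GU γ x x' q r ≤ GG (u * v) := GU_le_GG hq hr
        calc _ ≤ 16 * (M / D) * (GG (u * v) * C₂) := by
              have hs0 : 0 ≤ ∑ k ∈ Ks.filter (fun k => nk γ x x' u v k ≠ 0),
                  (pr (Fk γ x x' q r k))⁻¹ := sum_nonneg fun k _ => hFk0 k
              (clear * - h3 h2 hs0 hGG0 hq hx hr hx' hD0; gcongr)
          _ = 16 * C₂ * (M * GG (u * v) / D) := by ring
          _ ≤ (16 * C₁ + 16 * C₂) * (M * GG (u * v) / D) := by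
              gcongr
              linarith only [hC₁]
      · rw [if_neg (fun h => hex h.2)]
        rw [if_neg hex] at h2
        have h3 : 0 ≤ 16 * (M / D) * GU γ x x' q r := by (clear * - hq hx hr hx' hD0 hGU0; positivity)
        nlinarith only [h2, h3]
  exact add_le_add hpart1 hpart0

end Vale.P028
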