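import Vale.Agent.P028.MathlibUsed
import Vale.Agent.P028.KDefs
import Vale.Agent.P028.MTensor
attribute [-instance] ProperSMul.toContinuousSMul IsTopologicalTorsor.toContinuousSMul IdemSemiring.toCanonicallyOrderedAdd IdemSemiring.toMulLeftMono IdemSemiring.toMulRightMono AddQuantale.instAddLeftMono AddQuantale.instAddRightMono Quantale.instMulLeftMono Quantale.instMulRightMono FiniteDimensional.rclike_to_real IsScalarTower.complexToReal FiniteDimensional.complexToReal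

set_option linter.all false

/-!
# Residual sum (exact pairs)
-/

namespace Vale.P028

open Finset

theorem gpf_mul {u v : ℕ} (hu : u ≠ 0) (hv : v ≠ 0) : gpf (u * v) = max (gpf u) (gpf v) := by
  unfold gpf
  rw [Nat.primeFactors_mul hu hv, Finset.sup_union]

theorem gpf_le_self (u : ℕ) : gpf u ≤ u := by
  unfold gpf
  refine Finset.sup_le fun p hp => ?_
  exact Nat.le_of_mem_primeFactors hp

/-- `n ↦ n^{-1/8}`. -/
noncomputable def rdf : ℕ →* ℝ where
  toFun n := (n : ℝ) ^ (-(1 / 8) : ℝ)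
  map_one' := by simp
  map_mul' m n := by
    push_cast
    exact Real.mul_rpow (Nat.cast_nonneg _) (Nat.cast_nonneg _)

theorem rdf_apply (n : ℕ) : rdf n = (n : ℝ) ^ (-(1 / 8) : ℝ) := rfl

theorem rdf_nonneg (n : ℕ) : 0 ≤ rdf n := by
  rw [rdf_apply]
  positivity

/-- Euler product bound. -/
theorem resid_prod : ∃ C > 0, ∀ P : ℕ,
    ∏ p ∈ (P + 1).primesBelow, (1 - rdf p)⁻¹ ≤ C * Real.exp ((P : ℝ) / 64) := by
  -- the factor at `2`
  set κ : ℝ := 1 - (2 : ℝ) ^ (-(1 / 8) : ℝ) with hκ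
  have h2lt : (2 : ℝ) ^ (-(1 / 8) : ℝ) < 1 :=
    Real.rpow_lt_one_of_one_lt_of_neg (by norm_num) (by norm_num)
  have hκ0 : 0 < κ := by rw [hκ]; linarith only [h2lt]
  have hκ1 : κ ≤ 1 := by
    rw [hκ]
    have : 0 < (2 : ℝ) ^ (-(1 / 8) : ℝ) := by positivity
    linarith only [this]
  have hx : ∀ p : ℕ, p.Prime → 0 ≤ rdf p ∧ rdf p ≤ 1 - κ := by
    intro p hp
    refine ⟨rdf_nonneg p, ?_⟩
    rw [rdf_apply, hκ]
    have hp2 : (2 : ℝ) ≤ p := by exact_mod_cast hp.two_le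
    have := Real.rpow_le_rpow_of_nonpos (by norm_num) hp2 (by norm_num : (-(1 / 8) : ℝ) ≤ 0)
    linarith only [this]
  -- for large `p` the factor is `≤ e^{1/64}`
  obtain ⟨p₀, hp₀⟩ : ∃ p₀ : ℕ, ∀ p : ℕ, p₀ ≤ p → rdf p ≤ κ / 64 := by
    have h1 : Filter.Tendsto (fun n : ℕ => (n : ℝ) ^ (-(1 / 8) : ℝ)) Filter.atTop (nhds 0) := by
      exact (tendsto_rpow_neg_atTop (by norm_num)).comp tendsto_natCast_atTop_atTop
    have h2 := h1.eventually (gt_mem_nhds (by positivity : (0 : ℝ) < κ / 64))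
    obtain ⟨p₀, h3⟩ := Filter.eventually_atTop.1 h2
    exact ⟨p₀, fun p hp => (h3 p hp).le⟩
  set M : ℝ := κ⁻¹ with hM
  have hM1 : 1 ≤ M := (one_le_inv₀ hκ0).2 hκ1
  refine ⟨M ^ p₀, by positivity, ?_⟩
  intro P
  set Ps := (P + 1).primesBelow with hPs
  have hprime : ∀ p ∈ Ps, p.Prime := fun p hp => Nat.prime_of_mem_primesBelow hp
  have hlt : ∀ p ∈ Ps, p < P + 1 := fun p hp => Nat.lt_of_mem_primesBelow hp
  have hfac : ∀ p ∈ Ps, 0 ≤ (1 - rdf p)⁻¹ := by
    intro p hp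
    obtain ⟨h1, h2⟩ := hx p (hprime p hp)
    exact inv_nonneg.2 (by linarith only [h2lt, h2])
  rw [← prod_filter_mul_prod_filter_not Ps (fun p => p < p₀)]
  have h1 : ∏ p ∈ Ps.filter (fun p => p < p₀), (1 - rdf p)⁻¹ ≤ M ^ p₀ := by
    calc ∏ p ∈ Ps.filter (fun p => p < p₀), (1 - rdf p)⁻¹
        ≤ ∏ _p ∈ Ps.filter (fun p => p < p₀), M := by
          refine prod_le_prod (fun p hp => hfac p (mem_filter.1 hp).1) fun p hp => ?_
          obtain ⟨h1, h2⟩ := hx p (hprime p (mem_filter.1 hp).1)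
          rw [hM]
          exact inv_anti₀ hκ0 (by linarith only [h2])
      _ = M ^ (Ps.filter (fun p => p < p₀)).card := by rw [prod_const]
      _ ≤ M ^ p₀ := by
          refine pow_le_pow_right₀ hM1 ?_
          calc (Ps.filter (fun p => p < p₀)).card ≤ (range p₀).card := by
                refine card_le_card fun p hp => ?_
                rw [mem_range]
                exact (mem_filter.1 hp).2
            _ = p₀ := card_range _
  have h2 : ∏ p ∈ Ps.filter (fun p => ¬ p < p₀), (1 - rdf p)⁻¹ ≤ Real.exp ((P : ℝ) / 64) := by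
    calc ∏ p ∈ Ps.filter (fun p => ¬ p < p₀), (1 - rdf p)⁻¹
        ≤ ∏ _p ∈ Ps.filter (fun p => ¬ p < p₀), Real.exp (1 / 64) := by
          refine prod_le_prod (fun p hp => hfac p (mem_filter.1 hp).1) fun p hp => ?_
          obtain ⟨h1, h2⟩ := hx p (hprime p (mem_filter.1 hp).1)
          have h3 := hp₀ p (not_lt.1 (mem_filter.1 hp).2)
          have h4 : (1 - rdf p)⁻¹ ≤ 1 + 1 / 64 := by
            rw [inv_le_iff_one_le_mul₀ (by linarith only [h2lt, h2])]
            have h5 : rdf p ≤ 1 / 65 * 1 + 0 := by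
              have : κ / 64 ≤ κ / 64 := le_rfl
              nlinarith only [h2, h3]
            linarith only [h2, h3]
          have h5 := Real.add_one_le_exp (1 / 64 : ℝ)
          linarith only [h4, h5]
      _ = Real.exp (1 / 64) ^ (Ps.filter (fun p => ¬ p < p₀)).card := by rw [prod_const]
      _ ≤ Real.exp (1 / 64) ^ P := by
          refine pow_le_pow_right₀ (Real.one_le_exp (by norm_num)) ?_
          calc (Ps.filter (fun p => ¬ p < p₀)).card ≤ (Icc 1 P).card := by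
                refine card_le_card fun p hp => ?_
                have h3 := (mem_filter.1 hp).1
                rw [mem_Icc]
                have h4 := hlt p h3
                have h5 := (hprime p h3).one_lt
                omega
            _ = P := by rw [Nat.card_Icc]; omega
      _ = Real.exp ((P : ℝ) / 64) := by
          rw [← Real.exp_nat_mul]
          congr 1
          ring
  exact mul_le_mul h1 h2 (prod_nonneg fun p hp => hfac p (mem_filter.1 hp).1) (by positivity)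

/-- one variable sum -/
theorem resid_one : ∃ C > 0, ∀ N : ℕ,
    ∑ u ∈ Icc 1 N, Real.exp (-(gpf u : ℝ) / 32) * rdf u ≤ C := by
  obtain ⟨C, hC, hprod⟩ := resid_prod
  have hlt1 : ∀ {p : ℕ}, p.Prime → ‖rdf p‖ < 1 := by
    intro p hp
    rw [Real.norm_of_nonneg (rdf_nonneg p), rdf_apply]
    exact Real.rpow_lt_one_of_one_lt_of_neg (by exact_mod_cast hp.one_lt) (by norm_num)
  have hgeo : Summable (fun n : ℕ => C * Real.exp (-(1 / 64 : ℝ)) ^ n) :=
    (summable_geometric_of_lt_one (Real.exp_pos _).le (by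
      rw [Real.exp_lt_one_iff]
      norm_num)).mul_left C
  refine ⟨∑' n : ℕ, C * Real.exp (-(1 / 64 : ℝ)) ^ n + 1,
    add_pos_of_nonneg_of_pos (tsum_nonneg fun n => by positivity) one_pos, ?_⟩
  intro N
  have h1 : ∑ u ∈ Icc 1 N, Real.exp (-(gpf u : ℝ) / 32) * rdf u =
      ∑ P ∈ range (N + 1), ∑ u ∈ (Icc 1 N).filter (fun u => gpf u = P),
        Real.exp (-(gpf u : ℝ) / 32) * rdf u := by
    symm
    refine sum_fiberwise_of_maps_to ?_ _
    intro u hu
    rw [mem_Icc] at hu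
    rw [mem_range]
    have := gpf_le_self u
    omega
  rw [h1]
  have h2 : ∀ P ∈ range (N + 1), ∑ u ∈ (Icc 1 N).filter (fun u => gpf u = P),
        Real.exp (-(gpf u : ℝ) / 32) * rdf u ≤ C * Real.exp (-(1 / 64 : ℝ)) ^ P := by
    intro P _
    obtain ⟨hsum, hhas⟩ :=
      EulerProduct.summable_and_hasSum_smoothNumbers_prod_primesBelow_geometric
        (f := rdf) hlt1 (P + 1)
    have h3 : ∑ u ∈ (Icc 1 N).filter (fun u => gpf u = P), Real.exp (-(gpf u : ℝ) / 32) * rdf u =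
        Real.exp (-(P : ℝ) / 32) * ∑ u ∈ (Icc 1 N).filter (fun u => gpf u = P), rdf u := by
      rw [mul_sum]
      refine sum_congr rfl fun u hu => ?_
      rw [(mem_filter.1 hu).2]
    rw [h3]
    have hmem : ∀ u ∈ (Icc 1 N).filter (fun u => gpf u = P), u ∈ (P + 1).smoothNumbers := by
      intro u hu
      rw [mem_filter, mem_Icc] at hu
      rw [Nat.mem_smoothNumbers]
      refine ⟨by omega, fun p hp => ?_⟩
      have hp' : p ∈ u.primeFactors := by
        rw [Nat.mem_primeFactors]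
        exact ⟨Nat.prime_of_mem_primeFactorsList hp, Nat.dvd_of_mem_primeFactorsList hp,
          by omega⟩
      have : p ≤ gpf u := by
        unfold gpf
        exact Finset.le_sup (f := id) hp'
      omega
    have h4 : ∑ u ∈ (Icc 1 N).filter (fun u => gpf u = P), rdf u ≤
        ∏ p ∈ (P + 1).primesBelow, (1 - rdf p)⁻¹ := by
      classical
      have h5 : ∑ u ∈ (Icc 1 N).filter (fun u => gpf u = P), rdf u =
          ∑ m ∈ ((Icc 1 N).filter (fun u => gpf u = P)).attach.image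
            (fun u => (⟨u.1, hmem u.1 u.2⟩ : (P + 1).smoothNumbers)), rdf m.1 := by
        rw [sum_image]
        · rw [← sum_attach]
        · intro a _ b _ hab
          have : a.1 = b.1 := by simpa using congrArg Subtype.val hab
          exact Subtype.ext this
      rw [h5, ← hhas.tsum_eq]
      exact hhas.summable.sum_le_tsum _ (fun m _ => rdf_nonneg _)
    calc Real.exp (-(P : ℝ) / 32) * ∑ u ∈ (Icc 1 N).filter (fun u => gpf u = P), rdf u
        ≤ Real.exp (-(P : ℝ) / 32) * (C * Real.exp ((P : ℝ) / 64)) := by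
          refine mul_le_mul_of_nonneg_left (h4.trans (hprod P)) (Real.exp_pos _).le
      _ = C * (Real.exp (-(P : ℝ) / 32) * Real.exp ((P : ℝ) / 64)) := by ring
      _ = C * Real.exp (-(1 / 64 : ℝ)) ^ P := by
          rw [← Real.exp_add, ← Real.exp_nat_mul]
          congr 2
          ring
  calc _ ≤ ∑ P ∈ range (N + 1), C * Real.exp (-(1 / 64 : ℝ)) ^ P := sum_le_sum h2
    _ ≤ ∑' n : ℕ, C * Real.exp (-(1 / 64 : ℝ)) ^ n :=
        hgeo.sum_le_tsum _ (fun n _ => by positivity)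
    _ ≤ _ := by linarith only []

/-- the kernel -/
noncomputable def rker (u v : ℕ) : ℝ :=
  Real.exp (-(gpf (u * v) : ℝ) / 16) * ((u : ℝ) * (v : ℝ)) ^ (-(1 / 8) : ℝ)

theorem rker_nonneg (u v : ℕ) : 0 ≤ rker u v := by
  unfold rker
  positivity

theorem rker_comm (u v : ℕ) : rker u v = rker v u := by
  unfold rker
  rw [mul_comm u v, mul_comm (u : ℝ) v]

theorem resid_two : ∃ C > 0, ∀ N : ℕ,
    ∑ u ∈ Icc 1 N, ∑ v ∈ Icc 1 N, rker u v ≤ C := by
  obtain ⟨C, hC, h⟩ := resid_one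
  refine ⟨C * C, by positivity, ?_⟩
  intro N
  have h0 : 0 ≤ ∑ u ∈ Icc 1 N, Real.exp (-(gpf u : ℝ) / 32) * rdf u :=
    sum_nonneg fun u _ => mul_nonneg (Real.exp_pos _).le (rdf_nonneg u)
  calc ∑ u ∈ Icc 1 N, ∑ v ∈ Icc 1 N, rker u v
      ≤ ∑ u ∈ Icc 1 N, ∑ v ∈ Icc 1 N, (Real.exp (-(gpf u : ℝ) / 32) * rdf u) *
        (Real.exp (-(gpf v : ℝ) / 32) * rdf v) := by
        refine sum_le_sum fun u hu => sum_le_sum fun v hv => ?_
        rw [mem_Icc] at hu hv
        unfold rker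
        rw [Real.mul_rpow (Nat.cast_nonneg _) (Nat.cast_nonneg _), rdf_apply, rdf_apply,
          gpf_mul (by omega) (by omega)]
        have h1 : Real.exp (-((max (gpf u) (gpf v) : ℕ) : ℝ) / 16) ≤
            Real.exp (-(gpf u : ℝ) / 32) * Real.exp (-(gpf v : ℝ) / 32) := by
          rw [← Real.exp_add]
          apply Real.exp_le_exp.2
          have h2 : (gpf u : ℝ) ≤ ((max (gpf u) (gpf v) : ℕ) : ℝ) := by
            exact_mod_cast le_max_left _ _
          have h3 : (gpf v : ℝ) ≤ ((max (gpf u) (gpf v) : ℕ) : ℝ) := by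
            exact_mod_cast le_max_right _ _
          linarith only [h2, h3]
        calc Real.exp (-((max (gpf u) (gpf v) : ℕ) : ℝ) / 16) *
              ((u : ℝ) ^ (-(1 / 8) : ℝ) * (v : ℝ) ^ (-(1 / 8) : ℝ))
            ≤ (Real.exp (-(gpf u : ℝ) / 32) * Real.exp (-(gpf v : ℝ) / 32)) *
              ((u : ℝ) ^ (-(1 / 8) : ℝ) * (v : ℝ) ^ (-(1 / 8) : ℝ)) := by
              refine mul_le_mul_of_nonneg_right h1 (by positivity)
          _ = _ := by ring
    _ = (∑ u ∈ Icc 1 N, Real.exp (-(gpf u : ℝ) / 32) * rdf u) *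
        ∑ v ∈ Icc 1 N, Real.exp (-(gpf v : ℝ) / 32) * rdf v := by rw [sum_mul_sum]
    _ ≤ C * C := mul_le_mul (h N) (h N) h0 hC.le

theorem rd_cofac_inj {q r r' : ℕ} (hq : 0 < q)
    (h1 : cofac q r = cofac q r') (h2 : cofac r q = cofac r' q) : r = r' := by
  have e1 := gcd_mul_cofac q r
  have e2 := gcd_mul_cofac q r'
  have e3 := gcd_mul_cofac r q
  have e4 := gcd_mul_cofac r' q
  have hu : 0 < cofac q r := cofac_pos r hq
  have hg : Nat.gcd q r = Nat.gcd q r' := by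
    rw [h1] at e1 hu
    have : Nat.gcd q r * cofac q r' = Nat.gcd q r' * cofac q r' := by rw [e1, e2]
    exact Nat.eq_of_mul_eq_mul_right hu this
  rw [Nat.gcd_comm] at e3 e4
  rw [← e3, ← e4, hg, h2]

theorem resid : ∃ C > 0, ∀ (N : ℕ) (f : ℕ → ℝ), (∀ q, 0 ≤ f q) →
    ∑ q ∈ Icc 1 N, ∑ r ∈ Icc 1 N, Real.sqrt (f q * f r) *
      (Real.exp (-(gpf (cofac q r * cofac r q) : ℝ) / 16) *
        ((cofac q r : ℝ) * (cofac r q : ℝ)) ^ (-(1 / 8) : ℝ)) ≤ C * ∑ q ∈ Icc 1 N, f q := by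
  classical
  obtain ⟨C, hC, hK⟩ := resid_two
  refine ⟨C, hC, ?_⟩
  intro N f hf
  change ∑ q ∈ Icc 1 N, ∑ r ∈ Icc 1 N, Real.sqrt (f q * f r) *
    rker (cofac q r) (cofac r q) ≤ C * ∑ q ∈ Icc 1 N, f q
  have hrow : ∀ q ∈ Icc 1 N, ∑ r ∈ Icc 1 N, rker (cofac q r) (cofac r q) ≤ C := by
    intro q hq
    rw [mem_Icc] at hq
    refine le_trans ?_ (hK N)
    rw [← sum_product']
    have h1 : ∑ r ∈ Icc 1 N, rker (cofac q r) (cofac r q) =
        ∑ z ∈ (Icc 1 N).image (fun r => ((cofac q r, cofac r q) : ℕ × ℕ)), rker z.1 z.2 := by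
      rw [sum_image]
      intro a _ b _ hab
      simp only [Prod.mk.injEq] at hab
      exact rd_cofac_inj (by omega) hab.1 hab.2
    rw [h1]
    refine sum_le_sum_of_subset_of_nonneg ?_ (fun z _ _ => rker_nonneg _ _)
    intro z hz
    rw [mem_image] at hz
    obtain ⟨r, hr, rfl⟩ := hz
    rw [mem_Icc] at hr
    rw [mem_product, mem_Icc, mem_Icc]
    refine ⟨⟨cofac_pos r (by omega), (cofac_le r (by omega)).trans hq.2⟩,
      cofac_pos q (by omega), (cofac_le q (by omega)).trans hr.2⟩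
  have h1 : ∑ q ∈ Icc 1 N, ∑ r ∈ Icc 1 N, Real.sqrt (f q * f r) *
      rker (cofac q r) (cofac r q) ≤
      ∑ q ∈ Icc 1 N, ∑ r ∈ Icc 1 N, (f q / 2 * rker (cofac q r) (cofac r q) +
        f r / 2 * rker (cofac q r) (cofac r q)) := by
    refine sum_le_sum fun q _ => sum_le_sum fun r _ => ?_
    have h2 : Real.sqrt (f q * f r) ≤ f q / 2 + f r / 2 := by
      rw [Real.sqrt_le_left (by linarith only [hf q, hf r])]
      nlinarith only [sq_nonneg (f q - f r)]
    calc Real.sqrt (f q * f r) * rker (cofac q r) (cofac r q)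
        ≤ (f q / 2 + f r / 2) * rker (cofac q r) (cofac r q) :=
          mul_le_mul_of_nonneg_right h2 (rker_nonneg _ _)
      _ = _ := by ring
  refine h1.trans ?_
  simp only [sum_add_distrib]
  have h2 : ∑ q ∈ Icc 1 N, ∑ r ∈ Icc 1 N, f q / 2 * rker (cofac q r) (cofac r q) ≤
      C / 2 * ∑ q ∈ Icc 1 N, f q := by
    rw [mul_sum]
    refine sum_le_sum fun q hq => ?_
    rw [← mul_sum]
    have := hrow q hq
    have h3 : 0 ≤ f q / 2 := by linarith only [hf q]
    calc f q / 2 * ∑ r ∈ Icc 1 N, rker (cofac q r) (cofac r q) ≤ f q / 2 * C :=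
          mul_le_mul_of_nonneg_left this h3
      _ = C / 2 * f q := by ring
  have h3 : ∑ q ∈ Icc 1 N, ∑ r ∈ Icc 1 N, f r / 2 * rker (cofac q r) (cofac r q) =
      ∑ q ∈ Icc 1 N, ∑ r ∈ Icc 1 N, f q / 2 * rker (cofac q r) (cofac r q) := by
    rw [sum_comm]
    refine sum_congr rfl fun q _ => sum_congr rfl fun r _ => ?_
    rw [rker_comm]
  rw [h3]
  linarith only [h2]

theorem resid_key_one {u v x x' M : ℝ} (hu : 1 ≤ u) (hv : 1 ≤ v) (hx : 0 < x) (hx' : 0 < x')
    (hM1 : v * x ≤ M) (hM2 : u * x' ≤ M) (hM3 : 1 / 2 ≤ M) :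
    (x * x') ^ 4 * (1 * (u * v) ^ 2) ≤ 4 * M ^ 8 := by
  have hM0 : 0 < M := by linarith only [hM3]
  have huv0 : 0 < u * v := by positivity
  have huv1 : 1 ≤ u * v := by nlinarith only [hu, hv]
  have hprod : (u * v) * (x * x') ≤ M ^ 2 := by
    calc (u * v) * (x * x') = (v * x) * (u * x') := by ring
      _ ≤ M * M := mul_le_mul hM1 hM2 (by positivity) hM0.le
      _ = M ^ 2 := by ring
  have h1 : (u * v) ^ 2 ≤ (u * v) ^ 4 := pow_le_pow_right₀ huv1 (by norm_num)
  calc (x * x') ^ 4 * (1 * (u * v) ^ 2) ≤ (x * x') ^ 4 * (1 * (u * v) ^ 4) := by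
        gcongr
    _ = ((u * v) * (x * x')) ^ 4 := by ring
    _ ≤ (M ^ 2) ^ 4 := by gcongr
    _ = M ^ 8 := by ring
    _ ≤ 4 * M ^ 8 := by
        have : 0 ≤ M ^ 8 := by positivity
        linarith only [this]

theorem resid_key_x {u v x x' M : ℝ} (hu : 1 ≤ u) (hv : 1 ≤ v) (hx : 0 < x) (hx' : 0 < x')
    (hM1 : v * x ≤ M) (hM2 : u * x' ≤ M) (hM3 : 1 / 2 ≤ M) (hx1 : x ≤ 1) :
    (x * x') ^ 4 * (1 / x * (u * v) ^ 2) ≤ 4 * M ^ 8 := by
  have hM0 : 0 < M := by linarith only [hM3]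
  have h2 : 1 ≤ 4 * M ^ 2 := by nlinarith only [hM3]
  have h4 : (x * x') ^ 4 * (1 / x * (u * v) ^ 2) =
      x * (x ^ 2 * x' ^ 4 * u ^ 2 * v ^ 2) := by
    field_simp
  have h5 : u ^ 2 ≤ u ^ 4 := pow_le_pow_right₀ hu (by norm_num)
  rw [h4]
  calc x * (x ^ 2 * x' ^ 4 * u ^ 2 * v ^ 2)
      ≤ 1 * (x ^ 2 * x' ^ 4 * u ^ 4 * v ^ 2) := by gcongr
    _ = (v * x) ^ 2 * (u * x') ^ 4 := by ring
    _ ≤ M ^ 2 * M ^ 4 := by gcongr
    _ = 1 * M ^ 6 := by ring
    _ ≤ (4 * M ^ 2) * M ^ 6 := by gcongr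
    _ = 4 * M ^ 8 := by ring

theorem resid_key {u v x x' M Vm : ℝ} (hu : 1 ≤ u) (hv : 1 ≤ v) (hx : 0 < x) (hx' : 0 < x')
    (hM1 : v * x ≤ M) (hM2 : u * x' ≤ M) (hM3 : 1 / 2 ≤ M) (hVm1 : 1 ≤ Vm)
    (hcase : Vm = 1 ∨ Vm = 1 / x ∨ Vm = 1 / x') :
    (x * x') ^ 4 / M ^ 8 ≤ 4 / (Vm * (u * v) ^ 2) := by
  have hM0 : 0 < M := by linarith only [hM3]
  rw [div_le_div_iff₀ (by positivity) (by positivity)]
  rcases hcase with h | h | h
  · rw [h]
    exact resid_key_one hu hv hx hx' hM1 hM2 hM3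
  · have hx1 : x ≤ 1 := by
      rw [h, le_div_iff₀ hx] at hVm1
      linarith only [hVm1]
    rw [h]
    exact resid_key_x hu hv hx hx' hM1 hM2 hM3 hx1
  · have hx1 : x' ≤ 1 := by
      rw [h, le_div_iff₀ hx'] at hVm1
      linarith only [hVm1]
    rw [h, mul_comm x x', mul_comm u v]
    exact resid_key_x hv hu hx' hx hM2 hM1 hM3 hx1

/-- the size bound for exact pairs -/
theorem resid_bound {B u v : ℕ} {x x' V V' M : ℝ} (hB : 0 < B) (hu : 0 < u) (hv : 0 < v)
    (hmax : (B : ℝ) ≤ max (u : ℝ) v) (hx : 0 < x) (hx' : 0 < x') (hV : V = max 1 (1 / x))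
    (hV' : V' = max 1 (1 / x')) (hM1 : (v : ℝ) * x ≤ M) (hM2 : (u : ℝ) * x' ≤ M) (hM3 : 1 / 2 ≤ M)
    (hgu : (gpf u : ℝ) ≤ 2 + 2 * Real.log (2 * B * V))
    (hgv : (gpf v : ℝ) ≤ 2 + 2 * Real.log (2 * B * V')) :
    Real.sqrt (x * x') / M ≤ 8 * (Real.exp (-(gpf (u * v) : ℝ) / 16) *
        ((u : ℝ) * (v : ℝ)) ^ (-(1 / 8) : ℝ)) := by
  have hBR : (1 : ℝ) ≤ B := by exact_mod_cast hB
  have huR : (1 : ℝ) ≤ u := by exact_mod_cast hu
  have hvR : (1 : ℝ) ≤ v := by exact_mod_cast hv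
  have hM0 : 0 < M := by linarith only [hM3]
  set Vm : ℝ := max V V' with hVm
  have hVm1 : 1 ≤ Vm := by
    rw [hVm, hV]
    exact (le_max_left _ _).trans (le_max_left _ _)
  have huv0 : 0 < (u : ℝ) * v := by positivity
  have huv1 : 1 ≤ (u : ℝ) * v := by nlinarith only [huR, hvR]
  have hBuv : (B : ℝ) ≤ u * v := by
    refine hmax.trans (max_le ?_ ?_)
    · nlinarith only [hvR]
    · nlinarith only [huR]
  set g : ℝ := (gpf (u * v) : ℝ) with hg
  have hV1 : 1 ≤ V := by rw [hV]; exact le_max_left _ _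
  have hV1' : 1 ≤ V' := by rw [hV']; exact le_max_left _ _
  have hgle : g ≤ 2 + 2 * Real.log (2 * B * Vm) := by
    rw [hg, gpf_mul hu.ne' hv.ne']
    push_cast
    refine max_le ?_ ?_
    · refine hgu.trans ?_
      have : Real.log (2 * B * V) ≤ Real.log (2 * B * Vm) :=
        Real.log_le_log (by positivity) (by gcongr; exact le_max_left _ _)
      linarith only [this]
    · refine hgv.trans ?_
      have : Real.log (2 * B * V') ≤ Real.log (2 * B * Vm) :=
        Real.log_le_log (by positivity) (by gcongr; exact le_max_right _ _)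
      linarith only [this]
  -- eighth power of the right hand side
  set R : ℝ := 8 * (Real.exp (-g / 16) * ((u : ℝ) * (v : ℝ)) ^ (-(1 / 8) : ℝ)) with hR
  have hR0 : 0 ≤ R := by positivity
  have hR8 : R ^ 8 = 8 ^ 8 * (Real.exp (-g / 2) * ((u : ℝ) * v)⁻¹) := by
    rw [hR, mul_pow, mul_pow, ← Real.exp_nat_mul, ← Real.rpow_natCast (((u : ℝ) * v) ^ _),
      ← Real.rpow_mul huv0.le]
    congr 2
    · congr 1
      push_cast
      ring
    · rw [show (-(1 / 8) : ℝ) * ((8 : ℕ) : ℝ) = -1 by norm_num, Real.rpow_neg_one]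
  have hexp : Real.exp (-1) * (2 * B * Vm)⁻¹ ≤ Real.exp (-g / 2) := by
    have h1 : Real.exp (-1) * (2 * B * Vm)⁻¹ = Real.exp (-1 - Real.log (2 * B * Vm)) := by
      rw [Real.exp_sub, Real.exp_log (by positivity), div_eq_mul_inv]
    rw [h1]
    apply Real.exp_le_exp.2
    linarith only [hgle]
  have hR8' : 4 / (Vm * ((u : ℝ) * v) ^ 2) ≤ R ^ 8 := by
    have he : (1 / 3 : ℝ) ≤ Real.exp (-1) := by
      rw [Real.exp_neg, one_div]
      apply inv_anti₀ (Real.exp_pos 1)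
      have := Real.exp_one_lt_d9
      linarith only [this]
    rw [hR8]
    have h1 : (2 * (u * v) * Vm)⁻¹ ≤ (2 * B * Vm)⁻¹ := by
      apply inv_anti₀ (by positivity)
      gcongr
    calc 4 / (Vm * ((u : ℝ) * v) ^ 2)
        ≤ 8 ^ 8 * ((1 / 3) * (2 * (u * v) * Vm)⁻¹ * ((u : ℝ) * v)⁻¹) := by
          rw [div_eq_mul_inv]
          have h2 : (2 * ((u : ℝ) * v) * Vm)⁻¹ * ((u : ℝ) * v)⁻¹ =
              1 / 2 * (Vm * ((u : ℝ) * v) ^ 2)⁻¹ := by
            rw [← mul_inv, one_div, ← mul_inv]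
            congr 1
            ring
          rw [mul_assoc (1 / 3 : ℝ), h2]
          have h3 : 0 ≤ (Vm * ((u : ℝ) * v) ^ 2)⁻¹ := by positivity
          nlinarith only [h3]
      _ ≤ 8 ^ 8 * (Real.exp (-g / 2) * ((u : ℝ) * v)⁻¹) := by
          have h2 : (1 / 3) * (2 * (u * v) * Vm)⁻¹ ≤ Real.exp (-g / 2) := by
            refine le_trans ?_ hexp
            exact mul_le_mul he h1 (by positivity) (Real.exp_pos _).le
          have h3 : 0 ≤ ((u : ℝ) * v)⁻¹ := by positivity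
          exact mul_le_mul_of_nonneg_left (mul_le_mul_of_nonneg_right h2 h3) (by positivity)
  -- eighth power of the left hand side
  have hL8 : (Real.sqrt (x * x') / M) ^ 8 = (x * x') ^ 4 / M ^ 8 := by
    rw [div_pow]
    congr 1
    calc Real.sqrt (x * x') ^ 8 = (Real.sqrt (x * x') ^ 2) ^ 4 := by ring
      _ = (x * x') ^ 4 := by rw [Real.sq_sqrt (by positivity)]
  have hkey : (x * x') ^ 4 / M ^ 8 ≤ 4 / (Vm * ((u : ℝ) * v) ^ 2) := by
    refine resid_key huR hvR hx hx' hM1 hM2 hM3 hVm1 ?_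
    rw [hVm, hV, hV']
    rcases max_choice (max 1 (1 / x)) (max 1 (1 / x')) with h | h
    · rw [h]
      rcases max_choice 1 (1 / x) with h1 | h1
      · left; exact h1
      · right; left; exact h1
    · rw [h]
      rcases max_choice 1 (1 / x') with h1 | h1
      · left; exact h1
      · right; right; exact h1
  have h8 : (Real.sqrt (x * x') / M) ^ 8 ≤ R ^ 8 := by
    rw [hL8]
    exact hkey.trans hR8'
  exact (pow_le_pow_iff_left₀ (by positivity) hR0 (by norm_num)).1 h8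

end Vale.P028
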