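import Vale.Agent.P028.MathlibUsed
import Vale.Agent.P028.KPair2
import Vale.Agent.P028.MDyadic
import Vale.Agent.P028.KResid

/-!
# Structure of the exceptional sheets
-/

namespace Vale.P028

open Finset MeasureTheory

/-- pairs at a small distance with an active sheet `nk ≠ 0` are far or unbalanced -/
theorem far_or_unbal {γ s : ℝ} {ψ : ℕ → ℝ} {q r : ℕ} {k : ℤ} (hq : 0 < q) (hr : 0 < r)
    (hs : 0 < s) (hs1 : s ≤ 1 / 1024)
    (hD1 : DD q r (ψ q) (ψ r) ≤ s) (hD2 : s / 2 < DD q r (ψ q) (ψ r))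
    (hk : Sh γ (ψ q) (ψ r) q r k) (hne : nk γ (ψ q) (ψ r) (cofac q r) (cofac r q) k ≠ 0) :
    TA γ ψ s q r ∨ UB ψ s q r := by
  set u := cofac q r with hu
  set v := cofac r q with hv
  have hu0 : 0 < u := cofac_pos r hq
  have hv0 : 0 < v := cofac_pos q hr
  have hDe : DD q r (ψ q) (ψ r) = max ((v : ℝ) * ψ q) ((u : ℝ) * ψ r) := DD_eq' hq _ _
  rw [hDe] at hD1 hD2
  have hvx : (v : ℝ) * ψ q ≤ s := (le_max_left _ _).trans hD1
  have hux : (u : ℝ) * ψ r ≤ s := (le_max_right _ _).trans hD1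
  obtain ⟨hk1, al, be, hal, hbe, hkk⟩ := hk
  rw [hDe] at hk1
  have hk2 : |(k : ℝ) - ((u : ℝ) - v) * γ| < 2 * s := by linarith only [hD1, hk1]
  have hs3 : s ≤ 1 / 1000 := by linarith only [hs1]
  -- `u ≠ v`
  have huv : u ≠ v := by
    intro h
    have hqr := eq_of_cofac_eq h
    subst hqr
    have h1 : u = 1 := cofac_self hq
    have h2 : v = 1 := cofac_self hq
    rw [h1, h2] at hk2
    have h3 : |(k : ℝ)| < 1 := by
      norm_num at hk2
      linarith only [hs1, hk2]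
    have h4 : |k| < 1 := by exact_mod_cast h3
    rw [Int.abs_lt_one_iff] at h4
    apply hne
    unfold nk
    rw [h1, h2, h4]
    push_cast
    ring
  by_cases hub : (v : ℝ) * ψ q ≤ s ^ 2 ∨ (u : ℝ) * ψ r ≤ s ^ 2
  · exact Or.inr ⟨hvx, hux, hub⟩
  left
  push Not at hub
  have hdist : distInt (((u : ℝ) - v) * γ) < 2 * s := by
    refine lt_of_le_of_lt (distInt_le_abs_sub' _ k) ?_
    rw [abs_sub_comm]
    exact hk2
  refine ⟨⟨huv, hvx, hux, hdist⟩, ?_, hD2⟩
  by_contra hF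
  unfold Far at hF
  push Not at hF
  obtain ⟨B, hB, hlt⟩ := hF
  have hβ0 : 0 ≤ distInt ((B : ℝ) * γ) := abs_nonneg _
  have hBR : (0 : ℝ) < B := by exact_mod_cast hB.1.1
  have h1 : 4 * distInt ((B : ℝ) * γ) * v < 1 :=
    lt_of_le_of_lt (mul_le_mul_of_nonneg_left (le_max_right _ _) (by (clear * - hβ0; positivity))) hlt
  have h2 : 4 * distInt ((B : ℝ) * γ) * u < 1 :=
    lt_of_le_of_lt (mul_le_mul_of_nonneg_left (le_max_left _ _) (by (clear * - hβ0; positivity))) hlt
  have e1 : Bq γ (ψ q) = B := Bsel_eq_of_near hs hs1 (by norm_num) hv0 hB h1 hvx hub.1.le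
  have e2 : Bq γ (ψ r) = B := Bsel_eq_of_near hs hs1 (by norm_num) hu0 hB h2 hux hub.2.le
  have e3 : Aq γ (ψ q) = Anum γ B := by unfold Aq; rw [e1]
  have e4 : Aq γ (ψ r) = Anum γ B := by unfold Aq; rw [e2]
  apply hne
  have hmul := hB.mul_le hs hs3
  -- the integer `m = B k + (v - u) A` vanishes
  have hm : (B : ℤ) * k + ((v : ℤ) - u) * Anum γ B = 0 := by
    have h3 : (((B : ℤ) * k + ((v : ℤ) - u) * Anum γ B : ℤ) : ℝ) =
        B * ((k : ℝ) - ((u : ℝ) - v) * γ) + ((u : ℝ) - v) * ((B : ℝ) * γ - Anum γ B) := by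
      push_cast
      ring
    have h4 : |(((B : ℤ) * k + ((v : ℤ) - u) * Anum γ B : ℤ) : ℝ)| < 1 := by
      rw [h3]
      have h5 : |(B : ℝ) * ((k : ℝ) - ((u : ℝ) - v) * γ)| ≤ 1 / 8 := by
        rw [abs_mul, abs_of_pos hBR]
        calc (B : ℝ) * |(k : ℝ) - ((u : ℝ) - v) * γ| ≤ B * (2 * s) := by (clear * - hk2 hBR; gcongr)
          _ = 2 * (s * B) := by ring
          _ ≤ 1 / 8 := by linarith only [hmul]
      have h6 : |((u : ℝ) - v) * ((B : ℝ) * γ - Anum γ B)| ≤ 1 / 4 := by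
        rw [abs_mul]
        have h7 : |(B : ℝ) * γ - Anum γ B| = distInt ((B : ℝ) * γ) := rfl
        rw [h7]
        have h8 : |(u : ℝ) - v| ≤ max (u : ℝ) v := by
          have hu' : (0 : ℝ) ≤ u := Nat.cast_nonneg _
          have hv' : (0 : ℝ) ≤ v := Nat.cast_nonneg _
          rw [abs_le]
          constructor
          · have := le_max_right (u : ℝ) v
            linarith only [this]
          · have := le_max_left (u : ℝ) v
            linarith only [this]
        calc |(u : ℝ) - v| * distInt ((B : ℝ) * γ) ≤ max (u : ℝ) v * distInt ((B : ℝ) * γ) := by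
              (clear * - h8 hβ0; gcongr)
          _ ≤ 1 / 4 := by linarith only [hlt]
      calc _ ≤ 1 / 8 + 1 / 4 := (abs_add_le _ _).trans (add_le_add h5 h6)
        _ < 1 := by norm_num
    have h5 : |(B : ℤ) * k + ((v : ℤ) - u) * Anum γ B| < 1 := by exact_mod_cast h4
    rwa [Int.abs_lt_one_iff] at h5
  unfold nk
  rw [e1, e2, e3, e4]
  have : (B : ℤ) * B * k + (v : ℤ) * B * Anum γ B - (u : ℤ) * B * Anum γ B =
      B * ((B : ℤ) * k + ((v : ℤ) - u) * Anum γ B) := by ring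
  rw [this, hm, mul_zero]

/-- exact sheets with the same denominator -/
theorem exact_same {γ : ℝ} {x x' : ℝ} {q r : ℕ} {k : ℤ} (hq : 0 < q) (hr : 0 < r)
    (hB : Bq γ x = Bq γ x') (hk : Sh γ x x' q r k)
    (h0 : nk γ x x' (cofac q r) (cofac r q) k = 0) :
    ((PK γ x q).filter (fun p => p ∣ cofac q r) = ∅ ∧
      (PK γ x' r).filter (fun p => p ∣ cofac r q) = ∅) ∧
    ((gpf (cofac q r) : ℝ) ≤ yK γ x ∧ (gpf (cofac r q) : ℝ) ≤ yK γ x') ∧
    (q ≠ r → (Bq γ x : ℝ) ≤ max (cofac q r : ℝ) (cofac r q) ∧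
      distInt ((Bq γ x : ℝ) * γ) < 2 * DD q r x x') := by
  set u := cofac q r with hu
  set v := cofac r q with hv
  have hu0 : 0 < u := cofac_pos r hq
  have hv0 : 0 < v := cofac_pos q hr
  have hcop : Nat.Coprime u v := cofac_coprime hq
  obtain ⟨hk1, al, be, hal, hbe, hkk⟩ := hk
  have hA : Aq γ x' = Aq γ x := by unfold Aq; rw [hB]
  have hco := Aq_coprime γ x
  set B := Bq γ x with hBd
  set A := Aq γ x with hAd
  have hB0 : 0 < B := Bq_pos γ x
  have hB0' : (B : ℤ) ≠ 0 := by exact_mod_cast hB0.ne'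
  have h1 : (B : ℤ) * k + ((v : ℤ) - u) * A = 0 := by
    unfold nk at h0
    rw [← hB, hA, ← hBd, ← hAd] at h0
    have h2 : (B : ℤ) * ((B : ℤ) * k + ((v : ℤ) - u) * A) = 0 := by
      rw [← h0]; ring
    rcases mul_eq_zero.mp h2 with h3 | h3
    · exact absurd h3 hB0'
    · exact h3
  -- `v (al B + A) = u (be B + A)`
  have h2 : (v : ℤ) * (al * B + A) = (u : ℤ) * (be * B + A) := by
    rw [hkk] at h1
    linear_combination h1
  have hcopZ : IsCoprime (u : ℤ) (v : ℤ) := Nat.isCoprime_iff_coprime.mpr hcop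
  have h3 : (u : ℤ) ∣ al * B + A := by
    apply hcopZ.dvd_of_dvd_mul_left
    rw [h2]
    exact dvd_mul_right _ _
  have h4 : (v : ℤ) ∣ be * B + A := by
    apply hcopZ.symm.dvd_of_dvd_mul_left
    rw [← h2]
    exact dvd_mul_right _ _
  -- primes of `u`
  have hpu : ∀ p : ℕ, p.Prime → p ∣ u → p ∉ PK γ x q ∧ ¬ p ∣ B := by
    intro p hp hpu
    have hd : (p : ℤ) ∣ al * B + A := dvd_trans (by exact_mod_cast hpu) h3
    refine ⟨fun h => hal p h hd, fun hpB => ?_⟩
    have hpB' : (p : ℤ) ∣ (B : ℤ) := by exact_mod_cast hpB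
    have hpA : (p : ℤ) ∣ A := (dvd_add_right (dvd_mul_of_dvd_right hpB' _)).mp hd
    have := hco.isUnit_of_dvd' hpB' hpA
    exact (Nat.prime_iff_prime_int.mp hp).not_isUnit this
  have hpv : ∀ p : ℕ, p.Prime → p ∣ v → p ∉ PK γ x' r ∧ ¬ p ∣ B := by
    intro p hp hpv
    have hd : (p : ℤ) ∣ be * B + A := dvd_trans (by exact_mod_cast hpv) h4
    refine ⟨fun h => hbe p h (by rw [← hB, hA]; exact hd), fun hpB => ?_⟩
    have hpB' : (p : ℤ) ∣ (B : ℤ) := by exact_mod_cast hpB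
    have hpA : (p : ℤ) ∣ A := (dvd_add_right (dvd_mul_of_dvd_right hpB' _)).mp hd
    have := hco.isUnit_of_dvd' hpB' hpA
    exact (Nat.prime_iff_prime_int.mp hp).not_isUnit this
  have hgpf : ∀ (n : ℕ) (y : ℝ), 0 ≤ y → (∀ p : ℕ, p.Prime → p ∣ n → n ≠ 0 → (p : ℝ) ≤ y) →
      (gpf n : ℝ) ≤ y := by
    intro n y hy h
    unfold gpf
    rcases n.primeFactors.eq_empty_or_nonempty with he | hne
    · rw [he]; simpa only [sup_empty, Nat.bot_eq_zero, CharP.cast_eq_zero] using hy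
    · obtain ⟨p, hp, hpe⟩ := exists_mem_eq_sup _ hne id
      rw [hpe]
      rw [Nat.mem_primeFactors] at hp
      exact h p hp.1 hp.2.1 hp.2.2
  refine ⟨⟨?_, ?_⟩, ⟨?_, ?_⟩, ?_⟩
  · rw [filter_eq_empty_iff]
    intro p hp hpu'
    exact (hpu p (PK_prime p hp) hpu').1 hp
  · rw [filter_eq_empty_iff]
    intro p hp hpv'
    exact (hpv p (PK_prime p hp) hpv').1 hp
  · apply hgpf _ _ (by linarith only [yK_gt_two γ x])
    intro p hp hpd _
    obtain ⟨h5, h6⟩ := hpu p hp hpd
    by_contra hlt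
    push Not at hlt
    apply h5
    unfold PK
    rw [mem_filter, Nat.mem_primeFactors]
    exact ⟨⟨hp, hpd.trans (cofac_dvd q r), hq.ne'⟩, hlt, h6⟩
  · apply hgpf _ _ (by linarith only [yK_gt_two γ x'])
    intro p hp hpd _
    obtain ⟨h5, h6⟩ := hpv p hp hpd
    by_contra hlt
    push Not at hlt
    apply h5
    unfold PK
    rw [mem_filter, Nat.mem_primeFactors]
    exact ⟨⟨hp, hpd.trans (cofac_dvd r q), hr.ne'⟩, hlt, by rw [← hB]; exact h6⟩
  · intro hqr
    have huv : u ≠ v := fun h => hqr (eq_of_cofac_eq h)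
    have hdvd : (B : ℤ) ∣ (u : ℤ) - v := by
      apply hco.dvd_of_dvd_mul_right
      exact ⟨k, by linear_combination (-1 : ℤ) * h1⟩
    obtain ⟨m, hm⟩ := hdvd
    have hm0 : m ≠ 0 := by
      rintro rfl
      rw [mul_zero] at hm
      apply huv
      have : (u : ℤ) = v := by linarith only [hm]
      exact_mod_cast this
    have hmR : (1 : ℝ) ≤ |(m : ℝ)| := by
      rw [← Int.cast_abs]
      exact_mod_cast Int.one_le_abs hm0
    have hBR : (0 : ℝ) < B := by exact_mod_cast hB0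
    have hmR' : ((u : ℝ) - v) = B * m := by exact_mod_cast hm
    constructor
    · have h5 : (B : ℝ) ≤ |(u : ℝ) - v| := by
        rw [hmR', abs_mul, abs_of_pos hBR]
        nlinarith only [hmR]
      refine h5.trans ?_
      have hu' : (0 : ℝ) ≤ u := Nat.cast_nonneg _
      have hv' : (0 : ℝ) ≤ v := Nat.cast_nonneg _
      rw [abs_le]
      constructor
      · have := le_max_right (u : ℝ) v
        linarith only [this]
      · have := le_max_left (u : ℝ) v
        linarith only [this]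
    · -- `k = m A`
      have hkm : k = m * A := by
        have h6 : (B : ℤ) * (k - m * A) = 0 := by
          have : (u : ℤ) - v = B * m := hm
          linear_combination h1 + A * this
        rcases mul_eq_zero.mp h6 with h7 | h7
        · exact absurd h7 hB0'
        · linarith only [h7]
      have h6 : (k : ℝ) - ((u : ℝ) - v) * γ = -(m * ((B : ℝ) * γ - A)) := by
        rw [hmR', hkm]
        push_cast
        ring
      rw [h6, abs_neg, abs_mul] at hk1
      have h7 : |(B : ℝ) * γ - A| = distInt ((B : ℝ) * γ) := rfl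
      rw [h7] at hk1
      have h8 : 0 ≤ distInt ((B : ℝ) * γ) := abs_nonneg _
      have h9 : 1 * distInt ((B : ℝ) * γ) ≤ |(m : ℝ)| * distInt ((B : ℝ) * γ) :=
        mul_le_mul_of_nonneg_right hmR h8
      linarith only [hk1, h9]

/-- exact sheets with different denominators -/
theorem exact_diff {γ : ℝ} {x x' : ℝ} {q r : ℕ} {k : ℤ}
    (h0 : nk γ x x' (cofac q r) (cofac r q) k = 0) :
    Bq γ x' / Nat.gcd (Bq γ x) (Bq γ x') ∣ cofac q r ∧
    Bq γ x / Nat.gcd (Bq γ x') (Bq γ x) ∣ cofac r q := by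
  set u := cofac q r with hu
  set v := cofac r q with hv
  have hco := Aq_coprime γ x
  have hco' := Aq_coprime γ x'
  unfold nk at h0
  set B := Bq γ x with hBd
  set B' := Bq γ x' with hBd'
  set A := Aq γ x with hAd
  set A' := Aq γ x' with hAd'
  have hB0 : 0 < B := Bq_pos γ x
  have hB0' : 0 < B' := Bq_pos γ x'
  constructor
  · have h1 : (B' : ℤ) ∣ (u : ℤ) * B * A' := ⟨B * k + v * A, by linear_combination (-1 : ℤ) * h0⟩
    have h2 : (B' : ℤ) ∣ (u : ℤ) * B := hco'.dvd_of_dvd_mul_right h1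
    have h3 : B' ∣ u * B := by exact_mod_cast h2
    have hg : 0 < Nat.gcd B B' := Nat.gcd_pos_of_pos_left _ hB0
    have h4 : B' / Nat.gcd B B' ∣ u * (B / Nat.gcd B B') := by
      rw [← Nat.mul_div_assoc _ (Nat.gcd_dvd_left B B')]
      exact Nat.div_dvd_div (Nat.gcd_dvd_right B B') h3
    exact (Nat.coprime_div_gcd_div_gcd hg).symm.dvd_of_dvd_mul_right h4
  · have h1 : (B : ℤ) ∣ (v : ℤ) * B' * A := ⟨-(B' * k) + u * A', by linear_combination h0⟩
    have h2 : (B : ℤ) ∣ (v : ℤ) * B' := hco.dvd_of_dvd_mul_right h1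
    have h3 : B ∣ v * B' := by exact_mod_cast h2
    have hg : 0 < Nat.gcd B' B := Nat.gcd_pos_of_pos_left _ hB0'
    have h4 : B / Nat.gcd B' B ∣ v * (B' / Nat.gcd B' B) := by
      rw [← Nat.mul_div_assoc _ (Nat.gcd_dvd_left B' B)]
      exact Nat.div_dvd_div (Nat.gcd_dvd_right B' B) h3
    exact (Nat.coprime_div_gcd_div_gcd hg).symm.dvd_of_dvd_mul_right h4

/-- the value of the residual kernel -/
noncomputable def resK (q r : ℕ) : ℝ :=
  Real.exp (-(gpf (cofac q r * cofac r q) : ℝ) / 16) *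
    ((cofac q r : ℝ) * (cofac r q : ℝ)) ^ (-(1 / 8) : ℝ)

theorem resK_nonneg (q r : ℕ) : 0 ≤ resK q r := by
  unfold resK
  (clear * -; positivity)

theorem F0_le {γ x x' : ℝ} {q r : ℕ} (hq : 0 < q) (hr : 0 < r) :
    (q.totient : ℝ) / q ≤ pr (F0 γ x x' q r) ∧ (r.totient : ℝ) / r ≤ pr (F0 γ x x' q r) := by
  constructor
  · apply totient_ratio_le hq
    intro p hp
    unfold F0 at hp
    rw [mem_filter, mem_inter] at hp
    exact PK_subset γ x q hp.1.1
  · apply totient_ratio_le hr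
    intro p hp
    unfold F0 at hp
    rw [mem_filter, mem_inter] at hp
    exact PK_subset γ x' r hp.1.2

theorem F0_pos (γ x x' : ℝ) (q r : ℕ) : 0 < pr (F0 γ x x' q r) :=
  pr_pos fun p hp => PK_prime p (mem_inter.mp (mem_filter.mp hp).1).1

/-- exact sheets with the same denominator: the bound -/
theorem term_same {γ x x' : ℝ} {q r : ℕ} {k : ℤ} (hq : 0 < q) (hr : 0 < r) (hx : 0 < x)
    (hx' : 0 < x') (hqr : q = r → x = x')
    (hB : Bq γ x = Bq γ x') (hk : Sh γ x x' q r k)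
    (h0 : nk γ x x' (cofac q r) (cofac r q) k = 0) :
    16 * ((q.totient : ℝ) / q * x * ((r.totient : ℝ) / r * x') / DD q r x x') *
      GU γ x x' q r * (pr (F0 γ x x' q r))⁻¹ ≤
      128 * (Real.sqrt (((q.totient : ℝ) / q * x) * ((r.totient : ℝ) / r * x')) * resK q r) := by
  obtain ⟨⟨he1, he2⟩, ⟨hg1, hg2⟩, hne⟩ := exact_same hq hr hB hk h0
  have hGU : GU γ x x' q r = 1 := by
    unfold GU
    rw [he1, he2]
    simp only [pr, one_div, prod_empty, inv_one, mul_one]
  rw [hGU, mul_one]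
  have hD0 : 0 < DD q r x x' := DD_pos hq hr hx
  obtain ⟨hf1, hf2⟩ := F0_le (γ := γ) (x := x) (x' := x') hq hr
  have hF0 := F0_pos γ x x' q r
  have ht1 := totient_ratio_pos hq
  have ht2 := totient_ratio_pos hr
  set a : ℝ := (q.totient : ℝ) / q with ha
  set b : ℝ := (r.totient : ℝ) / r with hb
  set P : ℝ := pr (F0 γ x x' q r) with hP
  set D : ℝ := DD q r x x' with hD
  -- `a b / P ≤ sqrt (a b)`
  have h1 : Real.sqrt (a * b) ≤ P := by
    rw [Real.sqrt_le_left hF0.le, sq]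
    exact mul_le_mul hf1 hf2 ht2.le hF0.le
  have h2 : a * b * P⁻¹ ≤ Real.sqrt (a * b) := by
    rw [← div_eq_mul_inv, div_le_iff₀ hF0]
    calc a * b = Real.sqrt (a * b) * Real.sqrt (a * b) :=
          (Real.mul_self_sqrt (by positivity)).symm
      _ ≤ Real.sqrt (a * b) * P := by (clear * - h1 hq hr; gcongr)
  have h3 : Real.sqrt (a * x * (b * x')) = Real.sqrt (a * b) * Real.sqrt (x * x') := by
    rw [← Real.sqrt_mul (by positivity)]
    congr 1
    ring
  have h4 : Real.sqrt (x * x') * Real.sqrt (x * x') = x * x' := Real.mul_self_sqrt (by positivity)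
  have hu0 : 0 < cofac q r := cofac_pos r hq
  have hv0 : 0 < cofac r q := cofac_pos q hr
  have h5 : Real.sqrt (x * x') / D ≤ 8 * resK q r := by
    by_cases h : q = r
    · have hxx := hqr h
      subst h
      subst hxx
      have h6 : D = x := by
        rw [hD, DD_eq' hq, cofac_self hq]
        simp
      have h7 : resK q q = 1 := by
        unfold resK
        rw [cofac_self hq]
        simp only [gpf, mul_one, Nat.primeFactors_one, sup_empty, Nat.bot_eq_zero, CharP.cast_eq_zero, neg_zero, zero_div, Real.exp_zero, Nat.cast_one, one_div, Real.one_rpow]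
      rw [h6, h7, Real.sqrt_mul_self hx.le, div_self hx.ne']
      norm_num
    · obtain ⟨hm, hβ⟩ := hne h
      set β : ℝ := distInt ((Bq γ x : ℝ) * γ) with hβd
      set b' : ℝ := max β (min x x') with hb'
      have hb'0 : 0 < b' := lt_max_of_lt_right (lt_min hx hx')
      have hDv : (cofac r q : ℝ) * x ≤ D := by rw [hD, DD_eq' hq]; exact le_max_left _ _
      have hDu : (cofac q r : ℝ) * x' ≤ D := by rw [hD, DD_eq' hq]; exact le_max_right _ _
      have hv1 : (1 : ℝ) ≤ cofac r q := by exact_mod_cast hv0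
      have hb'D : b' ≤ 2 * D := by
        apply max_le hβ.le
        calc min x x' ≤ x := min_le_left _ _
          _ ≤ (cofac r q : ℝ) * x := by nlinarith only [hx, hv1]
          _ ≤ 2 * D := by linarith only [hD0, hDv]
      have hK1 : KK γ x ≤ max 1 (1 / (x / b')) := by
        unfold KK
        apply max_le (le_max_left _ _)
        refine le_trans ?_ (le_max_right _ _)
        rw [one_div_div]
        have : β ≤ b' := le_max_left _ _
        (clear * - this hx; gcongr)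
      have hK2 : KK γ x' ≤ max 1 (1 / (x' / b')) := by
        unfold KK
        apply max_le (le_max_left _ _)
        refine le_trans ?_ (le_max_right _ _)
        rw [one_div_div, ← hB]
        have : β ≤ b' := le_max_left _ _
        (clear * - this hx'; gcongr)
      have hBq := Bq_one_le γ x
      have hK1' := KK_one_le γ x
      have hK2' := KK_one_le γ x'
      have hy1 : yK γ x ≤ 2 + 2 * Real.log (2 * Bq γ x * max 1 (1 / (x / b'))) := by
        unfold yK
        have : Real.log (2 * Bq γ x * KK γ x) ≤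
            Real.log (2 * Bq γ x * max 1 (1 / (x / b'))) := by
          apply Real.log_le_log (by (clear * - hBq hK1'; positivity))
          (clear * - hK1 hBq; gcongr)
        linarith only [this]
      have hy2 : yK γ x' ≤ 2 + 2 * Real.log (2 * Bq γ x * max 1 (1 / (x' / b'))) := by
        unfold yK
        rw [← hB]
        have : Real.log (2 * Bq γ x * KK γ x') ≤
            Real.log (2 * Bq γ x * max 1 (1 / (x' / b'))) := by
          apply Real.log_le_log (by (clear * - hBq hK2'; positivity))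
          (clear * - hK2 hBq; gcongr)
        linarith only [this]
      have h6 := resid_bound (B := Bq γ x) (u := cofac q r) (v := cofac r q) (x := x / b')
        (x' := x' / b') (M := D / b') (Bq_pos γ x) hu0 hv0 hm (by (clear * - hx hx'; positivity)) (by (clear * - hx' hx; positivity))
        rfl rfl (by rw [← mul_div_assoc]; (clear * - hDv hx hx'; gcongr)) (by rw [← mul_div_assoc]; (clear * - hDu hx hx'; gcongr))
        (by rw [div_le_div_iff₀ (by norm_num) hb'0]; linarith only [hb'D]) (hg1.trans hy1) (hg2.trans hy2)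
      have h7 : Real.sqrt (x / b' * (x' / b')) = Real.sqrt (x * x') / b' := by
        rw [show x / b' * (x' / b') = x * x' / (b' * b') by (clear * - hx' hb'0 hx; field_simp),
          Real.sqrt_div (by positivity), Real.sqrt_mul_self hb'0.le]
      rw [h7] at h6
      have h8 : Real.sqrt (x * x') / b' / (D / b') = Real.sqrt (x * x') / D := by
        (clear * - hb'0 hD0 hx hx'; field_simp)
      rw [h8] at h6
      exact h6
  calc 16 * (a * x * (b * x') / D) * P⁻¹ = 16 * (x * x') * (a * b * P⁻¹) / D := by ring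
    _ ≤ 16 * (x * x') * Real.sqrt (a * b) / D := by (clear * - h2 hx hx' hD0; gcongr)
    _ = 16 * Real.sqrt (a * b) * (x * x' / D) := by ring
    _ = 16 * Real.sqrt (a * b) * (Real.sqrt (x * x') * (Real.sqrt (x * x') / D)) := by
        rw [← mul_div_assoc (Real.sqrt (x * x')), h4]
    _ = 16 * (Real.sqrt (a * b) * Real.sqrt (x * x')) * (Real.sqrt (x * x') / D) := by ring
    _ ≤ 16 * (Real.sqrt (a * b) * Real.sqrt (x * x')) * (8 * resK q r) := by (clear * - h5 hq hr hx hx'; gcongr)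
    _ = 128 * (Real.sqrt (a * x * (b * x')) * resK q r) := by rw [h3]; ring

/-- exact sheets with different denominators: the bound -/
theorem term_diff {γ x x' : ℝ} {q r : ℕ} (hq : 0 < q) (hr : 0 < r) (hx : 0 < x)
    (hx' : 0 < x') :
    16 * ((q.totient : ℝ) / q * x * ((r.totient : ℝ) / r * x') / DD q r x x') *
      GU γ x x' q r * (pr (F0 γ x x' q r))⁻¹ ≤ 16 * (x * x' / DD q r x x') := by
  have hD0 : 0 < DD q r x x' := DD_pos hq hr hx
  have hF0 := F0_pos γ x x' q r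
  have ht1 := totient_ratio_pos hq
  have ht2 := totient_ratio_pos hr
  have hPa : 0 < pr ((PK γ x q).filter (fun p => p ∣ cofac q r)) :=
    pr_pos fun p hp => PK_prime p (mem_filter.mp hp).1
  have hPb : 0 < pr ((PK γ x' r).filter (fun p => p ∣ cofac r q)) :=
    pr_pos fun p hp => PK_prime p (mem_filter.mp hp).1
  have h1 : (q.totient : ℝ) / q ≤ pr ((PK γ x q).filter (fun p => p ∣ cofac q r)) *
      pr (F0 γ x x' q r) := by
    rw [← pr_union]
    · apply totient_ratio_le hq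
      intro p hp
      rw [mem_union] at hp
      rcases hp with hp | hp
      · exact PK_subset γ x q (mem_filter.mp hp).1
      · unfold F0 at hp
        rw [mem_filter, mem_inter] at hp
        exact PK_subset γ x q hp.1.1
    · rw [disjoint_left]
      intro p hp hp'
      unfold F0 at hp'
      rw [mem_filter] at hp hp'
      exact hp'.2.1 hp.2
  have h2 : (r.totient : ℝ) / r ≤ pr ((PK γ x' r).filter (fun p => p ∣ cofac r q)) := by
    apply totient_ratio_le hr
    intro p hp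
    exact PK_subset γ x' r (mem_filter.mp hp).1
  unfold GU
  set a : ℝ := (q.totient : ℝ) / q with ha
  set b : ℝ := (r.totient : ℝ) / r with hb
  set P : ℝ := pr (F0 γ x x' q r) with hP
  set D : ℝ := DD q r x x' with hD
  set G₁ : ℝ := pr ((PK γ x q).filter (fun p => p ∣ cofac q r)) with hG₁
  set G₂ : ℝ := pr ((PK γ x' r).filter (fun p => p ∣ cofac r q)) with hG₂
  have h3 : a * b * (G₁⁻¹ * G₂⁻¹) * P⁻¹ ≤ 1 := by
    have : a * b ≤ (G₁ * P) * G₂ := mul_le_mul h1 h2 ht2.le (by (clear * - hPa hF0; positivity))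
    calc a * b * (G₁⁻¹ * G₂⁻¹) * P⁻¹ ≤ ((G₁ * P) * G₂) * (G₁⁻¹ * G₂⁻¹) * P⁻¹ := by (clear * - this hPa hPb hF0; gcongr)
      _ = 1 := by (clear * - hPa hF0 hPb; field_simp)
  calc 16 * (a * x * (b * x') / D) * (G₁⁻¹ * G₂⁻¹) * P⁻¹
      = 16 * (x * x' / D) * (a * b * (G₁⁻¹ * G₂⁻¹) * P⁻¹) := by ring
    _ ≤ 16 * (x * x' / D) * 1 := by gcongr
    _ = _ := mul_one _

open Classical in
/-- the final bound for one pair -/
theorem pair_three : ∃ C > 0, ∀ (γ : ℝ) (ψ : ℕ → ℝ) (q r : ℕ), 0 < q → 0 < r → 0 < ψ q →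
    0 < ψ r → ψ q ≤ 1 / 2 → ψ r ≤ 1 / 2 →
    wK γ (ψ q) q * wK γ (ψ r) r * volume.real (GK γ ψ q ∩ GK γ ψ r ∩ Set.Ioc 0 1) ≤
      C * ((q.totient : ℝ) / q * ψ q * ((r.totient : ℝ) / r * ψ r) *
          GT (max 2 (DD q r (ψ q) (ψ r))) (cofac q r * cofac r q)) +
      (if DD q r (ψ q) (ψ r) < 1 / 1024 ∧ (∀ s, 0 < s → s ≤ 1 / 1024 →
          DD q r (ψ q) (ψ r) ≤ s → s / 2 < DD q r (ψ q) (ψ r) → TA γ ψ s q r ∨ UB ψ s q r) then
        C * ((q.totient : ℝ) / q * ψ q * ((r.totient : ℝ) / r * ψ r) *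
          GG (cofac q r * cofac r q) / DD q r (ψ q) (ψ r)) else 0) +
      128 * (Real.sqrt (((q.totient : ℝ) / q * ψ q) * ((r.totient : ℝ) / r * ψ r)) *
        resK q r) +
      (if Bq γ (ψ q) < Bq γ (ψ r) ∧ Bq γ (ψ r) / Nat.gcd (Bq γ (ψ q)) (Bq γ (ψ r)) ∣ cofac q r then
        16 * (ψ q * ψ r / DD q r (ψ q) (ψ r)) else 0) +
      (if Bq γ (ψ r) < Bq γ (ψ q) ∧ Bq γ (ψ q) / Nat.gcd (Bq γ (ψ r)) (Bq γ (ψ q)) ∣ cofac r q then
        16 * (ψ q * ψ r / DD q r (ψ q) (ψ r)) else 0) := by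
  obtain ⟨C, hC, h2⟩ := pair_two
  refine ⟨C, hC, ?_⟩
  intro γ ψ q r hq hr hψq hψr hq2 hr2
  have hD0 : 0 < DD q r (ψ q) (ψ r) := DD_pos hq hr hψq
  have hμ : 0 < (q.totient : ℝ) / q * ψ q := mul_pos (totient_ratio_pos hq) hψq
  have hμ' : 0 < (r.totient : ℝ) / r * ψ r := mul_pos (totient_ratio_pos hr) hψr
  have hGT0 : 0 ≤ GT (max 2 (DD q r (ψ q) (ψ r))) (cofac q r * cofac r q) := by
    rw [GT_eq]
    exact inv_nonneg.mpr (pr_pos fun p hp =>
      Nat.prime_of_mem_primeFactors (mem_filter.mp hp).1).le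
  have hGG0 : 0 ≤ GG (cofac q r * cofac r q) := by
    rw [GG_eq]
    exact inv_nonneg.mpr (pr_pos fun p hp => Nat.prime_of_mem_primeFactors hp).le
  have hres := resK_nonneg q r
  refine (h2 γ q r (ψ q) (ψ r) hq hr hψq hψr hq2 hr2).trans ?_
  have t1 : (if 1 / 1024 ≤ DD q r (ψ q) (ψ r) then
        C * ((q.totient : ℝ) / q * ψ q * ((r.totient : ℝ) / r * ψ r) *
          GT (max 2 (DD q r (ψ q) (ψ r))) (cofac q r * cofac r q)) else 0) ≤
      C * ((q.totient : ℝ) / q * ψ q * ((r.totient : ℝ) / r * ψ r) *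
          GT (max 2 (DD q r (ψ q) (ψ r))) (cofac q r * cofac r q)) := by
    split_ifs
    · exact le_rfl
    · (clear * - hC hq hψq hr hψr hGT0; positivity)
  have t2 : (if DD q r (ψ q) (ψ r) < 1 / 1024 ∧ ∃ k, Sh γ (ψ q) (ψ r) q r k ∧
          nk γ (ψ q) (ψ r) (cofac q r) (cofac r q) k ≠ 0 then
        C * ((q.totient : ℝ) / q * ψ q * ((r.totient : ℝ) / r * ψ r) *
          GG (cofac q r * cofac r q) / DD q r (ψ q) (ψ r)) else 0) ≤
      (if DD q r (ψ q) (ψ r) < 1 / 1024 ∧ (∀ s, 0 < s → s ≤ 1 / 1024 →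
          DD q r (ψ q) (ψ r) ≤ s → s / 2 < DD q r (ψ q) (ψ r) → TA γ ψ s q r ∨ UB ψ s q r) then
        C * ((q.totient : ℝ) / q * ψ q * ((r.totient : ℝ) / r * ψ r) *
          GG (cofac q r * cofac r q) / DD q r (ψ q) (ψ r)) else 0) := by
    by_cases h : DD q r (ψ q) (ψ r) < 1 / 1024 ∧ ∃ k, Sh γ (ψ q) (ψ r) q r k ∧
          nk γ (ψ q) (ψ r) (cofac q r) (cofac r q) k ≠ 0
    · rw [if_pos h]
      obtain ⟨h3, k, hk, hk'⟩ := h
      rw [if_pos ⟨h3, fun s hs hs1 hs2 hs3 => far_or_unbal hq hr hs hs1 hs2 hs3 hk hk'⟩]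
    · rw [if_neg h]
      split_ifs
      · (clear * - hC hq hψq hr hψr hGG0 hD0; positivity)
      · exact le_rfl
  have hd1 : 0 ≤ (if Bq γ (ψ q) < Bq γ (ψ r) ∧
      Bq γ (ψ r) / Nat.gcd (Bq γ (ψ q)) (Bq γ (ψ r)) ∣ cofac q r then
        16 * (ψ q * ψ r / DD q r (ψ q) (ψ r)) else 0) := by
    split_ifs
    · (clear * - hψq hψr hD0; positivity)
    · exact le_rfl
  have hd2 : 0 ≤ (if Bq γ (ψ r) < Bq γ (ψ q) ∧
      Bq γ (ψ q) / Nat.gcd (Bq γ (ψ r)) (Bq γ (ψ q)) ∣ cofac r q then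
        16 * (ψ q * ψ r / DD q r (ψ q) (ψ r)) else 0) := by
    split_ifs
    · (clear * - hψq hψr hD0; positivity)
    · exact le_rfl
  have hsq : 0 ≤ 128 * (Real.sqrt (((q.totient : ℝ) / q * ψ q) * ((r.totient : ℝ) / r * ψ r)) *
        resK q r) := by (clear * - hq hψq hr hψr hres; positivity)
  have t3 : (if ∃ k, Sh γ (ψ q) (ψ r) q r k ∧
        nk γ (ψ q) (ψ r) (cofac q r) (cofac r q) k = 0 then
        16 * ((q.totient : ℝ) / q * ψ q * ((r.totient : ℝ) / r * ψ r) / DD q r (ψ q) (ψ r)) *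
          GU γ (ψ q) (ψ r) q r * (pr (F0 γ (ψ q) (ψ r) q r))⁻¹ else 0) ≤
      128 * (Real.sqrt (((q.totient : ℝ) / q * ψ q) * ((r.totient : ℝ) / r * ψ r)) *
        resK q r) +
      (if Bq γ (ψ q) < Bq γ (ψ r) ∧ Bq γ (ψ r) / Nat.gcd (Bq γ (ψ q)) (Bq γ (ψ r)) ∣ cofac q r then
        16 * (ψ q * ψ r / DD q r (ψ q) (ψ r)) else 0) +
      (if Bq γ (ψ r) < Bq γ (ψ q) ∧ Bq γ (ψ q) / Nat.gcd (Bq γ (ψ r)) (Bq γ (ψ q)) ∣ cofac r q then
        16 * (ψ q * ψ r / DD q r (ψ q) (ψ r)) else 0) := by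
    by_cases h : ∃ k, Sh γ (ψ q) (ψ r) q r k ∧
        nk γ (ψ q) (ψ r) (cofac q r) (cofac r q) k = 0
    · rw [if_pos h]
      obtain ⟨k, hk, hk0⟩ := h
      rcases lt_trichotomy (Bq γ (ψ q)) (Bq γ (ψ r)) with hlt | heq | hgt
      · obtain ⟨h3, -⟩ := exact_diff hk0
        have h4 := term_diff (γ := γ) hq hr hψq hψr
        rw [if_pos ⟨hlt, h3⟩]
        linarith only [hd2, hsq, h4]
      · have h4 := term_same hq hr hψq hψr (fun h => by rw [h]) heq hk hk0
        linarith only [hd1, hd2, h4]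
      · obtain ⟨-, h3⟩ := exact_diff hk0
        have h4 := term_diff (γ := γ) hq hr hψq hψr
        rw [if_pos (⟨hgt, h3⟩ : Bq γ (ψ r) < Bq γ (ψ q) ∧
          Bq γ (ψ q) / Nat.gcd (Bq γ (ψ r)) (Bq γ (ψ q)) ∣ cofac r q)]
        linarith only [hd1, hsq, h4]
    · rw [if_neg h]
      linarith only [hd1, hd2, hsq]
  linarith only [t1, t2, t3]

end Vale.P028
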