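import Vale.Agent.P028.MathlibUsed
import Vale.Agent.P028.ANear

set_option linter.all false

/-!
# Counting lemma for the core estimate (all real `γ`)
-/

namespace Vale.P028

open Finset

/-- separated sets -/
theorem kc_sep_card (S : Finset ℕ) (M : ℕ) (G : ℝ) (hG : 0 < G) (hS : ∀ m ∈ S, m ≤ M)
    (hsep : ∀ m ∈ S, ∀ n ∈ S, m < n → G ≤ (n : ℝ) - m) : (S.card : ℝ) ≤ M / G + 1 := by
  have h1 : S.card ≤ (range (⌊(M : ℝ) / G⌋₊ + 1)).card := by
    refine card_le_card_of_injOn (fun m : ℕ => ⌊(m : ℝ) / G⌋₊) ?_ ?_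
    · intro m hm
      rw [coe_range, Set.mem_Iio]
      have h2 : (m : ℝ) ≤ M := by exact_mod_cast hS m hm
      exact Nat.lt_succ_of_le (Nat.floor_mono (div_le_div_of_nonneg_right h2 hG.le))
    · have key : ∀ m ∈ S, ∀ n ∈ S, m < n → ⌊(m : ℝ) / G⌋₊ < ⌊(n : ℝ) / G⌋₊ := by
        intro m hm n hn hmn
        have h3 := hsep m hm n hn hmn
        have h4 : (m : ℝ) / G + 1 ≤ n / G := by
          rw [← sub_nonneg]
          have : (n : ℝ) / G - (m / G + 1) = (n - m - G) / G := by
            field_simp
            ring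
          rw [this]
          exact div_nonneg (by linarith only [h3]) hG.le
        have h5 : ⌊(m : ℝ) / G⌋₊ + 1 ≤ ⌊(n : ℝ) / G⌋₊ := by
          rw [← Nat.floor_add_one (by positivity)]
          exact Nat.floor_mono h4
        omega
      intro m hm n hn hmn
      simp only at hmn
      rcases lt_trichotomy m n with h | h | h
      · have := key m hm n hn h
        omega
      · exact h
      · have := key n hn m hm h
        omega
  rw [card_range] at h1
  have h2 : (S.card : ℝ) ≤ ((⌊(M : ℝ) / G⌋₊ + 1 : ℕ) : ℝ) := by exact_mod_cast h1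
  push_cast at h2
  have h3 : (⌊(M : ℝ) / G⌋₊ : ℝ) ≤ M / G := Nat.floor_le (by positivity)
  linarith only [h2, h3]

/-- Number of hits in a block at a bad scale (real shift). -/
theorem kc_block_card {γ s : ℝ} {B : ℕ} (hs : 0 < s) (hs2 : s ≤ 1 / 1000) (hB : BadAt γ s B)
    (hβ : 0 < distInt (B * γ)) {L : ℕ} (hL : 4 * distInt (B * γ) * L ≤ 1) (δ : ℝ) (a : ℕ)
    (S : Finset ℕ) (hS1 : ∀ u ∈ S, a ≤ u ∧ u < a + L)
    (hS2 : ∀ u ∈ S, distInt ((u : ℝ) * γ - δ) < 2 * s) :
    (S.card : ℝ) ≤ 4 * s / distInt (B * γ) + 1 := by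
  classical
  have hB0 : 0 < B := hB.1.1
  have hBR : (0 : ℝ) < B := by exact_mod_cast hB0
  rcases S.eq_empty_or_nonempty with h | h
  · rw [h]
    simp only [Finset.card_empty, Nat.cast_zero]
    positivity
  set m := S.min' h with hm
  have hmS : m ∈ S := S.min'_mem h
  have hdiff : ∀ u ∈ S, m ≤ u := fun u hu => S.min'_le u hu
  have hdv : ∀ u ∈ S, B ∣ u - m ∧ ((u - m : ℕ) : ℝ) * distInt (B * γ) < 4 * s * B := by
    intro u hu
    have h1 := hdiff u hu
    refine bad_dvd hs hs2 hB ?_ ?_
    · have h2 := hS1 u hu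
      have h3 := hS1 m hmS
      have h4 : ((u - m : ℕ) : ℝ) ≤ L := by
        have : u - m ≤ L := by omega
        exact_mod_cast this
      exact (mul_le_mul_of_nonneg_left h4 (by positivity)).trans hL
    · rw [Nat.cast_sub h1]
      have e : ((u : ℝ) - m) * γ = ((u : ℝ) * γ - δ) - ((m : ℝ) * γ - δ) := by ring
      rw [e]
      refine (nb_distInt_sub_le _ _).trans_lt ?_
      linarith only [hS2 u hu, hS2 m hmS]
  have hinj : Set.InjOn (fun u => (u - m) / B) S := by
    intro u hu w hw huw
    simp only at huw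
    obtain ⟨k, hk⟩ := (hdv u hu).1
    obtain ⟨l, hl⟩ := (hdv w hw).1
    rw [hk, hl, Nat.mul_div_cancel_left _ hB0, Nat.mul_div_cancel_left _ hB0] at huw
    have h1 := hdiff u hu
    have h2 := hdiff w hw
    rw [huw] at hk
    omega
  have hcard : S.card = (S.image (fun u => (u - m) / B)).card := (Finset.card_image_of_injOn hinj).symm
  have hsub : S.image (fun u => (u - m) / B) ⊆ range ⌈4 * s / distInt (B * γ)⌉₊ := by
    intro k hk
    obtain ⟨u, hu, rfl⟩ := Finset.mem_image.1 hk
    obtain ⟨⟨k, hk'⟩, h2⟩ := hdv u hu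
    rw [hk', Nat.mul_div_cancel_left _ hB0, Finset.mem_range, Nat.lt_ceil, lt_div_iff₀ hβ]
    rw [hk'] at h2
    push_cast at h2
    have h3 : (B : ℝ) * ((k : ℝ) * distInt (B * γ)) < B * (4 * s) := by linarith only [h2]
    exact lt_of_mul_lt_mul_left h3 hBR.le
  have h1 := Finset.card_le_card hsub
  rw [Finset.card_range, ← hcard] at h1
  have h2 : (⌈4 * s / distInt (B * γ)⌉₊ : ℝ) < 4 * s / distInt (B * γ) + 1 :=
    Nat.ceil_lt_add_one (by positivity)
  have h3 : (S.card : ℝ) ≤ ⌈4 * s / distInt (B * γ)⌉₊ := by exact_mod_cast h1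
  linarith only [h2, h3]

/-- Number of hits at a bad scale. -/
theorem kc_bad_count {γ s : ℝ} {B : ℕ} (hs : 0 < s) (hs2 : s ≤ 1 / 1000) (hB : BadAt γ s B)
    (hβ : 0 < distInt (B * γ)) (δ : ℝ) (M : ℕ) (S : Finset ℕ) (hS1 : ∀ u ∈ S, u ≤ M)
    (hS2 : ∀ u ∈ S, distInt ((u : ℝ) * γ - δ) < 2 * s) :
    (S.card : ℝ) ≤ 64 * s * M + 4 * s / distInt (B * γ) + 1 := by
  classical
  set β := distInt (B * γ) with hβd
  have hβ4 : β ≤ 4 * s := hB.1.2.1
  set L : ℕ := ⌊1 / (4 * β)⌋₊ with hL
  have hx : 1 ≤ 1 / (4 * β) := by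
    rw [le_div_iff₀ (by positivity)]
    linarith only [hs2, hβ4]
  have hL0 : 0 < L := Nat.floor_pos.2 hx
  have hLR : (0 : ℝ) < L := by exact_mod_cast hL0
  have hL1 : (L : ℝ) ≤ 1 / (4 * β) := Nat.floor_le (by positivity)
  have hL2 : 4 * β * L ≤ 1 := by
    rw [le_div_iff₀ (by positivity)] at hL1
    linarith only [hL1]
  have hL3 : 1 / (8 * β) ≤ L := by
    have h1 : 1 / (4 * β) < L + 1 := Nat.lt_floor_add_one _
    have h2 : 1 / (8 * β) = 1 / (4 * β) / 2 := by
      field_simp
      norm_num
    have h3 : (1 : ℝ) ≤ L := by exact_mod_cast hL0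
    rw [h2]
    linarith only [h1, h3]
  have h1 : S.card = ∑ i ∈ range (M / L + 1), (S.filter (fun u => u / L = i)).card := by
    refine card_eq_sum_card_fiberwise ?_
    intro u hu
    have h2 := hS1 u hu
    rw [coe_range, Set.mem_Iio]
    exact Nat.lt_succ_of_le (Nat.div_le_div_right h2)
  have h2 : ∀ i ∈ range (M / L + 1), ((S.filter (fun u => u / L = i)).card : ℝ) ≤
      4 * s / β + 1 := by
    intro i _
    refine kc_block_card hs hs2 hB hβ (L := L) hL2 δ (i * L) _ ?_ ?_
    · intro u hu
      rw [mem_filter] at hu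
      have h3 := hu.2
      have h4 : i * L ≤ u := by
        rw [← h3]
        exact Nat.div_mul_le_self u L
      have h5 : u < i * L + L := by
        have h6 := Nat.lt_div_mul_add hL0 (a := u)
        rw [h3] at h6
        exact h6
      exact ⟨h4, h5⟩
    · intro u hu
      exact hS2 u (mem_filter.1 hu).1
  have h3 : (S.card : ℝ) ≤ ((M / L + 1 : ℕ) : ℝ) * (4 * s / β + 1) := by
    rw [h1]
    push_cast
    calc ∑ i ∈ range (M / L + 1), ((S.filter (fun u => u / L = i)).card : ℝ)
        ≤ ∑ _i ∈ range (M / L + 1), (4 * s / β + 1) := sum_le_sum h2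
      _ = _ := by
          rw [sum_const, card_range, nsmul_eq_mul]
          push_cast
          ring
  have h4 : ((M / L : ℕ) : ℝ) ≤ 8 * β * M := by
    calc ((M / L : ℕ) : ℝ) ≤ (M : ℝ) / L := Nat.cast_div_le
      _ ≤ M / (1 / (8 * β)) := by
          apply div_le_div_of_nonneg_left (by positivity) (by positivity) hL3
      _ = 8 * β * M := by
          field_simp
  push_cast at h3
  have h5 : 0 ≤ 4 * s / β + 1 := by positivity
  calc (S.card : ℝ) ≤ (((M / L : ℕ) : ℝ) + 1) * (4 * s / β + 1) := h3
    _ ≤ (8 * β * M + 1) * (4 * s / β + 1) := by gcongr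
    _ = 32 * s * M * (β / β) + 8 * β * M + 4 * s / β + 1 := by
        field_simp
        ring
    _ ≤ 64 * s * M + 4 * s / β + 1 := by
        rw [div_self hβ.ne']
        have h6 : 8 * β * M ≤ 32 * s * M := by
          have : 8 * β ≤ 32 * s := by linarith only [hβ4]
          gcongr
        linarith only [h6]

/-- The first denominator with a very good approximation. -/
def Pst (γ W : ℝ) (b : ℕ) : Prop := 0 < b ∧ (b : ℝ) ≤ W ∧ distInt (b * γ) * W ^ 2 < 1

/-- divisibility by the minimal denominator -/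
theorem kc_dvd_min {γ W : ℝ} (hW : 1 ≤ W) {Bs : ℕ} (hBs : Pst γ W Bs)
    (hmin : ∀ b < Bs, ¬ Pst γ W b) {b : ℕ} {x : ℤ} (hb : 0 < b)
    (h : |((b * round ((Bs : ℝ) * γ) - Bs * x : ℤ) : ℝ)| < 1) : Bs ∣ b := by
  have h0 : (b * round ((Bs : ℝ) * γ) - Bs * x : ℤ) = 0 := by
    rw [← Int.cast_abs] at h
    have h1 : |(b * round ((Bs : ℝ) * γ) - Bs * x : ℤ)| < 1 := by exact_mod_cast h
    exact Int.abs_lt_one_iff.1 h1
  set A := round ((Bs : ℝ) * γ) with hA
  set g := Nat.gcd b Bs with hg
  have hg0 : 0 < g := Nat.gcd_pos_of_pos_left _ hb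
  obtain ⟨b', hb'⟩ : g ∣ b := Nat.gcd_dvd_left b Bs
  obtain ⟨c, hc⟩ : g ∣ Bs := Nat.gcd_dvd_right b Bs
  have hcop : Nat.Coprime b' c := by
    have h1 := Nat.coprime_div_gcd_div_gcd (m := b) (n := Bs) hg0
    rw [← hg] at h1
    have e1 : b / g = b' := by
      conv_lhs => rw [hb']
      exact Nat.mul_div_cancel_left _ hg0
    have e2 : Bs / g = c := by
      conv_lhs => rw [hc]
      exact Nat.mul_div_cancel_left _ hg0
    rwa [e1, e2] at h1
  have hc0 : 0 < c := by
    rcases Nat.eq_zero_or_pos c with rfl | h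
    · rw [mul_zero] at hc
      have := hBs.1
      omega
    · exact h
  have h2 : (b' : ℤ) * A = c * x := by
    have h3 : (g : ℤ) * (b' * A) = g * (c * x) := by
      have h4 : (b : ℤ) * A = Bs * x := by linarith only [h0]
      have h5 : (b : ℤ) = g * b' := by exact_mod_cast hb'
      have h6 : (Bs : ℤ) = g * c := by exact_mod_cast hc
      rw [h5, h6] at h4
      linarith only [h4]
    have hg' : (g : ℤ) ≠ 0 := by exact_mod_cast hg0.ne'
    exact mul_left_cancel₀ hg' h3
  obtain ⟨t, ht⟩ : (c : ℤ) ∣ A := by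
    have h3 : (c : ℤ) ∣ b' * A := ⟨x, h2⟩
    have h4 : IsCoprime (c : ℤ) (b' : ℤ) := by
      rw [Nat.isCoprime_iff_coprime]
      exact hcop.symm
    exact h4.dvd_of_dvd_mul_left h3
  -- `P g`
  have hP : Pst γ W g := by
    have hgB : g ≤ Bs := Nat.le_of_dvd hBs.1 (Nat.gcd_dvd_right b Bs)
    refine ⟨hg0, ?_, ?_⟩
    · have : (g : ℝ) ≤ Bs := by exact_mod_cast hgB
      exact this.trans hBs.2.1
    · have hd : distInt (g * γ) ≤ distInt (Bs * γ) := by
        have h3 : distInt (g * γ) ≤ |(g : ℝ) * γ - t| := distInt_le_abs_sub' _ _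
        have h4 : |(Bs : ℝ) * γ - A| = c * |(g : ℝ) * γ - t| := by
          have e : (Bs : ℝ) * γ - A = c * ((g : ℝ) * γ - t) := by
            have h5 : (Bs : ℝ) = g * c := by exact_mod_cast hc
            have h6 : (A : ℝ) = c * t := by exact_mod_cast ht
            rw [h5, h6]
            ring
          rw [e, abs_mul, abs_of_nonneg (by positivity)]
        have h5 : |(g : ℝ) * γ - t| ≤ |(Bs : ℝ) * γ - A| := by
          rw [h4]
          have h6 : (1 : ℝ) ≤ c := by exact_mod_cast hc0
          exact le_mul_of_one_le_left (abs_nonneg _) h6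
        exact h3.trans h5
      calc distInt (g * γ) * W ^ 2 ≤ distInt (Bs * γ) * W ^ 2 := by gcongr
        _ < 1 := hBs.2.2
  by_contra hne
  have hlt : g < Bs := by
    have hgB : g ≤ Bs := Nat.le_of_dvd hBs.1 (Nat.gcd_dvd_right b Bs)
    refine lt_of_le_of_ne hgB fun h3 => hne ?_
    rw [← h3]
    exact Nat.gcd_dvd_left b Bs
  exact hmin g hlt hP

theorem kc_det_lt {γ : ℝ} {b Bs : ℕ} {ε : ℝ} (h : (b : ℝ) * distInt (Bs * γ) + Bs * distInt (b * γ) < ε) :
    |((b * round ((Bs : ℝ) * γ) - Bs * round ((b : ℝ) * γ) : ℤ) : ℝ)| < ε := by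
  have e : ((b * round ((Bs : ℝ) * γ) - Bs * round ((b : ℝ) * γ) : ℤ) : ℝ) =
      Bs * ((b : ℝ) * γ - round ((b : ℝ) * γ)) - b * ((Bs : ℝ) * γ - round ((Bs : ℝ) * γ)) := by
    push_cast
    ring
  rw [e]
  calc |(Bs : ℝ) * ((b : ℝ) * γ - round ((b : ℝ) * γ)) -
        b * ((Bs : ℝ) * γ - round ((Bs : ℝ) * γ))|
      ≤ |(Bs : ℝ) * ((b : ℝ) * γ - round ((b : ℝ) * γ))| +
        |(b : ℝ) * ((Bs : ℝ) * γ - round ((Bs : ℝ) * γ))| := abs_sub _ _
    _ = Bs * distInt (b * γ) + b * distInt (Bs * γ) := by
        rw [abs_mul, abs_mul, abs_of_nonneg (Nat.cast_nonneg Bs : (0 : ℝ) ≤ (Bs : ℝ)),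
          abs_of_nonneg (Nat.cast_nonneg b : (0 : ℝ) ≤ (b : ℝ))]
        rfl
    _ < ε := by linarith only [h]

theorem kc_distInt_mul {x : ℝ} {k : ℕ} (h : (k : ℝ) * distInt x ≤ 1 / 2) :
    distInt (k * x) = k * distInt x := by
  have hk0 : (0 : ℝ) ≤ k := Nat.cast_nonneg _
  set z : ℤ := k * round x with hz
  have h1 : |(k : ℝ) * x - (z : ℝ)| = k * distInt x := by
    have e : (k : ℝ) * x - (z : ℝ) = k * (x - round x) := by
      rw [hz]
      push_cast
      ring
    rw [e, abs_mul, abs_of_nonneg hk0]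
    rfl
  apply le_antisymm
  · rw [← h1]
    exact distInt_le_abs_sub' _ _
  · by_cases h2 : round ((k : ℝ) * x) = z
    · rw [← h1, ← h2]
      exact le_rfl
    · have h3 : (1 : ℝ) ≤ |((round ((k : ℝ) * x) - z : ℤ) : ℝ)| := by
        rw [← Int.cast_abs]
        exact_mod_cast Int.one_le_abs (sub_ne_zero.2 h2)
      have h4 : |((round ((k : ℝ) * x) - z : ℤ) : ℝ)| ≤
          |(k : ℝ) * x - round ((k : ℝ) * x)| + |(k : ℝ) * x - z| := by
        have e : ((round ((k : ℝ) * x) - z : ℤ) : ℝ) =
            ((k : ℝ) * x - z) - ((k : ℝ) * x - round ((k : ℝ) * x)) := by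
          push_cast
          ring
        rw [e]
        refine (abs_sub _ _).trans ?_
        linarith only []
      have h5 : distInt (k * x) = |(k : ℝ) * x - round ((k : ℝ) * x)| := rfl
      rw [h5]
      linarith only [h, h1, h3, h4]

/-- main counting lemma (`s = t ^ 16`, `W ^ 4 ≤ a M`). -/
theorem kc_dens {γ s t Z W : ℝ} (ht : 0 < t) (hst : t ^ 16 = s) (hs1 : s ≤ 1 / 1000)
    (hZ : 1 ≤ Z) (hW : (Z / s) ^ 4 ≤ W) (a M : ℕ) (δ : ℝ) (ha : 0 < a) (haZ : (a : ℝ) ≤ Z)
    (haM : W ^ 4 ≤ a * M)
    (hfar : ∀ B : ℕ, BadAt γ s B → 1 ≤ 4 * distInt (B * γ) * (a * M))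
    (hnb : ∀ Bs : ℕ, Pst γ W Bs → (∀ b < Bs, ¬ Pst γ W b) → 1 < t ^ 4 * Bs →
      ((Nat.gcd a Bs : ℕ) : ℝ) < t * Bs) :
    (((Icc 1 M).filter (fun m : ℕ => distInt ((a : ℝ) * m * γ - δ) < 2 * s)).card : ℝ) ≤
      70 * t * M := by
  classical
  have hs : 0 < s := by rw [← hst]; positivity
  have ht1 : t < 1 := by
    by_contra hne
    push Not at hne
    have h1 : 1 ≤ t ^ 16 := one_le_pow₀ hne
    linarith only [hst, hs1, h1]
  have haR : (0 : ℝ) < a := by exact_mod_cast ha
  have hZs : 1000 ≤ Z / s := by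
    rw [le_div_iff₀ hs]
    linarith only [hs1, hZ]
  have hZs0 : 0 < Z / s := by linarith only [hZs]
  have hWZ : Z / s ≤ W := (le_self_pow₀ (by linarith only [hZs]) (by norm_num)).trans hW
  have hW1000 : 1000 ≤ W := hZs.trans hWZ
  have hW1 : 1 ≤ W := by linarith only [hZs, hWZ]
  have hW0 : 0 < W := by linarith only [hZs, hWZ]
  have hZW : Z ≤ W := by
    refine le_trans ?_ hWZ
    rw [le_div_iff₀ hs]
    nlinarith only [hs1, hZ]
  set γ' : ℝ := a * γ with hγ'
  set S := (Icc 1 M).filter (fun m : ℕ => distInt ((a : ℝ) * m * γ - δ) < 2 * s) with hS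
  have hS1 : ∀ u ∈ S, u ≤ M := by
    intro u hu
    rw [hS, mem_filter, mem_Icc] at hu
    exact hu.1.2
  have hS2 : ∀ u ∈ S, distInt ((u : ℝ) * γ' - δ) < 2 * s := by
    intro u hu
    rw [hS, mem_filter] at hu
    have e : (u : ℝ) * γ' - δ = (a : ℝ) * u * γ - δ := by rw [hγ']; ring
    rw [e]
    exact hu.2
  have hS3 : ∀ u ∈ S, ∀ v ∈ S, u < v → distInt (((v - u : ℕ) : ℝ) * γ') < 4 * s := by
    intro u hu v hv huv
    rw [Nat.cast_sub huv.le]
    have e : ((v : ℝ) - u) * γ' = ((v : ℝ) * γ' - δ) - ((u : ℝ) * γ' - δ) := by ring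
    rw [e]
    refine (nb_distInt_sub_le _ _).trans_lt ?_
    linarith only [hS2 u hu, hS2 v hv]
  -- `1 ≤ t M`
  have hM1 : 1 ≤ t * M := by
    have h1 : W ^ 4 ≤ Z * M := haM.trans (by gcongr)
    have h2 : Z * W ≤ W ^ 4 := by
      have h3 : W * W ≤ W ^ 4 := by
        calc W * W = W ^ 2 := by ring
          _ ≤ W ^ 4 := pow_le_pow_right₀ hW1 (by norm_num)
      nlinarith only [hZs, hWZ, hZW, h3]
    have h3 : W ≤ M := by
      have h4 : Z * W ≤ Z * M := h2.trans h1
      exact le_of_mul_le_mul_left h4 (by linarith only [hZ])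
    have h4 : 1 / t ≤ 1 / s := by
      apply one_div_le_one_div_of_le hs
      rw [← hst]
      calc t ^ 16 ≤ t ^ 1 := pow_le_pow_of_le_one ht.le ht1.le (by norm_num)
        _ = t := pow_one t
    have h5 : 1 / s ≤ Z / s := by gcongr
    have h6 : 1 / t ≤ M := by linarith only [hWZ, h3, h4, h5]
    rw [div_le_iff₀ ht] at h6
    linarith only [h6]
  -- separated case
  have hsepcase : (∀ u ∈ S, ∀ v ∈ S, u < v → 1 / t ≤ (v : ℝ) - u) →
      (S.card : ℝ) ≤ 70 * t * M := by
    intro h
    have h1 := kc_sep_card S M (1 / t) (by positivity) hS1 h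
    have h2 : (M : ℝ) / (1 / t) = t * M := by field_simp
    rw [h2] at h1
    linarith only [hM1, h1]
  by_cases hgood : ∀ B : ℕ, ¬ BadAt γ' s B
  · apply hsepcase
    intro u hu v hv huv
    have h1 := good_sep (n := v - u) hs hgood (by omega) (hS3 u hu v hv huv)
    rw [Nat.cast_sub huv.le] at h1
    refine le_trans ?_ h1
    have h2 : s ^ (-(1 / 4) : ℝ) = 1 / t ^ 4 := by
      rw [← hst, ← Real.rpow_natCast t 16, ← Real.rpow_mul ht.le,
        show ((16 : ℕ) : ℝ) * (-(1 / 4)) = -((4 : ℕ) : ℝ) by norm_num,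
        Real.rpow_neg ht.le, Real.rpow_natCast, one_div]
    rw [h2]
    apply one_div_le_one_div_of_le (by positivity)
    calc t ^ 4 ≤ t ^ 1 := pow_le_pow_of_le_one ht.le ht1.le (by norm_num)
      _ = t := pow_one t
  · push Not at hgood
    obtain ⟨h, hbad⟩ := hgood
    have hh0 : 0 < h := hbad.1.1
    have hhR : (0 : ℝ) < h := by exact_mod_cast hh0
    set β := distInt (h * γ') with hβ
    have hβ0 : 0 ≤ β := abs_nonneg _
    have hβ4 : β ≤ 4 * s := hbad.1.2.1
    by_cases hht : 1 / t ≤ h
    · apply hsepcase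
      intro u hu v hv huv
      have h0 : ((v - u : ℕ) : ℝ) = (v : ℝ) - u := Nat.cast_sub huv.le
      rw [← h0]
      by_cases h2 : 4 * β * ((v - u : ℕ) : ℝ) ≤ 1
      · have h3 := (bad_dvd hs hs1 hbad h2 (hS3 u hu v hv huv)).1
        have h4 : h ≤ v - u := Nat.le_of_dvd (by omega) h3
        have h5 : (h : ℝ) ≤ ((v - u : ℕ) : ℝ) := by exact_mod_cast h4
        linarith only [hht, h5]
      · push Not at h2
        have h3 : 1 < 16 * s * ((v - u : ℕ) : ℝ) := by
          have h4 : 4 * β * ((v - u : ℕ) : ℝ) ≤ 4 * (4 * s) * ((v - u : ℕ) : ℝ) := by gcongr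
          linarith only [h2, h4]
        have h5 : 16 * s ≤ t := by
          have h6 : t ^ 15 ≤ 1 / 16 := by
            by_contra hne
            push Not at hne
            have h7 : (1 / 16 : ℝ) ^ 16 < (t ^ 15) ^ 16 := pow_lt_pow_left₀ hne (by norm_num)
              (by norm_num)
            have h8 : (t ^ 15) ^ 16 = (t ^ 16) ^ 15 := by ring
            rw [h8, hst] at h7
            have h9 : s ^ 15 ≤ (1 / 1000 : ℝ) ^ 15 := pow_le_pow_left₀ hs.le hs1 15
            norm_num at h7 h9
            linarith only [h7, h9]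
          calc 16 * s = 16 * (t ^ 15 * t) := by rw [← hst]; ring
            _ ≤ 16 * (1 / 16 * t) := by gcongr
            _ = t := by ring
        rw [div_le_iff₀ ht]
        have h6 : 16 * s * ((v - u : ℕ) : ℝ) ≤ t * ((v - u : ℕ) : ℝ) := by gcongr
        linarith only [h3, h6]
    · push Not at hht
      by_cases hMβ : t ^ 14 ≤ M * β
      · have hβpos : 0 < β := by
          rcases hβ0.eq_or_lt with h1 | h1
          · rw [← h1, mul_zero] at hMβ
            have : 0 < t ^ 14 := by positivity
            linarith only [hMβ, this]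
          · exact h1
        have h1 := kc_bad_count hs hs1 hbad hβpos δ M S hS1 hS2
        rw [← hβ] at h1
        have hM0 : (0 : ℝ) ≤ M := Nat.cast_nonneg _
        have h2 : 4 * s / β ≤ 4 * t ^ 2 * M := by
          rw [div_le_iff₀ hβpos]
          calc 4 * s = 4 * t ^ 2 * t ^ 14 := by rw [← hst]; ring
            _ ≤ 4 * t ^ 2 * (M * β) := by gcongr
            _ = 4 * t ^ 2 * M * β := by ring
        have h3 : s ≤ t := by
          rw [← hst]
          calc t ^ 16 ≤ t ^ 1 := pow_le_pow_of_le_one ht.le ht1.le (by norm_num)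
            _ = t := pow_one t
        have h4 : t ^ 2 ≤ t := by
          calc t ^ 2 ≤ t ^ 1 := pow_le_pow_of_le_one ht.le ht1.le (by norm_num)
            _ = t := pow_one t
        have h5 : 64 * s * M ≤ 64 * t * M := by gcongr
        have h6 : 4 * t ^ 2 * M ≤ 4 * t * M := by gcongr
        linarith only [hM1, h1, h2, h5, h6]
      · exfalso
        push Not at hMβ
        -- `b = a h`
        set b : ℕ := a * h with hb
        have hb0 : 0 < b := Nat.mul_pos ha hh0
        have hbR : (b : ℝ) = a * h := by rw [hb]; push_cast; ring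
        have hbβ : distInt (b * γ) = β := by
          rw [hβ, hγ', hbR]
          congr 1
          ring
        have hbW : (b : ℝ) ≤ Z / s := by
          rw [hbR, le_div_iff₀ hs]
          have h1 : (h : ℝ) * s ≤ 1 := by
            have h2 : (h : ℝ) * t ≤ 1 := by
              rw [lt_div_iff₀ ht] at hht
              exact hht.le
            have h3 : s ≤ t := by
              rw [← hst]
              calc t ^ 16 ≤ t ^ 1 := pow_le_pow_of_le_one ht.le ht1.le (by norm_num)
                _ = t := pow_one t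
            calc (h : ℝ) * s ≤ h * t := by gcongr
              _ ≤ 1 := h2
          calc (a : ℝ) * h * s = a * (h * s) := by ring
            _ ≤ Z * 1 := by gcongr
            _ = Z := mul_one Z
        have hβW : β * W ^ 3 < 1 := by
          -- `W ^ 4 ≤ a M`, `M β < t ^ 14 ≤ 1`
          have h1 : β * W ^ 4 < Z := by
            calc β * W ^ 4 ≤ β * (a * M) := by gcongr
              _ = a * (M * β) := by ring
              _ < a * t ^ 14 := by gcongr
              _ ≤ Z * 1 := by
                  have : t ^ 14 ≤ 1 := pow_le_one₀ ht.le ht1.le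
                  gcongr
              _ = Z := mul_one Z
          have h2 : β * W ^ 4 = (β * W ^ 3) * W := by ring
          rw [h2] at h1
          by_contra hne
          push Not at hne
          have h3 : 1 * W ≤ (β * W ^ 3) * W := by gcongr
          linarith only [hZW, h1, h3]
        have hPb : Pst γ W b := by
          refine ⟨hb0, hbW.trans hWZ, ?_⟩
          rw [hbβ]
          refine lt_of_le_of_lt ?_ hβW
          gcongr
          norm_num
        have hex : ∃ b, Pst γ W b := ⟨b, hPb⟩
        set Bs := Nat.find hex with hBs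
        have hPs : Pst γ W Bs := Nat.find_spec hex
        have hmin : ∀ b < Bs, ¬ Pst γ W b := fun b hb => Nat.find_min hex hb
        have hBs0 : 0 < Bs := hPs.1
        have hBsR : (0 : ℝ) < Bs := by exact_mod_cast hBs0
        set βs := distInt (Bs * γ) with hβs
        have hβs0 : 0 ≤ βs := abs_nonneg _
        have hβsW : βs * W ^ 2 < 1 := hPs.2.2
        -- `Bs ∣ b`
        have hdvd : Bs ∣ b := by
          refine kc_dvd_min hW1 hPs hmin hb0 (kc_det_lt ?_)
          rw [hbβ, ← hβs]
          have h1 : (b : ℝ) * βs ≤ W * βs := by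
            have : (b : ℝ) ≤ W := hbW.trans hWZ
            gcongr
          have h2 : (Bs : ℝ) * β ≤ W * β := by
            have : (Bs : ℝ) ≤ W := hPs.2.1
            gcongr
          have h3 : W * βs < 1 / 2 := by
            have h4 : (W * βs) * W < 1 := by
              calc (W * βs) * W = βs * W ^ 2 := by ring
                _ < 1 := hβsW
            have h5 : (W * βs) * 2 ≤ (W * βs) * W := by
              have : 0 ≤ W * βs := by positivity
              gcongr
              linarith only [hZs, hWZ]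
            linarith only [hβsW, h5]
          have h4 : W * β < 1 / 2 := by
            have h5 : (W * β) * W ^ 2 < 1 := by
              calc (W * β) * W ^ 2 = β * W ^ 3 := by ring
                _ < 1 := hβW
            have h6 : (W * β) * 2 ≤ (W * β) * W ^ 2 := by
              have h7 : 0 ≤ W * β := by positivity
              have h8 : 2 ≤ W ^ 2 := by nlinarith only [hZs, hWZ]
              gcongr
            linarith only [hβW, h6]
          linarith only [h1, h2, h3, h4]
        -- `Bs ≤ gcd(a,Bs) h`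
        have hgh : (Bs : ℝ) * t < (Nat.gcd a Bs : ℕ) := by
          set g := Nat.gcd a Bs with hg
          have hg0 : 0 < g := Nat.gcd_pos_of_pos_left _ ha
          have h1 : Bs / g ∣ h := by
            have h2 : Bs ∣ h * a := by rw [mul_comm]; exact hdvd
            have h3 := Nat.Coprime.dvd_of_dvd_mul_right
              (k := Bs / g) (m := h) (n := a / g) ?_ ?_
            · exact h3
            · have := Nat.coprime_div_gcd_div_gcd (m := a) (n := Bs) hg0
              rw [← hg] at this
              exact this.symm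
            · have h4 : g * (Bs / g) = Bs := Nat.mul_div_cancel' (Nat.gcd_dvd_right a Bs)
              have h5 : g * (a / g) = a := Nat.mul_div_cancel' (Nat.gcd_dvd_left a Bs)
              have h6 : g * (Bs / g) ∣ g * (h * (a / g)) := by
                rw [h4, show g * (h * (a / g)) = h * (g * (a / g)) by ring, h5]
                exact h2
              exact Nat.dvd_of_mul_dvd_mul_left hg0 h6
          have h2 : Bs / g ≤ h := Nat.le_of_dvd hh0 h1
          have h3 : Bs ≤ g * h := by
            calc Bs = g * (Bs / g) := (Nat.mul_div_cancel' (Nat.gcd_dvd_right a Bs)).symm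
              _ ≤ g * h := Nat.mul_le_mul_left _ h2
          have h4 : (Bs : ℝ) ≤ g * h := by exact_mod_cast h3
          have hgR : (0 : ℝ) < g := by exact_mod_cast hg0
          rw [lt_div_iff₀ ht] at hht
          calc (Bs : ℝ) * t ≤ (g * h) * t := by gcongr
            _ = g * (h * t) := by ring
            _ < g * 1 := by gcongr
            _ = g := mul_one _
        by_cases hcase : 1 < t ^ 4 * Bs
        · have := hnb Bs hPs hmin hcase
          linarith only [hgh, this]
        · push Not at hcase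
          -- `BadAt γ s Bs`
          have hBs4 : (Bs : ℝ) ^ 4 * s ≤ 1 := by
            calc (Bs : ℝ) ^ 4 * s = (t ^ 4 * Bs) ^ 4 := by rw [← hst]; ring
              _ ≤ 1 := pow_le_one₀ (by positivity) hcase
          have hsW : 1 ≤ s * W ^ 2 := by
            have h1 : 1 ≤ s * (Z / s) := by
              rw [mul_div_cancel₀ _ hs.ne']
              exact hZ
            have h2 : Z / s ≤ W ^ 2 := by
              calc Z / s ≤ W := hWZ
                _ ≤ W ^ 2 := le_self_pow₀ hW1 (by norm_num)
            calc (1 : ℝ) ≤ s * (Z / s) := h1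
              _ ≤ s * W ^ 2 := by gcongr
          have hβss : βs ≤ s := by
            by_contra hne
            push Not at hne
            have : s * W ^ 2 ≤ βs * W ^ 2 := by gcongr
            linarith only [hβsW, hsW, this]
          have hBadAt : BadAt γ s Bs := by
            refine ⟨⟨hBs0, ?_, ?_⟩, hBs4⟩
            · rw [← hβs]
              linarith only [hs, hβss]
            · intro k hk hkB
              by_contra hne
              push Not at hne
              have hkR : (0 : ℝ) < k := by exact_mod_cast hk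
              have hkBR : (k : ℝ) ≤ Bs := by exact_mod_cast hkB.le
              have h1 : Bs ∣ k := by
                refine kc_dvd_min hW1 hPs hmin hk (kc_det_lt ?_)
                rw [← hβs]
                have h2 : (k : ℝ) * βs ≤ Bs * s := by gcongr
                have h3 : (Bs : ℝ) * distInt (k * γ) ≤ Bs * (4 * s) := by gcongr
                have h4 : (Bs : ℝ) * s ≤ 1 / 16 := by
                  by_contra hne'
                  push Not at hne'
                  have h5 : (1 / 16 : ℝ) ^ 4 < (Bs * s) ^ 4 :=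
                    pow_lt_pow_left₀ hne' (by norm_num) (by norm_num)
                  have h6 : ((Bs : ℝ) * s) ^ 4 = ((Bs : ℝ) ^ 4 * s) * s ^ 3 := by ring
                  have h7 : ((Bs : ℝ) ^ 4 * s) * s ^ 3 ≤ 1 * (1 / 1000) ^ 3 := by
                    gcongr
                  rw [h6] at h5
                  norm_num at h5 h7
                  linarith only [h5, h7]
                linarith only [h2, h3, h4]
              have h2 := Nat.le_of_dvd hk h1
              omega
          have hfar' := hfar Bs hBadAt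
          rw [← hβs] at hfar'
          -- `‖b γ‖ = (b / Bs) ‖Bs γ‖`
          obtain ⟨k, hk⟩ := hdvd
          have hkR : (b : ℝ) = Bs * k := by exact_mod_cast hk
          have hkW : (k : ℝ) ≤ W := by
            have h1 : (k : ℝ) ≤ b := by
              rw [hkR]
              have : (1 : ℝ) ≤ Bs := by exact_mod_cast hBs0
              exact le_mul_of_one_le_left (Nat.cast_nonneg _) this
            exact h1.trans (hbW.trans hWZ)
          have hkβ : (k : ℝ) * βs ≤ 1 / 2 := by
            have h4 : (W * βs) * W < 1 := by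
              calc (W * βs) * W = βs * W ^ 2 := by ring
                _ < 1 := hβsW
            have h5 : (W * βs) * 2 ≤ (W * βs) * W := by
              have : 0 ≤ W * βs := by positivity
              gcongr
              linarith only [hZs, hWZ]
            have h6 : (k : ℝ) * βs ≤ W * βs := by gcongr
            linarith only [hβsW, h5, h6]
          have hβeq : β = k * βs := by
            rw [← hbβ, hβs, ← kc_distInt_mul (by rw [← hβs]; exact hkβ), hkR]
            congr 1
            ring
          -- contradiction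
          have h1 : βs * a * M * h = Bs * (M * β) := by
            rw [hβeq]
            have h2 : (a : ℝ) * h = Bs * k := by rw [← hbR, hkR]
            calc βs * a * M * h = βs * M * (a * h) := by ring
              _ = βs * M * (Bs * k) := by rw [h2]
              _ = _ := by ring
          have h2 : (1 : ℝ) ≤ h := by exact_mod_cast hh0
          have h3 : βs * a * M ≤ Bs * (M * β) := by
            rw [← h1]
            exact le_mul_of_one_le_right (by positivity) h2
          have h4 : (Bs : ℝ) * (M * β) ≤ Bs * t ^ 14 := by gcongr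
          have h5 : (Bs : ℝ) * t ^ 14 = (t ^ 4 * Bs) * t ^ 10 := by ring
          have h6 : (t ^ 4 * (Bs : ℝ)) * t ^ 10 ≤ 1 * t ^ 10 := by gcongr
          have h7 : t ^ 10 < 1 / 4 := by
            by_contra hne
            push Not at hne
            have h8 : (1 / 4 : ℝ) ^ 16 ≤ (t ^ 10) ^ 16 := pow_le_pow_left₀ (by norm_num) hne 16
            have h9 : (t ^ 10) ^ 16 = (t ^ 16) ^ 10 := by ring
            rw [h9, hst] at h8
            have h10 : s ^ 10 ≤ (1 / 1000 : ℝ) ^ 10 := pow_le_pow_left₀ hs.le hs1 10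
            norm_num at h8 h10
            linarith only [h8, h10]
          have h8 : 4 * βs * (a * M) = 4 * (βs * a * M) := by ring
          rw [h8] at hfar'
          linarith only [hfar', h3, h4, h6, h7]

end Vale.P028
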