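import Vale.Agent.P028.MathlibUsed
import Vale.Agent.P028.MCaseB

set_option linter.all false

/-!
# `T1` for a general set of allowed pairs of cofactors with small density
-/

namespace Vale.P028

open Finset

open Classical in
/-- base case for a general set of allowed pairs. -/
theorem kg_base (Ω : ℕ → ℕ → Prop) {θ : ℝ} (hθ : 1 / 2 < θ) (hθ1 : θ < 1)
    {S y : ℝ} (hS0 : 0 < S) (hS1 : S ≤ 1) (hy : 1 < y)
    (hdens : ∀ a b : ℕ, 0 < a → 0 < b → (a : ℝ) ≤ S ^ (-Real.log y) →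
      (b : ℝ) ≤ S ^ (-Real.log y) → ∀ q₀ r₀ : ℕ, 0 < q₀ → 0 < r₀ → Ω (a * q₀) (b * r₀) →
      (((Icc 1 q₀).filter (fun m => Ω (a * m) (b * r₀))).card : ℝ) *
        (((Icc 1 r₀).filter (fun n => Ω (a * q₀) (b * n))).card : ℝ) ≤ S * q₀ * r₀) :
    BaseBound Ω θ (KB θ S y) := by
  classical
  have hl0 : 0 < 1 - θ := by linarith only [hθ1]
  have hly : 0 < Real.log y := Real.log_pos hy
  intro a b ha hb ψ₁ ψ₂ f h s₁ s₂ N hs₁ hs₂ hf hh
  have ha' : (0 : ℝ) < a := by exact_mod_cast ha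
  have hb' : (0 : ℝ) < b := by exact_mod_cast hb
  have hF0 : 0 ≤ ∑ q ∈ Icc 1 N, f q := sum_nonneg fun q _ => (hf q).1
  have hH0 : 0 ≤ ∑ q ∈ Icc 1 N, h q := sum_nonneg fun q _ => (hh q).1
  have hm1 := mpB_ge_one (θ := θ) hθ1 hS0 hS1 hy
  have hma := mm_ge_one (mpB θ S y) hm1 a
  have hmb := mm_ge_one (mpB θ S y) hm1 b
  have hab : 0 < (a : ℝ) * b := by (clear * - ha hb; positivity)
  by_cases hcase : 1 ≤ S ^ (1 - θ) * (mm (mpB θ S y) a * mm (mpB θ S y) b)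
  · have h1 := base_trick Ω hθ hθ1 1 zero_le_one a b ha hb (by
      intro q₀ r₀ hq₀ hr₀ _
      rw [one_mul]
      refine mul_le_mul ?_ ?_ (by (clear * -; positivity)) (by (clear * - hq₀; positivity))
      · exact card_filter_cl _ _
      · exact card_filter_cl _ _) ψ₁ ψ₂ f h s₁ s₂ N hs₁ hs₂ hf hh
    refine h1.trans ?_
    refine mul_le_mul_of_nonneg_right ?_ (by (clear * - hF0 hH0; positivity))
    unfold KB
    have h2 : (16 * s₁ * s₂ * 1 / ((a : ℝ) * b)) ^ (1 - θ) =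
        (s₁ * s₂) ^ (1 - θ) * (16 / ((a : ℝ) * b)) ^ (1 - θ) := by
      rw [← Real.mul_rpow (by (clear * - hs₁ hs₂; positivity)) (by positivity)]
      congr 1
      (clear * - hb ha hs₂ hs₁; field_simp)
    rw [h2]
    have h3 : 0 ≤ (s₁ * s₂) ^ (1 - θ) * (16 / ((a : ℝ) * b)) ^ (1 - θ) := by positivity
    calc (s₁ * s₂) ^ (1 - θ) * (16 / ((a : ℝ) * b)) ^ (1 - θ)
        ≤ (s₁ * s₂) ^ (1 - θ) * (16 / ((a : ℝ) * b)) ^ (1 - θ) *
          (S ^ (1 - θ) * (mm (mpB θ S y) a * mm (mpB θ S y) b)) :=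
          le_mul_of_one_le_right h3 hcase
      _ = _ := by ring
  · push Not at hcase
    have hSl : 0 < S ^ (1 - θ) := by positivity
    have hprod : mm (mpB θ S y) a * mm (mpB θ S y) b < S ^ (-(1 - θ)) := by
      rw [Real.rpow_neg hS0.le]
      rw [mul_comm] at hcase
      rw [lt_inv_comm₀ (by (clear * - hma hmb; positivity)) hSl]
      rw [lt_inv_comm₀ hSl (by (clear * - hma hmb; positivity)), ← one_div, lt_div_iff₀ hSl]
      exact hcase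
    -- each of `a`, `b` is `y`-smooth and `≤ Z`
    have hsm : ∀ n m : ℕ, 0 < n → 1 ≤ mm (mpB θ S y) m →
        mm (mpB θ S y) n * mm (mpB θ S y) m < S ^ (-(1 - θ)) → (n : ℝ) ≤ S ^ (-Real.log y) := by
      intro n m hn hm hlt
      have hn' : (0 : ℝ) < n := by exact_mod_cast hn
      have hmn := mm_ge_one (mpB θ S y) hm1 n
      have h1 : mm (mpB θ S y) n < S ^ (-(1 - θ)) := by nlinarith only [hm, hlt, hmn]
      have h2 : ∀ p : ℕ, p.Prime → p ∣ n →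
          mpB θ S y p = (p : ℝ) ^ ((1 - θ) / Real.log y) := by
        intro p hp hpn
        have h3 := mm_ge_of_dvd (mpB θ S y) hm1 hn.ne' hp hpn
        by_contra hne
        have h4 : mpB θ S y p = S ^ (-(1 - θ)) := by
          unfold mpB at hne ⊢
          by_cases h5 : (p : ℝ) ≤ y
          · rw [if_pos h5] at hne
            exact absurd rfl hne
          · rw [if_neg h5]
        rw [h4] at h3
        linarith only [h1, h3]
      have h3 := mm_smooth (mpB θ S y) hn.ne' h2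
      rw [h3] at h1
      have h4 : ((n : ℝ) ^ ((1 - θ) / Real.log y)) ^ (Real.log y / (1 - θ)) <
          (S ^ (-(1 - θ))) ^ (Real.log y / (1 - θ)) :=
        Real.rpow_lt_rpow (by (clear * - hn; positivity)) h1 (div_pos hly hl0)
      rw [← Real.rpow_mul hn'.le, ← Real.rpow_mul hS0.le] at h4
      have h5 : (1 - θ) / Real.log y * (Real.log y / (1 - θ)) = 1 := by
        (clear * - hl0 hly; field_simp)
      have h6 : -(1 - θ) * (Real.log y / (1 - θ)) = -Real.log y := by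
        (clear * - hl0 hly; field_simp)
      rw [h5, h6, Real.rpow_one] at h4
      exact h4.le
    have haZ := hsm a b ha hmb hprod
    have hbZ := hsm b a hb hma (by rw [mul_comm]; exact hprod)
    have h1 := base_trick Ω hθ hθ1 S hS0.le a b ha hb (by
      intro q₀ r₀ hq₀ hr₀ hΩ
      exact hdens a b ha hb haZ hbZ q₀ r₀ hq₀ hr₀ hΩ)
      ψ₁ ψ₂ f h s₁ s₂ N hs₁ hs₂ hf hh
    refine h1.trans ?_
    refine mul_le_mul_of_nonneg_right ?_ (by (clear * - hF0 hH0; positivity))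
    unfold KB
    have h2 : (16 * s₁ * s₂ * S / ((a : ℝ) * b)) ^ (1 - θ) =
        (s₁ * s₂) ^ (1 - θ) * ((16 / ((a : ℝ) * b)) ^ (1 - θ) * S ^ (1 - θ)) := by
      rw [← Real.mul_rpow (by (clear * - ha hb; positivity)) (by positivity),
        ← Real.mul_rpow (by positivity) (by positivity)]
      congr 1
      (clear * - hb ha hS0 hs₂ hs₁; field_simp)
    rw [h2]
    refine mul_le_mul_of_nonneg_left ?_ (by positivity)
    refine le_mul_of_one_le_right (by positivity) ?_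
    nlinarith only [hma, hmb]

open Classical in
/-- `T1` for pairs whose cofactors lie in a set `Ω` of density `≤ S` along all lines. -/
theorem T1gen {θ : ℝ} (hθ : 1 / 2 < θ) (hθ1 : θ < 1) :
    ∃ B₀ > 0, ∃ C > 0, ∀ (Ω : ℕ → ℕ → Prop) (S y : ℝ), 0 < S → S ≤ 1 → 0 < y →
      2 ≤ Real.log y → 1 ≤ S * y * B₀ → 1 ≤ S * y → S ^ (-(2 * θ)) ≤ y ^ (θ - 1 / 2) →
      (∀ a b : ℕ, 0 < a → 0 < b → (a : ℝ) ≤ S ^ (-Real.log y) →
        (b : ℝ) ≤ S ^ (-Real.log y) → ∀ q₀ r₀ : ℕ, 0 < q₀ → 0 < r₀ → Ω (a * q₀) (b * r₀) →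
        (((Icc 1 q₀).filter (fun m => Ω (a * m) (b * r₀))).card : ℝ) *
          (((Icc 1 r₀).filter (fun n => Ω (a * q₀) (b * n))).card : ℝ) ≤ S * q₀ * r₀) →
      ∀ (ψ₁ ψ₂ f h : ℕ → ℝ) (s₁ s₂ : ℝ) (N : ℕ), 0 < s₁ → 0 < s₂ →
        (∀ q, 0 ≤ ψ₁ q) → (∀ q, 0 ≤ ψ₂ q) →
        (∀ q, 0 ≤ f q ∧ f q ≤ ψ₁ q * (q.totient / q)) →
        (∀ r, 0 ≤ h r ∧ h r ≤ ψ₂ r * (r.totient / r)) →
        (∀ q : ℕ, f q ≠ 0 → 0 < q ∧ 4 * Real.log q ≤ S * y) →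
        (∀ q : ℕ, h q ≠ 0 → 0 < q ∧ 4 * Real.log q ≤ S * y) →
        psum (fun q r => Ω (cofac q r) (cofac r q) ∧ (cofac r q : ℝ) * ψ₁ q ≤ s₁ ∧
          (cofac q r : ℝ) * ψ₂ r ≤ s₂) N f h ≤
        C * (s₁ * s₂ * S) ^ (1 - θ) * ((∑ q ∈ Icc 1 N, f q) * ∑ r ∈ Icc 1 N, h r) ^ θ := by
  obtain ⟨B₀, hB₀, C, hC, hB₀1, hSPs⟩ := SP_small hθ hθ1
  obtain ⟨K₀, hK₀, hprod⟩ := prod_cB (C := C) hθ hθ1 hB₀ hC
  refine ⟨B₀, hB₀, K₀ * 64 ^ (1 - θ), by (clear * - hK₀; positivity), ?_⟩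
  intro Ω S y hS0 hS1 hy0 hly hn1 hn2 hn3 hdens ψ₁ ψ₂ f h s₁ s₂ N hs₁ hs₂ hψ₁ hψ₂ hf hh hsf hsh
  have hy1 : 1 < y := by
    by_contra hne
    push Not at hne
    have := Real.log_nonpos hy0.le hne
    linarith only [hly, this]
  have hbase := kg_base Ω hθ hθ1 hS0 hS1 hy1 hdens
  have hl0 : 0 < 1 - θ := by linarith only [hθ1]
  set P : Finset ℕ := (Icc 1 N).filter Nat.Prime with hPdef
  have hP : ∀ p ∈ P, p.Prime := fun p hp => (mem_filter.1 hp).2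
  have hxlt : ∀ p : ℕ, p.Prime → xB S y p < 1 := by
    intro p hp
    obtain ⟨h1, h2⟩ := xB_le hS0 hly hp
    by_cases hpy : (p : ℝ) ≤ y
    · have h3 := (BqB_bounds (S := S) hly hp hpy).2.2.2
      have h4 : ((1 / 2 : ℝ)) ^ (1 / 2 : ℝ) < 1 :=
        Real.rpow_lt_one (by norm_num) (by norm_num) (by norm_num)
      linarith only [h2, h3, h4]
    · have h3 := (BqB_large hS0 hB₀ hy0 hn1 hpy).1
      linarith only [hB₀1, h2, h3]
  have hB0 : ∀ p : ℕ, p.Prime → 0 ≤ (BqB S y p) ^ (1 - θ) := by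
    intro p hp
    obtain ⟨h1, h2⟩ := xB_le hS0 hly hp
    exact Real.rpow_nonneg (by linarith only [h1, h2]) _
  have hg : ∀ p : ℕ, p.Prime → ∀ a b l : ℕ, 0 < a → 0 < b →
      KB θ S y (a * p ^ l) b ≤ ((BqB S y p) ^ (1 - θ)) ^ l * KB θ S y a b := by
    intro p hp a b l ha hb
    rw [KB_grow hp a b l ha hb, BqB_eq hS0 hp]
  have hF0 : 0 ≤ ∑ q ∈ Icc 1 N, f q := sum_nonneg fun q _ => (hf q).1
  have hH0 : 0 ≤ ∑ q ∈ Icc 1 N, h q := sum_nonneg fun q _ => (hh q).1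
  have hw : ∀ (ψ f : ℕ → ℝ), (∀ q, 0 ≤ ψ q) → (∀ q, 0 ≤ f q ∧ f q ≤ ψ q * (q.totient / q)) →
      (∀ q : ℕ, f q ≠ 0 → 0 < q ∧ 4 * Real.log q ≤ S * y) →
      ∀ q, 0 ≤ f q ∧ f q ≤ (2 * ψ q) * ∏ p ∈ P with p ∣ q, (1 - xB S y p) := by
    intro ψ f hψ hf hsupp q
    refine ⟨(hf q).1, ?_⟩
    have hprod0 : 0 ≤ ∏ p ∈ P with p ∣ q, (1 - xB S y p) := by
      refine prod_nonneg fun p hp => ?_
      have := hxlt p (hP p (mem_filter.1 hp).1)
      linarith only [this]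
    by_cases h0 : f q = 0
    · rw [h0]
      have := hψ q
      (clear * - this hprod0; positivity)
    · obtain ⟨hq, hq4⟩ := hsupp q h0
      have h1 := weightB hS0 hy0 hn2 hq hq4 P hP
      calc f q ≤ ψ q * (q.totient / q) := (hf q).2
        _ ≤ ψ q * (2 * ∏ p ∈ P with p ∣ q, (1 - xB S y p)) :=
            mul_le_mul_of_nonneg_left h1 (hψ q)
        _ = (2 * ψ q) * ∏ p ∈ P with p ∣ q, (1 - xB S y p) := by ring
  have hL := theoremL Ω hθ hθ1 (KB θ S y)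
    (fun a b => KB_nonneg hθ1 hS0 hS1 hy1 a b) hbase P hP
    (fun p => (BqB S y p) ^ (1 - θ)) (xB S y) (cMB θ B₀ C S y)
    (fun p hp => hB0 p (hP p hp))
    (fun p hp => ⟨(xB_le hS0 hly (hP p hp)).1.le, hxlt p (hP p hp)⟩)
    (fun p hp => cB_nonneg hθ1 hB₀ hC hS0 hy0 hly hn1 (hP p hp))
    (fun p hp a b l ha hb => hg p (hP p hp) a b l ha hb)
    (fun p hp a b l ha hb => by
      rw [KB_comm _ _ _ a, KB_comm _ _ _ a b]
      exact hg p (hP p hp) b a l hb ha)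
    (fun p hp => SP_cB hθ hθ1 hB₀ hSPs hS0 hy0 hly hn1 (hP p hp))
    1 1 one_pos one_pos (fun q => 2 * ψ₁ q) (fun q => 2 * ψ₂ q) f h (2 * s₁) (2 * s₂) N
    (by positivity) (by positivity) (fun q => by have := hψ₁ q; (clear * - this; positivity))
    (fun q => by have := hψ₂ q; (clear * - this; positivity)) (hw ψ₁ f hψ₁ hf hsf) (hw ψ₂ h hψ₂ hh hsh)
  have hmono : psum (fun q r => Ω (cofac q r) (cofac r q) ∧ (cofac r q : ℝ) * ψ₁ q ≤ s₁ ∧
          (cofac q r : ℝ) * ψ₂ r ≤ s₂) N f h ≤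
      Lam Ω P 1 1 (fun q => 2 * ψ₁ q) (fun q => 2 * ψ₂ q) (2 * s₁) (2 * s₂) N f h := by
    unfold Lam
    refine psum_mono _ _ N f h f h (fun q => (hf q).1) (fun q => (hh q).1) ?_
    intro q hq r hr hqr hne
    obtain ⟨hr1, hr2, hr3⟩ := hqr
    refine ⟨⟨?_, ?_, ?_, ?_⟩, le_rfl⟩
    · intro p hp hpd
      rw [mem_Icc] at hq
      have h1 : p ∣ q := hpd.trans (Nat.gcd_dvd_left q r)
      have h2 : p ≤ q := Nat.le_of_dvd (by omega) h1
      simp only [hPdef, mem_filter, mem_Icc]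
      exact ⟨⟨hp.one_lt.le, by omega⟩, hp⟩
    · rw [one_mul, one_mul]
      exact hr1
    · push_cast
      linarith only [hr2]
    · push_cast
      linarith only [hr3]
  refine hmono.trans (hL.trans ?_)
  have hK11 : KB θ S y 1 1 = (16 : ℝ) ^ (1 - θ) * S ^ (1 - θ) := by
    unfold KB
    rw [mm_one]
    norm_num
  rw [hK11]
  have hpr := hprod S y hS0 hS1 hy0 hly hn1 hn3 P hP
  have hall : (2 * s₁ * (2 * s₂)) ^ (1 - θ) * ((16 : ℝ) ^ (1 - θ) * S ^ (1 - θ)) =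
      64 ^ (1 - θ) * (s₁ * s₂ * S) ^ (1 - θ) := by
    rw [← Real.mul_rpow (by positivity) (by positivity),
      ← Real.mul_rpow (by (clear * - hs₁ hs₂; positivity)) (by positivity),
      ← Real.mul_rpow (by positivity) (by (clear * - hs₁ hs₂ hS0; positivity))]
    congr 1
    ring
  have hX0 : 0 ≤ (2 * s₁ * (2 * s₂)) ^ (1 - θ) * ((16 : ℝ) ^ (1 - θ) * S ^ (1 - θ)) *
      ((∑ q ∈ Icc 1 N, f q) * ∑ r ∈ Icc 1 N, h r) ^ θ := by (clear * - hs₁ hs₂ hS0 hF0 hH0; positivity)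
  calc (∏ p ∈ P, cMB θ B₀ C S y p) * (2 * s₁ * (2 * s₂)) ^ (1 - θ) *
        ((16 : ℝ) ^ (1 - θ) * S ^ (1 - θ)) *
        ((∑ q ∈ Icc 1 N, f q) * ∑ r ∈ Icc 1 N, h r) ^ θ
      = (∏ p ∈ P, cMB θ B₀ C S y p) * ((2 * s₁ * (2 * s₂)) ^ (1 - θ) *
        ((16 : ℝ) ^ (1 - θ) * S ^ (1 - θ)) *
        ((∑ q ∈ Icc 1 N, f q) * ∑ r ∈ Icc 1 N, h r) ^ θ) := by ring
    _ ≤ K₀ * ((2 * s₁ * (2 * s₂)) ^ (1 - θ) *
        ((16 : ℝ) ^ (1 - θ) * S ^ (1 - θ)) *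
        ((∑ q ∈ Icc 1 N, f q) * ∑ r ∈ Icc 1 N, h r) ^ θ) :=
        mul_le_mul_of_nonneg_right hpr hX0
    _ = K₀ * 64 ^ (1 - θ) * (s₁ * s₂ * S) ^ (1 - θ) *
        ((∑ q ∈ Icc 1 N, f q) * ∑ r ∈ Icc 1 N, h r) ^ θ := by
        rw [hall]
        ring

end Vale.P028
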