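import Vale.Agent.P028.MathlibUsed
import Vale.Agent.P028.MCaseB

/-!
# Core estimate: one of the cofactors is `≥ exp (A (log log X) log (1/s))`
-/

namespace Vale.P028

open Finset

theorem numC1 {E ε₁ : ℝ} (hE : E = 2 / ε₁) (hε₁ : 0 < ε₁)
    {X s : ℝ} (hX : Real.exp (Real.exp 4) ≤ X)
    (hs : (18 * Real.log X) ^ (-1 / ε₁) ≤ s) :
    1 ≤ X ∧ 4 ≤ Real.log (Real.log X) ∧ Real.log X = Real.exp (Real.log (Real.log X)) ∧
    36 ≤ Real.log X ∧ 0 < s ∧ -(E * Real.log (Real.log X)) ≤ Real.log s := by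
  have h := numB1 (A := 1 / 4) (δ := 1) hE hε₁ one_pos (by (clear * -; norm_num)) (X := X) (s := s) (by
    refine le_trans (le_of_eq ?_) hX
    congr 2
    norm_num) hs
  obtain ⟨h1, h2, h3, h4, h5, h6, -⟩ := h
  exact ⟨h1, h2, h3, h4, h5, h6⟩

theorem numC2 {τ C₄ c₁ l A t logS logs : ℝ} (hτ : 1 ≤ τ) (hC₄0 : 0 < C₄)
    (hA : A = (τ + 1) * (C₄ + 1) + |c₁|) (hl4 : 4 ≤ l) (ht : 1 ≤ t)
    (hlogs : logs = -t) (hlogS : -t ≤ logS) {w : ℝ} (hw : A * l * t ≤ w) :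
    (-logS * (C₄ * l) - logs) * τ + -logS * (C₄ * l) ≤ c₁ + w ∧
    -logS * (C₄ * l) - logs ≤ w := by
  have h1 : -logS * (C₄ * l) ≤ t * (C₄ * l) :=
    mul_le_mul_of_nonneg_right (by linarith) (by (clear * - hC₄0 hl4; positivity))
  have hlt : 1 ≤ l * t := by nlinarith only [hl4, ht]
  have htl : t ≤ l * t := le_mul_of_one_le_left (by linarith only [ht]) (by linarith only [hl4])
  have h2 : -logS * (C₄ * l) - logs ≤ (C₄ + 1) * (l * t) := by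
    have h3 : (C₄ + 1) * (l * t) = t * (C₄ * l) + l * t := by ring
    rw [hlogs]
    linarith only [h1, htl]
  have h3 : (-logS * (C₄ * l) - logs) * τ ≤ (C₄ + 1) * (l * t) * τ :=
    mul_le_mul_of_nonneg_right h2 (by linarith)
  have h4 : -|c₁| ≤ c₁ := neg_abs_le _
  have h5 : |c₁| ≤ |c₁| * (l * t) := le_mul_of_one_le_right (abs_nonneg _) hlt
  have h6 : A * l * t = (C₄ + 1) * (l * t) * τ + C₄ * (l * t) + l * t +
      |c₁| * (l * t) := by rw [hA]; ring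
  have h7 : 0 ≤ (C₄ + 1) * (l * t) * τ := by positivity
  have h8 : 0 ≤ |c₁| * (l * t) := by (clear * - hl4 ht; positivity)
  have h9 : 0 ≤ C₄ * (l * t) := by positivity
  have h11 : t * (C₄ * l) = C₄ * (l * t) := by ring
  have h12 : (C₄ + 1) * (l * t) = C₄ * (l * t) + l * t := by ring
  refine ⟨?_, ?_⟩ <;> linarith only [hlogs, hw, h1, htl, h6, h7, h8, hlt, h3, h4, h5]

/-- numerical conditions of the core estimate -/
theorem numC {c₀ τ C₂ B₀ ε₁ : ℝ} (hc₀ : 0 < c₀) (hτ : 1 ≤ τ) (hC₂ : 1 ≤ C₂) (hB₀ : 0 < B₀)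
    (hε₁ : 0 < ε₁) :
    ∃ A X₀ : ℝ, 0 < A ∧ ∀ X s : ℝ, X₀ ≤ X → (18 * Real.log X) ^ (-1 / ε₁) ≤ s → s ≤ 1 / 4 →
      1 ≤ X ∧ 0 < s ∧ ∃ y : ℝ, 0 < y ∧ 2 ≤ Real.log y ∧
        1 ≤ min 1 (C₂ * s) * y * B₀ ∧ 1 ≤ min 1 (C₂ * s) * y ∧
        (min 1 (C₂ * s)) ^ (-(2 * (3 / 5 : ℝ))) ≤ y ^ ((3 / 5 : ℝ) - 1 / 2) ∧
        (∀ q : ℕ, 0 < q → (q : ℝ) ≤ X ^ 9 → 4 * Real.log q ≤ min 1 (C₂ * s) * y) ∧
        ∀ V₀ : ℝ, Real.exp (A * Real.log (Real.log X) * Real.log (1 / s)) ≤ V₀ →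
        ((min 1 (C₂ * s)) ^ (-Real.log y) / s) ^ τ * (min 1 (C₂ * s)) ^ (-Real.log y) ≤
          c₀ * V₀ ∧
        (min 1 (C₂ * s)) ^ (-Real.log y) / s ≤ V₀ := by
  have hE0 : 0 < 2 / ε₁ := by positivity
  obtain ⟨E, hE⟩ : ∃ E, E = 2 / ε₁ := ⟨_, rfl⟩
  rw [← hE] at hE0
  obtain ⟨C₄, hC₄⟩ : ∃ C₄, C₄ = 12 * E + |Real.log B₀| + 5 := ⟨_, rfl⟩
  have hC₄0 : 0 < C₄ := by rw [hC₄]; (clear * - hE0; positivity)
  obtain ⟨A, hA⟩ : ∃ A, A = (τ + 1) * (C₄ + 1) + |Real.log c₀| := ⟨_, rfl⟩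
  have hA0 : 0 < A := by rw [hA]; (clear * - hτ hC₄0; positivity)
  refine ⟨A, Real.exp (Real.exp 4), hA0, ?_⟩
  intro X s hX hs hs'
  obtain ⟨hX1, hl4, hLe, h36, hs0, hlogs⟩ := numC1 hE hε₁ hX hs
  generalize hl : Real.log (Real.log X) = l at hl4 hLe hlogs ⊢
  have hlogs' : Real.log s ≤ 0 := Real.log_nonpos hs0.le (by linarith only [hs'])
  obtain ⟨S, hS⟩ : ∃ S, S = min 1 (C₂ * s) := ⟨_, rfl⟩
  rw [← hS]
  have hSs : s ≤ S := by
    rw [hS]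
    refine le_min (by linarith only [hs']) ?_
    nlinarith only [hC₂, hs0]
  have hS0 : 0 < S := lt_of_lt_of_le hs0 hSs
  have hS1 : S ≤ 1 := by rw [hS]; exact min_le_left _ _
  have hlogSs : Real.log s ≤ Real.log S := Real.log_le_log hs0 hSs
  have hlogS : -(E * l) ≤ Real.log S := hlogs.trans hlogSs
  have hly : Real.log (Real.exp (C₄ * l)) = C₄ * l := Real.log_exp _
  have hEl : 0 ≤ E * l := by positivity
  have hBl : |Real.log B₀| ≤ |Real.log B₀| * l :=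
    le_mul_of_one_le_right (abs_nonneg _) (by linarith only [hl4])
  have hC4l : C₄ * l = 12 * (E * l) + |Real.log B₀| * l + 5 * l := by rw [hC₄]; ring
  have hB₀l : 0 ≤ |Real.log B₀| * l := by (clear * - hl4; positivity)
  have hSy5 : Real.exp (5 * l) ≤ S * Real.exp (C₄ * l) := by
    calc Real.exp (5 * l) ≤ Real.exp (Real.log S + C₄ * l) := by
          apply Real.exp_le_exp.2
          linarith only [hlogs, hlogs', hlogSs, hC4l, hB₀l]
      _ = S * Real.exp (C₄ * l) := by rw [Real.exp_add, Real.exp_log hS0]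
  have ht1 : 1 ≤ Real.log (1 / s) := by
    have h1 : Real.log 4 ≤ Real.log (1 / s) := by
      apply Real.log_le_log (by norm_num)
      rw [le_div_iff₀ hs0]
      linarith only [hs']
    have h2 : Real.log 4 = 2 * Real.log 2 := by
      rw [show (4 : ℝ) = 2 ^ 2 by norm_num, Real.log_pow]
      norm_num
    have := Real.log_two_gt_d9
    linarith only [h1, h2, this]
  have hlogt : Real.log s = -Real.log (1 / s) := by
    rw [one_div, Real.log_inv, neg_neg]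
  have hZ : S ^ (-Real.log (Real.exp (C₄ * l))) = Real.exp (-Real.log S * (C₄ * l)) := by
    rw [Real.rpow_def_of_pos hS0, hly]
    congr 1
    ring
  have hZs : Real.exp (-Real.log S * (C₄ * l)) / s =
      Real.exp (-Real.log S * (C₄ * l) - Real.log s) := by
    rw [Real.exp_sub, Real.exp_log hs0]
  refine ⟨hX1, hs0, Real.exp (C₄ * l), Real.exp_pos _, ?_, ?_, ?_, ?_, ?_, ?_⟩
  · rw [hly]
    linarith only [hl4, hlogs, hC4l, hB₀l, ht1, hlogt]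
  · calc (1 : ℝ) ≤ Real.exp (Real.log S + C₄ * l + Real.log B₀) := by
          apply Real.one_le_exp
          have := neg_abs_le (Real.log B₀)
          linarith only [hl4, hlogs, hlogSs, hBl, hC4l, ht1, hlogt, this]
      _ = S * Real.exp (C₄ * l) * B₀ := by
          rw [Real.exp_add, Real.exp_add, Real.exp_log hS0, Real.exp_log hB₀]
  · refine le_trans ?_ hSy5
    exact Real.one_le_exp (by linarith only [hl4])
  · rw [Real.rpow_def_of_pos hS0, Real.rpow_def_of_pos (Real.exp_pos _), hly]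
    apply Real.exp_le_exp.2
    linarith only [hl4, hlogs, hlogSs, hC4l, hB₀l]
  · intro q hq hqX
    refine le_trans ?_ hSy5
    have hq' : (0 : ℝ) < q := by exact_mod_cast hq
    have h1 := Real.log_le_log hq' hqX
    rw [Real.log_pow] at h1
    push_cast at h1
    have h2 : Real.exp (5 * l) = (Real.log X) ^ 5 := by
      rw [hLe, ← Real.exp_nat_mul]
      norm_num
    rw [h2]
    have h3 : 36 * Real.log X ≤ (Real.log X) ^ 2 := by nlinarith only [h36]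
    have h4 : (Real.log X) ^ 2 ≤ (Real.log X) ^ 5 := pow_le_pow_right₀ (by linarith only [h36]) (by norm_num)
    linarith only [h1, h3, h4]
  · intro V₀ hV₀
    obtain ⟨hn1, hn2⟩ := numC2 (logS := Real.log S) hτ hC₄0 hA hl4 ht1 hlogt (by linarith only [hlogSs, hlogt])
      (w := A * l * Real.log (1 / s)) le_rfl
    constructor
    · rw [hZ, hZs, ← Real.exp_mul, ← Real.exp_add]
      calc Real.exp ((-Real.log S * (C₄ * l) - Real.log s) * τ + -Real.log S * (C₄ * l))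
          ≤ Real.exp (Real.log c₀ + A * l * Real.log (1 / s)) := Real.exp_le_exp.2 hn1
        _ = c₀ * Real.exp (A * l * Real.log (1 / s)) := by rw [Real.exp_add, Real.exp_log hc₀]
        _ ≤ c₀ * V₀ := mul_le_mul_of_nonneg_left hV₀ hc₀.le
    · rw [hZ, hZs]
      exact (Real.exp_le_exp.2 hn2).trans hV₀

/-- core estimate. -/
theorem caseB_core {γ c₀ τ : ℝ} (hc₀ : 0 < c₀) (hτ : 1 ≤ τ) (hD : Dioph γ c₀ τ) {ε₁ : ℝ}
    (hε₁ : 0 < ε₁) :
    ∃ A C X₀ : ℝ, 0 < A ∧ 0 < C ∧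
      ∀ X s V₀ : ℝ, X₀ ≤ X → (18 * Real.log X) ^ (-1 / ε₁) ≤ s → s ≤ 1 / 4 →
        Real.exp (A * Real.log (Real.log X) * Real.log (1 / s)) ≤ V₀ →
      ∀ (N : ℕ) (ψ f : ℕ → ℝ), (∀ q, 0 ≤ ψ q) →
        (∀ q, 0 ≤ f q ∧ f q ≤ ψ q * (q.totient / q)) →
        (∀ q, f q ≠ 0 → X ≤ q ∧ (q : ℝ) ≤ X ^ 9) →
        psum (fun q r => Rel γ ψ s q r ∧ V₀ ≤ max (cofac q r : ℝ) (cofac r q : ℝ)) N f f ≤
        C * s ^ (1 + 1 / 5 : ℝ) * (∑ q ∈ Icc 1 N, f q) ^ (2 * (3 / 5 : ℝ)) := by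
  classical
  have hθ : (1 / 2 : ℝ) < 3 / 5 := by norm_num
  have hθ1 : (3 / 5 : ℝ) < 1 := by norm_num
  obtain ⟨C₂, hC₂, hbohr⟩ := bohr_count hc₀ hτ hD
  obtain ⟨B₀, hB₀, C, hC, hB₀1, hSPs⟩ := SP_small hθ hθ1
  obtain ⟨K₀, hK₀, hprod⟩ := prod_cB (C := C) hθ hθ1 hB₀ hC
  obtain ⟨A, X₀, hA, hnum⟩ := numC hc₀ hτ hC₂ hB₀ hε₁
  refine ⟨A, K₀ * (64 * C₂) ^ (2 / 5 : ℝ), X₀, hA, by positivity, ?_⟩
  intro X s V₀ hX hsX hs' hV₀ N ψ f hψ hf hsupp
  obtain ⟨hX1, hs, y, hy0, hly, hn1, hn2, hn3, hn4, hn56⟩ := hnum X s hX hsX hs'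
  obtain ⟨hn5, hn6⟩ := hn56 V₀ hV₀
  obtain ⟨S, hS⟩ : ∃ S, S = min 1 (C₂ * s) := ⟨_, rfl⟩
  rw [← hS] at hn1 hn2 hn3 hn4 hn5 hn6
  have hS0 : 0 < S := by rw [hS]; exact lt_min one_pos (by positivity)
  have hS1 : S ≤ 1 := by rw [hS]; exact min_le_left _ _
  have hSC : S ≤ C₂ * s := by rw [hS]; exact min_le_right _ _
  have hy1 : 1 < y := by
    by_contra hne
    push Not at hne
    have := Real.log_nonpos hy0.le hne
    linarith only [hly, this]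
  have hbase := caseB_base hθ hθ1 hc₀ hτ hC₂ hbohr hs hs' hS hy1 hn5 hn6
  set P : Finset ℕ := (Icc 1 N).filter Nat.Prime with hPdef
  have hP : ∀ p ∈ P, p.Prime := fun p hp => (mem_filter.1 hp).2
  have hxlt : ∀ p : ℕ, p.Prime → xB S y p < 1 := by
    intro p hp
    obtain ⟨h1, h2⟩ := xB_le hS0 hly hp
    by_cases hpy : (p : ℝ) ≤ y
    · have h3 := (BqB_bounds (S := S) hly hp hpy).2.2.2
      have h4 : ((1 / 2 : ℝ)) ^ (1 / 2 : ℝ) < 1 :=
        Real.rpow_lt_one (by norm_num) (by norm_num) (by norm_num)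
      linarith only [h2, h3, h4]
    · have h3 := (BqB_large hS0 hB₀ hy0 hn1 hpy).1
      linarith only [hB₀1, h2, h3]
  have hB0 : ∀ p : ℕ, p.Prime → 0 ≤ (BqB S y p) ^ (1 - (3 / 5 : ℝ)) := by
    intro p hp
    obtain ⟨h1, h2⟩ := xB_le hS0 hly hp
    exact Real.rpow_nonneg (by linarith only [h1, h2]) _
  have hg : ∀ p : ℕ, p.Prime → ∀ a b l : ℕ, 0 < a → 0 < b →
      KB (3 / 5) S y (a * p ^ l) b ≤ ((BqB S y p) ^ (1 - (3 / 5 : ℝ))) ^ l * KB (3 / 5) S y a b := by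
    intro p hp a b l ha hb
    rw [KB_grow hp a b l ha hb, BqB_eq hS0 hp]
  have hF0 : 0 ≤ ∑ q ∈ Icc 1 N, f q := sum_nonneg fun q _ => (hf q).1
  have hw : ∀ q, 0 ≤ f q ∧ f q ≤ (2 * ψ q) * ∏ p ∈ P with p ∣ q, (1 - xB S y p) := by
    intro q
    refine ⟨(hf q).1, ?_⟩
    have hprod0 : 0 ≤ ∏ p ∈ P with p ∣ q, (1 - xB S y p) := by
      refine prod_nonneg fun p hp => ?_
      have := hxlt p (hP p (mem_filter.1 hp).1)
      linarith only [this]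
    by_cases h0 : f q = 0
    · rw [h0]
      have := hψ q
      (clear * - this hprod0; positivity)
    · obtain ⟨hq1, hq2⟩ := hsupp q h0
      have hq : 0 < q := by
        rcases Nat.eq_zero_or_pos q with rfl | h
        · simp only [CharP.cast_eq_zero] at hq1
          linarith only [hX1, hq1]
        · exact h
      have h1 := weightB hS0 hy0 hn2 hq (hn4 q hq hq2) P hP
      calc f q ≤ ψ q * (q.totient / q) := (hf q).2
        _ ≤ ψ q * (2 * ∏ p ∈ P with p ∣ q, (1 - xB S y p)) :=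
            mul_le_mul_of_nonneg_left h1 (hψ q)
        _ = (2 * ψ q) * ∏ p ∈ P with p ∣ q, (1 - xB S y p) := by ring
  have hL := theoremL (OmB γ V₀ s) hθ hθ1 (KB (3 / 5) S y)
    (fun a b => KB_nonneg hθ1 hS0 hS1 hy1 a b) hbase P hP
    (fun p => (BqB S y p) ^ (1 - (3 / 5 : ℝ))) (xB S y) (cMB (3 / 5) B₀ C S y)
    (fun p hp => hB0 p (hP p hp))
    (fun p hp => ⟨(xB_le hS0 hly (hP p hp)).1.le, hxlt p (hP p hp)⟩)
    (fun p hp => cB_nonneg hθ1 hB₀ hC hS0 hy0 hly hn1 (hP p hp))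
    (fun p hp a b l ha hb => hg p (hP p hp) a b l ha hb)
    (fun p hp a b l ha hb => by
      rw [KB_comm _ _ _ a, KB_comm _ _ _ a b]
      exact hg p (hP p hp) b a l hb ha)
    (fun p hp => SP_cB hθ hθ1 hB₀ hSPs hS0 hy0 hly hn1 (hP p hp))
    1 1 one_pos one_pos (fun q => 2 * ψ q) (fun q => 2 * ψ q) f f (2 * s) (2 * s) N
    (by (clear * - hs; positivity)) (by positivity) (fun q => by have := hψ q; (clear * - this; positivity))
    (fun q => by have := hψ q; (clear * - this; positivity)) hw hw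
  have hmono : psum (fun q r => Rel γ ψ s q r ∧ V₀ ≤ max (cofac q r : ℝ) (cofac r q : ℝ)) N f f ≤
      Lam (OmB γ V₀ s) P 1 1 (fun q => 2 * ψ q) (fun q => 2 * ψ q) (2 * s) (2 * s) N f f := by
    unfold Lam
    refine psum_mono _ _ N f f f f (fun q => (hf q).1) (fun q => (hf q).1) ?_
    intro q hq r hr hqr hne
    obtain ⟨⟨hr1, hr2, hr3, hr4⟩, hmax⟩ := hqr
    refine ⟨⟨?_, ⟨?_, ?_⟩, ?_, ?_⟩, le_rfl⟩
    · intro p hp hpd
      rw [mem_Icc] at hq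
      have h1 : p ∣ q := hpd.trans (Nat.gcd_dvd_left q r)
      have h2 : p ≤ q := Nat.le_of_dvd (by omega) h1
      simp only [hPdef, mem_filter, mem_Icc]
      exact ⟨⟨hp.one_lt.le, by omega⟩, hp⟩
    · rw [one_mul, one_mul]
      exact hmax
    · rw [one_mul, one_mul]
      exact hr4
    · push_cast
      linarith only [hr2]
    · push_cast
      linarith only [hr3]
  refine hmono.trans (hL.trans ?_)
  have hK11 : KB (3 / 5) S y 1 1 = (16 : ℝ) ^ (1 - (3 / 5 : ℝ)) * S ^ (1 - (3 / 5 : ℝ)) := by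
    unfold KB
    rw [mm_one]
    norm_num
  rw [hK11]
  have hpr := hprod S y hS0 hS1 hy0 hly hn1 hn3 P hP
  have hFF : ((∑ q ∈ Icc 1 N, f q) * ∑ r ∈ Icc 1 N, f r) ^ (3 / 5 : ℝ) =
      (∑ q ∈ Icc 1 N, f q) ^ (2 * (3 / 5 : ℝ)) := by
    rw [← sq, ← Real.rpow_natCast, ← Real.rpow_mul hF0]
    norm_num
  rw [hFF]
  have hSpow : S ^ (1 - (3 / 5 : ℝ)) ≤ (C₂ * s) ^ (1 - (3 / 5 : ℝ)) :=
    Real.rpow_le_rpow hS0.le hSC (by norm_num)
  have hall : (2 * s * (2 * s)) ^ (1 - (3 / 5 : ℝ)) *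
      ((16 : ℝ) ^ (1 - (3 / 5 : ℝ)) * (C₂ * s) ^ (1 - (3 / 5 : ℝ))) =
      (64 * C₂) ^ (2 / 5 : ℝ) * s ^ (1 + 1 / 5 : ℝ) := by
    rw [← Real.mul_rpow (by positivity) (by (clear * - hC₂ hs; positivity)),
      ← Real.mul_rpow (by (clear * - hs; positivity)) (by positivity)]
    rw [show (2 * s * (2 * s)) * (16 * (C₂ * s)) = (64 * C₂) * s ^ 3 by ring,
      Real.mul_rpow (by positivity) (by positivity), ← Real.rpow_natCast s 3,
      ← Real.rpow_mul hs.le]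
    norm_num
  calc (∏ p ∈ P, cMB (3 / 5) B₀ C S y p) * (2 * s * (2 * s)) ^ (1 - (3 / 5 : ℝ)) *
        ((16 : ℝ) ^ (1 - (3 / 5 : ℝ)) * S ^ (1 - (3 / 5 : ℝ))) *
        (∑ q ∈ Icc 1 N, f q) ^ (2 * (3 / 5 : ℝ))
      ≤ K₀ * (2 * s * (2 * s)) ^ (1 - (3 / 5 : ℝ)) *
        ((16 : ℝ) ^ (1 - (3 / 5 : ℝ)) * (C₂ * s) ^ (1 - (3 / 5 : ℝ))) *
        (∑ q ∈ Icc 1 N, f q) ^ (2 * (3 / 5 : ℝ)) := by
        have h1 : 0 ≤ (2 * s * (2 * s)) ^ (1 - (3 / 5 : ℝ)) := by (clear * - hs; positivity)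
        have h2 : 0 ≤ (16 : ℝ) ^ (1 - (3 / 5 : ℝ)) := by positivity
        refine mul_le_mul_of_nonneg_right ?_ (by (clear * - hF0; positivity))
        refine mul_le_mul ?_ ?_ (by positivity) (by (clear * - hK₀ hs; positivity))
        · exact mul_le_mul_of_nonneg_right hpr h1
        · exact mul_le_mul_of_nonneg_left hSpow h2
    _ = K₀ * ((2 * s * (2 * s)) ^ (1 - (3 / 5 : ℝ)) *
        ((16 : ℝ) ^ (1 - (3 / 5 : ℝ)) * (C₂ * s) ^ (1 - (3 / 5 : ℝ)))) *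
        (∑ q ∈ Icc 1 N, f q) ^ (2 * (3 / 5 : ℝ)) := by ring
    _ = K₀ * (64 * C₂) ^ (2 / 5 : ℝ) * s ^ (1 + 1 / 5 : ℝ) *
        (∑ q ∈ Icc 1 N, f q) ^ (2 * (3 / 5 : ℝ)) := by rw [hall]; ring

end Vale.P028
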