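import Vale.Agent.P028.MathlibUsed
import Vale.Agent.P028.KCount
import Vale.Agent.P028.KGen
import Vale.Agent.P028.BT1
import Vale.Agent.P028.MCore
attribute [-instance] ProperSMul.toContinuousSMul IsTopologicalTorsor.toContinuousSMul IdemSemiring.toCanonicallyOrderedAdd IdemSemiring.toMulLeftMono IdemSemiring.toMulRightMono AddQuantale.instAddLeftMono AddQuantale.instAddRightMono Quantale.instMulLeftMono Quantale.instMulRightMono FiniteDimensional.rclike_to_real IsScalarTower.complexToReal FiniteDimensional.complexToReal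

set_option linter.all false

/-!
# Core estimate for far pairs, all real `γ`
-/

namespace Vale.P028

open Finset

/-- numerical conditions of the core estimate -/
theorem kcore_num {B₀ ε₁ : ℝ} (hB₀ : 0 < B₀) (hε₁ : 0 < ε₁) :
    ∃ A X₀ : ℝ, 0 < A ∧ ∀ X s : ℝ, X₀ ≤ X → (18 * Real.log X) ^ (-1 / ε₁) ≤ s → s ≤ 1 / 1000 →
      1 ≤ X ∧ 0 < s ∧ ∃ y : ℝ, 0 < y ∧ 2 ≤ Real.log y ∧ ∀ S : ℝ, s ≤ S → S ≤ 1 →
        1 ≤ S * y * B₀ ∧ 1 ≤ S * y ∧
        S ^ (-(2 * (501 / 1000 : ℝ))) ≤ y ^ ((501 / 1000 : ℝ) - 1 / 2) ∧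
        (∀ q : ℕ, 0 < q → (q : ℝ) ≤ X ^ 9 → 4 * Real.log q ≤ S * y) ∧
        1 ≤ S ^ (-Real.log y) ∧
        ∀ V₀ : ℝ, Real.exp (A * Real.log (Real.log X) * Real.log (1 / s)) ≤ V₀ →
        (S ^ (-Real.log y) / s) ^ 16 ≤ V₀ := by
  have hE0 : 0 < 2 / ε₁ := by positivity
  obtain ⟨E, hE⟩ : ∃ E, E = 2 / ε₁ := ⟨_, rfl⟩
  rw [← hE] at hE0
  obtain ⟨C₄, hC₄⟩ : ∃ C₄, C₄ = 1100 * E + |Real.log B₀| + 5 := ⟨_, rfl⟩
  have hC₄0 : 0 < C₄ := by rw [hC₄]; (clear * - hE0; positivity)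
  obtain ⟨A, hA⟩ : ∃ A, A = 16 * (C₄ + 1) := ⟨_, rfl⟩
  have hA0 : 0 < A := by rw [hA]; positivity
  refine ⟨A, Real.exp (Real.exp 4), hA0, ?_⟩
  intro X s hX hs hs'
  obtain ⟨hX1, hl4, hLe, h36, hs0, hlogs⟩ := numC1 hE hε₁ hX hs
  generalize hl : Real.log (Real.log X) = l at hl4 hLe hlogs ⊢
  have hly : Real.log (Real.exp (C₄ * l)) = C₄ * l := Real.log_exp _
  have hEl : 0 ≤ E * l := by (clear * - hE0 hl4; positivity)
  have hBl : |Real.log B₀| ≤ |Real.log B₀| * l :=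
    le_mul_of_one_le_right (abs_nonneg _) (by linarith only [hl4])
  have hC4l : C₄ * l = 1100 * (E * l) + |Real.log B₀| * l + 5 * l := by rw [hC₄]; ring
  have hB₀l : 0 ≤ |Real.log B₀| * l := by (clear * - hl4; positivity)
  have ht1 : 1 ≤ Real.log (1 / s) := by
    have h1 : Real.log 4 ≤ Real.log (1 / s) := by
      apply Real.log_le_log (by norm_num)
      rw [le_div_iff₀ hs0]
      linarith only [hs']
    have h2 : Real.log 4 = 2 * Real.log 2 := by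
      rw [show (4 : ℝ) = 2 ^ 2 by norm_num, Real.log_pow]
      norm_num
    have := Real.log_two_gt_d9
    linarith only [h1, h2, this]
  have hlogt : Real.log s = -Real.log (1 / s) := by
    rw [one_div, Real.log_inv, neg_neg]
  refine ⟨hX1, hs0, Real.exp (C₄ * l), Real.exp_pos _, by rw [hly]; linarith only [hl4, hlogs, hC4l, hB₀l, ht1, hlogt], ?_⟩
  intro S hSs hS1
  have hS0 : 0 < S := lt_of_lt_of_le hs0 hSs
  have hlogSs : Real.log s ≤ Real.log S := Real.log_le_log hs0 hSs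
  have hlogS0 : Real.log S ≤ 0 := Real.log_nonpos hS0.le hS1
  have hlogS : -(E * l) ≤ Real.log S := hlogs.trans hlogSs
  have hSy5 : Real.exp (5 * l) ≤ S * Real.exp (C₄ * l) := by
    calc Real.exp (5 * l) ≤ Real.exp (Real.log S + C₄ * l) := by
          apply Real.exp_le_exp.2
          linarith only [hlogs, hC4l, hB₀l, ht1, hlogt, hlogSs]
      _ = S * Real.exp (C₄ * l) := by rw [Real.exp_add, Real.exp_log hS0]
  have hZ : S ^ (-Real.log (Real.exp (C₄ * l))) = Real.exp (-Real.log S * (C₄ * l)) := by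
    rw [Real.rpow_def_of_pos hS0, hly]
    congr 1
    ring
  have hZs : Real.exp (-Real.log S * (C₄ * l)) / s =
      Real.exp (-Real.log S * (C₄ * l) - Real.log s) := by
    rw [Real.exp_sub, Real.exp_log hs0]
  refine ⟨?_, ?_, ?_, ?_, ?_, ?_⟩
  · calc (1 : ℝ) ≤ Real.exp (Real.log S + C₄ * l + Real.log B₀) := by
          apply Real.one_le_exp
          have := neg_abs_le (Real.log B₀)
          linarith only [hl4, hlogs, hBl, hC4l, ht1, hlogt, hlogSs, this]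
      _ = S * Real.exp (C₄ * l) * B₀ := by
          rw [Real.exp_add, Real.exp_add, Real.exp_log hS0, Real.exp_log hB₀]
  · refine le_trans ?_ hSy5
    exact Real.one_le_exp (by linarith only [hl4])
  · rw [Real.rpow_def_of_pos hS0, Real.rpow_def_of_pos (Real.exp_pos _), hly]
    apply Real.exp_le_exp.2
    linarith only [hl4, hlogs, hC4l, hB₀l, ht1, hlogt, hlogSs]
  · intro q hq hqX
    refine le_trans ?_ hSy5
    have hq' : (0 : ℝ) < q := by exact_mod_cast hq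
    have h1 := Real.log_le_log hq' hqX
    rw [Real.log_pow] at h1
    push_cast at h1
    have h2 : Real.exp (5 * l) = (Real.log X) ^ 5 := by
      rw [hLe, ← Real.exp_nat_mul]
      norm_num
    rw [h2]
    have h3 : 36 * Real.log X ≤ (Real.log X) ^ 2 := by nlinarith only [h36]
    have h4 : (Real.log X) ^ 2 ≤ (Real.log X) ^ 5 := pow_le_pow_right₀ (by linarith only [h36]) (by norm_num)
    linarith only [h1, h3, h4]
  · rw [hZ]
    apply Real.one_le_exp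
    have : 0 ≤ C₄ * l := by positivity
    nlinarith only [hl4, hEl, hC4l, hB₀l, hlogS0]
  · intro V₀ hV₀
    refine le_trans ?_ hV₀
    rw [hZ, hZs, ← Real.exp_nat_mul]
    apply Real.exp_le_exp.2
    have h1 : -Real.log S * (C₄ * l) ≤ Real.log (1 / s) * (C₄ * l) := by
      have : 0 ≤ C₄ * l := by positivity
      refine mul_le_mul_of_nonneg_right ?_ this
      linarith only [hlogt, hlogSs]
    have h2 : Real.log (1 / s) ≤ l * Real.log (1 / s) :=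
      le_mul_of_one_le_left (by linarith only [ht1]) (by linarith only [hl4])
    rw [hA, hlogt]
    push_cast
    nlinarith only [h1, h2]

/-- the minimal very good denominator divides much of `a` -/
def KBadn (γ W t : ℝ) (a : ℕ) : Prop :=
  ∃ Bs : ℕ, Pst γ W Bs ∧ (∀ b < Bs, ¬ Pst γ W b) ∧ 1 < t ^ 4 * Bs ∧
    t * Bs ≤ ((Nat.gcd a Bs : ℕ) : ℝ)

theorem KBadn_mono {γ W t : ℝ} {a b : ℕ} (hab : a ∣ b) (hb : 0 < b) (h : KBadn γ W t a) :
    KBadn γ W t b := by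
  obtain ⟨Bs, h1, h2, h3, h4⟩ := h
  refine ⟨Bs, h1, h2, h3, h4.trans ?_⟩
  have h5 : Nat.gcd a Bs ∣ Nat.gcd b Bs := Nat.gcd_dvd_gcd_of_dvd_left Bs hab
  have h6 : 0 < Nat.gcd b Bs := Nat.gcd_pos_of_pos_left _ hb
  exact_mod_cast Nat.le_of_dvd h6 h5

open Classical in
theorem kc_psum_cover (R R₁ R₂ R₃ : ℕ → ℕ → Prop) (N : ℕ) (f : ℕ → ℝ) (hf : ∀ q, 0 ≤ f q)
    (h : ∀ q r, R q r → R₁ q r ∨ R₂ q r ∨ R₃ q r) :
    psum R N f f ≤ psum R₁ N f f + psum R₂ N f f + psum R₃ N f f := by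
  unfold psum
  rw [← sum_add_distrib, ← sum_add_distrib]
  refine sum_le_sum fun q _ => ?_
  rw [← sum_add_distrib, ← sum_add_distrib]
  refine sum_le_sum fun r _ => ?_
  have hff : 0 ≤ f q * f r := mul_nonneg (hf q) (hf r)
  have h1 : 0 ≤ (if R₁ q r then f q * f r else 0) := by split_ifs <;> simp [hff]
  have h2 : 0 ≤ (if R₂ q r then f q * f r else 0) := by split_ifs <;> simp [hff]
  have h3 : 0 ≤ (if R₃ q r then f q * f r else 0) := by split_ifs <;> simp [hff]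
  by_cases hR : R q r
  · rw [if_pos hR]
    rcases h q r hR with h4 | h4 | h4
    · rw [if_pos h4]
      linarith only [h2, h3]
    · rw [if_pos h4]
      linarith only [h1, h3]
    · rw [if_pos h4]
      linarith only [h1, h2]
  · rw [if_neg hR]
    linarith only [h1, h2, h3]

open Classical in
theorem kc_psum_union (R : ℕ → ℕ → Prop) (T : Finset ℕ) (R' : ℕ → ℕ → ℕ → Prop) (N : ℕ)
    (f : ℕ → ℝ) (hf : ∀ q, 0 ≤ f q)
    (h : ∀ q r, R q r → ∃ d ∈ T, R' d q r) :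
    psum R N f f ≤ ∑ d ∈ T, psum (R' d) N f f := by
  unfold psum
  rw [sum_comm (s := T)]
  refine sum_le_sum fun q _ => ?_
  rw [sum_comm (s := T)]
  refine sum_le_sum fun r _ => ?_
  have hff : 0 ≤ f q * f r := mul_nonneg (hf q) (hf r)
  have h2 : ∀ d ∈ T, 0 ≤ (if R' d q r then f q * f r else 0) := by
    intro d _
    split_ifs
    · exact hff
    · exact le_rfl
  by_cases hR : R q r
  · rw [if_pos hR]
    obtain ⟨d, hd, hRd⟩ := h q r hR
    refine le_trans ?_ (single_le_sum h2 hd)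
    rw [if_pos hRd]
  · rw [if_neg hR]
    exact sum_nonneg h2

open Classical in
theorem kc_psum_symm (R : ℕ → ℕ → Prop) (N : ℕ) (f : ℕ → ℝ) :
    psum R N f f = psum (fun q r => R r q) N f f := by
  unfold psum
  rw [sum_comm]
  refine sum_congr rfl fun q _ => sum_congr rfl fun r _ => ?_
  rw [mul_comm]

open Classical in
theorem kc_psum_empty (R : ℕ → ℕ → Prop) (N : ℕ) (f : ℕ → ℝ) (h : ∀ q r, ¬ R q r) :
    psum R N f f = 0 := by
  unfold psum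
  refine sum_eq_zero fun q _ => sum_eq_zero fun r _ => ?_
  rw [if_neg (h q r)]

/-- number of large divisors -/
theorem kc_card_div {B : ℕ} (hB : 0 < B) {t : ℝ} (ht : 0 < t) :
    ((B.divisors.filter (fun d : ℕ => t * B ≤ (d : ℝ))).card : ℝ) ≤ 1 / t := by
  have hBR : (0 : ℝ) < B := by exact_mod_cast hB
  have h1 : (B.divisors.filter (fun d : ℕ => t * B ≤ (d : ℝ))).card ≤
      (Icc 1 ⌊1 / t⌋₊).card := by
    refine card_le_card_of_injOn (fun d => B / d) ?_ ?_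
    · intro d hd
      have hd' : d ∈ B.divisors.filter (fun d : ℕ => t * B ≤ (d : ℝ)) := hd
      rw [mem_filter, Nat.mem_divisors] at hd'
      obtain ⟨⟨hdB, _⟩, hdt⟩ := hd'
      have hd0 : 0 < d := Nat.pos_of_dvd_of_pos hdB hB
      have hdR : (0 : ℝ) < d := by exact_mod_cast hd0
      have h2 : 0 < B / d := Nat.div_pos (Nat.le_of_dvd hB hdB) hd0
      rw [coe_Icc, Set.mem_Icc]
      refine ⟨h2, Nat.le_floor ?_⟩
      rw [Nat.cast_div hdB hdR.ne', div_le_div_iff₀ hdR ht]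
      linarith only [hdt]
    · intro d hd e he hde
      have hd' : d ∈ B.divisors.filter (fun d : ℕ => t * B ≤ (d : ℝ)) := hd
      have he' : e ∈ B.divisors.filter (fun d : ℕ => t * B ≤ (d : ℝ)) := he
      rw [mem_filter, Nat.mem_divisors] at hd' he'
      simp only at hde
      have h2 : B / (B / d) = d := Nat.div_div_self hd'.1.1 hB.ne'
      have h3 : B / (B / e) = e := Nat.div_div_self he'.1.1 hB.ne'
      rw [← h2, ← h3, hde]
  rw [Nat.card_Icc, Nat.add_sub_cancel] at h1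
  have h2 : ((B.divisors.filter (fun d : ℕ => t * B ≤ (d : ℝ))).card : ℝ) ≤
      (⌊1 / t⌋₊ : ℝ) := by exact_mod_cast h1
  exact h2.trans (Nat.floor_le (by positivity))

open Classical in
/-- pairs whose first cofactor shares a large factor with the special denominator -/
theorem kc_bad_pairs {θ C₂ : ℝ} (hθ : 1 / 2 < θ) (hθ1 : θ < 1) (hC₂ : 0 < C₂)
    (hT : ∀ (d₁ d₂ : ℕ), 0 < d₁ → 0 < d₂ → ∀ (ψ₁ ψ₂ f h : ℕ → ℝ) (s₁ s₂ : ℝ) (N : ℕ),
      0 < s₁ → 0 < s₂ → (∀ q, 0 ≤ ψ₁ q) → (∀ q, 0 ≤ ψ₂ q) →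
      (∀ q, 0 ≤ f q ∧ f q ≤ ψ₁ q * (q.totient / q)) →
      (∀ r, 0 ≤ h r ∧ h r ≤ ψ₂ r * (r.totient / r)) →
      psum (fun q r => d₁ ∣ cofac q r ∧ d₂ ∣ cofac r q ∧ (cofac r q : ℝ) * ψ₁ q ≤ s₁ ∧
          (cofac q r : ℝ) * ψ₂ r ≤ s₂) N f h ≤
        C₂ * (s₁ * s₂) ^ (1 - θ) * ((∑ q ∈ Icc 1 N, f q) * ∑ r ∈ Icc 1 N, h r) ^ θ *
          (((d₁ : ℝ) ^ (-(1 - θ))) * ((d₂ : ℝ) ^ (-(1 - θ)))))
    {γ W t s : ℝ} (ht : 0 < t) (ht1 : t < 1) (hs : 0 < s) (N : ℕ) (ψ f : ℕ → ℝ)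
    (hψ : ∀ q, 0 ≤ ψ q) (hf : ∀ q, 0 ≤ f q ∧ f q ≤ ψ q * (q.totient / q)) :
    psum (fun q r => KBadn γ W t (cofac q r) ∧ (cofac r q : ℝ) * ψ q ≤ s ∧
        (cofac q r : ℝ) * ψ r ≤ s) N f f ≤
      C₂ * (s * s) ^ (1 - θ) * ((∑ q ∈ Icc 1 N, f q) * ∑ r ∈ Icc 1 N, f r) ^ θ *
        ((1 / t) * (t ^ 3) ^ (1 - θ)) := by
  have hl0 : 0 < 1 - θ := by linarith only [hθ1]
  have hF0 : 0 ≤ ∑ q ∈ Icc 1 N, f q := sum_nonneg fun q _ => (hf q).1
  set X : ℝ := C₂ * (s * s) ^ (1 - θ) * ((∑ q ∈ Icc 1 N, f q) * ∑ r ∈ Icc 1 N, f r) ^ θ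
    with hX
  have hX0 : 0 ≤ X := by (clear * - hC₂ hs hF0; positivity)
  by_cases hex : ∃ Bs : ℕ, Pst γ W Bs ∧ (∀ b < Bs, ¬ Pst γ W b) ∧ 1 < t ^ 4 * Bs
  · obtain ⟨Bs, hP, hmin, ht4⟩ := hex
    have hBs0 : 0 < Bs := hP.1
    have hBsR : (0 : ℝ) < Bs := by exact_mod_cast hBs0
    have huniq : ∀ B' : ℕ, Pst γ W B' → (∀ b < B', ¬ Pst γ W b) → B' = Bs := by
      intro B' h1 h2
      rcases lt_trichotomy B' Bs with h | h | h
      · exact absurd h1 (hmin B' h)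
      · exact h
      · exact absurd hP (h2 Bs h)
    set T := Bs.divisors.filter (fun d : ℕ => t * Bs ≤ (d : ℝ)) with hTdef
    have h1 : psum (fun q r => KBadn γ W t (cofac q r) ∧ (cofac r q : ℝ) * ψ q ≤ s ∧
        (cofac q r : ℝ) * ψ r ≤ s) N f f ≤
        ∑ d ∈ T, psum (fun q r => d ∣ cofac q r ∧ 1 ∣ cofac r q ∧ (cofac r q : ℝ) * ψ q ≤ s ∧
          (cofac q r : ℝ) * ψ r ≤ s) N f f := by
      refine kc_psum_union _ T (fun d q r => d ∣ cofac q r ∧ 1 ∣ cofac r q ∧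
        (cofac r q : ℝ) * ψ q ≤ s ∧ (cofac q r : ℝ) * ψ r ≤ s) N f (fun q => (hf q).1) ?_
      intro q r hc
      obtain ⟨⟨B', hB1, hB2, hB3, hB4⟩, hc2, hc3⟩ := hc
      have hB' := huniq B' hB1 hB2
      rw [hB'] at hB4
      refine ⟨Nat.gcd (cofac q r) Bs, ?_, Nat.gcd_dvd_left _ _, one_dvd _, hc2, hc3⟩
      rw [hTdef, mem_filter, Nat.mem_divisors]
      exact ⟨⟨Nat.gcd_dvd_right _ _, hBs0.ne'⟩, hB4⟩
    refine h1.trans ?_
    have h2 : ∀ d ∈ T, psum (fun q r => d ∣ cofac q r ∧ 1 ∣ cofac r q ∧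
        (cofac r q : ℝ) * ψ q ≤ s ∧ (cofac q r : ℝ) * ψ r ≤ s) N f f ≤
        X * (t ^ 3) ^ (1 - θ) := by
      intro d hd
      rw [hTdef, mem_filter, Nat.mem_divisors] at hd
      obtain ⟨⟨hdB, _⟩, hdt⟩ := hd
      have hd0 : 0 < d := Nat.pos_of_dvd_of_pos hdB hBs0
      have hdR : (0 : ℝ) < d := by exact_mod_cast hd0
      have h3 := hT d 1 hd0 one_pos ψ ψ f f s s N hs hs hψ hψ hf hf
      rw [Nat.cast_one, Real.one_rpow, mul_one] at h3
      refine h3.trans ?_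
      refine mul_le_mul_of_nonneg_left ?_ hX0
      rw [Real.rpow_neg hdR.le, ← Real.inv_rpow hdR.le]
      refine Real.rpow_le_rpow (by (clear * - hd0; positivity)) ?_ hl0.le
      rw [inv_le_comm₀ hdR (by positivity)]
      refine le_trans ?_ hdt
      rw [inv_le_iff_one_le_mul₀ (by positivity)]
      calc (1 : ℝ) ≤ t ^ 4 * Bs := ht4.le
        _ = t * Bs * t ^ 3 := by ring
    calc ∑ d ∈ T, psum (fun q r => d ∣ cofac q r ∧ 1 ∣ cofac r q ∧
        (cofac r q : ℝ) * ψ q ≤ s ∧ (cofac q r : ℝ) * ψ r ≤ s) N f f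
        ≤ ∑ _d ∈ T, X * (t ^ 3) ^ (1 - θ) := sum_le_sum h2
      _ = (T.card : ℝ) * (X * (t ^ 3) ^ (1 - θ)) := by rw [sum_const, nsmul_eq_mul]
      _ ≤ (1 / t) * (X * (t ^ 3) ^ (1 - θ)) := by
          have := kc_card_div hBs0 ht
          have h5 : 0 ≤ X * (t ^ 3) ^ (1 - θ) := by (clear * - hC₂ hs hF0 ht; positivity)
          exact mul_le_mul_of_nonneg_right this h5
      _ = _ := by ring
  · have h1 : psum (fun q r => KBadn γ W t (cofac q r) ∧ (cofac r q : ℝ) * ψ q ≤ s ∧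
        (cofac q r : ℝ) * ψ r ≤ s) N f f = 0 := by
      refine kc_psum_empty _ N f ?_
      rintro q r ⟨⟨Bs, hB1, hB2, hB3, -⟩, -⟩
      exact hex ⟨Bs, hB1, hB2, hB3⟩
    rw [h1]
    (clear * - hC₂ hs hF0 ht; positivity)

/-- the allowed pairs of cofactors -/
def OmG (γ V₀ W t s : ℝ) (u v : ℕ) : Prop :=
  V₀ ≤ max (u : ℝ) v ∧ distInt (((u : ℝ) - v) * γ) < 2 * s ∧ Far γ s u v ∧
    ¬ KBadn γ W t u ∧ ¬ KBadn γ W t v

theorem Far_comm {γ s : ℝ} {u v : ℕ} (h : Far γ s u v) : Far γ s v u := by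
  intro B hB
  rw [max_comm]
  exact h B hB

theorem OmG_comm {γ V₀ W t s : ℝ} {u v : ℕ} (h : OmG γ V₀ W t s u v) : OmG γ V₀ W t s v u := by
  obtain ⟨h1, h2, h3, h4, h5⟩ := h
  refine ⟨by rwa [max_comm], ?_, Far_comm h3, h5, h4⟩
  rw [show ((v : ℝ) - u) * γ = -(((u : ℝ) - v) * γ) by ring, nb_distInt_neg]
  exact h2

open Classical in
theorem kc_row {γ s t Z W V₀ : ℝ} (ht : 0 < t) (hst : t ^ 16 = s) (hs1 : s ≤ 1 / 1000)
    (hZ : 1 ≤ Z) (hW : (Z / s) ^ 4 ≤ W) (hWV : W ^ 4 = V₀) {a b : ℕ} (ha : 0 < a)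
    (haZ : (a : ℝ) ≤ Z) {q₀ r₀ : ℕ} (hq₀ : 0 < q₀) (hle : b * r₀ ≤ a * q₀)
    (hΩ : OmG γ V₀ W t s (a * q₀) (b * r₀)) :
    (((Icc 1 q₀).filter (fun m => OmG γ V₀ W t s (a * m) (b * r₀))).card : ℝ) ≤
      min 1 (70 * t) * q₀ := by
  obtain ⟨h1, h2, h3, h4, h5⟩ := hΩ
  have hmax : max ((a * q₀ : ℕ) : ℝ) ((b * r₀ : ℕ) : ℝ) = (a : ℝ) * q₀ := by
    rw [max_eq_left (by exact_mod_cast hle)]
    push_cast
    ring
  have hsub : (Icc 1 q₀).filter (fun m => OmG γ V₀ W t s (a * m) (b * r₀)) ⊆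
      (Icc 1 q₀).filter (fun m : ℕ => distInt ((a : ℝ) * m * γ - (b : ℝ) * r₀ * γ) < 2 * s) := by
    intro m hm
    rw [mem_filter] at hm ⊢
    refine ⟨hm.1, ?_⟩
    have h6 := hm.2.2.1
    have e : (((a * m : ℕ) : ℝ) - ((b * r₀ : ℕ) : ℝ)) * γ =
        (a : ℝ) * m * γ - (b : ℝ) * r₀ * γ := by
      push_cast
      ring
    rwa [e] at h6
  have hc1 : (((Icc 1 q₀).filter (fun m => OmG γ V₀ W t s (a * m) (b * r₀))).card : ℝ) ≤
      70 * t * q₀ := by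
    refine le_trans (by exact_mod_cast card_le_card hsub) (kc_dens ht hst hs1 hZ hW a q₀
      ((b : ℝ) * r₀ * γ) ha haZ ?_ ?_ ?_)
    · rw [hWV, ← hmax]
      exact h1
    · intro B hB
      have h6 := h3 B hB
      rwa [hmax] at h6
    · intro Bs hB1 hB2 hB3
      by_contra hne
      push Not at hne
      exact h4 (KBadn_mono (Dvd.intro _ rfl) (Nat.mul_pos ha hq₀) ⟨Bs, hB1, hB2, hB3, hne⟩)
  have hc2 : (((Icc 1 q₀).filter (fun m => OmG γ V₀ W t s (a * m) (b * r₀))).card : ℝ) ≤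
      1 * q₀ := by
    rw [one_mul]
    exact card_filter_cl _ _
  rcases min_choice 1 (70 * t) with h | h
  · rw [h]; exact hc2
  · rw [h]; exact hc1

theorem coreG {ε₁ : ℝ} (hε₁ : 0 < ε₁) :
    ∃ θ c A C X₀ : ℝ, 1 / 2 < θ ∧ θ < 1 ∧ 0 < c ∧ 0 < A ∧ 0 < C ∧
      ∀ γ X s V₀ : ℝ, X₀ ≤ X → (18 * Real.log X) ^ (-1 / ε₁) ≤ s → s ≤ 1 / 1000 →
        Real.exp (A * Real.log (Real.log X) * Real.log (1 / s)) ≤ V₀ →
      ∀ (N : ℕ) (ψ f : ℕ → ℝ), (∀ q, 0 ≤ ψ q) →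
        (∀ q, 0 ≤ f q ∧ f q ≤ ψ q * (q.totient / q)) →
        (∀ q, f q ≠ 0 → X ≤ q ∧ (q : ℝ) ≤ X ^ 9) →
        psum (fun q r => Rel γ ψ s q r ∧ Far γ s (cofac q r) (cofac r q) ∧
          V₀ ≤ max (cofac q r : ℝ) (cofac r q : ℝ)) N f f ≤
        C * s ^ (1 + c) * (∑ q ∈ Icc 1 N, f q) ^ (2 * θ) := by
  classical
  have hθ : (1 / 2 : ℝ) < 501 / 1000 := by norm_num
  have hθ1 : (501 / 1000 : ℝ) < 1 := by norm_num
  obtain ⟨B₀, hB₀, C₁, hC₁, hT1⟩ := T1gen hθ hθ1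
  obtain ⟨C₂, hC₂, hT2⟩ := T1_dvd hθ hθ1
  obtain ⟨A, X₀, hA, hnum⟩ := kcore_num hB₀ hε₁
  refine ⟨501 / 1000, 1 / 64, A, C₁ * 70 + 2 * C₂, X₀, hθ, hθ1, by norm_num, hA, by (clear * - hC₁ hC₂; positivity), ?_⟩
  intro γ X s V₀ hX hsX hs' hV₀ N ψ f hψ hf hsupp
  obtain ⟨hX1, hs, y, hy0, hly, hnum'⟩ := hnum X s hX hsX hs'
  set t : ℝ := s ^ (1 / 16 : ℝ) with ht
  have ht0 : 0 < t := by (clear * - hs; positivity)
  have hst : t ^ 16 = s := by
    rw [ht, ← Real.rpow_natCast, ← Real.rpow_mul hs.le]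
    norm_num
  have ht1 : t < 1 := Real.rpow_lt_one hs.le (by linarith only [hs']) (by norm_num)
  have hst' : s ≤ t := by
    rw [← hst]
    calc t ^ 16 ≤ t ^ 1 := pow_le_pow_of_le_one ht0.le ht1.le (by norm_num)
      _ = t := pow_one t
  set S : ℝ := min 1 (70 * t) with hS
  have hsS : s ≤ S := le_min (by linarith only [hs']) (by linarith only [ht0, hst'])
  have hS1 : S ≤ 1 := min_le_left _ _
  have hS0 : 0 < S := lt_of_lt_of_le hs hsS
  obtain ⟨hn1, hn2, hn3, hn4, hn5, hn6⟩ := hnum' S hsS hS1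
  have hn7 := hn6 V₀ hV₀
  set Z : ℝ := S ^ (-Real.log y) with hZ
  have hV0 : 0 < V₀ := lt_of_lt_of_le (Real.exp_pos _) hV₀
  set W : ℝ := V₀ ^ (1 / 4 : ℝ) with hW
  have hW4 : W ^ 4 = V₀ := by
    rw [hW, ← Real.rpow_natCast, ← Real.rpow_mul hV0.le]
    norm_num
  have hWZ : (Z / s) ^ 4 ≤ W := by
    have h1 : ((Z / s) ^ 16) ^ (1 / 4 : ℝ) ≤ V₀ ^ (1 / 4 : ℝ) :=
      Real.rpow_le_rpow (by (clear * - hs; positivity)) hn7 (by norm_num)
    have h2 : ((Z / s) ^ 16) ^ (1 / 4 : ℝ) = (Z / s) ^ 4 := by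
      have h3 : 0 ≤ Z / s := by (clear * - hs; positivity)
      rw [← Real.rpow_natCast (Z / s) 16, ← Real.rpow_mul h3,
        show ((16 : ℕ) : ℝ) * (1 / 4) = ((4 : ℕ) : ℝ) by norm_num, Real.rpow_natCast]
    rwa [h2] at h1
  have hF0 : 0 ≤ ∑ q ∈ Icc 1 N, f q := sum_nonneg fun q _ => (hf q).1
  have hsupp' : ∀ q : ℕ, f q ≠ 0 → 0 < q ∧ 4 * Real.log q ≤ S * y := by
    intro q hq
    obtain ⟨h1, h2⟩ := hsupp q hq
    have h3 : 0 < q := by
      rcases Nat.eq_zero_or_pos q with rfl | h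
      · simp only [CharP.cast_eq_zero] at h1
        linarith only [hX1, h1]
      · exact h
    exact ⟨h3, hn4 q h3 h2⟩
  -- the main part
  have hmain := hT1 (OmG γ V₀ W t s) S y hS0 hS1 hy0 hly hn1 hn2 hn3 (by
    intro a b ha hb haZ hbZ q₀ r₀ hq₀ hr₀ hΩ
    rcases le_total (b * r₀) (a * q₀) with h | h
    · have h1 := kc_row ht0 hst hs' hn5 hWZ hW4 ha haZ hq₀ h hΩ
      have h2 : (((Icc 1 r₀).filter (fun n => OmG γ V₀ W t s (a * q₀) (b * n))).card : ℝ) ≤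
          r₀ := card_filter_cl _ _
      calc _ ≤ (S * q₀) * r₀ := mul_le_mul h1 h2 (by (clear * -; positivity)) (by (clear * - hs hq₀; positivity))
        _ = S * q₀ * r₀ := by ring
    · have h1 := kc_row ht0 hst hs' hn5 hWZ hW4 hb hbZ hr₀ h (OmG_comm hΩ)
      have h2 : (((Icc 1 q₀).filter (fun m => OmG γ V₀ W t s (a * m) (b * r₀))).card : ℝ) ≤
          q₀ := card_filter_cl _ _
      have h3 : ((Icc 1 r₀).filter (fun n => OmG γ V₀ W t s (a * q₀) (b * n))) =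
          (Icc 1 r₀).filter (fun n => OmG γ V₀ W t s (b * n) (a * q₀)) := by
        refine filter_congr fun n _ => ⟨fun h => OmG_comm h, fun h => OmG_comm h⟩
      rw [h3]
      calc _ ≤ (q₀ : ℝ) * (S * r₀) := mul_le_mul h2 h1 (by (clear * -; positivity)) (by (clear * - hq₀; positivity))
        _ = S * q₀ * r₀ := by ring) ψ ψ f f s s N hs hs hψ hψ hf hf hsupp' hsupp'
  have hbad := kc_bad_pairs (γ := γ) (W := W) hθ hθ1 hC₂ hT2 ht0 ht1 hs N ψ f hψ hf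
  -- the second bad part, by symmetry
  have hbad' : psum (fun q r => KBadn γ W t (cofac r q) ∧ (cofac r q : ℝ) * ψ q ≤ s ∧
        (cofac q r : ℝ) * ψ r ≤ s) N f f =
      psum (fun q r => KBadn γ W t (cofac q r) ∧ (cofac r q : ℝ) * ψ q ≤ s ∧
        (cofac q r : ℝ) * ψ r ≤ s) N f f := by
    rw [kc_psum_symm]
    congr 1
    funext q r
    rw [eq_iff_iff]
    constructor
    · rintro ⟨h1, h2, h3⟩
      exact ⟨h1, h3, h2⟩
    · rintro ⟨h1, h2, h3⟩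
      exact ⟨h1, h3, h2⟩
  have hsplit : psum (fun q r => Rel γ ψ s q r ∧ Far γ s (cofac q r) (cofac r q) ∧
          V₀ ≤ max (cofac q r : ℝ) (cofac r q : ℝ)) N f f ≤
      psum (fun q r => OmG γ V₀ W t s (cofac q r) (cofac r q) ∧
          (cofac r q : ℝ) * ψ q ≤ s ∧ (cofac q r : ℝ) * ψ r ≤ s) N f f +
      psum (fun q r => KBadn γ W t (cofac q r) ∧ (cofac r q : ℝ) * ψ q ≤ s ∧
        (cofac q r : ℝ) * ψ r ≤ s) N f f +
      psum (fun q r => KBadn γ W t (cofac r q) ∧ (cofac r q : ℝ) * ψ q ≤ s ∧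
        (cofac q r : ℝ) * ψ r ≤ s) N f f := by
    refine kc_psum_cover _ _ _ _ N f (fun q => (hf q).1) ?_
    rintro q r ⟨⟨hr1, hr2, hr3, hr4⟩, hfar, hmax⟩
    by_cases hb1 : KBadn γ W t (cofac q r)
    · exact Or.inr (Or.inl ⟨hb1, hr2, hr3⟩)
    · by_cases hb2 : KBadn γ W t (cofac r q)
      · exact Or.inr (Or.inr ⟨hb2, hr2, hr3⟩)
      · exact Or.inl ⟨⟨hmax, hr4, hfar, hb1, hb2⟩, hr2, hr3⟩
  refine hsplit.trans ?_
  rw [hbad']
  have hFF : ((∑ q ∈ Icc 1 N, f q) * ∑ r ∈ Icc 1 N, f r) ^ (501 / 1000 : ℝ) =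
      (∑ q ∈ Icc 1 N, f q) ^ (2 * (501 / 1000 : ℝ)) := by
    rw [← sq, ← Real.rpow_natCast, ← Real.rpow_mul hF0]
    norm_num
  rw [hFF] at hmain hbad
  set F : ℝ := (∑ q ∈ Icc 1 N, f q) ^ (2 * (501 / 1000 : ℝ)) with hF
  have hFnn : 0 ≤ F := by (clear * - hF0; positivity)
  -- numerics
  have e1 : (s * s * S) ^ (1 - (501 / 1000 : ℝ)) ≤ 70 * s ^ (1 + 1 / 64 : ℝ) := by
    have h1 : s * s * S ≤ 70 * (s ^ (2 + 1 / 16 : ℝ)) := by
      calc s * s * S ≤ s * s * (70 * t) := by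
            have : S ≤ 70 * t := min_le_right _ _
            (clear * - this hs; gcongr)
        _ = 70 * (s ^ (2 + 1 / 16 : ℝ)) := by
            rw [Real.rpow_add hs, ht]
            have : s ^ (2 : ℝ) = s * s := by
              rw [show (2 : ℝ) = ((2 : ℕ) : ℝ) by norm_num, Real.rpow_natCast]
              ring
            rw [this]
            ring
    calc (s * s * S) ^ (1 - (501 / 1000 : ℝ)) ≤ (70 * (s ^ (2 + 1 / 16 : ℝ))) ^ (1 - (501 / 1000 : ℝ)) :=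
          Real.rpow_le_rpow (by (clear * - hs; positivity)) h1 (by norm_num)
      _ = 70 ^ (1 - (501 / 1000 : ℝ)) * (s ^ (2 + 1 / 16 : ℝ)) ^ (1 - (501 / 1000 : ℝ)) :=
          Real.mul_rpow (by norm_num) (by positivity)
      _ ≤ 70 ^ (1 : ℝ) * s ^ (1 + 1 / 64 : ℝ) := by
          refine mul_le_mul ?_ ?_ (by positivity) (by positivity)
          · exact Real.rpow_le_rpow_of_exponent_le (by norm_num) (by norm_num)
          · rw [← Real.rpow_mul hs.le]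
            exact Real.rpow_le_rpow_of_exponent_ge hs (by linarith only [hs']) (by norm_num)
      _ = 70 * s ^ (1 + 1 / 64 : ℝ) := by rw [Real.rpow_one]
  have e2 : (s * s) ^ (1 - (501 / 1000 : ℝ)) * ((1 / t) * (t ^ 3) ^ (1 - (501 / 1000 : ℝ))) ≤
      s ^ (1 + 1 / 64 : ℝ) := by
    have h1 : (s * s) ^ (1 - (501 / 1000 : ℝ)) = s ^ (998 / 1000 : ℝ) := by
      rw [← sq, ← Real.rpow_natCast, ← Real.rpow_mul hs.le]
      norm_num
    have h2 : (1 / t) * (t ^ 3) ^ (1 - (501 / 1000 : ℝ)) = s ^ (497 / 16000 : ℝ) := by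
      rw [← Real.rpow_natCast t 3, ← Real.rpow_mul ht0.le, one_div, ← Real.rpow_neg_one t,
        ← Real.rpow_add ht0, ht, ← Real.rpow_mul hs.le]
      norm_num
    rw [h1, h2, ← Real.rpow_add hs]
    exact Real.rpow_le_rpow_of_exponent_ge hs (by linarith only [hs']) (by norm_num)
  have e3 : C₁ * (s * s * S) ^ (1 - (501 / 1000 : ℝ)) * F ≤ C₁ * (70 * s ^ (1 + 1 / 64 : ℝ)) * F := by
    (clear * - e1 hC₁ hF0; gcongr)
  have e4 : C₂ * (s * s) ^ (1 - (501 / 1000 : ℝ)) * F *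
      ((1 / t) * (t ^ 3) ^ (1 - (501 / 1000 : ℝ))) ≤ C₂ * s ^ (1 + 1 / 64 : ℝ) * F := by
    calc C₂ * (s * s) ^ (1 - (501 / 1000 : ℝ)) * F *
        ((1 / t) * (t ^ 3) ^ (1 - (501 / 1000 : ℝ)))
        = C₂ * ((s * s) ^ (1 - (501 / 1000 : ℝ)) *
          ((1 / t) * (t ^ 3) ^ (1 - (501 / 1000 : ℝ)))) * F := by ring
      _ ≤ C₂ * s ^ (1 + 1 / 64 : ℝ) * F := by (clear * - e2 hC₂ hF0; gcongr)
  calc _ ≤ C₁ * (70 * s ^ (1 + 1 / 64 : ℝ)) * F + C₂ * s ^ (1 + 1 / 64 : ℝ) * F +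
        C₂ * s ^ (1 + 1 / 64 : ℝ) * F := by
        have h1 := hmain.trans e3
        have h2 := hbad.trans e4
        linarith only [hmain, hbad, e3, e4]
    _ = (C₁ * 70 + 2 * C₂) * s ^ (1 + 1 / 64 : ℝ) * F := by ring

end Vale.P028
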