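import Vale.Agent.P028.MathlibUsed
import Vale.Agent.P028.MDyadic
attribute [-instance] ProperSMul.toContinuousSMul IsTopologicalTorsor.toContinuousSMul IdemSemiring.toCanonicallyOrderedAdd IdemSemiring.toMulLeftMono IdemSemiring.toMulRightMono AddQuantale.instAddLeftMono AddQuantale.instAddRightMono Quantale.instMulLeftMono Quantale.instMulRightMono FiniteDimensional.rclike_to_real IsScalarTower.complexToReal FiniteDimensional.complexToReal

/-!
# Dyadic summation with summable losses, and the levels argument for a general hypothesis `H`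
-/

namespace Vale.P028

open Finset

/-- Dyadic summation over the levels, with summable losses. -/
theorem dyadic_sum2 {γ : ℝ} {ψ f : ℕ → ℝ} {N : ℕ} {A : ℝ} {a : ℕ → ℝ}
    (ha0 : ∀ j, 0 ≤ a j) (haA : ∀ J, ∑ j ∈ range J, a j ≤ A)
    (S : Finset ℕ) (hS : ∀ q ∈ S, 0 < q ∧ q ≤ N ∧ 0 < ψ q) (hf0 : ∀ q, 0 ≤ f q)
    (hf : ∀ q, f q ≤ ψ q)
    (hyp : ∀ j : ℕ, 2 ≤ j →
      psum (fun q r => Rel γ ψ ((1 / 2 : ℝ) ^ j) q r ∧
        (1 / 2 : ℝ) ^ j / 2 < max ((cofac r q : ℝ) * ψ q) ((cofac q r : ℝ) * ψ r)) N f f ≤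
        a j * (1 / 2 : ℝ) ^ j * ∑ q ∈ Icc 1 N, f q)
    (T : Finset (ℕ × ℕ)) (hT : ∀ p ∈ T, p.1 ∈ S ∧ p.2 ∈ S ∧ DD p.1 p.2 (ψ p.1) (ψ p.2) < 1 / 4 ∧
        ∃ m : ℤ, |(m : ℝ) - (((p.2 / Nat.gcd p.1 p.2 : ℕ) : ℝ) - (p.1 / Nat.gcd p.1 p.2 : ℕ)) * γ|
          < 2 * DD p.1 p.2 (ψ p.1) (ψ p.2)) :
    ∑ p ∈ T, f p.1 * f p.2 / DD p.1 p.2 (ψ p.1) (ψ p.2) ≤
      (1 + 2 * A) * ∑ q ∈ Icc 1 N, f q := by
  classical
  set F : ℝ := ∑ q ∈ Icc 1 N, f q with hF
  have hF0 : 0 ≤ F := sum_nonneg fun q _ => hf0 q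
  have hDpos : ∀ p ∈ T, 0 < DD p.1 p.2 (ψ p.1) (ψ p.2) := by
    intro p hp
    obtain ⟨h1, h2, _⟩ := hT p hp
    rw [DD_eq _ _ (hS _ h1).1]
    apply lt_max_of_lt_left
    apply mul_pos _ (hS _ h1).2.2
    have : 0 < p.2 / Nat.gcd p.1 p.2 :=
      Nat.div_pos (Nat.gcd_le_right _ (hS _ h2).1) (Nat.gcd_pos_of_pos_left _ (hS _ h1).1)
    exact_mod_cast this
  set T₁ := T.filter (fun p => p.1 = p.2) with hT₁
  set T₂ := T.filter (fun p => ¬ p.1 = p.2) with hT₂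
  have hsplit : ∑ p ∈ T, f p.1 * f p.2 / DD p.1 p.2 (ψ p.1) (ψ p.2) =
      ∑ p ∈ T₁, f p.1 * f p.2 / DD p.1 p.2 (ψ p.1) (ψ p.2) +
      ∑ p ∈ T₂, f p.1 * f p.2 / DD p.1 p.2 (ψ p.1) (ψ p.2) :=
    (sum_filter_add_sum_filter_not T (fun p => p.1 = p.2) _).symm
  -- diagonal
  have hdiag : ∑ p ∈ T₁, f p.1 * f p.2 / DD p.1 p.2 (ψ p.1) (ψ p.2) ≤ F := by
    have h1 : ∑ p ∈ T₁, f p.1 * f p.2 / DD p.1 p.2 (ψ p.1) (ψ p.2) ≤ ∑ p ∈ T₁, f p.1 := by
      refine sum_le_sum fun p hp => ?_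
      rw [hT₁, mem_filter] at hp
      obtain ⟨hpT, hpe⟩ := hp
      obtain ⟨h1, h2, _⟩ := hT p hpT
      have hq := (hS _ h1).1
      have hψ := (hS _ h1).2.2
      have e : DD p.1 p.2 (ψ p.1) (ψ p.2) = ψ p.1 := by
        rw [DD_eq _ _ hq, ← hpe, Nat.gcd_self, Nat.div_self hq]
        simp only [Nat.cast_one, one_mul, max_self]
      rw [e, ← hpe, div_le_iff₀ hψ]
      exact mul_le_mul_of_nonneg_left (hf _) (hf0 _)
    have h2 : ∑ p ∈ T₁, f p.1 ≤ F := by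
      have hinj : Set.InjOn (Prod.fst : ℕ × ℕ → ℕ) (T₁ : Set (ℕ × ℕ)) := by
        intro p hp p' hp' he
        rw [mem_coe, hT₁, mem_filter] at hp hp'
        ext
        · exact he
        · rw [← hp.2, ← hp'.2]; exact he
      rw [← sum_image (f := f) (g := Prod.fst) hinj]
      refine sum_le_sum_of_subset_of_nonneg ?_ fun q _ _ => hf0 q
      intro q hq
      rw [mem_image] at hq
      obtain ⟨p, hp, rfl⟩ := hq
      rw [hT₁, mem_filter] at hp
      have := hS _ (hT p hp.1).1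
      rw [mem_Icc]
      exact ⟨this.1, this.2.1⟩
    exact h1.trans h2
  -- off-diagonal
  have hj : ∀ p ∈ T₂, ∃ j : ℕ, 2 ≤ j ∧ (1 / 2 : ℝ) ^ (j + 1) < DD p.1 p.2 (ψ p.1) (ψ p.2) ∧
      DD p.1 p.2 (ψ p.1) (ψ p.2) ≤ (1 / 2 : ℝ) ^ j := by
    intro p hp
    rw [hT₂, mem_filter] at hp
    obtain ⟨h1, h2, h3, _⟩ := hT p hp.1
    obtain ⟨j, hj1, hj2⟩ := exists_nat_pow_near_of_lt_one (hDpos p hp.1) (by (clear * - h3; linarith))
      (by norm_num : (0 : ℝ) < 1 / 2) (by norm_num : (1 / 2 : ℝ) < 1)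
    refine ⟨j, ?_, hj1, hj2⟩
    by_contra hlt
    push Not at hlt
    have h4 : (1 / 2 : ℝ) ^ 2 ≤ (1 / 2 : ℝ) ^ (j + 1) :=
      pow_le_pow_of_le_one (by norm_num) (by norm_num) (by omega)
    norm_num at h4
    norm_num at hj1 h3
    linarith only [h4, hj1, h3]
  choose! jj hjj2 hjj3 hjj4 using hj
  have hoff : ∑ p ∈ T₂, f p.1 * f p.2 / DD p.1 p.2 (ψ p.1) (ψ p.2) ≤
      2 * A * F := by
    obtain ⟨J, hJ⟩ : ∃ J : ℕ, ∀ p ∈ T₂, jj p < J := by
      refine ⟨(T₂.sup jj) + 1, fun p hp => ?_⟩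
      have := le_sup (f := jj) hp
      omega
    have h1 : ∑ p ∈ T₂, f p.1 * f p.2 / DD p.1 p.2 (ψ p.1) (ψ p.2) =
        ∑ j ∈ range J, ∑ p ∈ T₂ with jj p = j, f p.1 * f p.2 / DD p.1 p.2 (ψ p.1) (ψ p.2) :=
      (sum_fiberwise_of_maps_to (fun p hp => mem_range.mpr (hJ p hp)) _).symm
    have h2 : ∀ j ∈ range J, ∑ p ∈ T₂ with jj p = j,
        f p.1 * f p.2 / DD p.1 p.2 (ψ p.1) (ψ p.2) ≤ 2 * F * a j := by
      intro j _
      by_cases hj2 : 2 ≤ j
      · set s : ℝ := (1 / 2 : ℝ) ^ j with hs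
        have hs0 : 0 < s := by positivity
        have hs4 : s ≤ 1 / 4 := by
          have : (1 / 2 : ℝ) ^ j ≤ (1 / 2 : ℝ) ^ 2 :=
            pow_le_pow_of_le_one (by norm_num) (by norm_num) hj2
          rw [hs]; norm_num at this ⊢; linarith only [this]
        have h3 : ∑ p ∈ T₂ with jj p = j, f p.1 * f p.2 / DD p.1 p.2 (ψ p.1) (ψ p.2) ≤
            (2 / s) * ∑ p ∈ T₂ with jj p = j, f p.1 * f p.2 := by
          rw [mul_sum]
          refine sum_le_sum fun p hp => ?_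
          rw [mem_filter] at hp
          have h4 := hjj3 p hp.1
          rw [hp.2, pow_succ, ← hs] at h4
          have h5 := mul_nonneg (hf0 p.1) (hf0 p.2)
          rw [div_le_iff₀ (by linarith only [hs0, h4])]
          calc f p.1 * f p.2 = 2 / s * (f p.1 * f p.2) * (s * (1 / 2)) := by
                (clear * - hs0; field_simp)
            _ ≤ 2 / s * (f p.1 * f p.2) * DD p.1 p.2 (ψ p.1) (ψ p.2) := by
                (clear * - h4 h5; gcongr)
        have h6 : ∑ p ∈ T₂ with jj p = j, f p.1 * f p.2 ≤ a j * s * F := by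
          refine le_trans ?_ (hyp j hj2)
          refine sum_le_psum _ N f f hf0 hf0 _ ?_
          intro p hp
          rw [mem_filter] at hp
          obtain ⟨hp1, hp2⟩ := hp
          have hD1 := hjj3 p hp1
          have hD2 := hjj4 p hp1
          rw [hp2] at hD1 hD2
          rw [← hs] at hD2
          rw [pow_succ, ← hs] at hD1
          rw [hT₂, mem_filter] at hp1
          obtain ⟨h7, h8, h9, m, hm⟩ := hT p hp1.1
          have hq := hS _ h7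
          have hr := hS _ h8
          have hD := DD_eq p.1 p.2 hq.1 (ψ p.1) (ψ p.2)
          have hcv : cofac p.2 p.1 = p.2 / Nat.gcd p.1 p.2 := by
            unfold cofac; rw [Nat.gcd_comm]
          have hcu : cofac p.1 p.2 = p.1 / Nat.gcd p.1 p.2 := rfl
          rw [← hcv, ← hcu] at hD hm
          refine ⟨mem_Icc.mpr ⟨hq.1, hq.2.1⟩, mem_Icc.mpr ⟨hr.1, hr.2.1⟩, ⟨?_, ?_, ?_, ?_⟩, ?_⟩
          · intro he
            exact hp1.2 (eq_of_cofac_eq he)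
          · exact (le_max_left _ _).trans (hD ▸ hD2)
          · exact (le_max_right _ _).trans (hD ▸ hD2)
          · have h10 := distInt_le_of_int m hm
            have e : ((cofac p.1 p.2 : ℝ) - (cofac p.2 p.1 : ℝ)) * γ
                = -(((cofac p.2 p.1 : ℝ) - (cofac p.1 p.2 : ℝ)) * γ) := by ring
            rw [e, distInt_neg]
            linarith only [hD2, h10]
          · rw [← hD]; linarith only [hD1]
        calc ∑ p ∈ T₂ with jj p = j, f p.1 * f p.2 / DD p.1 p.2 (ψ p.1) (ψ p.2)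
            ≤ (2 / s) * ∑ p ∈ T₂ with jj p = j, f p.1 * f p.2 := h3
          _ ≤ (2 / s) * (a j * s * F) := by (clear * - h6; gcongr)
          _ = 2 * F * a j := by
              (clear * - hs0; field_simp)
      · have h3 : (T₂.filter (fun p => jj p = j)) = ∅ := by
          rw [filter_eq_empty_iff]
          intro p hp he
          exact hj2 (he ▸ hjj2 p hp)
        rw [h3, sum_empty]
        have := ha0 j
        (clear * - hF0 this; positivity)
    rw [h1]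
    calc ∑ j ∈ range J, ∑ p ∈ T₂ with jj p = j, f p.1 * f p.2 / DD p.1 p.2 (ψ p.1) (ψ p.2)
        ≤ ∑ j ∈ range J, 2 * F * a j := sum_le_sum h2
      _ = 2 * F * ∑ j ∈ range J, a j := (mul_sum _ _ _).symm
      _ ≤ 2 * F * A := mul_le_mul_of_nonneg_left (haA J) (by (clear * - hF0; positivity))
      _ = 2 * A * F := by ring
  rw [hsplit]
  calc _ ≤ F + 2 * A * F := add_le_add hdiag hoff
    _ = _ := by ring

/-- level index: `3^i ≤ log q < 3^(i+1)` -/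
noncomputable def lv (q : ℕ) : ℕ := ⌊Real.logb 3 (Real.log q)⌋₊

theorem lv_spec {q : ℕ} (hq : 3 ≤ q) :
    (3 : ℝ) ^ lv q ≤ Real.log q ∧ Real.log q < (3 : ℝ) ^ (lv q + 1) := by
  have h1 : 1 < Real.log q := by
    have h2 : Real.exp 1 < 3 := lt_trans Real.exp_one_lt_d9 (by norm_num)
    rw [Real.lt_log_iff_exp_lt (by positivity)]
    refine h2.trans_le ?_
    exact_mod_cast hq
  have h0 : 0 < Real.log q := by linarith only [h1]
  have h3 : 0 ≤ Real.logb 3 (Real.log q) := Real.logb_nonneg (by norm_num) h1.le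
  constructor
  · have := Nat.floor_le h3
    rw [← Real.rpow_natCast, ← Real.le_logb_iff_rpow_le (by norm_num) h0]
    exact this
  · have := Nat.lt_floor_add_one (Real.logb 3 (Real.log q))
    rw [← Real.rpow_natCast, ← Real.logb_lt_iff_lt_rpow (by norm_num) h0]
    push_cast
    exact this

theorem lv_le_of_lt_cube {q r : ℕ} (hq : 3 ≤ q) (hr : 3 ≤ r) (h : (r : ℝ) < (q : ℝ) ^ 3) :
    lv r ≤ lv q + 1 := by
  obtain ⟨h1, h2⟩ := lv_spec hq
  obtain ⟨h3, h4⟩ := lv_spec hr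
  have hr0 : (0 : ℝ) < r := by (clear * - hr; positivity)
  have h5 : Real.log r < 3 * Real.log q := by
    have := Real.log_lt_log hr0 h
    rwa [Real.log_pow] at this
  have h6 : (3 : ℝ) ^ lv r < (3 : ℝ) ^ (lv q + 2) := by
    calc (3 : ℝ) ^ lv r ≤ Real.log r := h3
      _ < 3 * Real.log q := h5
      _ < 3 * (3 : ℝ) ^ (lv q + 1) := by linarith only [h2]
      _ = (3 : ℝ) ^ (lv q + 2) := by ring
  have h7 := (pow_lt_pow_iff_right₀ (by norm_num : (1 : ℝ) < 3)).mp h6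
  omega


/-- Bound for one block `[X, X^9]`, for weights satisfying the hypothesis `H`. -/
def BlockBound (γ : ℝ) (H : ℝ → (ℕ → ℝ) → (ℕ → ℝ) → Prop) (A X₁ : ℝ) : Prop :=
  ∀ X, X₁ ≤ X → ∀ (N : ℕ) (ψ f : ℕ → ℝ), (∀ q, 0 ≤ ψ q) →
    (∀ q, 0 ≤ f q ∧ f q ≤ ψ q * (q.totient / q)) → H X ψ f →
    (∀ q, f q ≠ 0 → X ≤ q ∧ (q : ℝ) ≤ X ^ 9) → (∑ q ∈ Icc 1 N, f q) ≤ 2 →
    ∃ a : ℕ → ℝ, (∀ j, 0 ≤ a j) ∧ (∀ J, ∑ j ∈ range J, a j ≤ A) ∧ ∀ j, 2 ≤ j →
      psum (fun q r => Rel γ ψ ((1 / 2 : ℝ) ^ j) q r ∧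
        (1 / 2 : ℝ) ^ j / 2 < max ((cofac r q : ℝ) * ψ q) ((cofac q r : ℝ) * ψ r)) N f f ≤
        a j * (1 / 2 : ℝ) ^ j * ∑ q ∈ Icc 1 N, f q

theorem levels_T {γ A X₁ : ℝ} {H : ℝ → (ℕ → ℝ) → (ℕ → ℝ) → Prop} (hA : 0 ≤ A)
    (hBB : BlockBound γ H A X₁) :
    ∃ (C : ℝ) (Q₀ : ℕ), 0 ≤ C ∧ ∀ (S : Finset ℕ) (ψ g : ℕ → ℝ), (∀ q, 0 ≤ ψ q) →
      (∀ q, 0 ≤ g q ∧ g q ≤ ψ q * (q.totient / q)) →
      (∀ q ∈ S, Q₀ ≤ q ∧ ((q : ℝ) ^ 2)⁻¹ ≤ ψ q) →
      (∀ i : ℕ, H (Real.exp ((3 : ℝ) ^ i)) ψ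
        (fun q => if q ∈ S ∧ (lv q = i ∨ lv q = i + 1) then g q else 0)) →
      (∑ q ∈ S, g q) ≤ 2 →
      ∀ T : Finset (ℕ × ℕ), (∀ p ∈ T, p.1 ∈ S ∧ p.2 ∈ S ∧ DD p.1 p.2 (ψ p.1) (ψ p.2) < 1 / 4 ∧
        ∃ m : ℤ, |(m : ℝ) - (((p.2 / Nat.gcd p.1 p.2 : ℕ) : ℝ) - (p.1 / Nat.gcd p.1 p.2 : ℕ)) * γ|
          < 2 * DD p.1 p.2 (ψ p.1) (ψ p.2)) →
      ∑ p ∈ T, g p.1 * g p.2 / DD p.1 p.2 (ψ p.1) (ψ p.2) ≤ C * ∑ q ∈ S, g q := by
  classical
  obtain ⟨i₀, hi₀⟩ : ∃ i₀ : ℕ, max X₁ 1 ≤ Real.exp ((3 : ℝ) ^ i₀) := by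
    obtain ⟨i₀, hi₀⟩ := pow_unbounded_of_one_lt (max X₁ 1) (by norm_num : (1 : ℝ) < 3)
    exact ⟨i₀, hi₀.le.trans ((by linarith [Real.add_one_le_exp ((3 : ℝ) ^ i₀)]))⟩
  set C' : ℝ := 1 + 2 * A with hC'
  have hC'0 : 0 ≤ C' := by linarith only [hA]
  refine ⟨2 * C', max 3 (⌈Real.exp ((3 : ℝ) ^ i₀)⌉₊), by positivity, ?_⟩
  intro S ψ g hψ hg hS hH hF T hT
  have hS3 : ∀ q ∈ S, 3 ≤ q := fun q hq => (le_max_left _ _).trans (hS q hq).1
  have hSbig : ∀ q ∈ S, Real.exp ((3 : ℝ) ^ i₀) ≤ q := by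
    intro q hq
    have := (le_max_right _ _).trans (hS q hq).1
    exact Nat.ceil_le.mp this
  have hlev0 : ∀ q ∈ S, i₀ ≤ lv q := by
    intro q hq
    have h3 := hS3 q hq
    obtain ⟨h1, h2⟩ := lv_spec h3
    have h4 : (3 : ℝ) ^ i₀ ≤ Real.log q := by
      rw [Real.le_log_iff_exp_le (by positivity)]
      exact hSbig q hq
    have h5 := (pow_lt_pow_iff_right₀ (by norm_num : (1 : ℝ) < 3)).mp (h4.trans_lt h2)
    omega
  have hg0 : ∀ q, 0 ≤ g q := fun q => (hg q).1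
  have hψpos : ∀ q ∈ S, 0 < ψ q := by
    intro q hq
    have h3 := hS3 q hq
    have : (0 : ℝ) < ((q : ℝ) ^ 2)⁻¹ := by (clear * - h3; positivity)
    exact this.trans_le (hS q hq).2
  -- size relation
  have hcube : ∀ q ∈ S, ∀ r ∈ S, DD q r (ψ q) (ψ r) < 1 / 4 → (r : ℝ) < (q : ℝ) ^ 3 := by
    intro q hq r hr hDD
    have hq3 := hS3 q hq
    have hr3 := hS3 r hr
    have hq0 : (0 : ℝ) < q := by positivity
    have hgcd : 0 < Nat.gcd q r := Nat.gcd_pos_of_pos_left _ (by omega)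
    have hgR : (0 : ℝ) < Nat.gcd q r := by exact_mod_cast hgcd
    have hgq : (Nat.gcd q r : ℝ) ≤ q := by exact_mod_cast Nat.gcd_le_left r (by omega)
    have h1 : (r : ℝ) * ψ q / Nat.gcd q r ≤ DD q r (ψ q) (ψ r) := by
      unfold DD
      gcongr
      exact le_max_left _ _
    have h2 : (r : ℝ) * ((q : ℝ) ^ 2)⁻¹ / q ≤ (r : ℝ) * ψ q / Nat.gcd q r := by
      have := (hS q hq).2
      have := hψ q
      (clear γ A X₁ H hA hBB hi₀ C' hC' hC'0 g hg hH hF T hT hSbig hlev0 hg0 hψpos hDD hq0 hgcd hgR h1; gcongr)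
    have h3 : (r : ℝ) * ((q : ℝ) ^ 2)⁻¹ / q = r / (q : ℝ) ^ 3 := by
      (clear * - hq3 hr3; field_simp)
    rw [h3] at h2
    have h4 : (r : ℝ) / (q : ℝ) ^ 3 < 1 := by linarith only [hDD, h1, h2]
    rwa [div_lt_one (by (clear * - hq3; positivity))] at h4
  have hDsymm : ∀ q r : ℕ, DD q r (ψ q) (ψ r) = DD r q (ψ r) (ψ q) := by
    intro q r
    unfold DD
    rw [max_comm, Nat.gcd_comm]
  -- blocks
  set B : ℕ → Finset ℕ := fun i => S.filter (fun q => lv q = i ∨ lv q = i + 1) with hB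
  set TT : ℕ → Finset (ℕ × ℕ) := fun i => T.filter (fun p => p.1 ∈ B i ∧ p.2 ∈ B i) with hTT
  set I : ℕ := (S.sup lv) + 1 with hI
  have hlevI : ∀ q ∈ S, lv q < I := by
    intro q hq
    have := le_sup (f := lv) hq
    omega
  have hblocksum : ∀ i ∈ Ico i₀ I, ∑ p ∈ TT i, g p.1 * g p.2 / DD p.1 p.2 (ψ p.1) (ψ p.2) ≤
      C' * ∑ q ∈ B i, g q := by
    intro i hi
    rw [mem_Ico] at hi
    set X : ℝ := Real.exp ((3 : ℝ) ^ i) with hX
    have hX1 : X₁ ≤ X := by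
      refine (le_max_left _ _).trans (hi₀.trans ?_)
      rw [hX]
      apply Real.exp_le_exp.mpr
      exact pow_le_pow_right₀ (by norm_num) hi.1
    set f : ℕ → ℝ := fun q => if q ∈ B i then g q else 0 with hf
    set N : ℕ := (B i).sup id with hN
    have hBN : ∀ q ∈ B i, q ≤ N := fun q hq => le_sup (f := id) hq
    have hBS : ∀ q ∈ B i, q ∈ S := fun q hq => (mem_filter.mp hq).1
    have hfsum : ∑ q ∈ Icc 1 N, f q = ∑ q ∈ B i, g q := by
      rw [hf, ← sum_filter]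
      congr 1
      ext q
      rw [mem_filter, mem_Icc]
      constructor
      · exact fun h => h.2
      · intro h
        have := hS3 q (hBS q h)
        exact ⟨⟨by omega, hBN q h⟩, h⟩
    have hFi : ∑ q ∈ Icc 1 N, f q ≤ 2 := by
      rw [hfsum]
      refine le_trans ?_ hF
      exact sum_le_sum_of_subset_of_nonneg (filter_subset _ _) fun q _ _ => hg0 q
    have hf0 : ∀ q, 0 ≤ f q := by
      intro q; rw [hf]; dsimp only
      split_ifs
      · exact hg0 q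
      · exact le_rfl
    have hfg : ∀ q, f q ≤ g q := by
      intro q; rw [hf]; dsimp only
      split_ifs
      · exact le_rfl
      · exact hg0 q
    obtain ⟨a, ha0, haA, hkey⟩ := hBB X hX1 N ψ f hψ
      (fun q => ⟨hf0 q, (hfg q).trans (hg q).2⟩) (by
        have h1 := hH i
        rw [hX]
        convert h1 using 3 with q
        rw [hB, mem_filter]) (by
      intro q hq
      have hqB : q ∈ B i := by
        by_contra h
        apply hq
        rw [hf]; dsimp only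
        rw [if_neg h]
      have hqS := hBS q hqB
      have hq3 := hS3 q hqS
      have hq0 : (0 : ℝ) < q := by (clear * - hq3; positivity)
      obtain ⟨h1, h2⟩ := lv_spec hq3
      have hl : lv q = i ∨ lv q = i + 1 := (mem_filter.mp hqB).2
      have h3 : (3 : ℝ) ^ i ≤ (3 : ℝ) ^ lv q := pow_le_pow_right₀ (by norm_num) (by omega)
      have h4 : (3 : ℝ) ^ (lv q + 1) ≤ (3 : ℝ) ^ (i + 2) :=
        pow_le_pow_right₀ (by norm_num) (by omega)
      refine ⟨?_, ?_⟩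
      · rw [hX, ← Real.le_log_iff_exp_le hq0]
        linarith only [h1, h3]
      · have h5 : X ^ 9 = Real.exp ((3 : ℝ) ^ (i + 2)) := by
          rw [hX, ← Real.exp_nat_mul]
          congr 1
          push_cast
          ring
        rw [h5, ← Real.log_le_iff_le_exp hq0]
        linarith only [h2, h4]) hFi
    have h5 := dyadic_sum2 (γ := γ) (ψ := ψ) (f := f) (N := N) ha0 haA (B i)
      (fun q hq => ⟨by have := hS3 q (hBS q hq); omega, hBN q hq, hψpos q (hBS q hq)⟩)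
      hf0 (fun q => (hfg q).trans ((hg q).2.trans (by
        have h1 : (q.totient : ℝ) / q ≤ 1 := by
          rcases Nat.eq_zero_or_pos q with h | h
          · subst h; simp only [Nat.totient_zero, CharP.cast_eq_zero, div_zero, zero_le_one]
          · rw [div_le_one (by exact_mod_cast h)]
            exact_mod_cast Nat.totient_le q
        calc ψ q * (q.totient / q) ≤ ψ q * 1 := mul_le_mul_of_nonneg_left h1 (hψ q)
          _ = ψ q := mul_one _))) hkey (TT i) (by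
        intro p hp
        rw [hTT, mem_filter] at hp
        obtain ⟨hp1, hp2, hp3⟩ := hp
        exact ⟨hp2, hp3, (hT p hp1).2.2⟩)
    rw [hfsum] at h5
    refine le_trans (le_of_eq ?_) h5
    refine sum_congr rfl fun p hp => ?_
    rw [hTT, mem_filter] at hp
    rw [hf]; dsimp only
    rw [if_pos hp.2.1, if_pos hp.2.2]
  -- covering
  have hcover : ∑ p ∈ T, g p.1 * g p.2 / DD p.1 p.2 (ψ p.1) (ψ p.2) ≤
      ∑ i ∈ Ico i₀ I, ∑ p ∈ TT i, g p.1 * g p.2 / DD p.1 p.2 (ψ p.1) (ψ p.2) := by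
    have hDnn : ∀ p ∈ T, 0 ≤ g p.1 * g p.2 / DD p.1 p.2 (ψ p.1) (ψ p.2) := by
      intro p hp
      have h1 : 0 ≤ DD p.1 p.2 (ψ p.1) (ψ p.2) := by
        unfold DD
        have := hψ p.1
        (clear * - this; positivity)
      exact div_nonneg (mul_nonneg (hg0 _) (hg0 _)) h1
    have hmaps : ∀ p ∈ T, min (lv p.1) (lv p.2) ∈ Ico i₀ I := by
      intro p hp
      obtain ⟨h1, h2, _⟩ := hT p hp
      rw [mem_Ico]
      exact ⟨le_min (hlev0 _ h1) (hlev0 _ h2), (min_le_left _ _).trans_lt (hlevI _ h1)⟩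
    rw [← sum_fiberwise_of_maps_to hmaps]
    refine sum_le_sum fun i _ => ?_
    refine sum_le_sum_of_subset_of_nonneg ?_ ?_
    · intro p hp
      rw [mem_filter] at hp
      obtain ⟨hp1, hp2⟩ := hp
      obtain ⟨h1, h2, h3, _⟩ := hT p hp1
      have h4 := lv_le_of_lt_cube (hS3 _ h1) (hS3 _ h2) (hcube _ h1 _ h2 h3)
      have h5 := lv_le_of_lt_cube (hS3 _ h2) (hS3 _ h1)
        (hcube _ h2 _ h1 (by rw [← hDsymm]; exact h3))
      rw [hTT, mem_filter, hB]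
      dsimp only
      rw [mem_filter, mem_filter]
      refine ⟨hp1, ⟨h1, ?_⟩, ⟨h2, ?_⟩⟩ <;>
      · rcases le_total (lv p.1) (lv p.2) with h | h
        · rw [min_eq_left h] at hp2; omega
        · rw [min_eq_right h] at hp2; omega
    · intro p hp _
      rw [hTT, mem_filter] at hp
      exact hDnn p hp.1
  have hdouble : ∑ i ∈ Ico i₀ I, ∑ q ∈ B i, g q ≤ 2 * ∑ q ∈ S, g q := by
    have h1 : ∀ i, ∑ q ∈ B i, g q =
        ∑ q ∈ S, (if lv q = i ∨ lv q = i + 1 then g q else 0) := by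
      intro i
      rw [hB, sum_filter]
    simp only [h1]
    rw [sum_comm, mul_sum]
    refine sum_le_sum fun q _ => ?_
    have h2 : ∑ i ∈ Ico i₀ I, (if lv q = i ∨ lv q = i + 1 then g q else 0) ≤
        ∑ i ∈ Ico i₀ I, ((if lv q = i then g q else 0) + (if lv q = i + 1 then g q else 0)) := by
      refine sum_le_sum fun i _ => ?_
      have := hg0 q
      split_ifs <;> first | linarith only [this] | omega
    refine h2.trans ?_
    rw [sum_add_distrib, two_mul]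
    have h3 : ∑ i ∈ Ico i₀ I, (if lv q = i then g q else 0) ≤ g q := by
      rw [sum_ite_eq]
      split_ifs
      · exact le_rfl
      · exact hg0 q
    have h4 : ∑ i ∈ Ico i₀ I, (if lv q = i + 1 then g q else 0) ≤ g q := by
      have h5 : ∀ i ∈ Ico i₀ I, (if lv q = i + 1 then g q else 0)
          = (if lv q - 1 = i then (if lv q = i + 1 then g q else 0) else 0) := by
        intro i _
        by_cases h : lv q = i + 1
        · rw [if_pos h, if_pos (by omega)]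
        · rw [if_neg h]; simp only [ite_self]
      rw [sum_congr rfl h5, sum_ite_eq]
      have := hg0 q
      split_ifs <;> linarith only [this]
    linarith only [h3, h4]
  calc ∑ p ∈ T, g p.1 * g p.2 / DD p.1 p.2 (ψ p.1) (ψ p.2)
      ≤ ∑ i ∈ Ico i₀ I, ∑ p ∈ TT i, g p.1 * g p.2 / DD p.1 p.2 (ψ p.1) (ψ p.2) := hcover
    _ ≤ ∑ i ∈ Ico i₀ I, C' * ∑ q ∈ B i, g q := sum_le_sum hblocksum
    _ = C' * ∑ i ∈ Ico i₀ I, ∑ q ∈ B i, g q := (mul_sum _ _ _).symm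
    _ ≤ C' * (2 * ∑ q ∈ S, g q) := by (clear * - hdouble hA; gcongr)
    _ = 2 * C' * ∑ q ∈ S, g q := by ring

end Vale.P028
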