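import Vale.Agent.P028.MathlibUsed
import Vale.Agent.P028.MCore
import Vale.Agent.P028.MNear
import Vale.Agent.P028.MLevels

/-!
# Block bounds for the improved main theorem
-/

namespace Vale.P028

open Finset

theorem rpow_two_le {F θ : ℝ} (hF0 : 0 ≤ F) (hF : F ≤ 2) (hθ : 1 / 2 < θ) (hθ1 : θ < 1) :
    F ^ (2 * θ) ≤ 2 * F := by
  rcases hF0.eq_or_lt with h | h
  · rw [← h, Real.zero_rpow (by linarith only [hθ])]; simp
  · have h1 : F ^ (2 * θ) = F ^ (2 * θ - 1) * F := by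
      rw [← Real.rpow_add_one h.ne']; ring_nf
    have h2 : F ^ (2 * θ - 1) ≤ (2 : ℝ) ^ (2 * θ - 1) := Real.rpow_le_rpow hF0 hF (by linarith only [hθ])
    have h3 : (2 : ℝ) ^ (2 * θ - 1) ≤ (2 : ℝ) ^ (1 : ℝ) :=
      Real.rpow_le_rpow_of_exponent_le (by norm_num) (by linarith only [hθ1])
    rw [Real.rpow_one] at h3
    rw [h1]
    gcongr
    linarith only [h2, h3]

theorem tot_le_one (q : ℕ) : (q.totient : ℝ) / q ≤ 1 := by
  rcases Nat.eq_zero_or_pos q with h | h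
  · subst h; simp only [Nat.totient_zero, CharP.cast_eq_zero, div_zero, zero_le_one]
  · rw [div_le_one (by exact_mod_cast h)]
    exact_mod_cast Nat.totient_le q

theorem tot_nonneg (q : ℕ) : 0 ≤ (q.totient : ℝ) / q := by positivity

theorem block_common {γ c₀ τ : ℝ} (hc₀ : 0 < c₀) (hτ : 1 ≤ τ) (hD : Dioph γ c₀ τ) :
    ∃ ε₁ A C c X₀ : ℝ, 0 < ε₁ ∧ 0 < A ∧ 0 < C ∧ 0 < c ∧
      ∀ X s : ℝ, X₀ ≤ X → 0 < s → s ≤ 1 / 4 → ∀ (N : ℕ) (ψ f : ℕ → ℝ), (∀ q, 0 ≤ ψ q) →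
        (∀ q, 0 ≤ f q ∧ f q ≤ ψ q * (q.totient / q)) →
        (∀ q, f q ≠ 0 → X ≤ q ∧ (q : ℝ) ≤ X ^ 9) → (∑ q ∈ Icc 1 N, f q) ≤ 2 →
        (psum (fun q r => Rel γ ψ s q r ∧
          s / 2 < max ((cofac r q : ℝ) * ψ q) ((cofac q r : ℝ) * ψ r)) N f f ≤
            C * s ^ (1 + c) * ∑ q ∈ Icc 1 N, f q) ∨
        (s ^ (-ε₁) < A * Real.log (Real.log X) * Real.log (1 / s) ∧
          (∀ V₀, Real.exp (A * Real.log (Real.log X) * Real.log (1 / s)) ≤ V₀ →
            psum (fun q r => Rel γ ψ s q r ∧ V₀ ≤ max (cofac q r : ℝ) (cofac r q : ℝ)) N f f ≤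
              C * s ^ (1 + c) * ∑ q ∈ Icc 1 N, f q) ∧
          psum (fun q r => Rel γ ψ s q r ∧
            s / 2 < max ((cofac r q : ℝ) * ψ q) ((cofac q r : ℝ) * ψ r)) N f f ≤
            C * s ^ (1 + c) * ∑ q ∈ Icc 1 N, f q +
              psum (fun q r => Rel γ ψ s q r ∧
                Real.exp (s ^ (-ε₁)) ≤ max (cofac q r : ℝ) (cofac r q : ℝ)) N f f) := by
  classical
  obtain ⟨θ₁, ε₁, c₁, C₁, hθ₁, hθ₁', hε₁, hc₁, hC₁, hnear⟩ := near hc₀ hτ hD
  obtain ⟨A, C₂, X₀, hA, hC₂, hB⟩ := caseB_core hc₀ hτ hD hε₁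
  refine ⟨ε₁, A, 2 * C₁ + 2 * C₂, min c₁ (1 / 5), max X₀ 3, hε₁, hA, by (clear * - hC₁ hC₂; positivity),
    lt_min hc₁ (by norm_num), ?_⟩
  intro X s hX hs hs4 N ψ f hψ hf hsupp hF
  have hX3 : 3 ≤ X := (le_max_right _ _).trans hX
  have hX0' : X₀ ≤ X := (le_max_left _ _).trans hX
  have hlogX : 0 < Real.log X := Real.log_pos (by linarith only [hX3])
  set F : ℝ := ∑ q ∈ Icc 1 N, f q with hFdef
  have hf0 : ∀ q, 0 ≤ f q := fun q => (hf q).1
  have hF0 : 0 ≤ F := sum_nonneg fun q _ => hf0 q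
  have hfψ : ∀ q, f q ≤ ψ q := by
    intro q
    refine (hf q).2.trans ?_
    calc ψ q * (q.totient / q) ≤ ψ q * 1 := by
          gcongr
          · exact hψ q
          · exact tot_le_one q
      _ = ψ q := mul_one _
  have hs1 : s ≤ 1 := by linarith only [hs4]
  obtain ⟨c, hc⟩ : ∃ c, c = min c₁ (1 / 5) := ⟨_, rfl⟩
  rw [← hc]
  have hcc1 : c ≤ c₁ := by rw [hc]; exact min_le_left _ _
  have hcc2 : c ≤ 1 / 5 := by rw [hc]; exact min_le_right _ _
  have hp1 : s ^ (1 + c₁) ≤ s ^ (1 + c) :=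
    Real.rpow_le_rpow_of_exponent_ge hs hs1 (by linarith only [hcc1])
  have hp2 : s ^ (1 + 1 / 5 : ℝ) ≤ s ^ (1 + c) :=
    Real.rpow_le_rpow_of_exponent_ge hs hs1 (by linarith only [hcc2])
  have hp0 : 0 ≤ s ^ (1 + c) := (Real.rpow_pos_of_pos hs _).le
  have hpn1 : 0 ≤ s ^ (1 + c₁) := (Real.rpow_pos_of_pos hs _).le
  have hpn2 : 0 ≤ s ^ (1 + 1 / 5 : ℝ) := (Real.rpow_pos_of_pos hs _).le
  have hFθ₁ := rpow_two_le hF0 hF hθ₁ hθ₁'
  have hFθ₂ := rpow_two_le (θ := 3 / 5) hF0 hF (by norm_num) (by norm_num)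
  -- the near part
  have hnearpart : psum (fun q r => Rel γ ψ s q r ∧ (cofac q r : ℝ) ≤ Real.exp (s ^ (-ε₁)) ∧
          (cofac r q : ℝ) ≤ Real.exp (s ^ (-ε₁))) N f f ≤ 2 * C₁ * s ^ (1 + c) * F := by
    calc _ ≤ C₁ * s ^ (1 + c₁) * F ^ (2 * θ₁) :=
          hnear s hs hs4 N ψ f (fun q => ⟨hf0 q, hfψ q⟩)
      _ ≤ C₁ * s ^ (1 + c) * (2 * F) := by (clear * - hp1 hC₁ hFθ₁ hF0 hs; gcongr)
      _ = 2 * C₁ * s ^ (1 + c) * F := by ring
  -- near + far
  have hsplit : psum (fun q r => Rel γ ψ s q r ∧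
        s / 2 < max ((cofac r q : ℝ) * ψ q) ((cofac q r : ℝ) * ψ r)) N f f ≤
      psum (fun q r => Rel γ ψ s q r ∧ (cofac q r : ℝ) ≤ Real.exp (s ^ (-ε₁)) ∧
          (cofac r q : ℝ) ≤ Real.exp (s ^ (-ε₁))) N f f +
      psum (fun q r => Rel γ ψ s q r ∧
          Real.exp (s ^ (-ε₁)) ≤ max (cofac q r : ℝ) (cofac r q : ℝ)) N f f := by
    apply psum_or_le _ _ _ _ _ _ hf0 hf0
    rintro q r ⟨hR, -⟩
    by_cases h : (cofac q r : ℝ) ≤ Real.exp (s ^ (-ε₁)) ∧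
          (cofac r q : ℝ) ≤ Real.exp (s ^ (-ε₁))
    · exact Or.inl ⟨hR, h⟩
    · refine Or.inr ⟨hR, ?_⟩
      rw [not_and_or] at h
      rcases h with h | h
      · push Not at h
        exact h.le.trans (le_max_left _ _)
      · push Not at h
        exact h.le.trans (le_max_right _ _)
  rcases le_or_gt ((18 * Real.log X) ^ (-1 / ε₁)) s with hcase | hcase
  · have hcore : ∀ V₀, Real.exp (A * Real.log (Real.log X) * Real.log (1 / s)) ≤ V₀ →
            psum (fun q r => Rel γ ψ s q r ∧ V₀ ≤ max (cofac q r : ℝ) (cofac r q : ℝ)) N f f ≤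
              2 * C₂ * s ^ (1 + c) * F := by
      intro V₀ hV₀
      calc _ ≤ C₂ * s ^ (1 + 1 / 5 : ℝ) * F ^ (2 * (3 / 5 : ℝ)) :=
            hB X s V₀ hX0' hcase hs4 hV₀ N ψ f hψ hf hsupp
        _ ≤ C₂ * s ^ (1 + c) * (2 * F) := by (clear * - hp2 hC₂ hFθ₂ hF0 hs; gcongr)
        _ = 2 * C₂ * s ^ (1 + c) * F := by ring
    rcases lt_or_ge (s ^ (-ε₁)) (A * Real.log (Real.log X) * Real.log (1 / s)) with h | h
    · right
      refine ⟨h, ?_, ?_⟩
      · intro V₀ hV₀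
        refine (hcore V₀ hV₀).trans ?_
        have : 0 ≤ 2 * C₁ * s ^ (1 + c) * F := by (clear * - hC₁ hs hF0; positivity)
        linarith only [this]
      · have : 0 ≤ 2 * C₂ * s ^ (1 + c) * F := by (clear * - hC₂ hs hF0; positivity)
        linarith only [hnearpart, hsplit, this]
    · left
      have h1 := hcore (Real.exp (s ^ (-ε₁))) (Real.exp_le_exp.2 h)
      linarith only [hnearpart, hsplit, h1]
  · left
    have hA' : 18 * Real.log X ≤ s ^ (-ε₁) := by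
      have hA0 : 0 < 18 * Real.log X := by (clear * - hlogX; positivity)
      have h2 : ((18 * Real.log X) ^ (-1 / ε₁)) ^ (-ε₁) ≤ s ^ (-ε₁) :=
        Real.rpow_le_rpow_of_nonpos hs hcase.le (by linarith only [hε₁])
      rw [← Real.rpow_mul hA0.le] at h2
      have e : -1 / ε₁ * -ε₁ = 1 := by field_simp
      rwa [e, Real.rpow_one] at h2
    have hbound : ∀ q r : ℕ, f q ≠ 0 → (cofac q r : ℝ) ≤ Real.exp (s ^ (-ε₁)) := by
      intro q r hq
      obtain ⟨_, h3⟩ := hsupp q hq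
      have h4 : (cofac q r : ℝ) ≤ q := by exact_mod_cast Nat.div_le_self _ _
      have hX0 : 0 < X := by linarith only [hX3]
      have h5 : X ^ 9 = Real.exp (9 * Real.log X) := by
        rw [mul_comm, Real.exp_mul, Real.exp_log hX0]
        norm_cast
      rw [h5] at h3
      refine h4.trans (h3.trans (Real.exp_le_exp.mpr ?_))
      linarith only [hlogX, hA']
    have hmono : psum (fun q r => Rel γ ψ s q r ∧
        s / 2 < max ((cofac r q : ℝ) * ψ q) ((cofac q r : ℝ) * ψ r)) N f f ≤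
        psum (fun q r => Rel γ ψ s q r ∧ (cofac q r : ℝ) ≤ Real.exp (s ^ (-ε₁)) ∧
          (cofac r q : ℝ) ≤ Real.exp (s ^ (-ε₁))) N f f := by
      apply psum_mono _ _ _ _ _ _ _ hf0 hf0
      rintro q _ r _ ⟨hR, _⟩ hne
      exact ⟨⟨hR, hbound q r (left_ne_zero_of_mul hne), hbound r q (right_ne_zero_of_mul hne)⟩,
        le_rfl⟩
    have : 0 ≤ 2 * C₂ * s ^ (1 + c) * F := by (clear * - hC₂ hs hF0; positivity)
    linarith only [hnearpart, hmono, this]

/-- the hard range of `t = log (1/s)` -/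
theorem hard_range {ε₁ M t : ℝ} (hε₁ : 0 < ε₁) (ht : 0 < t) (h : Real.exp (ε₁ * t) < M * t) :
    0 < M ∧ t ≤ 2 / ε₁ * Real.log (2 * M / ε₁) := by
  have hM : 0 < M := by
    by_contra hne
    push Not at hne
    have h1 : M * t ≤ 0 := mul_nonpos_of_nonpos_of_nonneg hne ht.le
    linarith only [h, h1, Real.exp_pos (ε₁ * t)]
  refine ⟨hM, ?_⟩
  have h1 : ε₁ * t / 2 + 1 ≤ Real.exp (ε₁ * t / 2) := Real.add_one_le_exp _
  have h2 : Real.exp (ε₁ * t) = Real.exp (ε₁ * t / 2) * Real.exp (ε₁ * t / 2) := by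
    rw [← Real.exp_add]
    congr 1
    ring
  have h3 : Real.exp (ε₁ * t / 2) * (ε₁ * t / 2) ≤ Real.exp (ε₁ * t) := by
    rw [h2]
    exact mul_le_mul_of_nonneg_left (by linarith only [h1]) (Real.exp_pos _).le
  have h4 : Real.exp (ε₁ * t / 2) < 2 * M / ε₁ := by
    rw [lt_div_iff₀ hε₁]
    have h5 : Real.exp (ε₁ * t / 2) * (ε₁ * t / 2) < M * t := lt_of_le_of_lt h3 h
    have h6 : (Real.exp (ε₁ * t / 2) * ε₁) * t < (2 * M) * t := by linarith only [h, h3]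
    exact lt_of_mul_lt_mul_right h6 ht.le
  have h5 : ε₁ * t / 2 < Real.log (2 * M / ε₁) := by
    rw [Real.lt_log_iff_exp_lt (by positivity)]
    exact h4
  calc t = 2 / ε₁ * (ε₁ * t / 2) := by field_simp
    _ ≤ 2 / ε₁ * Real.log (2 * M / ε₁) := mul_le_mul_of_nonneg_left h5.le (by positivity)

theorem log_inv_ge_one {s : ℝ} (hs : 0 < s) (hs4 : s ≤ 1 / 4) : 1 ≤ Real.log (1 / s) := by
  have h1 : Real.log 4 ≤ Real.log (1 / s) := by
    apply Real.log_le_log (by norm_num)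
    rw [le_div_iff₀ hs]
    linarith
  have h2 : Real.log 4 = 2 * Real.log 2 := by
    rw [show (4 : ℝ) = 2 ^ 2 by norm_num, Real.log_pow]
    norm_num
  have := Real.log_two_gt_d9
  linarith only [h1, h2, this]

theorem rpow_neg_eq_exp {s ε₁ : ℝ} (hs : 0 < s) :
    s ^ (-ε₁) = Real.exp (ε₁ * Real.log (1 / s)) := by
  rw [Real.rpow_def_of_pos hs, one_div, Real.log_inv]
  congr 1
  ring

theorem geom_half {c : ℝ} (hc : 0 < c) (J : ℕ) :
    ∑ j ∈ range J, ((1 / 2 : ℝ) ^ c) ^ j ≤ (1 - (1 / 2 : ℝ) ^ c)⁻¹ := by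
  have hc1 : (1 / 2 : ℝ) ^ c < 1 := Real.rpow_lt_one (by (clear * -; norm_num)) (by norm_num) hc
  have hc0 : 0 < (1 / 2 : ℝ) ^ c := Real.rpow_pos_of_pos (by norm_num) _
  rw [← tsum_geometric_of_lt_one hc0.le hc1]
  exact (summable_geometric_of_lt_one hc0.le hc1).sum_le_tsum _ (fun j _ => by positivity)

theorem half_pow_rpow (c : ℝ) (j : ℕ) :
    ((1 / 2 : ℝ) ^ j) ^ (1 + c) = ((1 / 2 : ℝ) ^ c) ^ j * (1 / 2 : ℝ) ^ j := by
  have hs0 : (0 : ℝ) < (1 / 2 : ℝ) ^ j := by positivity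
  rw [Real.rpow_add hs0, Real.rpow_one, ← Real.rpow_natCast, ← Real.rpow_natCast,
    ← Real.rpow_mul (by norm_num), ← Real.rpow_mul (by norm_num), mul_comm (j : ℝ) c, mul_comm]

/-- block bound for `ψ ≤ exp (-(log log q)^(1+δ))` -/
theorem block2 {γ c₀ τ : ℝ} (hc₀ : 0 < c₀) (hτ : 1 ≤ τ) (hD : Dioph γ c₀ τ) {δ : ℝ}
    (hδ : 0 < δ) :
    ∃ A X₁ : ℝ, 0 ≤ A ∧ BlockBound γ (fun X ψ f => ∀ q, f q ≠ 0 →
      ψ q ≤ Real.exp (-(Real.log (Real.log X)) ^ (1 + δ))) A X₁ := by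
  classical
  obtain ⟨ε₁, A, C, c, X₀, hε₁, hA, hC, hc, hcom⟩ := block_common hc₀ hτ hD
  set κ : ℝ := (2 * A / ε₁) ^ (δ / 2) / (δ / 2) with hκ
  have hκ0 : 0 < κ := by (clear * - hA hε₁ hδ; positivity)
  set C₆ : ℝ := (A + 1) * (2 / ε₁ * κ) + 1 with hC₆
  have hC₆0 : 0 < C₆ := by (clear * - hA hε₁ hδ; positivity)
  set l₀ : ℝ := max 1 (C₆ ^ (2 / δ)) with hl₀
  have hc1 : (1 / 2 : ℝ) ^ c < 1 := Real.rpow_lt_one (by norm_num) (by norm_num) hc
  refine ⟨C * (1 - (1 / 2 : ℝ) ^ c)⁻¹, max X₀ (Real.exp (Real.exp l₀)), ?_, ?_⟩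
  · have : 0 < 1 - (1 / 2 : ℝ) ^ c := by linarith only [hc1]
    (clear * - hC hc1; positivity)
  intro X hX N ψ f hψ hf hH hsupp hF
  have hX0 : X₀ ≤ X := (le_max_left _ _).trans hX
  have hXe : Real.exp (Real.exp l₀) ≤ X := (le_max_right _ _).trans hX
  have hXpos : 0 < X := (Real.exp_pos _).trans_le hXe
  have hLge : Real.exp l₀ ≤ Real.log X := by
    rw [Real.le_log_iff_exp_le hXpos]
    exact hXe
  have hlge : l₀ ≤ Real.log (Real.log X) := by
    rw [Real.le_log_iff_exp_le ((Real.exp_pos _).trans_le hLge)]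
    exact hLge
  generalize hldef : Real.log (Real.log X) = l at hlge hH hcom
  have hl1 : 1 ≤ l := (le_max_left _ _).trans hlge
  have hl2 : C₆ ≤ l ^ (δ / 2) := by
    have h1 : C₆ ^ (2 / δ) ≤ l := (le_max_right _ _).trans hlge
    have h2 : (C₆ ^ (2 / δ)) ^ (δ / 2) ≤ l ^ (δ / 2) :=
      Real.rpow_le_rpow (by positivity) h1 (by positivity)
    rw [← Real.rpow_mul hC₆0.le] at h2
    rw [show 2 / δ * (δ / 2) = 1 by field_simp, Real.rpow_one] at h2
    exact h2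
  refine ⟨fun j => C * ((1 / 2 : ℝ) ^ c) ^ j, fun j => by positivity, ?_, ?_⟩
  · intro J
    rw [← mul_sum]
    exact mul_le_mul_of_nonneg_left (geom_half hc J) hC.le
  · intro j hj
    have hs0 : (0 : ℝ) < (1 / 2 : ℝ) ^ j := by positivity
    have hs4 : (1 / 2 : ℝ) ^ j ≤ 1 / 4 := by
      have : (1 / 2 : ℝ) ^ j ≤ (1 / 2 : ℝ) ^ 2 :=
        pow_le_pow_of_le_one (by norm_num) (by norm_num) hj
      norm_num at this ⊢
      linarith only [this]
    have hpw := half_pow_rpow c j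
    have h1 := hcom X ((1 / 2 : ℝ) ^ j) hX0 hs0 hs4 N ψ f hψ hf hsupp hF
    rw [hldef] at h1
    generalize (1 / 2 : ℝ) ^ j = s at hs0 hs4 h1 hpw ⊢
    have hgoal : ∀ Y : ℝ, Y ≤ C * s ^ (1 + c) * ∑ q ∈ Icc 1 N, f q →
        Y ≤ C * ((1 / 2 : ℝ) ^ c) ^ j * s * ∑ q ∈ Icc 1 N, f q := by
      intro Y hY
      refine hY.trans (le_of_eq ?_)
      rw [hpw]
      ring
    rcases h1 with h1 | ⟨h1, h2, -⟩
    · exact hgoal _ h1
    · apply hgoal
      have ht1 := log_inv_ge_one hs0 hs4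
      rw [rpow_neg_eq_exp hs0] at h1
      obtain ⟨hM, ht⟩ := hard_range hε₁ (by linarith only [ht1]) h1
      generalize htdef : Real.log (1 / s) = t at ht1 ht h1 h2
      have hlogM : Real.log (2 * (A * l) / ε₁) ≤ κ * l ^ (δ / 2) := by
        have h3 := Real.log_le_rpow_div (x := 2 * (A * l) / ε₁) (ε := δ / 2) (by (clear * - hA hl1 hε₁; positivity))
          (by positivity)
        refine h3.trans (le_of_eq ?_)
        rw [hκ, show 2 * (A * l) / ε₁ = (2 * A / ε₁) * l by ring,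
          Real.mul_rpow (by positivity) (by positivity)]
        ring
      have ht2 : t ≤ 2 / ε₁ * κ * l ^ (δ / 2) := by
        calc t ≤ 2 / ε₁ * Real.log (2 * (A * l) / ε₁) := ht
          _ ≤ 2 / ε₁ * (κ * l ^ (δ / 2)) := mul_le_mul_of_nonneg_left hlogM (by positivity)
          _ = _ := by ring
      have hlδ1 : 1 ≤ l ^ (δ / 2) := Real.one_le_rpow hl1 (by positivity)
      have hpow : l ^ (1 + δ) = l * (l ^ (δ / 2) * l ^ (δ / 2)) := by
        rw [← Real.rpow_add (by linarith only [hl1]), ← Real.rpow_one_add' (by linarith only [hl1]) (by positivity)]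
        congr 1
        ring
      have hmain : A * l * t + t + 1 ≤ l ^ (1 + δ) := by
        have h4 : A * l * t + t ≤ (A + 1) * l * t := by nlinarith only [hl1, ht1]
        have h5 : (A + 1) * l * t ≤ (A + 1) * l * (2 / ε₁ * κ * l ^ (δ / 2)) :=
          mul_le_mul_of_nonneg_left ht2 (by (clear * - hA hl1; positivity))
        have h6 : (1 : ℝ) ≤ l * l ^ (δ / 2) := by nlinarith only [hl2, ht1, h4, h5, hA, hC₆0, hl1]
        have h7 : C₆ * (l * l ^ (δ / 2)) ≤ l ^ (δ / 2) * (l * l ^ (δ / 2)) :=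
          mul_le_mul_of_nonneg_right hl2 (by (clear * - hl1; positivity))
        have h8 : C₆ * (l * l ^ (δ / 2)) = (A + 1) * l * (2 / ε₁ * κ * l ^ (δ / 2)) +
            l * l ^ (δ / 2) := by rw [hC₆]; ring
        rw [hpow]
        linarith only [h4, h5, h6, h7]
      have hlog2 : Real.log 2 ≤ 1 := by
        have := Real.log_two_lt_d9
        linarith only [this]
      have hV : Real.exp (A * l * t) ≤ s / 2 * Real.exp (l ^ (1 + δ)) := by
        have h4 : s / 2 * Real.exp (l ^ (1 + δ)) =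
            Real.exp (Real.log s - Real.log 2 + l ^ (1 + δ)) := by
          rw [Real.exp_add, Real.exp_sub, Real.exp_log hs0, Real.exp_log (by norm_num)]
        rw [h4]
        apply Real.exp_le_exp.2
        have h5 : Real.log s = -t := by
          rw [← htdef, one_div, Real.log_inv, neg_neg]
        linarith only [hmain, hlog2, h5]
      refine le_trans ?_ (h2 _ hV)
      apply psum_mono _ _ _ _ _ _ _ (fun q => (hf q).1) (fun q => (hf q).1)
      rintro q _ r _ ⟨hR, hmax⟩ hne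
      refine ⟨⟨hR, ?_⟩, le_rfl⟩
      have hψq := hH q (left_ne_zero_of_mul hne)
      have hψr := hH r (right_ne_zero_of_mul hne)
      set m : ℝ := max (cofac q r : ℝ) (cofac r q : ℝ) with hm
      have hm1 : (cofac q r : ℝ) ≤ m := le_max_left _ _
      have hm2 : (cofac r q : ℝ) ≤ m := le_max_right _ _
      have hm0 : 0 ≤ m := le_trans (Nat.cast_nonneg _) hm1
      have h5 : max ((cofac r q : ℝ) * ψ q) ((cofac q r : ℝ) * ψ r) ≤
          m * Real.exp (-l ^ (1 + δ)) := by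
        refine max_le ?_ ?_
        · exact mul_le_mul hm2 hψq (hψ q) hm0
        · exact mul_le_mul hm1 hψr (hψ r) hm0
      have h6 : s / 2 ≤ m * Real.exp (-l ^ (1 + δ)) := hmax.le.trans h5
      calc s / 2 * Real.exp (l ^ (1 + δ))
          ≤ (m * Real.exp (-l ^ (1 + δ))) * Real.exp (l ^ (1 + δ)) :=
            mul_le_mul_of_nonneg_right h6 (Real.exp_pos _).le
        _ = m := by
            rw [mul_assoc, ← Real.exp_add, neg_add_cancel, Real.exp_zero, mul_one]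


end Vale.P028
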