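import Vale.Agent.P028.MathlibUsed
import Vale.Agent.P028.KPV
import Vale.Agent.P028.KDefs
import Vale.Agent.P028.MT1
import Vale.Agent.P028.MDyadic
import Vale.Agent.P028.ANear
import Vale.Agent.P028.MBlock
attribute [-instance] ProperSMul.toContinuousSMul IsTopologicalTorsor.toContinuousSMul IdemSemiring.toCanonicallyOrderedAdd IdemSemiring.toMulLeftMono IdemSemiring.toMulRightMono AddQuantale.instAddLeftMono AddQuantale.instAddRightMono Quantale.instMulLeftMono Quantale.instMulRightMono FiniteDimensional.rclike_to_real IsScalarTower.complexToReal FiniteDimensional.complexToReal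

/-!
# Unbalanced pairs
-/

namespace Vale.P028

open Finset

/-- unbalanced pairs -/
theorem typeU : ∃ C > 0, ∀ (s : ℝ) (N : ℕ) (ψ f : ℕ → ℝ), 0 < s → s ≤ 1 → (∀ q, 0 ≤ ψ q) →
    (∀ q, 0 ≤ f q ∧ f q ≤ ψ q * (q.totient / q)) →
    psum (UB ψ s) N f f ≤
      C * s ^ (7 / 5 : ℝ) * ((∑ q ∈ Icc 1 N, f q) + (∑ q ∈ Icc 1 N, f q) ^ 2) := by
  obtain ⟨C, hC, hT⟩ := T1 (θ := 8 / 15) (by norm_num) (by norm_num)
  refine ⟨2 * C, by positivity, ?_⟩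
  intro s N ψ f hs hs1 hψ hf
  have hf0 : ∀ q, 0 ≤ f q := fun q => (hf q).1
  set F := ∑ q ∈ Icc 1 N, f q with hF
  have hF0 : 0 ≤ F := sum_nonneg fun q _ => hf0 q
  have h1 := hT ψ ψ f f (s ^ 2) s N (by positivity) hs hψ hψ hf hf
  have h2 := hT ψ ψ f f s (s ^ 2) N hs (by positivity) hψ hψ hf hf
  have e1 : (s ^ 2 * s) ^ (1 - 8 / 15 : ℝ) = s ^ (7 / 5 : ℝ) := by
    rw [show s ^ 2 * s = s ^ (3 : ℝ) by
      rw [show (3 : ℝ) = ((3 : ℕ) : ℝ) by norm_num, Real.rpow_natCast]; ring]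
    rw [← Real.rpow_mul hs.le]
    norm_num
  have e2 : (s * s ^ 2) ^ (1 - 8 / 15 : ℝ) = s ^ (7 / 5 : ℝ) := by
    rw [mul_comm]; exact e1
  have e3 : (F * F) ^ (8 / 15 : ℝ) ≤ F + F ^ 2 := by
    rw [show F * F = F ^ (2 : ℝ) by rw [Real.rpow_two]; ring, ← Real.rpow_mul hF0]
    exact rpow_le_add_sq hF0 (by norm_num) (by norm_num)
  rw [e1] at h1
  rw [e2] at h2
  have h3 := psum_or_le (UB ψ s)
    (fun q r => (cofac r q : ℝ) * ψ q ≤ s ^ 2 ∧ (cofac q r : ℝ) * ψ r ≤ s)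
    (fun q r => (cofac r q : ℝ) * ψ q ≤ s ∧ (cofac q r : ℝ) * ψ r ≤ s ^ 2) N f f hf0 hf0
    (by
      intro q r h
      obtain ⟨a, b, c | c⟩ := h
      · exact Or.inl ⟨c, b⟩
      · exact Or.inr ⟨a, c⟩)
  have hs7 : 0 ≤ s ^ (7 / 5 : ℝ) := Real.rpow_nonneg hs.le _
  have h4 : C * s ^ (7 / 5 : ℝ) * (F * F) ^ (8 / 15 : ℝ) ≤ C * s ^ (7 / 5 : ℝ) * (F + F ^ 2) := by
    (clear * - e3 hC hs; gcongr)
  calc psum (UB ψ s) N f f ≤ _ := h3
    _ ≤ C * s ^ (7 / 5 : ℝ) * (F + F ^ 2) + C * s ^ (7 / 5 : ℝ) * (F + F ^ 2) :=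
        add_le_add (h1.trans h4) (h2.trans h4)
    _ = _ := by ring

/-- the numerical fact behind the hard range -/
theorem hard_num {A δ ε₁ : ℝ} (hA : 0 < A) (hδ : 0 < δ) (hε₁ : 0 < ε₁) :
    ∃ l₀ : ℝ, 1 ≤ l₀ ∧ ∀ l t : ℝ, l₀ ≤ l → 1 ≤ t → Real.exp (ε₁ * t) < A * l * t →
      A * l * t + t + 1 ≤ l ^ (1 + δ) := by
  set κ : ℝ := (2 * A / ε₁) ^ (δ / 2) / (δ / 2) with hκ
  have hκ0 : 0 < κ := by (clear * - hA hε₁ hδ; positivity)
  set C₆ : ℝ := (A + 1) * (2 / ε₁ * κ) + 1 with hC₆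
  have hC₆0 : 0 < C₆ := by positivity
  refine ⟨max 1 (C₆ ^ (2 / δ)), le_max_left _ _, ?_⟩
  intro l t hlge ht1 h
  have hl1 : 1 ≤ l := (le_max_left _ _).trans hlge
  have hl2 : C₆ ≤ l ^ (δ / 2) := by
    have h1 : C₆ ^ (2 / δ) ≤ l := (le_max_right _ _).trans hlge
    have h2 : (C₆ ^ (2 / δ)) ^ (δ / 2) ≤ l ^ (δ / 2) :=
      Real.rpow_le_rpow (by positivity) h1 (by positivity)
    rw [← Real.rpow_mul hC₆0.le] at h2
    rw [show 2 / δ * (δ / 2) = 1 by (clear * - hδ; field_simp), Real.rpow_one] at h2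
    exact h2
  obtain ⟨hM, ht⟩ := hard_range hε₁ (by linarith only [ht1]) h
  have hlogM : Real.log (2 * (A * l) / ε₁) ≤ κ * l ^ (δ / 2) := by
    have h3 := Real.log_le_rpow_div (x := 2 * (A * l) / ε₁) (ε := δ / 2) (by (clear * - hA hl1 hε₁; positivity))
      (by positivity)
    refine h3.trans (le_of_eq ?_)
    rw [hκ, show 2 * (A * l) / ε₁ = (2 * A / ε₁) * l by ring,
      Real.mul_rpow (by positivity) (by positivity)]
    ring
  have ht2 : t ≤ 2 / ε₁ * κ * l ^ (δ / 2) := by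
    calc t ≤ 2 / ε₁ * Real.log (2 * (A * l) / ε₁) := ht
      _ ≤ 2 / ε₁ * (κ * l ^ (δ / 2)) := mul_le_mul_of_nonneg_left hlogM (by positivity)
      _ = _ := by ring
  have hlδ1 : 1 ≤ l ^ (δ / 2) := Real.one_le_rpow hl1 (by positivity)
  have hpow : l ^ (1 + δ) = l * (l ^ (δ / 2) * l ^ (δ / 2)) := by
    rw [← Real.rpow_add (by linarith only [hl1]), ← Real.rpow_one_add' (by linarith only [hl1]) (by positivity)]
    congr 1
    ring
  have h4 : A * l * t + t ≤ (A + 1) * l * t := by nlinarith only [ht1, hl1]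
  have h5 : (A + 1) * l * t ≤ (A + 1) * l * (2 / ε₁ * κ * l ^ (δ / 2)) :=
    mul_le_mul_of_nonneg_left ht2 (by (clear * - hA hl1; positivity))
  have h6 : (1 : ℝ) ≤ l * l ^ (δ / 2) := by nlinarith only [hA, hC₆0, ht1, hl2, h4, h5]
  have h7 : C₆ * (l * l ^ (δ / 2)) ≤ l ^ (δ / 2) * (l * l ^ (δ / 2)) :=
    mul_le_mul_of_nonneg_right hl2 (by (clear * - hl1; positivity))
  have h8 : C₆ * (l * l ^ (δ / 2)) = (A + 1) * l * (2 / ε₁ * κ * l ^ (δ / 2)) +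
      l * l ^ (δ / 2) := by rw [hC₆]; ring
  rw [hpow]
  linarith only [h4, h5, h6, h7]

/-- the near part -/
theorem near_part : ∃ C ε₁ : ℝ, 0 < C ∧ 0 < ε₁ ∧ ∀ (γ s : ℝ), 0 < s → s ≤ 1 / 1000 →
    ∀ (N : ℕ) (ψ f : ℕ → ℝ), (∀ q, 0 ≤ f q ∧ f q ≤ ψ q) →
      psum (fun q r => Rel γ ψ s q r ∧ Far γ s (cofac q r) (cofac r q) ∧
          cofac q r ≤ ⌊Real.exp (s ^ (-ε₁))⌋₊ ∧ cofac r q ≤ ⌊Real.exp (s ^ (-ε₁))⌋₊) N f f ≤
        C * s ^ (1 + 1 / 64 : ℝ) * ((∑ q ∈ Icc 1 N, f q) + (∑ q ∈ Icc 1 N, f q) ^ 2) := by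
  obtain ⟨C₁, hC₁, k, hk, hnear⟩ := nearG
  obtain ⟨ε₁, hε⟩ : ∃ ε₁ : ℝ, ε₁ = 1 / (64 * (k + 1)) := ⟨_, rfl⟩
  have hε₁ : 0 < ε₁ := by rw [hε]; (clear * - hk; positivity)
  have hkε : k * ε₁ ≤ 1 / 64 := by
    rw [hε, mul_one_div, div_le_iff₀ (by (clear * - hk; positivity))]
    nlinarith only []
  refine ⟨C₁ * 2 ^ k, ε₁, by positivity, hε₁, ?_⟩
  intro γ s hs hs3 N ψ f hf
  set F : ℝ := ∑ q ∈ Icc 1 N, f q with hFdef
  have hf0 : ∀ q, 0 ≤ f q := fun q => (hf q).1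
  have hF0 : 0 ≤ F := sum_nonneg fun q _ => hf0 q
  have hs1 : s ≤ 1 := by linarith only [hs3]
  set V : ℕ := ⌊Real.exp (s ^ (-ε₁))⌋₊ with hV
  have hsε0 : 0 ≤ s ^ (-ε₁) := Real.rpow_nonneg hs.le _
  have hsε1 : 1 ≤ s ^ (-ε₁) := Real.one_le_rpow_of_pos_of_le_one_of_nonpos hs hs1 (by linarith only [hε₁])
  have hV1 : 1 ≤ V := by
    apply Nat.le_floor
    rw [Nat.cast_one]
    exact Real.one_le_exp hsε0
  have hVle : (V : ℝ) ≤ Real.exp (s ^ (-ε₁)) := Nat.floor_le (Real.exp_pos _).le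
  have hlogV : Real.log V ≤ s ^ (-ε₁) := by
    rw [Real.log_le_iff_le_exp (by exact_mod_cast hV1)]
    exact hVle
  have hlogV0 : 0 ≤ Real.log V := Real.log_natCast_nonneg V
  have h1 := hnear γ s hs hs3 V N ψ f hV1 hf
  have h2 : (1 + Real.log V) ^ k ≤ 2 ^ k * s ^ (-(1 / 64) : ℝ) := by
    calc (1 + Real.log V) ^ k ≤ (2 * s ^ (-ε₁)) ^ k := by
          apply Real.rpow_le_rpow (by linarith only [hlogV0]) (by linarith only [hsε1, hlogV]) hk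
      _ = 2 ^ k * s ^ (-(k * ε₁)) := by
          rw [Real.mul_rpow (by norm_num) hsε0, ← Real.rpow_mul hs.le]
          congr 2
          ring
      _ ≤ 2 ^ k * s ^ (-(1 / 64) : ℝ) := by
          apply mul_le_mul_of_nonneg_left _ (by positivity)
          exact Real.rpow_le_rpow_of_exponent_ge hs hs1 (by linarith only [hkε])
  have h3 : s ^ (-(1 / 64) : ℝ) * s ^ (33 / 32 : ℝ) = s ^ (1 + 1 / 64 : ℝ) := by
    rw [← Real.rpow_add hs]
    (clear * -; norm_num)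
  have h4 : F ^ (33 / 32 : ℝ) ≤ F + F ^ 2 := rpow_le_add_sq hF0 (by norm_num) (by norm_num)
  have h5 : 0 ≤ s ^ (33 / 32 : ℝ) := Real.rpow_nonneg hs.le _
  have h6 : 0 ≤ s ^ (-(1 / 64) : ℝ) := Real.rpow_nonneg hs.le _
  have h7 : (0 : ℝ) ≤ 2 ^ k := by positivity
  have h8 : 0 ≤ F ^ (33 / 32 : ℝ) := Real.rpow_nonneg hF0 _
  calc _ ≤ C₁ * (1 + Real.log V) ^ k * s ^ (33 / 32 : ℝ) * F ^ (33 / 32 : ℝ) := h1
    _ ≤ C₁ * (2 ^ k * s ^ (-(1 / 64) : ℝ)) * s ^ (33 / 32 : ℝ) * (F + F ^ 2) := by (clear * - h2 hC₁ hs h4 hF0; gcongr)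
    _ = C₁ * 2 ^ k * (s ^ (-(1 / 64) : ℝ) * s ^ (33 / 32 : ℝ)) * (F + F ^ 2) := by ring
    _ = C₁ * 2 ^ k * s ^ (1 + 1 / 64 : ℝ) * (F + F ^ 2) := by rw [h3]

/-- the size of the cofactors in class I -/
theorem classI_size {ψ : ℕ → ℝ} (hψ : ∀ q, 0 ≤ ψ q) {q r : ℕ} {s l δ : ℝ}
    (hψq : ψ q ≤ Real.exp (-l ^ (1 + δ))) (hψr : ψ r ≤ Real.exp (-l ^ (1 + δ)))
    (hmax : s / 2 < max ((cofac r q : ℝ) * ψ q) ((cofac q r : ℝ) * ψ r)) :
    s / 2 * Real.exp (l ^ (1 + δ)) ≤ max (cofac q r : ℝ) (cofac r q : ℝ) := by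
  set m : ℝ := max (cofac q r : ℝ) (cofac r q : ℝ) with hm
  have hm1 : (cofac q r : ℝ) ≤ m := le_max_left _ _
  have hm2 : (cofac r q : ℝ) ≤ m := le_max_right _ _
  have hm0 : 0 ≤ m := le_trans (Nat.cast_nonneg _) hm1
  have h5 : max ((cofac r q : ℝ) * ψ q) ((cofac q r : ℝ) * ψ r) ≤
      m * Real.exp (-l ^ (1 + δ)) := by
    refine max_le ?_ ?_
    · exact mul_le_mul hm2 hψq (hψ q) hm0
    · exact mul_le_mul hm1 hψr (hψ r) hm0
  have h6 : s / 2 ≤ m * Real.exp (-l ^ (1 + δ)) := hmax.le.trans h5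
  calc s / 2 * Real.exp (l ^ (1 + δ))
      ≤ (m * Real.exp (-l ^ (1 + δ))) * Real.exp (l ^ (1 + δ)) :=
        mul_le_mul_of_nonneg_right h6 (Real.exp_pos _).le
    _ = m := by
        rw [mul_assoc, ← Real.exp_add, neg_add_cancel, Real.exp_zero, mul_one]

/-- far pairs, class I (from the far theorem) -/
theorem typeA_of_core {δ : ℝ} (hδ : 0 < δ)
    (hcore : ∀ ε₁ : ℝ, 0 < ε₁ → ∃ θ c A C X₀ : ℝ, 1 / 2 < θ ∧ θ < 1 ∧ 0 < c ∧ 0 < A ∧ 0 < C ∧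
      ∀ γ X s V₀ : ℝ, X₀ ≤ X → (18 * Real.log X) ^ (-1 / ε₁) ≤ s → s ≤ 1 / 1000 →
        Real.exp (A * Real.log (Real.log X) * Real.log (1 / s)) ≤ V₀ →
      ∀ (N : ℕ) (ψ f : ℕ → ℝ), (∀ q, 0 ≤ ψ q) →
        (∀ q, 0 ≤ f q ∧ f q ≤ ψ q * (q.totient / q)) →
        (∀ q, f q ≠ 0 → X ≤ q ∧ (q : ℝ) ≤ X ^ 9) →
        psum (fun q r => Rel γ ψ s q r ∧ Far γ s (cofac q r) (cofac r q) ∧
          V₀ ≤ max (cofac q r : ℝ) (cofac r q : ℝ)) N f f ≤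
        C * s ^ (1 + c) * (∑ q ∈ Icc 1 N, f q) ^ (2 * θ)) :
    ∃ C c X₀ : ℝ, 0 < C ∧ 0 < c ∧
      ∀ γ X s : ℝ, X₀ ≤ X → 0 < s → s ≤ 1 / 1000 →
      ∀ (N : ℕ) (ψ f : ℕ → ℝ), (∀ q, 0 ≤ ψ q) →
        (∀ q, 0 ≤ f q ∧ f q ≤ ψ q * (q.totient / q)) →
        (∀ q, f q ≠ 0 → X ≤ q ∧ (q : ℝ) ≤ X ^ 9 ∧
          ψ q ≤ Real.exp (-(Real.log (Real.log X)) ^ (1 + δ))) →
        psum (TA γ ψ s) N f f ≤
          C * s ^ (1 + c) * ((∑ q ∈ Icc 1 N, f q) + (∑ q ∈ Icc 1 N, f q) ^ 2) := by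
  classical
  obtain ⟨C₁, ε₁, hC₁, hε₁, hnear⟩ := near_part
  obtain ⟨θ, c₂, A, C₂, X₀, hθ, hθ1, hc₂, hA, hC₂, hB⟩ := hcore ε₁ hε₁
  obtain ⟨l₀, hl₀1, hl₀⟩ := hard_num hA hδ hε₁
  refine ⟨C₁ + C₂, min (1 / 64) c₂, max (max X₀ 3) (Real.exp (Real.exp l₀)),
    by positivity, lt_min (by norm_num) hc₂, ?_⟩
  intro γ X s hX hs hs3 N ψ f hψ hf hsupp
  have hX3 : 3 ≤ X := ((le_max_right _ _).trans (le_max_left _ _)).trans hX
  have hX0' : X₀ ≤ X := ((le_max_left _ _).trans (le_max_left _ _)).trans hX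
  have hXe : Real.exp (Real.exp l₀) ≤ X := (le_max_right _ _).trans hX
  have hXpos : 0 < X := by linarith only [hX3]
  have hlogX : 0 < Real.log X := Real.log_pos (by linarith only [hX3])
  have hLge : Real.exp l₀ ≤ Real.log X := by
    rw [Real.le_log_iff_exp_le hXpos]
    exact hXe
  have hlge : l₀ ≤ Real.log (Real.log X) := by
    rw [Real.le_log_iff_exp_le ((Real.exp_pos _).trans_le hLge)]
    exact hLge
  set F : ℝ := ∑ q ∈ Icc 1 N, f q with hFdef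
  have hf0 : ∀ q, 0 ≤ f q := fun q => (hf q).1
  have hF0 : 0 ≤ F := sum_nonneg fun q _ => hf0 q
  have hFF : 0 ≤ F + F ^ 2 := by (clear * - hF0; positivity)
  have hfψ : ∀ q, f q ≤ ψ q := by
    intro q
    refine (hf q).2.trans ?_
    calc ψ q * (q.totient / q) ≤ ψ q * 1 := by
          gcongr
          · exact hψ q
          · exact tot_le_one q
      _ = ψ q := mul_one _
  have hs1 : s ≤ 1 := by linarith only [hs3]
  have hs4 : s ≤ 1 / 4 := by linarith only [hs3]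
  obtain ⟨c, hc⟩ : ∃ c, c = min (1 / 64) c₂ := ⟨_, rfl⟩
  rw [← hc]
  have hcc1 : c ≤ 1 / 64 := by rw [hc]; exact min_le_left _ _
  have hcc2 : c ≤ c₂ := by rw [hc]; exact min_le_right _ _
  have hp0 : 0 ≤ s ^ (1 + c) := (Real.rpow_pos_of_pos hs _).le
  have hp1 : s ^ (1 + 1 / 64 : ℝ) ≤ s ^ (1 + c) :=
    Real.rpow_le_rpow_of_exponent_ge hs hs1 (by linarith only [hcc1])
  have hp2 : s ^ (1 + c₂) ≤ s ^ (1 + c) :=
    Real.rpow_le_rpow_of_exponent_ge hs hs1 (by linarith only [hcc2])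
  -- the near part
  obtain ⟨V, hV⟩ : ∃ V : ℕ, V = ⌊Real.exp (s ^ (-ε₁))⌋₊ := ⟨_, rfl⟩
  have hnearpart : psum (fun q r => Rel γ ψ s q r ∧ Far γ s (cofac q r) (cofac r q) ∧
          cofac q r ≤ V ∧ cofac r q ≤ V) N f f ≤ C₁ * s ^ (1 + c) * (F + F ^ 2) := by
    rw [hV]
    refine (hnear γ s hs hs3 N ψ f (fun q => ⟨hf0 q, hfψ q⟩)).trans ?_
    (clear * - hp1 hC₁ hF0; gcongr)
  have hC₂0 : 0 ≤ C₂ * s ^ (1 + c) * (F + F ^ 2) := by (clear * - hC₂ hs hF0; positivity)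
  -- near + far
  have hsplit : ∀ V₀ : ℝ, (∀ q r, f q ≠ 0 → f r ≠ 0 → TA γ ψ s q r → ¬ (cofac q r ≤ V ∧
      cofac r q ≤ V) → V₀ ≤ max (cofac q r : ℝ) (cofac r q : ℝ)) →
      psum (TA γ ψ s) N f f ≤
      psum (fun q r => Rel γ ψ s q r ∧ Far γ s (cofac q r) (cofac r q) ∧
          cofac q r ≤ V ∧ cofac r q ≤ V) N f f +
      psum (fun q r => Rel γ ψ s q r ∧ Far γ s (cofac q r) (cofac r q) ∧
          V₀ ≤ max (cofac q r : ℝ) (cofac r q : ℝ)) N f f := by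
    intro V₀ hV₀
    have h1 : psum (TA γ ψ s) N f f ≤ psum (fun q r => TA γ ψ s q r ∧ f q ≠ 0 ∧ f r ≠ 0) N f f := by
      apply psum_mono _ _ _ _ _ _ _ hf0 hf0
      rintro q _ r _ hR hne
      exact ⟨⟨hR, left_ne_zero_of_mul hne, right_ne_zero_of_mul hne⟩, le_rfl⟩
    refine h1.trans ?_
    apply psum_or_le _ _ _ _ _ _ hf0 hf0
    rintro q r ⟨hR, hq, hr⟩
    by_cases h : cofac q r ≤ V ∧ cofac r q ≤ V
    · exact Or.inl ⟨hR.1, hR.2.1, h⟩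
    · exact Or.inr ⟨hR.1, hR.2.1, hV₀ q r hq hr hR h⟩
  have hfin : ∀ Y Z : ℝ, Y ≤ C₁ * s ^ (1 + c) * (F + F ^ 2) →
      Z ≤ C₂ * s ^ (1 + c) * (F + F ^ 2) →
      Y + Z ≤ (C₁ + C₂) * s ^ (1 + c) * (F + F ^ 2) := by
    intro Y Z hY hZ
    calc Y + Z ≤ _ := add_le_add hY hZ
      _ = _ := by ring
  have hVlt : ∀ n : ℕ, ¬ n ≤ V → Real.exp (s ^ (-ε₁)) ≤ n := by
    intro n hn
    push Not at hn
    rw [hV] at hn
    exact (Nat.lt_of_floor_lt hn).le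
  rcases le_or_gt ((18 * Real.log X) ^ (-1 / ε₁)) s with hcase | hcase
  · have hcore' : ∀ V₀, Real.exp (A * Real.log (Real.log X) * Real.log (1 / s)) ≤ V₀ →
            psum (fun q r => Rel γ ψ s q r ∧ Far γ s (cofac q r) (cofac r q) ∧
              V₀ ≤ max (cofac q r : ℝ) (cofac r q : ℝ)) N f f ≤
              C₂ * s ^ (1 + c) * (F + F ^ 2) := by
      intro V₀ hV₀
      have h4 : F ^ (2 * θ) ≤ F + F ^ 2 := rpow_le_add_sq hF0 (by linarith only [hθ]) (by linarith only [hθ1])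
      have h5 : 0 ≤ F ^ (2 * θ) := Real.rpow_nonneg hF0 _
      calc _ ≤ C₂ * s ^ (1 + c₂) * F ^ (2 * θ) :=
            hB γ X s V₀ hX0' hcase hs3 hV₀ N ψ f hψ hf
              (fun q hq => ⟨(hsupp q hq).1, (hsupp q hq).2.1⟩)
        _ ≤ C₂ * s ^ (1 + c) * (F + F ^ 2) := by (clear * - hp2 hC₂ h4 hF0 hs; gcongr)
    rcases lt_or_ge (s ^ (-ε₁)) (A * Real.log (Real.log X) * Real.log (1 / s)) with h | h
    · -- the hard range
      have ht1 := log_inv_ge_one hs hs4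
      rw [rpow_neg_eq_exp hs] at h
      have hmain := hl₀ _ _ hlge ht1 h
      have hV0 : Real.exp (A * Real.log (Real.log X) * Real.log (1 / s)) ≤
          s / 2 * Real.exp (Real.log (Real.log X) ^ (1 + δ)) := by
        have h4 : s / 2 * Real.exp (Real.log (Real.log X) ^ (1 + δ)) =
            Real.exp (Real.log s - Real.log 2 + Real.log (Real.log X) ^ (1 + δ)) := by
          rw [Real.exp_add, Real.exp_sub, Real.exp_log hs, Real.exp_log (by norm_num)]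
        rw [h4]
        apply Real.exp_le_exp.2
        have h5 : Real.log s = -Real.log (1 / s) := by
          rw [one_div, Real.log_inv, neg_neg]
        have hlog2 : Real.log 2 ≤ 1 := by
          have := Real.log_two_lt_d9
          linarith only [this]
        linarith only [hmain, h5, hlog2]
      exact (hsplit _ (fun q r hq hr hTA _ =>
        classI_size hψ (hsupp q hq).2.2 (hsupp r hr).2.2 hTA.2.2)).trans
        (hfin _ _ hnearpart (hcore' _ hV0))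
    · refine (hsplit (Real.exp (s ^ (-ε₁))) ?_).trans
        (hfin _ _ hnearpart (hcore' _ (Real.exp_le_exp.2 h)))
      intro q r _ _ _ hnot
      rw [not_and_or] at hnot
      rcases hnot with h' | h'
      · exact (hVlt _ h').trans (le_max_left _ _)
      · exact (hVlt _ h').trans (le_max_right _ _)
  · have hA' : 18 * Real.log X ≤ s ^ (-ε₁) := by
      have hA0 : 0 < 18 * Real.log X := by positivity
      have h2 : ((18 * Real.log X) ^ (-1 / ε₁)) ^ (-ε₁) ≤ s ^ (-ε₁) :=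
        Real.rpow_le_rpow_of_nonpos hs hcase.le (by linarith only [hε₁])
      rw [← Real.rpow_mul hA0.le] at h2
      have e : -1 / ε₁ * -ε₁ = 1 := by field_simp
      rwa [e, Real.rpow_one] at h2
    have hbound : ∀ q r : ℕ, f q ≠ 0 → cofac q r ≤ V := by
      intro q r hq
      obtain ⟨_, h3, _⟩ := hsupp q hq
      have h4 : (cofac q r : ℝ) ≤ q := by exact_mod_cast Nat.div_le_self _ _
      have h5 : X ^ 9 = Real.exp (9 * Real.log X) := by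
        rw [mul_comm, Real.exp_mul, Real.exp_log hXpos]
        norm_cast
      rw [h5] at h3
      rw [hV]
      apply Nat.le_floor
      refine h4.trans (h3.trans (Real.exp_le_exp.mpr ?_))
      linarith only [hlogX, hA']
    have hmono : psum (TA γ ψ s) N f f ≤
        psum (fun q r => Rel γ ψ s q r ∧ Far γ s (cofac q r) (cofac r q) ∧
          cofac q r ≤ V ∧ cofac r q ≤ V) N f f := by
      apply psum_mono _ _ _ _ _ _ _ hf0 hf0
      rintro q _ r _ hR hne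
      exact ⟨⟨hR.1, hR.2.1, hbound q r (left_ne_zero_of_mul hne),
        hbound r q (right_ne_zero_of_mul hne)⟩, le_rfl⟩
    have h1 := hfin _ 0 hnearpart hC₂0
    rw [add_zero] at h1
    exact hmono.trans h1

end Vale.P028
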