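import Vale.Agent.P028.MathlibUsed
import Vale.Agent.P028.KNearA
import Vale.Agent.P028.KCore

/-!
# Far pairs, class I
-/

namespace Vale.P028

open Finset

/-- far pairs, class I -/
theorem typeA_one {δ : ℝ} (hδ : 0 < δ) :
    ∃ C c X₀ : ℝ, 0 < C ∧ 0 < c ∧
      ∀ γ X s : ℝ, X₀ ≤ X → 0 < s → s ≤ 1 / 1000 →
      ∀ (N : ℕ) (ψ f : ℕ → ℝ), (∀ q, 0 ≤ ψ q) →
        (∀ q, 0 ≤ f q ∧ f q ≤ ψ q * (q.totient / q)) →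
        (∀ q, f q ≠ 0 → X ≤ q ∧ (q : ℝ) ≤ X ^ 9 ∧
          ψ q ≤ Real.exp (-(Real.log (Real.log X)) ^ (1 + δ))) →
        psum (TA γ ψ s) N f f ≤
          C * s ^ (1 + c) * ((∑ q ∈ Icc 1 N, f q) + (∑ q ∈ Icc 1 N, f q) ^ 2) :=
  typeA_of_core hδ fun _ h => coreG h

end Vale.P028
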