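import Vale.Agent.P028.MathlibUsed
import Vale.Agent.P028.KNear
import Vale.Agent.P028.KPV
attribute [-instance] ProperSMul.toContinuousSMul IsTopologicalTorsor.toContinuousSMul IdemSemiring.toCanonicallyOrderedAdd IdemSemiring.toMulLeftMono IdemSemiring.toMulRightMono AddQuantale.instAddLeftMono AddQuantale.instAddRightMono Quantale.instMulLeftMono Quantale.instMulRightMono FiniteDimensional.rclike_to_real IsScalarTower.complexToReal FiniteDimensional.complexToReal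

/-!
# Pairs at a small distance
-/

namespace Vale.P028

open Finset

theorem small_level {δ : ℝ} (hδ : 0 < δ) :
    ∃ C c X₀ : ℝ, 0 < C ∧ 0 < c ∧
      ∀ γ X s : ℝ, X₀ ≤ X → 0 < s → s ≤ 1 / 1000 →
      ∀ (N : ℕ) (ψ f : ℕ → ℝ), (∀ q, 0 ≤ ψ q) →
        (∀ q, 0 ≤ f q ∧ f q ≤ ψ q * (q.totient / q)) →
        (∀ q, f q ≠ 0 → X ≤ q ∧ (q : ℝ) ≤ X ^ 9 ∧
          ψ q ≤ Real.exp (-(Real.log (Real.log X)) ^ (1 + δ))) →
        wsum (TA γ ψ s) N f f (fun q r => GG (cofac q r * cofac r q)) +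
          wsum (UB ψ s) N f f (fun q r => GG (cofac q r * cofac r q)) ≤
          C * s ^ (1 + c) * ((∑ q ∈ Icc 1 N, f q) + (∑ q ∈ Icc 1 N, f q) ^ 2) := by
  obtain ⟨C₁, c₁, X₁, hC₁, hc₁, hTA⟩ := typeA_one hδ
  obtain ⟨C₂, hC₂, hUB⟩ := typeU
  obtain ⟨C₃, hC₃, hG1⟩ := GG_transfer (half_pos hc₁)
  obtain ⟨C₄, hC₄, hG2⟩ := GG_transfer (η := 1 / 5) (by norm_num)
  obtain ⟨c, hc⟩ : ∃ c : ℝ, c = min (c₁ / 2) (1 / 5) := ⟨_, rfl⟩
  have hc0 : 0 < c := by rw [hc]; exact lt_min (half_pos hc₁) (by norm_num)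
  have hcc1 : c ≤ c₁ / 2 := by rw [hc]; exact min_le_left _ _
  have hcc2 : c ≤ 1 / 5 := by rw [hc]; exact min_le_right _ _
  refine ⟨C₃ * C₁ + C₃ + (C₄ * C₂ + C₄), c, X₁, by (clear * - hC₃ hC₁ hC₄ hC₂; positivity), hc0, ?_⟩
  intro γ X s hX hs hs3 N ψ f hψ hf hsupp
  set F : ℝ := ∑ q ∈ Icc 1 N, f q with hFdef
  have hf0 : ∀ q, 0 ≤ f q := fun q => (hf q).1
  have hF0 : 0 ≤ F := sum_nonneg fun q _ => hf0 q
  have hFF : 0 ≤ F + F ^ 2 := by (clear * - hF0; positivity)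
  have hs1 : s ≤ 1 := by linarith only [hs3]
  have hp : 0 ≤ s ^ (1 + c) := Real.rpow_nonneg hs.le _
  have hs2 : s ^ 2 ≤ s ^ (1 + c) := by
    rw [← Real.rpow_two]
    exact Real.rpow_le_rpow_of_exponent_ge hs hs1 (by linarith only [hcc2])
  have h1 := hG1 (TA γ ψ s) s N ψ f hs hs3 hψ hf (fun q r h => ⟨h.1.2.1, h.1.2.2.1⟩)
  have h2 := hG2 (UB ψ s) s N ψ f hs hs3 hψ hf (fun q r h => ⟨h.1, h.2.1⟩)
  have h3 := hTA γ X s hX hs hs3 N ψ f hψ hf hsupp
  have h4 := hUB s N ψ f hs hs1 hψ hf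
  have e1 : s ^ (-(c₁ / 2)) * s ^ (1 + c₁) ≤ s ^ (1 + c) := by
    rw [← Real.rpow_add hs]
    exact Real.rpow_le_rpow_of_exponent_ge hs hs1 (by linarith only [hcc1])
  have e2 : s ^ (-(1 / 5) : ℝ) * s ^ (7 / 5 : ℝ) ≤ s ^ (1 + c) := by
    rw [← Real.rpow_add hs]
    exact Real.rpow_le_rpow_of_exponent_ge hs hs1 (by linarith only [hcc2])
  have hq1 : 0 ≤ s ^ (-(c₁ / 2)) := Real.rpow_nonneg hs.le _
  have hq2 : 0 ≤ s ^ (-(1 / 5) : ℝ) := Real.rpow_nonneg hs.le _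
  have f1 : wsum (TA γ ψ s) N f f (fun q r => GG (cofac q r * cofac r q)) ≤
      (C₃ * C₁ + C₃) * s ^ (1 + c) * (F + F ^ 2) := by
    calc _ ≤ C₃ * s ^ (-(c₁ / 2)) * psum (TA γ ψ s) N f f + C₃ * s ^ 2 * (F + F ^ 2) := h1
      _ ≤ C₃ * s ^ (-(c₁ / 2)) * (C₁ * s ^ (1 + c₁) * (F + F ^ 2)) +
          C₃ * s ^ (1 + c) * (F + F ^ 2) := by (clear * - h3 hC₃ hs hs2 hF0; gcongr)
      _ = C₃ * C₁ * (s ^ (-(c₁ / 2)) * s ^ (1 + c₁)) * (F + F ^ 2) +
          C₃ * s ^ (1 + c) * (F + F ^ 2) := by ring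
      _ ≤ C₃ * C₁ * s ^ (1 + c) * (F + F ^ 2) + C₃ * s ^ (1 + c) * (F + F ^ 2) := by (clear * - e1 hC₃ hC₁ hF0; gcongr)
      _ = _ := by ring
  have f2 : wsum (UB ψ s) N f f (fun q r => GG (cofac q r * cofac r q)) ≤
      (C₄ * C₂ + C₄) * s ^ (1 + c) * (F + F ^ 2) := by
    calc _ ≤ C₄ * s ^ (-(1 / 5) : ℝ) * psum (UB ψ s) N f f + C₄ * s ^ 2 * (F + F ^ 2) := h2
      _ ≤ C₄ * s ^ (-(1 / 5) : ℝ) * (C₂ * s ^ (7 / 5 : ℝ) * (F + F ^ 2)) +
          C₄ * s ^ (1 + c) * (F + F ^ 2) := by (clear * - h4 hC₄ hs hs2 hF0; gcongr)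
      _ = C₄ * C₂ * (s ^ (-(1 / 5) : ℝ) * s ^ (7 / 5 : ℝ)) * (F + F ^ 2) +
          C₄ * s ^ (1 + c) * (F + F ^ 2) := by ring
      _ ≤ C₄ * C₂ * s ^ (1 + c) * (F + F ^ 2) + C₄ * s ^ (1 + c) * (F + F ^ 2) := by (clear * - e2 hC₄ hC₂ hF0; gcongr)
      _ = _ := by ring
  calc _ ≤ (C₃ * C₁ + C₃) * s ^ (1 + c) * (F + F ^ 2) +
      (C₄ * C₂ + C₄) * s ^ (1 + c) * (F + F ^ 2) := add_le_add f1 f2
    _ = _ := by ring

theorem exists_dyadic {D : ℝ} (hD : 0 < D) (hD1 : D ≤ 1) :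
    ∃ j : ℕ, D ≤ (1 / 2 : ℝ) ^ j ∧ (1 / 2 : ℝ) ^ j / 2 < D := by
  have hex : ∃ j : ℕ, (1 / 2 : ℝ) ^ (j + 1) < D := by
    obtain ⟨n, hn⟩ := exists_pow_lt_of_lt_one hD (by norm_num : (1 / 2 : ℝ) < 1)
    refine ⟨n, lt_of_le_of_lt ?_ hn⟩
    exact pow_le_pow_of_le_one (by norm_num) (by norm_num) (Nat.le_succ n)
  classical
  refine ⟨Nat.find hex, ?_, ?_⟩
  · rcases Nat.eq_zero_or_pos (Nat.find hex) with h | h
    · rw [h, pow_zero]; exact hD1
    · have h1 : ¬ (1 / 2 : ℝ) ^ ((Nat.find hex - 1) + 1) < D := Nat.find_min hex (by omega)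
      have h2 : Nat.find hex - 1 + 1 = Nat.find hex := by omega
      rw [h2] at h1
      exact not_lt.mp h1
  · have h1 := Nat.find_spec hex
    rw [pow_succ] at h1
    linarith only [h1]

/-- the relation of the small pairs -/
def SmallRel (γ : ℝ) (ψ : ℕ → ℝ) (q r : ℕ) : Prop :=
  DD q r (ψ q) (ψ r) < 1 / 1024 ∧ ∀ s, 0 < s → s ≤ 1 / 1024 →
    DD q r (ψ q) (ψ r) ≤ s → s / 2 < DD q r (ψ q) (ψ r) → TA γ ψ s q r ∨ UB ψ s q r

theorem GG_nonneg (n : ℕ) : 0 ≤ GG n := by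
  unfold GG
  refine prod_nonneg fun p hp => inv_nonneg.mpr ?_
  have hp2 : (2 : ℝ) ≤ p := by exact_mod_cast (Nat.prime_of_mem_primeFactors hp).two_le
  have h1 : 1 / (p : ℝ) ≤ 1 / 2 := one_div_le_one_div_of_le (by norm_num) hp2
  linarith only [h1]

theorem DD_pos'' {q r : ℕ} (hq : 0 < q) (hr : 0 < r) {x x' : ℝ} (hx : 0 < x) :
    0 < DD q r x x' := by
  have hg0 : (0 : ℝ) < Nat.gcd q r := by exact_mod_cast Nat.gcd_pos_of_pos_left _ hq
  have hrR : (0 : ℝ) < r := by exact_mod_cast hr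
  rw [DD]
  apply div_pos _ hg0
  exact lt_max_of_lt_left (mul_pos hrR hx)

open Classical in
theorem small_sum {δ : ℝ} (hδ : 0 < δ) : ∃ C X₀ : ℝ, 0 < C ∧
    ∀ γ X : ℝ, X₀ ≤ X → ∀ (N : ℕ) (ψ f : ℕ → ℝ), (∀ q, 0 ≤ ψ q) →
      (∀ q, 0 ≤ f q ∧ f q ≤ ψ q * (q.totient / q)) →
      (∀ q, f q ≠ 0 → X ≤ q ∧ (q : ℝ) ≤ X ^ 9 ∧
        ψ q ≤ Real.exp (-(Real.log (Real.log X)) ^ (1 + δ))) →
      wsum (SmallRel γ ψ) N f f
        (fun q r => GG (cofac q r * cofac r q) / DD q r (ψ q) (ψ r)) ≤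
        C * ((∑ q ∈ Icc 1 N, f q) + (∑ q ∈ Icc 1 N, f q) ^ 2) := by
  obtain ⟨C, c, X₀, hC, hc, hlev⟩ := small_level hδ
  have hc1 : (1 / 2 : ℝ) ^ c < 1 := Real.rpow_lt_one (by norm_num) (by norm_num) hc
  refine ⟨2 * C * (1 - (1 / 2 : ℝ) ^ c)⁻¹, X₀, ?_, ?_⟩
  · have : 0 < 1 - (1 / 2 : ℝ) ^ c := by linarith only [hc1]
    positivity
  intro γ X hX N ψ f hψ hf hsupp
  set F : ℝ := ∑ q ∈ Icc 1 N, f q with hFdef
  have hf0 : ∀ q, 0 ≤ f q := fun q => (hf q).1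
  have hF0 : 0 ≤ F := sum_nonneg fun q _ => hf0 q
  have hFF : 0 ≤ F + F ^ 2 := by (clear * - hF0; positivity)
  -- the dyadic index
  have hj : ∀ q r : ℕ, ∃ j : ℕ, 0 < DD q r (ψ q) (ψ r) → DD q r (ψ q) (ψ r) ≤ 1 →
      DD q r (ψ q) (ψ r) ≤ (1 / 2 : ℝ) ^ j ∧ (1 / 2 : ℝ) ^ j / 2 < DD q r (ψ q) (ψ r) := by
    intro q r
    by_cases h : 0 < DD q r (ψ q) (ψ r) ∧ DD q r (ψ q) (ψ r) ≤ 1
    · obtain ⟨j, hj⟩ := exists_dyadic h.1 h.2
      exact ⟨j, fun _ _ => hj⟩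
    · exact ⟨0, fun h1 h2 => absurd ⟨h1, h2⟩ h⟩
  choose j hj using hj
  set J : ℕ := (Icc 1 N ×ˢ Icc 1 N).sup (fun p => j p.1 p.2) + 1 with hJ
  have hjJ : ∀ q ∈ Icc 1 N, ∀ r ∈ Icc 1 N, j q r < J := by
    intro q hq r hr
    have hm : ((q, r) : ℕ × ℕ) ∈ Icc 1 N ×ˢ Icc 1 N := mem_product.mpr ⟨hq, hr⟩
    have h1 := Finset.le_sup (f := fun p : ℕ × ℕ => j p.1 p.2) hm
    simp only at h1
    omega
  set G : ℕ → ℕ → ℝ := fun q r => GG (cofac q r * cofac r q) with hG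
  have hG0 : ∀ q r, 0 ≤ G q r := fun q r => GG_nonneg _
  -- pointwise
  have hpt : ∀ q ∈ Icc 1 N, ∀ r ∈ Icc 1 N,
      (if SmallRel γ ψ q r then f q * f r * (G q r / DD q r (ψ q) (ψ r)) else 0) ≤
      ∑ i ∈ (range J).filter (fun i => 10 ≤ i), 2 * (2 : ℝ) ^ i *
        ((if TA γ ψ ((1 / 2 : ℝ) ^ i) q r then f q * f r * G q r else 0) +
          (if UB ψ ((1 / 2 : ℝ) ^ i) q r then f q * f r * G q r else 0)) := by
    intro q hq r hr
    have hq0 : 0 < q := by rw [mem_Icc] at hq; omega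
    have hr0 : 0 < r := by rw [mem_Icc] at hr; omega
    have hnn : 0 ≤ f q * f r := mul_nonneg (hf0 q) (hf0 r)
    have hfG : 0 ≤ f q * f r * G q r := mul_nonneg hnn (hG0 q r)
    have hterm : ∀ i ∈ (range J).filter (fun i => 10 ≤ i), 0 ≤ 2 * (2 : ℝ) ^ i *
        ((if TA γ ψ ((1 / 2 : ℝ) ^ i) q r then f q * f r * G q r else 0) +
          (if UB ψ ((1 / 2 : ℝ) ^ i) q r then f q * f r * G q r else 0)) := by
      intro i _
      apply mul_nonneg (by positivity)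
      apply add_nonneg <;> split_ifs <;> first | exact hfG | exact le_rfl
    have hs := sum_nonneg hterm
    by_cases hR : SmallRel γ ψ q r
    · rw [if_pos hR]
      by_cases hne : f q * f r = 0
      · rw [hne, zero_mul]
        rw [hne] at hs
        exact hs
      · have hfq : f q ≠ 0 := left_ne_zero_of_mul hne
        have hψq : 0 < ψ q := by
          rcases (hψ q).eq_or_lt with h | h
          · exfalso
            apply hfq
            have := (hf q).2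
            rw [← h, zero_mul] at this
            linarith only [this, hf0 q]
          · exact h
        have hD0 : 0 < DD q r (ψ q) (ψ r) := DD_pos'' hq0 hr0 hψq
        obtain ⟨hR1, hR2⟩ := hR
        obtain ⟨h1, h2⟩ := hj q r hD0 (by linarith only [hR1])
        have hs0 : (0 : ℝ) < (1 / 2 : ℝ) ^ (j q r) := by positivity
        have hj10 : 10 ≤ j q r := by
          by_contra hlt
          push Not at hlt
          have h3 : (1 / 2 : ℝ) ^ 9 ≤ (1 / 2 : ℝ) ^ (j q r) :=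
            pow_le_pow_of_le_one (by norm_num) (by norm_num) (by omega)
          have h4 : (1 / 2 : ℝ) ^ 9 = 1 / 512 := by norm_num
          rw [h4] at h3
          linarith only [hR1, h2, h3]
        have hs1024 : (1 / 2 : ℝ) ^ (j q r) ≤ 1 / 1024 := by
          have h3 : (1 / 2 : ℝ) ^ (j q r) ≤ (1 / 2 : ℝ) ^ 10 :=
            pow_le_pow_of_le_one (by norm_num) (by norm_num) hj10
          have h4 : (1 / 2 : ℝ) ^ 10 = 1 / 1024 := by norm_num
          rw [h4] at h3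
          exact h3
        have hmem : j q r ∈ (range J).filter (fun i => 10 ≤ i) := by
          rw [mem_filter, mem_range]
          exact ⟨hjJ q hq r hr, hj10⟩
        have h3 := single_le_sum hterm hmem
        refine le_trans ?_ h3
        have h4 : f q * f r * G q r ≤
            (if TA γ ψ ((1 / 2 : ℝ) ^ (j q r)) q r then f q * f r * G q r else 0) +
            (if UB ψ ((1 / 2 : ℝ) ^ (j q r)) q r then f q * f r * G q r else 0) := by
          rcases hR2 _ hs0 hs1024 h1 h2 with h | h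
          · rw [if_pos h]
            have : 0 ≤ (if UB ψ ((1 / 2 : ℝ) ^ (j q r)) q r then f q * f r * G q r else 0) := by
              split_ifs
              · exact hfG
              · exact le_rfl
            linarith only [this]
          · rw [if_pos h]
            have : 0 ≤ (if TA γ ψ ((1 / 2 : ℝ) ^ (j q r)) q r then f q * f r * G q r else 0) := by
              split_ifs
              · exact hfG
              · exact le_rfl
            linarith only [this]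
        have h5 : 1 / DD q r (ψ q) (ψ r) ≤ 2 * (2 : ℝ) ^ (j q r) := by
          rw [div_le_iff₀ hD0]
          have h6 : (2 : ℝ) ^ (j q r) * (1 / 2 : ℝ) ^ (j q r) = 1 := by
            rw [← mul_pow]; norm_num
          have h7 : (2 : ℝ) ^ (j q r) * ((1 / 2 : ℝ) ^ (j q r) / 2) ≤
              (2 : ℝ) ^ (j q r) * DD q r (ψ q) (ψ r) := by (clear * - h2; gcongr)
          nlinarith only [h6, h7]
        calc f q * f r * (G q r / DD q r (ψ q) (ψ r))
            = (1 / DD q r (ψ q) (ψ r)) * (f q * f r * G q r) := by ring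
          _ ≤ 2 * (2 : ℝ) ^ (j q r) * (f q * f r * G q r) := by (clear * - h5 hfG; gcongr)
          _ ≤ _ := by (clear * - h4; gcongr)
    · rw [if_neg hR]
      exact hs
  calc wsum (SmallRel γ ψ) N f f
        (fun q r => GG (cofac q r * cofac r q) / DD q r (ψ q) (ψ r))
      ≤ ∑ q ∈ Icc 1 N, ∑ r ∈ Icc 1 N, ∑ i ∈ (range J).filter (fun i => 10 ≤ i),
        2 * (2 : ℝ) ^ i *
        ((if TA γ ψ ((1 / 2 : ℝ) ^ i) q r then f q * f r * G q r else 0) +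
          (if UB ψ ((1 / 2 : ℝ) ^ i) q r then f q * f r * G q r else 0)) := by
        unfold wsum
        exact sum_le_sum fun q hq => sum_le_sum fun r hr => hpt q hq r hr
    _ = ∑ i ∈ (range J).filter (fun i => 10 ≤ i), 2 * (2 : ℝ) ^ i *
        (wsum (TA γ ψ ((1 / 2 : ℝ) ^ i)) N f f G + wsum (UB ψ ((1 / 2 : ℝ) ^ i)) N f f G) := by
        unfold wsum
        simp_rw [mul_add, mul_sum]
        conv_lhs =>
          enter [2, q]
          rw [sum_comm]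
        rw [sum_comm]
        refine sum_congr rfl fun i _ => ?_
        simp_rw [sum_add_distrib]
    _ ≤ ∑ i ∈ (range J).filter (fun i => 10 ≤ i), 2 * (2 : ℝ) ^ i *
        (C * ((1 / 2 : ℝ) ^ i) ^ (1 + c) * (F + F ^ 2)) := by
        apply sum_le_sum
        intro i hi
        rw [mem_filter] at hi
        have hs0 : (0 : ℝ) < (1 / 2 : ℝ) ^ i := by positivity
        have hs3 : (1 / 2 : ℝ) ^ i ≤ 1 / 1000 := by
          have h3 : (1 / 2 : ℝ) ^ i ≤ (1 / 2 : ℝ) ^ 10 :=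
            pow_le_pow_of_le_one (by norm_num) (by norm_num) hi.2
          have h4 : (1 / 2 : ℝ) ^ 10 = 1 / 1024 := by norm_num
          rw [h4] at h3
          linarith only [h3]
        have := hlev γ X ((1 / 2 : ℝ) ^ i) hX hs0 hs3 N ψ f hψ hf hsupp
        (clear * - this; gcongr)
    _ = ∑ i ∈ (range J).filter (fun i => 10 ≤ i), 2 * C * (F + F ^ 2) * ((1 / 2 : ℝ) ^ c) ^ i := by
        apply sum_congr rfl
        intro i _
        rw [half_pow_rpow]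
        have h6 : (2 : ℝ) ^ i * (1 / 2 : ℝ) ^ i = 1 := by
          rw [← mul_pow]; norm_num
        linear_combination (2 * C * (F + F ^ 2) * ((1 / 2 : ℝ) ^ c) ^ i) * h6
    _ ≤ ∑ i ∈ range J, 2 * C * (F + F ^ 2) * ((1 / 2 : ℝ) ^ c) ^ i := by
        apply sum_le_sum_of_subset_of_nonneg (filter_subset _ _)
        intro i _ _
        have : (0 : ℝ) ≤ (1 / 2 : ℝ) ^ c := by positivity
        (clear * - hC hF0; positivity)
    _ = 2 * C * (F + F ^ 2) * ∑ i ∈ range J, ((1 / 2 : ℝ) ^ c) ^ i := by rw [mul_sum]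
    _ ≤ 2 * C * (F + F ^ 2) * (1 - (1 / 2 : ℝ) ^ c)⁻¹ := by
        have := geom_half hc J
        (clear * - this hC hF0; gcongr)
    _ = _ := by ring

end Vale.P028
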