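import Vale.Agent.P028.MathlibUsed
import Vale.Agent.P028.KPair3
import Vale.Agent.P028.KSmall
import Vale.Agent.P028.KPV
import Vale.Agent.P028.KResid
import Vale.Agent.P028.KLower
import Vale.Agent.P028.KBad
attribute [-instance] ProperSMul.toContinuousSMul IsTopologicalTorsor.toContinuousSMul IdemSemiring.toCanonicallyOrderedAdd IdemSemiring.toMulLeftMono IdemSemiring.toMulRightMono AddQuantale.instAddLeftMono AddQuantale.instAddRightMono Quantale.instMulLeftMono Quantale.instMulRightMono FiniteDimensional.rclike_to_real IsScalarTower.complexToReal FiniteDimensional.complexToReal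

/-!
# One level, class I
-/

namespace Vale.P028

open Finset MeasureTheory

theorem DD_comm (q r : ℕ) (x y : ℝ) : DD q r x y = DD r q y x := by
  unfold DD
  rw [Nat.gcd_comm, max_comm]

open Classical in
theorem wsum_swap (R : ℕ → ℕ → Prop) (N : ℕ) (f : ℕ → ℝ) (G : ℕ → ℕ → ℝ)
    (hG : ∀ q r, G q r = G r q) : wsum (fun q r => R r q) N f f G = wsum R N f f G := by
  unfold wsum
  rw [sum_comm]
  refine sum_congr rfl fun q _ => sum_congr rfl fun r _ => ?_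
  rw [hG r q, mul_comm (f r) (f q)]

/-- the relation of the pairs with different denominators -/
def BadRel (γ : ℝ) (ψ : ℕ → ℝ) (q r : ℕ) : Prop :=
  Bq γ (ψ q) < Bq γ (ψ r) ∧ (Bq γ (ψ r) / Nat.gcd (Bq γ (ψ q)) (Bq γ (ψ r))) ∣ cofac q r

open Classical in
/-- one level, with a function vanishing outside of the level -/
theorem level_aux {δ : ℝ} (hδ : 0 < δ) : ∃ C X₀ : ℝ, 0 < C ∧
    ∀ (γ X : ℝ) (ψ : ℕ → ℝ) (S : Finset ℕ) (N : ℕ), X₀ ≤ X → S ⊆ Icc 1 N →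
      (∀ q, q ∉ S → ψ q = 0) →
      (∀ q ∈ S, X ≤ q ∧ (q : ℝ) ≤ X ^ 3 ∧ 0 < ψ q ∧
        ψ q ≤ Real.exp (-(Real.log (Real.log X)) ^ (1 + δ))) →
      ∑ q ∈ S, ∑ r ∈ S, wK γ (ψ q) q * wK γ (ψ r) r *
        volume.real (GK γ ψ q ∩ GK γ ψ r ∩ Set.Ioc 0 1) ≤
      C * ((∑ q ∈ Icc 1 N, (q.totient : ℝ) / q * ψ q) +
        (∑ q ∈ Icc 1 N, (q.totient : ℝ) / q * ψ q) ^ 2) := by
  obtain ⟨C₀, hC₀, hpair⟩ := pair_three
  obtain ⟨C₁, hC₁, hanat⟩ := anat_sum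
  obtain ⟨C₂, X₂, hC₂, hsmall⟩ := small_sum hδ
  obtain ⟨C₃, hC₃, hres⟩ := resid
  obtain ⟨C₄, X₄, hC₄, hbad⟩ := bad_sum hδ
  obtain ⟨c, hc, X₅, htot⟩ := totient_lower
  refine ⟨C₀ * C₁ + C₀ * C₂ + 128 * C₃ + 32 / c ^ 2 * C₄,
    max (max X₂ X₄) (max X₅ (Real.exp (Real.exp 1))), by (clear * - hC₀ hC₁ hC₂ hC₃ hc hC₄; positivity), ?_⟩
  intro γ X ψ S N hX hSN hψ0 hS
  have hX2 : X₂ ≤ X := ((le_max_left _ _).trans (le_max_left _ _)).trans hX
  have hX4 : X₄ ≤ X := ((le_max_right _ _).trans (le_max_left _ _)).trans hX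
  have hX5 : X₅ ≤ X := ((le_max_left _ _).trans (le_max_right _ _)).trans hX
  have hXe : Real.exp (Real.exp 1) ≤ X := ((le_max_right _ _).trans (le_max_right _ _)).trans hX
  have hXpos : 0 < X := (Real.exp_pos _).trans_le hXe
  have hX1 : 1 ≤ X := le_trans (Real.one_le_exp (Real.exp_pos _).le) hXe
  have hlog : Real.exp 1 ≤ Real.log X := (Real.le_log_iff_exp_le hXpos).mpr hXe
  have hl1 : 1 ≤ Real.log (Real.log X) :=
    (Real.le_log_iff_exp_le ((Real.exp_pos _).trans_le hlog)).mpr hlog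
  have hψ : ∀ q, 0 ≤ ψ q := by
    intro q
    by_cases h : q ∈ S
    · exact (hS q h).2.2.1.le
    · rw [hψ0 q h]
  set f : ℕ → ℝ := fun q => (q.totient : ℝ) / q * ψ q with hf
  have hf0 : ∀ q, 0 ≤ f q := fun q => mul_nonneg (by (clear * -; positivity)) (hψ q)
  have hfψ : ∀ q, 0 ≤ f q ∧ f q ≤ ψ q * (q.totient / q) :=
    fun q => ⟨hf0 q, le_of_eq (mul_comm _ _)⟩
  have hfS : ∀ q, f q ≠ 0 → q ∈ S := by
    intro q h
    by_contra hne
    apply h
    simp only [hf, hψ0 q hne, mul_zero]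
  have hX39 : X ^ 3 ≤ X ^ 9 := pow_le_pow_right₀ hX1 (by norm_num)
  set F : ℝ := ∑ q ∈ Icc 1 N, f q with hF
  have hF0 : 0 ≤ F := sum_nonneg fun q _ => hf0 q
  have hFF : 0 ≤ F + F ^ 2 := by (clear * - hF0; positivity)
  have hpos : ∀ q ∈ S, 0 < q := by
    intro q hq
    have := hSN hq
    rw [mem_Icc] at this
    omega
  have hhalf : ∀ q ∈ S, ψ q ≤ 1 / 2 := by
    intro q hq
    refine (hS q hq).2.2.2.trans ?_
    have h1 : 1 ≤ Real.log (Real.log X) ^ (1 + δ) := Real.one_le_rpow hl1 (by linarith only [hδ])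
    calc Real.exp (-Real.log (Real.log X) ^ (1 + δ)) ≤ Real.exp (-1) :=
          Real.exp_le_exp.mpr (by linarith only [h1])
      _ ≤ 1 / 2 := by
          rw [Real.exp_neg, one_div]
          apply inv_anti₀ (by norm_num)
          have := Real.exp_one_gt_d9
          linarith only [this]
  -- pointwise bound, everything expressed by `f`
  set R₁ : ℕ → ℕ → Prop := SmallRel γ ψ with hR₁
  set R₂ : ℕ → ℕ → Prop := BadRel γ ψ with hR₂
  set ℓ : ℝ := Real.log (Real.log X) with hℓ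
  have hpt : ∀ q ∈ S, ∀ r ∈ S, wK γ (ψ q) q * wK γ (ψ r) r *
        volume.real (GK γ ψ q ∩ GK γ ψ r ∩ Set.Ioc 0 1) ≤
      C₀ * (f q * f r * GT (max 2 (DD q r (ψ q) (ψ r))) (cofac q r * cofac r q)) +
      C₀ * (if R₁ q r then f q * f r * (GG (cofac q r * cofac r q) / DD q r (ψ q) (ψ r))
        else 0) +
      128 * (Real.sqrt (f q * f r) * resK q r) +
      16 / c ^ 2 * (if R₂ q r then f q * f r * (ℓ ^ 2 / DD q r (ψ q) (ψ r)) else 0) +
      16 / c ^ 2 * (if R₂ r q then f q * f r * (ℓ ^ 2 / DD q r (ψ q) (ψ r)) else 0) := by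
    intro q hq r hr
    have hq0 := hpos q hq
    have hr0 := hpos r hr
    obtain ⟨hq1, hq2, hq3, hq4⟩ := hS q hq
    obtain ⟨hr1, hr2, hr3, hr4⟩ := hS r hr
    have h1 := hpair γ ψ q r hq0 hr0 hq3 hr3 (hhalf q hq) (hhalf r hr)
    have hD0 : 0 < DD q r (ψ q) (ψ r) := DD_pos hq0 hr0 hq3
    have htq := htot X hX5 q hq0 (hq2.trans hX39)
    have htr := htot X hX5 r hr0 (hr2.trans hX39)
    rw [← hℓ] at htq htr
    have hψψ : ψ q * ψ r ≤ 1 / c ^ 2 * (f q * f r * ℓ ^ 2) := by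
      have hcl : 0 < c / ℓ := by (clear * - hc hl1; positivity)
      have h2 : ψ q * (c / ℓ) ≤ f q := by
        simp only [hf]
        rw [mul_comm]
        (clear * - htq hq3; gcongr)
      have h3 : ψ r * (c / ℓ) ≤ f r := by
        simp only [hf]
        rw [mul_comm]
        (clear * - htr hr3; gcongr)
      have h4 : (ψ q * (c / ℓ)) * (ψ r * (c / ℓ)) ≤ f q * f r :=
        mul_le_mul h2 h3 (by (clear * - hr3 hc hl1; positivity)) (hf0 q)
      have h5 : ψ q * ψ r = 1 / c ^ 2 * ((ψ q * (c / ℓ)) * (ψ r * (c / ℓ)) * ℓ ^ 2) := by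
        (clear * - hc hl1 hr3 hq3; field_simp)
      rw [h5]
      (clear * - h4 hl1 hc; gcongr)
    have h6 : 16 * (ψ q * ψ r / DD q r (ψ q) (ψ r)) ≤
        16 / c ^ 2 * (f q * f r * (ℓ ^ 2 / DD q r (ψ q) (ψ r))) := by
      calc 16 * (ψ q * ψ r / DD q r (ψ q) (ψ r))
          ≤ 16 * (1 / c ^ 2 * (f q * f r * ℓ ^ 2) / DD q r (ψ q) (ψ r)) := by (clear * - hψψ hD0; gcongr)
        _ = _ := by ring
    refine h1.trans ?_
    refine add_le_add (add_le_add (add_le_add (add_le_add le_rfl ?_) le_rfl) ?_) ?_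
    · rw [hR₁]
      unfold SmallRel
      split_ifs with h
      · apply le_of_eq
        simp only [hf]
        ring
      · simp
    · rw [hR₂]
      unfold BadRel
      split_ifs with h
      · exact h6
      · simp
    · rw [hR₂]
      unfold BadRel
      split_ifs with h
      · exact h6
      · simp
  -- the sums
  have hGT0 : ∀ (D : ℝ) (n : ℕ), 0 ≤ GT D n := by
    intro D n
    rw [GT_eq]
    exact inv_nonneg.mpr (pr_pos fun p hp =>
      Nat.prime_of_mem_primeFactors (mem_filter.mp hp).1).le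
  have hDn : ∀ q r, 0 ≤ DD q r (ψ q) (ψ r) := by
    intro q r
    unfold DD
    exact div_nonneg (le_trans (mul_nonneg (Nat.cast_nonneg _) (hψ q)) (le_max_left _ _))
      (Nat.cast_nonneg _)
  have hext : ∀ G : ℕ → ℕ → ℝ, (∀ q r, 0 ≤ G q r) →
      ∑ q ∈ S, ∑ r ∈ S, G q r ≤ ∑ q ∈ Icc 1 N, ∑ r ∈ Icc 1 N, G q r := by
    intro G hG
    calc ∑ q ∈ S, ∑ r ∈ S, G q r ≤ ∑ q ∈ S, ∑ r ∈ Icc 1 N, G q r :=
          sum_le_sum fun q _ => sum_le_sum_of_subset_of_nonneg hSN fun r _ _ => hG q r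
      _ ≤ _ := sum_le_sum_of_subset_of_nonneg hSN fun q _ _ => sum_nonneg fun r _ => hG q r
  have hff : ∀ q r, 0 ≤ f q * f r := fun q r => mul_nonneg (hf0 q) (hf0 r)
  have s1 : ∑ q ∈ S, ∑ r ∈ S,
      f q * f r * GT (max 2 (DD q r (ψ q) (ψ r))) (cofac q r * cofac r q) ≤
      C₁ * (F + F ^ 2) :=
    (hext _ fun q r => mul_nonneg (hff q r) (hGT0 _ _)).trans (hanat N ψ f hψ hfψ)
  have s2 : ∑ q ∈ S, ∑ r ∈ S,
      (if R₁ q r then f q * f r * (GG (cofac q r * cofac r q) / DD q r (ψ q) (ψ r)) else 0) ≤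
      C₂ * (F + F ^ 2) := by
    refine (hext _ fun q r => ?_).trans (hsmall γ X hX2 N ψ f hψ hfψ fun q hq => ?_)
    · split_ifs
      · exact mul_nonneg (hff q r) (div_nonneg (GG_nonneg _) (hDn q r))
      · exact le_rfl
    · obtain ⟨a, b, _, d⟩ := hS q (hfS q hq)
      exact ⟨a, b.trans hX39, d⟩
  have s3 : ∑ q ∈ S, ∑ r ∈ S, Real.sqrt (f q * f r) * resK q r ≤ C₃ * F :=
    (hext _ fun q r => mul_nonneg (Real.sqrt_nonneg _) (resK_nonneg q r)).trans (hres N f hf0)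
  have s4 : ∑ q ∈ S, ∑ r ∈ S,
      (if R₂ q r then f q * f r * (ℓ ^ 2 / DD q r (ψ q) (ψ r)) else 0) ≤
      C₄ * (F + F ^ 2) := by
    refine (hext _ fun q r => ?_).trans (hbad γ X hX4 N ψ f hψ hfψ fun q hq => ?_)
    · split_ifs
      · exact mul_nonneg (hff q r) (div_nonneg (by (clear * - hl1; positivity)) (hDn q r))
      · exact le_rfl
    · obtain ⟨_, _, c, d⟩ := hS q (hfS q hq)
      exact ⟨c, d⟩
  have s5 : ∑ q ∈ S, ∑ r ∈ S,
      (if R₂ r q then f q * f r * (ℓ ^ 2 / DD q r (ψ q) (ψ r)) else 0) ≤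
      C₄ * (F + F ^ 2) := by
    refine (le_of_eq ?_).trans s4
    rw [sum_comm]
    refine sum_congr rfl fun q _ => sum_congr rfl fun r _ => ?_
    rw [DD_comm r q, mul_comm (f r) (f q)]
  have hsum : ∑ q ∈ S, ∑ r ∈ S, wK γ (ψ q) q * wK γ (ψ r) r *
        volume.real (GK γ ψ q ∩ GK γ ψ r ∩ Set.Ioc 0 1) ≤
      C₀ * (C₁ * (F + F ^ 2)) + C₀ * (C₂ * (F + F ^ 2)) + 128 * (C₃ * F) +
        16 / c ^ 2 * (C₄ * (F + F ^ 2)) + 16 / c ^ 2 * (C₄ * (F + F ^ 2)) := by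
    refine (sum_le_sum fun q hq => sum_le_sum fun r hr => hpt q hq r hr).trans ?_
    simp_rw [sum_add_distrib, ← mul_sum]
    (clear * - s1 hC₀ s2 s3 s4 hc s5; gcongr)
  refine hsum.trans ?_
  have h7 : 128 * (C₃ * F) ≤ 128 * (C₃ * (F + F ^ 2)) := by
    have : F ≤ F + F ^ 2 := by nlinarith only []
    (clear * - this hC₃; gcongr)
  have h8 : (C₀ * C₁ + C₀ * C₂ + 128 * C₃ + 32 / c ^ 2 * C₄) * (F + F ^ 2) =
      C₀ * (C₁ * (F + F ^ 2)) + C₀ * (C₂ * (F + F ^ 2)) + 128 * (C₃ * (F + F ^ 2)) +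
        16 / c ^ 2 * (C₄ * (F + F ^ 2)) + 16 / c ^ 2 * (C₄ * (F + F ^ 2)) := by ring
  rw [h8]
  linarith only [h7]

/-- one level, class I -/
theorem level_one {δ : ℝ} (hδ : 0 < δ) : ∃ C X₀ : ℝ, 0 < C ∧
    ∀ (γ X : ℝ) (ψ : ℕ → ℝ) (S : Finset ℕ), X₀ ≤ X →
      (∀ q ∈ S, X ≤ q ∧ (q : ℝ) ≤ X ^ 3 ∧ 1 / (q : ℝ) ^ 2 ≤ ψ q ∧
        ψ q ≤ Real.exp (-(Real.log (Real.log X)) ^ (1 + δ))) →
      ∑ q ∈ S, ∑ r ∈ S, wK γ (ψ q) q * wK γ (ψ r) r *
        volume.real (GK γ ψ q ∩ GK γ ψ r ∩ Set.Ioc 0 1) ≤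
      C * ((∑ q ∈ S, (q.totient : ℝ) / q * ψ q) + (∑ q ∈ S, (q.totient : ℝ) / q * ψ q) ^ 2) := by
  classical
  obtain ⟨C, X₀, hC, h⟩ := level_aux hδ
  refine ⟨C, max X₀ 1, hC, ?_⟩
  intro γ X ψ S hX hS
  have hX0 : X₀ ≤ X := (le_max_left _ _).trans hX
  have hX1 : 1 ≤ X := (le_max_right _ _).trans hX
  have hpos : ∀ q ∈ S, 0 < q := by
    intro q hq
    have h1 : (0 : ℝ) < q := by linarith only [hX1, (hS q hq).1]
    exact_mod_cast h1
  set ψ' : ℕ → ℝ := fun q => if q ∈ S then ψ q else 0 with hψ'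
  have he : ∀ q ∈ S, ψ' q = ψ q := fun q hq => by simp only [hψ', if_pos hq]
  set N : ℕ := S.sup id with hN
  have hSN : S ⊆ Icc 1 N := by
    intro q hq
    rw [mem_Icc]
    exact ⟨hpos q hq, Finset.le_sup (f := id) hq⟩
  have h1 := h γ X ψ' S N hX0 hSN (fun q hq => by simp only [hψ', if_neg hq]) (by
    intro q hq
    obtain ⟨a, b, c, d⟩ := hS q hq
    rw [he q hq]
    refine ⟨a, b, lt_of_lt_of_le ?_ c, d⟩
    have : (0 : ℝ) < q := by exact_mod_cast hpos q hq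
    (clear * - this; positivity))
  have h2 : ∑ q ∈ Icc 1 N, (q.totient : ℝ) / q * ψ' q = ∑ q ∈ S, (q.totient : ℝ) / q * ψ q := by
    rw [← sum_subset hSN]
    · exact sum_congr rfl fun q hq => by rw [he q hq]
    · intro q _ hq
      simp only [hψ', if_neg hq, mul_zero]
  rw [h2] at h1
  refine (le_of_eq ?_).trans h1
  refine sum_congr rfl fun q hq => sum_congr rfl fun r hr => ?_
  unfold GK
  rw [he q hq, he r hr]

end Vale.P028
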