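import Vale.Agent.P028.MathlibUsed
import Vale.Agent.P028.KLevel
import Vale.Agent.P028.KCross
import Vale.Agent.P028.KFull
import Vale.Agent.P028.KLower
import Vale.Agent.P028.MLevels

/-!
# Theorem K: class I, every real `γ`
-/

namespace Vale.P028

open Finset MeasureTheory Filter

theorem lv_bounds {q : ℕ} (hq : 3 ≤ q) :
    Real.exp ((3 : ℝ) ^ lv q) ≤ q ∧ (q : ℝ) ≤ (Real.exp ((3 : ℝ) ^ lv q)) ^ 3 := by
  obtain ⟨h1, h2⟩ := lv_spec hq
  have hq0 : (0 : ℝ) < q := by positivity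
  constructor
  · rw [← Real.le_log_iff_exp_le hq0]
    exact h1
  · have h3 : (Real.exp ((3 : ℝ) ^ lv q)) ^ 3 = Real.exp ((3 : ℝ) ^ (lv q + 1)) := by
      rw [← Real.exp_nat_mul]
      congr 1
      push_cast
      ring
    rw [h3, ← Real.log_le_iff_le_exp hq0]
    exact h2.le

theorem pow_six_le_of_lv {q r : ℕ} (hq : 3 ≤ q) (hr : 3 ≤ r) (h : lv q + 3 ≤ lv r) :
    q ^ 6 ≤ r := by
  obtain ⟨h1, h2⟩ := lv_spec hq
  obtain ⟨h3, h4⟩ := lv_spec hr
  have hq0 : (0 : ℝ) < q := by positivity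
  have hr0 : (0 : ℝ) < r := by positivity
  have h5 : (3 : ℝ) ^ (lv q + 3) ≤ (3 : ℝ) ^ lv r := pow_le_pow_right₀ (by norm_num) h
  have h6 : (3 : ℝ) ^ (lv q + 3) = 9 * (3 : ℝ) ^ (lv q + 1) := by ring
  have hlq : 0 ≤ Real.log q := Real.log_natCast_nonneg q
  have h7 : Real.log ((q : ℝ) ^ 6) ≤ Real.log r := by
    rw [Real.log_pow]
    push_cast
    linarith only [h2, h3, h5, h6, hlq]
  have h8 : (q : ℝ) ^ 6 ≤ r := (Real.log_le_log_iff (by positivity) hr0).mp h7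
  exact_mod_cast h8

theorem wK_mul_pr (γ x : ℝ) (q : ℕ) : wK γ x q * pr (PK γ x q) = (q.totient : ℝ) / q := by
  unfold wK
  have h : pr (PK γ x q) ≠ 0 := (pr_pos PK_prime).ne'
  (clear * - h; field_simp)

theorem wK_nonneg (γ x : ℝ) (q : ℕ) : 0 ≤ wK γ x q := by
  unfold wK
  exact div_nonneg (by (clear * -; positivity)) (pr_pos PK_prime).le

/-- second moment of a finite set living on well separated levels -/
theorem moment_levels {δ : ℝ} (hδ : 0 < δ) : ∃ (C : ℝ) (N₁ : ℕ), 0 < C ∧ 3 ≤ N₁ ∧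
    ∀ (γ : ℝ) (ψ : ℕ → ℝ) (S : Finset ℕ) (a : ℕ),
      (∀ q ∈ S, N₁ ≤ q ∧ lv q % 3 = a ∧ 1 / (q : ℝ) ^ 2 ≤ ψ q ∧ ψ q ≤ 1 / 2 ∧
        ψ q ≤ Real.exp (-(Real.log (Real.log q)) ^ (1 + δ))) →
      ∑ q ∈ S, ∑ r ∈ S, wK γ (ψ q) q * wK γ (ψ r) r *
        volume.real (GK γ ψ q ∩ GK γ ψ r ∩ Set.Ioc 0 1) ≤
      C * ((∑ q ∈ S, (q.totient : ℝ) / q * ψ q) + (∑ q ∈ S, (q.totient : ℝ) / q * ψ q) ^ 2) := by
  classical
  obtain ⟨C₁, X₀, hC₁, hlev⟩ := level_one hδ
  obtain ⟨C₂, hC₂, Q₀, hcross⟩ := cross_overlap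
  obtain ⟨M, hM⟩ := exists_nat_ge ((max X₀ 1) ^ 3)
  refine ⟨C₁ + C₂, max (max M Q₀) 3, by positivity, le_max_right _ _, ?_⟩
  intro γ ψ S a hS
  have hM' : ∀ q ∈ S, M ≤ q := fun q hq =>
    ((le_max_left _ _).trans (le_max_left _ _)).trans (hS q hq).1
  have hQ' : ∀ q ∈ S, Q₀ ≤ q := fun q hq =>
    ((le_max_right _ _).trans (le_max_left _ _)).trans (hS q hq).1
  have h3 : ∀ q ∈ S, 3 ≤ q := fun q hq => (le_max_right _ _).trans (hS q hq).1
  have hpos : ∀ q ∈ S, 0 < ψ q := by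
    intro q hq
    refine lt_of_lt_of_le ?_ (hS q hq).2.2.1
    have : (0 : ℝ) < q := by
      have := h3 q hq
      (clear * - this; positivity)
    (clear * - this; positivity)
  set f : ℕ → ℝ := fun q => (q.totient : ℝ) / q * ψ q with hf
  have hf0 : ∀ q ∈ S, 0 ≤ f q := fun q hq => mul_nonneg (by (clear * -; positivity)) (hpos q hq).le
  set T : ℕ → ℕ → ℝ := fun q r => wK γ (ψ q) q * wK γ (ψ r) r *
        volume.real (GK γ ψ q ∩ GK γ ψ r ∩ Set.Ioc 0 1) with hT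
  have hTsymm : ∀ q r, T q r = T r q := by
    intro q r
    simp only [hT]
    rw [Set.inter_comm (GK γ ψ q), mul_comm (wK γ (ψ q) q)]
  -- different levels
  have hdiff : ∀ q ∈ S, ∀ r ∈ S, lv q < lv r → T q r ≤ C₂ * (f q * f r) := by
    intro q hq r hr hlt
    have h4 : lv q + 3 ≤ lv r := by
      have h5 := (hS q hq).2.1
      have h6 := (hS r hr).2.1
      omega
    have h5 := pow_six_le_of_lv (h3 q hq) (h3 r hr) h4
    have h6 := hcross γ q r (ψ q) (ψ r) (hQ' q hq) h5 (hpos q hq) (hS q hq).2.2.2.1 (hpos r hr)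
      (hS r hr).2.2.2.1 (hS q hq).2.2.1 (Bq γ (ψ q)) (Bq γ (ψ r)) (Aq γ (ψ q)) (Aq γ (ψ r))
      (PK γ (ψ q) q) (PK γ (ψ r) r)
      (fun p hp => ⟨(mem_PK hp).1, (mem_PK hp).2.1, (mem_PK hp).2.2.2⟩)
      (fun p hp => ⟨(mem_PK hp).1, (mem_PK hp).2.1, (mem_PK hp).2.2.2⟩)
      (AK γ (ψ q) q) (AK γ (ψ r) r) (fun al h => h) (fun al h => h)
    have h7 := wK_nonneg γ (ψ q) q
    have h8 := wK_nonneg γ (ψ r) r
    calc T q r ≤ wK γ (ψ q) q * wK γ (ψ r) r *
          (C₂ * (ψ q * ψ r) * pr (PK γ (ψ q) q) * pr (PK γ (ψ r) r)) := by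
          simp only [hT]
          exact mul_le_mul_of_nonneg_left h6 (mul_nonneg h7 h8)
      _ = C₂ * ((wK γ (ψ q) q * pr (PK γ (ψ q) q)) * ψ q *
          ((wK γ (ψ r) r * pr (PK γ (ψ r) r)) * ψ r)) := by ring
      _ = C₂ * (f q * f r) := by rw [wK_mul_pr, wK_mul_pr]
  have hT0 : ∀ q r, 0 ≤ T q r := fun q r =>
    mul_nonneg (mul_nonneg (wK_nonneg _ _ _) (wK_nonneg _ _ _)) ENNReal.toReal_nonneg
  have hpt : ∀ q ∈ S, ∀ r ∈ S, T q r ≤ (if lv r = lv q then T q r else 0) + C₂ * (f q * f r) := by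
    intro q hq r hr
    have hff : 0 ≤ C₂ * (f q * f r) := mul_nonneg hC₂.le (mul_nonneg (hf0 q hq) (hf0 r hr))
    rcases lt_trichotomy (lv q) (lv r) with h | h | h
    · rw [if_neg (by omega)]
      linarith only [hdiff q hq r hr h]
    · rw [if_pos h.symm]
      linarith only [hff]
    · rw [if_neg (by omega)]
      have := hdiff r hr q hq h
      rw [hTsymm q r]
      linarith only [this]
  set F : ℝ := ∑ q ∈ S, f q with hF
  have hF0 : 0 ≤ F := sum_nonneg hf0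
  -- same level
  set I : Finset ℕ := S.image lv with hI
  set Fi : ℕ → ℝ := fun i => ∑ q ∈ S.filter (fun q => lv q = i), f q with hFi
  have hFi0 : ∀ i ∈ I, 0 ≤ Fi i := fun i _ => sum_nonneg fun q hq => hf0 q (mem_filter.mp hq).1
  have hFsum : ∑ i ∈ I, Fi i = F := by
    simp only [hFi]
    exact sum_fiberwise_of_maps_to (fun q hq => mem_image_of_mem _ hq) _
  have hsame : ∑ q ∈ S, ∑ r ∈ S, (if lv r = lv q then T q r else 0) ≤ C₁ * (F + F ^ 2) := by
    have e1 : ∑ q ∈ S, ∑ r ∈ S, (if lv r = lv q then T q r else 0) =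
        ∑ i ∈ I, ∑ q ∈ S.filter (fun q => lv q = i), ∑ r ∈ S.filter (fun r => lv r = i), T q r := by
      rw [← sum_fiberwise_of_maps_to (t := I) (g := lv) (fun q hq => mem_image_of_mem _ hq)]
      refine sum_congr rfl fun i _ => sum_congr rfl fun q hq => ?_
      rw [mem_filter] at hq
      rw [sum_filter]
      refine sum_congr rfl fun r _ => ?_
      rw [hq.2]
    rw [e1]
    calc ∑ i ∈ I, ∑ q ∈ S.filter (fun q => lv q = i), ∑ r ∈ S.filter (fun r => lv r = i), T q r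
        ≤ ∑ i ∈ I, C₁ * (Fi i + Fi i ^ 2) := by
          apply sum_le_sum
          intro i hi
          rw [hI, mem_image] at hi
          obtain ⟨q₀, hq₀, hlv⟩ := hi
          have hX : X₀ ≤ Real.exp ((3 : ℝ) ^ i) := by
            obtain ⟨-, h5⟩ := lv_bounds (h3 q₀ hq₀)
            rw [hlv] at h5
            have h6 : (max X₀ 1) ^ 3 ≤ (Real.exp ((3 : ℝ) ^ i)) ^ 3 := by
              refine hM.trans (le_trans ?_ h5)
              exact_mod_cast hM' q₀ hq₀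
            have h7 : max X₀ 1 ≤ Real.exp ((3 : ℝ) ^ i) :=
              le_of_pow_le_pow_left₀ (by norm_num) (Real.exp_pos _).le h6
            exact (le_max_left _ _).trans h7
          apply hlev γ (Real.exp ((3 : ℝ) ^ i)) ψ _ hX
          intro q hq
          rw [mem_filter] at hq
          obtain ⟨hqS, hqi⟩ := hq
          obtain ⟨h4, h5⟩ := lv_bounds (h3 q hqS)
          rw [hqi] at h4 h5
          refine ⟨h4, h5, (hS q hqS).2.2.1, (hS q hqS).2.2.2.2.trans ?_⟩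
          apply Real.exp_le_exp.mpr
          apply neg_le_neg
          apply Real.rpow_le_rpow
          · rw [Real.log_exp]
            exact Real.log_nonneg (one_le_pow₀ (by norm_num))
          · apply Real.log_le_log
            · rw [Real.log_exp]; positivity
            · exact Real.log_le_log (Real.exp_pos _) h4
          · linarith only [hδ]
      _ = C₁ * (∑ i ∈ I, Fi i + ∑ i ∈ I, Fi i ^ 2) := by
          rw [← mul_sum, sum_add_distrib]
      _ ≤ C₁ * (F + F ^ 2) := by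
          rw [hFsum]
          have h4 : ∑ i ∈ I, Fi i ^ 2 ≤ F ^ 2 := by
            rw [← hFsum]
            exact sum_sq_le_sq_sum_of_nonneg hFi0
          (clear * - h4 hC₁; gcongr)
  calc ∑ q ∈ S, ∑ r ∈ S, T q r
      ≤ ∑ q ∈ S, ∑ r ∈ S, ((if lv r = lv q then T q r else 0) + C₂ * (f q * f r)) :=
        sum_le_sum fun q hq => sum_le_sum fun r hr => hpt q hq r hr
    _ = ∑ q ∈ S, ∑ r ∈ S, (if lv r = lv q then T q r else 0) + C₂ * F ^ 2 := by
        simp_rw [sum_add_distrib]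
        congr 1
        rw [sq, hF, sum_mul_sum, mul_sum]
        simp_rw [mul_sum]
    _ ≤ C₁ * (F + F ^ 2) + C₂ * F ^ 2 := by linarith only [hsame]
    _ ≤ (C₁ + C₂) * (F + F ^ 2) := by nlinarith only [hC₂, hF0]

theorem exists_finset_sum_ge {g : ℕ → ℝ} (hg : ∀ q, 0 ≤ g q) (h : ¬ Summable g) (N : ℕ) :
    ∃ S : Finset ℕ, (∀ q ∈ S, N ≤ q ∧ g q ≠ 0) ∧ 1 ≤ ∑ q ∈ S, g q := by
  classical
  have h1 := (not_summable_iff_tendsto_nat_atTop_of_nonneg hg).mp h
  obtain ⟨M, hM⟩ := (h1.eventually_ge_atTop (1 + ∑ q ∈ range N, g q)).exists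
  refine ⟨(range M).filter (fun q => N ≤ q ∧ g q ≠ 0), ?_, ?_⟩
  · intro q hq
    rw [mem_filter] at hq
    exact hq.2
  · have h2 : ∑ q ∈ range M, g q ≤ ∑ q ∈ range N, g q +
        ∑ q ∈ (range M).filter (fun q => N ≤ q ∧ g q ≠ 0), g q := by
      have h3 : ∑ q ∈ range M, g q = ∑ q ∈ (range M).filter (fun q => N ≤ q ∧ g q ≠ 0), g q +
          ∑ q ∈ (range M).filter (fun q => ¬ (N ≤ q ∧ g q ≠ 0)), g q :=
        (sum_filter_add_sum_filter_not _ _ _).symm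
      have h4 : ∑ q ∈ (range M).filter (fun q => ¬ (N ≤ q ∧ g q ≠ 0)), g q ≤
          ∑ q ∈ range N, g q := by
        rw [← sum_filter_ne_zero]
        apply sum_le_sum_of_subset_of_nonneg
        · intro q hq
          rw [mem_filter, mem_filter] at hq
          rw [mem_range]
          by_contra hlt
          push Not at hlt
          exact hq.1.2 ⟨hlt, hq.2⟩
        · intro q _ _
          exact hg q
      linarith only [h3, h4]
    linarith only [hM, h2]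

/-- splitting a divergent series according to the residue class of the level -/
theorem exists_level_class {ψ : ℕ → ℝ} (hψ : ∀ q, 0 ≤ ψ q)
    (hdiv : ¬ Summable (fun q : ℕ => ((q.totient : ℝ) / q) * ψ q)) :
    ∃ a : ℕ, ¬ Summable (fun q : ℕ => if lv q % 3 = a ∧ 1 / (q : ℝ) ^ 2 ≤ ψ q then
      ((q.totient : ℝ) / q) * ψ q else 0) := by
  by_contra hne
  push Not at hne
  apply hdiv
  have hs := ((hne 0).add (hne 1)).add ((hne 2).add
    (Real.summable_one_div_nat_pow.mpr (by norm_num : 1 < 2)))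
  refine Summable.of_nonneg_of_le (fun q => mul_nonneg (by (clear * -; positivity)) (hψ q)) (fun q => ?_) hs
  have h0 : 0 ≤ ((q.totient : ℝ) / q) * ψ q := mul_nonneg (by (clear * -; positivity)) (hψ q)
  have hsq : (0 : ℝ) ≤ 1 / (q : ℝ) ^ 2 := by positivity
  have hi : ∀ b : ℕ, 0 ≤ (if lv q % 3 = b ∧ 1 / (q : ℝ) ^ 2 ≤ ψ q then
      ((q.totient : ℝ) / q) * ψ q else 0) := by
    intro b
    split_ifs
    · exact h0
    · exact le_rfl
  rcases le_or_gt (1 / (q : ℝ) ^ 2) (ψ q) with h | h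
  · have h3 : lv q % 3 < 3 := Nat.mod_lt _ (by norm_num)
    have hcase : lv q % 3 = 0 ∨ lv q % 3 = 1 ∨ lv q % 3 = 2 := by omega
    have i0 := hi 0
    have i1 := hi 1
    have i2 := hi 2
    rcases hcase with hc | hc | hc
    · have : (if lv q % 3 = 0 ∧ 1 / (q : ℝ) ^ 2 ≤ ψ q then
        ((q.totient : ℝ) / q) * ψ q else 0) = ((q.totient : ℝ) / q) * ψ q := if_pos ⟨hc, h⟩
      linarith only [hsq, i1, i2, this]
    · have : (if lv q % 3 = 1 ∧ 1 / (q : ℝ) ^ 2 ≤ ψ q then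
        ((q.totient : ℝ) / q) * ψ q else 0) = ((q.totient : ℝ) / q) * ψ q := if_pos ⟨hc, h⟩
      linarith only [hsq, i0, i2, this]
    · have : (if lv q % 3 = 2 ∧ 1 / (q : ℝ) ^ 2 ≤ ψ q then
        ((q.totient : ℝ) / q) * ψ q else 0) = ((q.totient : ℝ) / q) * ψ q := if_pos ⟨hc, h⟩
      linarith only [hsq, i0, i1, this]
  · have h4 : ((q.totient : ℝ) / q) * ψ q ≤ 1 / (q : ℝ) ^ 2 := by
      have h5 := tot_le_one q
      have h6 := tot_nonneg q
      nlinarith only [hsq, h, h5, h6]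
    have i0 := hi 0
    have i1 := hi 1
    have i2 := hi 2
    linarith only [h4, i0, i1, i2]

/-- class I, every real `γ`, no loss -/
theorem theoremK (γ : ℝ) (ψ : ℕ → ℝ) (hψ : ∀ q, 0 ≤ ψ q) (δ : ℝ) (hδ : 0 < δ)
    (hev : ∀ᶠ q : ℕ in atTop, ψ q ≤ Real.exp (-(Real.log (Real.log q)) ^ (1 + δ)))
    (hdiv : ¬ Summable (fun q : ℕ => ((q.totient : ℝ) / q) * ψ q)) :
    volume (W γ ψ)ᶜ = 0 := by
  classical
  obtain ⟨C, N₁, hC, hN₁, hmom⟩ := moment_levels hδ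
  obtain ⟨a, ha⟩ := exists_level_class hψ hdiv
  obtain ⟨N₂, hN₂⟩ := eventually_atTop.mp hev
  -- `ψ ≤ 1/2` for large `q`
  obtain ⟨N₃, hN₃⟩ : ∃ N₃ : ℕ, ∀ q : ℕ, N₃ ≤ q → 1 ≤ Real.log (Real.log q) := by
    obtain ⟨N₃, h⟩ := exists_nat_ge (Real.exp (Real.exp 1))
    refine ⟨N₃, fun q hq => ?_⟩
    have h1 : Real.exp (Real.exp 1) ≤ q := h.trans (by exact_mod_cast hq)
    have h2 : Real.exp 1 ≤ Real.log q :=
      (Real.le_log_iff_exp_le ((Real.exp_pos _).trans_le h1)).mpr h1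
    exact (Real.le_log_iff_exp_le ((Real.exp_pos _).trans_le h2)).mpr h2
  apply full_of_moment γ ψ (2 * C) (1 / 2) (by positivity) (by norm_num)
  intro N
  obtain ⟨Q₀, hQ₀⟩ := lower_count (1 / ((N : ℝ) + 1)) (by (clear * -; positivity))
  obtain ⟨S, hS, hF1⟩ := exists_finset_sum_ge (g := fun q : ℕ =>
    if lv q % 3 = a ∧ 1 / (q : ℝ) ^ 2 ≤ ψ q then ((q.totient : ℝ) / q) * ψ q else 0)
    (fun q => by
      split_ifs
      · exact mul_nonneg (by (clear * -; positivity)) (hψ q)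
      · exact le_rfl) ha (N₁ + N₂ + N₃ + Q₀ + N)
  have hS1 : ∀ q ∈ S, N₁ + N₂ + N₃ + Q₀ + N ≤ q ∧ lv q % 3 = a ∧ 1 / (q : ℝ) ^ 2 ≤ ψ q := by
    intro q hq
    obtain ⟨h1, h2⟩ := hS q hq
    by_cases h3 : lv q % 3 = a ∧ 1 / (q : ℝ) ^ 2 ≤ ψ q
    · exact ⟨h1, h3⟩
    · rw [if_neg h3] at h2
      exact absurd rfl h2
  have hsum : ∑ q ∈ S, (if lv q % 3 = a ∧ 1 / (q : ℝ) ^ 2 ≤ ψ q then
      ((q.totient : ℝ) / q) * ψ q else 0) = ∑ q ∈ S, (q.totient : ℝ) / q * ψ q := by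
    refine sum_congr rfl fun q hq => ?_
    rw [if_pos (hS1 q hq).2]
  rw [hsum] at hF1
  have hupp : ∀ q ∈ S, ψ q ≤ Real.exp (-(Real.log (Real.log q)) ^ (1 + δ)) := fun q hq =>
    hN₂ q (by have := (hS1 q hq).1; omega)
  have hhalf : ∀ q ∈ S, ψ q ≤ 1 / 2 := by
    intro q hq
    refine (hupp q hq).trans ?_
    have hl1 := hN₃ q (by have := (hS1 q hq).1; omega)
    have h1 : 1 ≤ Real.log (Real.log q) ^ (1 + δ) := Real.one_le_rpow hl1 (by linarith only [hδ])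
    calc Real.exp (-Real.log (Real.log q) ^ (1 + δ)) ≤ Real.exp (-1) :=
          Real.exp_le_exp.mpr (by linarith only [h1])
      _ ≤ 1 / 2 := by
          rw [Real.exp_neg, one_div]
          apply inv_anti₀ (by norm_num)
          have := Real.exp_one_gt_d9
          linarith only [this]
  have hq0 : ∀ q ∈ S, 0 < q := fun q hq => by have := (hS1 q hq).1; omega
  have hpos : ∀ q ∈ S, 0 < ψ q := by
    intro q hq
    refine lt_of_lt_of_le ?_ (hS1 q hq).2.2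
    have : (0 : ℝ) < q := by exact_mod_cast hq0 q hq
    (clear * - this; positivity)
  refine ⟨S, fun q => wK γ (ψ q) q, fun q => AK γ (ψ q) q, ?_, ?_, ?_, ?_, ?_⟩
  · intro q hq
    exact ⟨by have := (hS1 q hq).1; omega, hpos q hq, hhalf q hq⟩
  · intro q _
    exact wK_nonneg _ _ _
  · linarith only [hF1]
  · intro q hq m n hmn
    have h1 := hQ₀ q (Bq γ (ψ q)) (Aq γ (ψ q)) (PK γ (ψ q) q)
      (by have := (hS1 q hq).1; omega)
      (fun p hp => ⟨(mem_PK hp).1, (mem_PK hp).2.1, (mem_PK hp).2.2.2⟩) m n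
      (by rw [one_div_mul_eq_div]; exact hmn)
    have h2 : ((((Ioc m n).filter (fun al : ℤ => ∀ p ∈ PK γ (ψ q) q,
        ¬ (p : ℤ) ∣ al * (Bq γ (ψ q) : ℤ) + Aq γ (ψ q))).card : ℕ) : ℝ) =
        (((Finset.Ioc m n).filter (AK γ (ψ q) q)).card : ℝ) := by
      norm_cast
      congr 1
      ext al
      simp only [mem_filter]
      rfl
    rw [h2] at h1
    calc 1 / 2 * ((q.totient : ℝ) / q) * ((n : ℝ) - m)
        = wK γ (ψ q) q * (1 / 2 * ((n : ℝ) - m) * pr (PK γ (ψ q) q)) := by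
          rw [← wK_mul_pr γ (ψ q) q]; ring
      _ ≤ _ := mul_le_mul_of_nonneg_left h1 (wK_nonneg _ _ _)
  · have h1 := hmom γ ψ S a (fun q hq => ⟨by have := (hS1 q hq).1; omega, (hS1 q hq).2.1,
      (hS1 q hq).2.2, hhalf q hq, hupp q hq⟩)
    refine h1.trans ?_
    set F := ∑ q ∈ S, (q.totient : ℝ) / q * ψ q with hF
    have h2 : F ≤ F ^ 2 := by nlinarith only [hF1]
    calc C * (F + F ^ 2) ≤ C * (F ^ 2 + F ^ 2) := by (clear * - h2 hC; gcongr)
      _ = 2 * C * F ^ 2 := by ring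

end Vale.P028
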