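import Vale.Agent.P028.MathlibUsed
import Vale.Agent.P028.FDefs
import Vale.Agent.P028.FScale
import Vale.Agent.P028.FClass
import Vale.Agent.P028.FFull
import Vale.Agent.P028.KMain

/-!
# Theorem F from the finite statement `MomentF`
-/

namespace Vale.P028

open Finset MeasureTheory Filter

/-- mass of the multiples of `n` -/
noncomputable def Mn (ψ : ℕ → ℝ) (T : Finset ℕ) (n : ℕ) : ℝ :=
  ∑ q ∈ T.filter (fun q => n ∣ q), (((q / n : ℕ).totient : ℝ) / (q / n : ℕ)) * ψ q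

theorem wC_mul_pr {Ps : Finset ℕ} (h : ∀ p ∈ Ps, p.Prime) (q : ℕ) :
    wC Ps q * pr Ps = (q.totient : ℝ) / q := by
  unfold wC
  have h : pr Ps ≠ 0 := (kc_pr_pos Ps h).ne'
  field_simp

theorem wC_nonneg {Ps : Finset ℕ} (h : ∀ p ∈ Ps, p.Prime) (q : ℕ) : 0 ≤ wC Ps q :=
  div_nonneg (by positivity) (kc_pr_pos Ps h).le

theorem tot_div_nonneg (q : ℕ) : (0 : ℝ) ≤ (q.totient : ℝ) / q := by positivity

theorem tot_div_le_one (q : ℕ) : (q.totient : ℝ) / q ≤ 1 := by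
  rcases Nat.eq_zero_or_pos q with rfl | hq
  · simp
  · rw [div_le_one (by exact_mod_cast hq)]
    exact_mod_cast Nat.totient_le q

/-- if the Carleson condition fails, a rescaled subset satisfies it and has mass about one -/
theorem rescale {ψ : ℕ → ℝ} {T : Finset ℕ} (hT : ∀ q ∈ T, 0 < q ∧ 0 < ψ q ∧ ψ q ≤ 1 / 2)
    {n₀ : ℕ} (hn₀ : 0 < n₀) (h : 1 < Mn ψ T n₀) :
    ∃ n : ℕ, 0 < n ∧ ∃ T₁ ⊆ T, (∀ q ∈ T₁, n ∣ q) ∧ 1 / 2 < Mn ψ T₁ n ∧
      ∀ m : ℕ, 0 < m → Mn ψ T₁ (n * m) ≤ 1 := by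
  classical
  set Q := T.sup id with hQ
  have hle : ∀ n, 0 < Mn ψ T n → n ≤ Q := by
    intro n hn
    unfold Mn at hn
    obtain ⟨q, hq, -⟩ := Finset.exists_ne_zero_of_sum_ne_zero hn.ne'
    rw [mem_filter] at hq
    exact (Nat.le_of_dvd (hT q hq.1).1 hq.2).trans (Finset.le_sup (f := id) hq.1)
  set F := (range (Q + 1)).filter (fun n => 0 < n ∧ 1 < Mn ψ T n) with hF
  have hFne : F.Nonempty := ⟨n₀, by
    rw [hF, mem_filter, mem_range]
    exact ⟨Nat.lt_succ_of_le (hle n₀ (by linarith only [h])), hn₀, h⟩⟩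
  obtain ⟨n, hn, hmax⟩ := F.exists_max_image id hFne
  rw [hF, mem_filter] at hn
  obtain ⟨-, hn0, hn1⟩ := hn
  obtain ⟨T₁, hT₁, h1, h2⟩ := exists_subset_sum_half (T.filter (fun q => n ∣ q))
    (fun q => (((q / n : ℕ).totient : ℝ) / (q / n : ℕ)) * ψ q) (by
      intro q hq
      rw [mem_filter] at hq
      obtain ⟨-, h3, h4⟩ := hT q hq.1
      have h5 := tot_div_nonneg (q / n)
      have h6 := tot_div_le_one (q / n)
      exact ⟨mul_nonneg h5 h3.le, by nlinarith only [h3, h4, h5, h6]⟩) (by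
      have : Mn ψ T n = ∑ q ∈ T.filter (fun q => n ∣ q),
        (((q / n : ℕ).totient : ℝ) / (q / n : ℕ)) * ψ q := rfl
      linarith only [hn1, this])
  have hdvd : ∀ q ∈ T₁, n ∣ q := fun q hq => (mem_filter.1 (hT₁ hq)).2
  have hT₁T : T₁ ⊆ T := fun q hq => (mem_filter.1 (hT₁ hq)).1
  have hMn : Mn ψ T₁ n = ∑ q ∈ T₁, (((q / n : ℕ).totient : ℝ) / (q / n : ℕ)) * ψ q := by
    unfold Mn
    rw [filter_true_of_mem hdvd]
  refine ⟨n, hn0, T₁, hT₁T, hdvd, by rw [hMn]; exact h1, ?_⟩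
  intro m hm
  rcases Nat.eq_or_lt_of_le (Nat.succ_le_of_lt hm) with h3 | h3
  · have : n * m = n := by rw [← h3]; simp
    rw [this, hMn]
    exact h2
  · -- `n * m > n`
    have h4 : n < n * m := by
      have : n * 1 < n * m := Nat.mul_lt_mul_of_pos_left h3 hn0
      simpa using this
    have h5 : Mn ψ T₁ (n * m) ≤ Mn ψ T (n * m) := by
      unfold Mn
      apply sum_le_sum_of_subset_of_nonneg
      · exact filter_subset_filter _ hT₁T
      · intro q hq _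
        exact mul_nonneg (tot_div_nonneg _) (hT q (mem_filter.1 hq).1).2.1.le
    refine h5.trans ?_
    by_contra h6
    rw [not_le] at h6
    have h7 : n * m ∈ F := by
      rw [hF, mem_filter, mem_range]
      exact ⟨Nat.lt_succ_of_le (hle _ (by linarith only [h6])), by positivity, h6⟩
    have h8 := hmax _ h7
    simp only [id] at h8
    omega

theorem image_mul_div {n : ℕ} (hn : 0 < n) (q : ℕ) : n * q / n = q := Nat.mul_div_cancel_left q hn

/-- one rescaled window -/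
theorem window_rescaled (hF : MomentF) : ∃ C > 0, ∃ X₀ : ℝ, ∀ (γ X : ℝ) (ψ : ℕ → ℝ)
    (T : Finset ℕ), X₀ ≤ X →
    (∀ q ∈ T, 0 < q ∧ (q : ℝ) ≤ X ^ 3 ∧ 1 / X ^ 6 ≤ ψ q ∧ ψ q ≤ 1 / 2) → 0 < X →
    (∃ n₀ : ℕ, 0 < n₀ ∧ 1 < Mn ψ T n₀) →
    ∃ n : ℕ, 0 < n ∧ ∃ S' ⊆ T, (∀ q ∈ S', n ∣ q) ∧ ∃ (Ps : ℕ → Finset ℕ) (c : ℕ → ℕ → ℤ),
      (∀ q ∈ S', ∀ p ∈ Ps q, p.Prime ∧ p ∣ q / n) ∧
      1 / 4 < ∑ q ∈ S', ((q / n : ℕ).totient : ℝ) / (q / n : ℕ) * ψ q ∧
      ∑ q ∈ S', ∑ r ∈ S', wC (Ps q) (q / n) * wC (Ps r) (r / n) *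
        volume.real (GS γ q (ψ q) (AC (c q) (Ps q)) ∩ GS γ r (ψ r) (AC (c r) (Ps r)) ∩
          Set.Ioc 0 1) ≤ C := by
  classical
  obtain ⟨C, hC, X₀, hmom⟩ := hF
  refine ⟨C, hC, X₀, ?_⟩
  rintro γ X ψ T hX hT hX0 ⟨n₀, hn₀, hbig⟩
  have hXp : 0 < 1 / X ^ 6 := by positivity
  obtain ⟨n, hn, T₁, hT₁, hdvd, hlow, hup⟩ := rescale (fun q hq =>
    ⟨(hT q hq).1, lt_of_lt_of_le hXp (hT q hq).2.2.1, (hT q hq).2.2.2⟩) hn₀ hbig
  set S₁ : Finset ℕ := T₁.image (fun q => q / n) with hS₁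
  set ψ₁ : ℕ → ℝ := fun q => ψ (n * q) with hψ₁
  have hmul : ∀ q ∈ T₁, n * (q / n) = q := fun q hq => Nat.mul_div_cancel' (hdvd q hq)
  have hinj : Set.InjOn (fun q => q / n) (T₁ : Set ℕ) := by
    intro q hq r hr h
    have h1 := hmul q hq
    have h2 := hmul r hr
    simp only at h
    rw [← h1, ← h2, h]
  have hmem : ∀ q', q' ∈ S₁ ↔ n * q' ∈ T₁ := by
    intro q'
    rw [hS₁, mem_image]
    constructor
    · rintro ⟨q, hq, rfl⟩
      rw [hmul q hq]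
      exact hq
    · intro h
      exact ⟨n * q', h, image_mul_div hn q'⟩
  obtain ⟨S', hS', Ps, c, h1, h2, h3⟩ := hmom γ X ψ₁ S₁ hX (by
    intro q hq
    have h4 := hT _ (hT₁ ((hmem q).1 hq))
    refine ⟨Nat.pos_of_mul_pos_left h4.1, ?_, h4.2.2.1, h4.2.2.2⟩
    refine le_trans ?_ h4.2.1
    exact_mod_cast Nat.le_mul_of_pos_left q hn) (by
    intro m hm
    refine le_trans (le_of_eq ?_) (hup m hm)
    unfold Mn
    have e1 : T₁.filter (fun q => n * m ∣ q) = (S₁.filter (fun q => m ∣ q)).image (fun q => n * q) := by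
      ext q
      rw [mem_filter, mem_image]
      constructor
      · rintro ⟨h4, h5⟩
        refine ⟨q / n, ?_, hmul q h4⟩
        rw [mem_filter, hmem, hmul q h4]
        refine ⟨h4, ?_⟩
        rw [Nat.dvd_div_iff_mul_dvd (hdvd q h4)]
        exact h5
      · rintro ⟨q', h4, rfl⟩
        rw [mem_filter, hmem] at h4
        exact ⟨h4.1, Nat.mul_dvd_mul_left n h4.2⟩
    rw [e1, sum_image (by
      intro a _ b _ h
      exact Nat.eq_of_mul_eq_mul_left hn h)]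
    refine sum_congr rfl fun q _ => ?_
    rw [Nat.mul_div_mul_left _ _ hn])
  have hmass : ∑ q ∈ S₁, (q.totient : ℝ) / q * ψ₁ q = Mn ψ T₁ n := by
    unfold Mn
    rw [filter_true_of_mem hdvd, hS₁, sum_image hinj]
    refine sum_congr rfl fun q hq => ?_
    simp only [hψ₁]
    rw [hmul q hq]
  have hmass1 : Mn ψ T₁ n ≤ 1 := by
    have := hup 1 one_pos
    rwa [mul_one] at this
  have hinj2 : Set.InjOn (fun q => n * q) (S' : Set ℕ) := by
    intro a _ b _ h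
    exact Nat.eq_of_mul_eq_mul_left hn h
  refine ⟨n, hn, S'.image (fun q => n * q), ?_, ?_, fun q => Ps (q / n), fun q => c (q / n), ?_, ?_, ?_⟩
  · intro q hq
    rw [mem_image] at hq
    obtain ⟨q', hq', rfl⟩ := hq
    exact hT₁ ((hmem q').1 (hS' hq'))
  · intro q hq
    rw [mem_image] at hq
    obtain ⟨q', hq', rfl⟩ := hq
    exact dvd_mul_right n q'
  · intro q hq p hp
    rw [mem_image] at hq
    obtain ⟨q', hq', rfl⟩ := hq
    simp only at hp
    rw [image_mul_div hn] at hp ⊢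
    exact h1 q' hq' p hp
  · rw [sum_image hinj2]
    have : ∑ q ∈ S', ((n * q / n : ℕ).totient : ℝ) / (n * q / n : ℕ) * ψ (n * q) =
        ∑ q ∈ S', (q.totient : ℝ) / q * ψ₁ q := by
      refine sum_congr rfl fun q _ => ?_
      rw [image_mul_div hn]
    rw [this]
    rw [hmass] at h2
    linarith only [h2, hlow]
  · rw [sum_image hinj2]
    have : ∑ q ∈ S', ∑ r ∈ S'.image (fun q => n * q), wC (Ps (n * q / n)) (n * q / n) *
        wC (Ps (r / n)) (r / n) * volume.real (GS γ (n * q) (ψ (n * q))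
          (AC (c (n * q / n)) (Ps (n * q / n))) ∩ GS γ r (ψ r) (AC (c (r / n)) (Ps (r / n))) ∩
          Set.Ioc 0 1) = ∑ q ∈ S', ∑ r ∈ S', wC (Ps q) q * wC (Ps r) r *
      volume.real (GC γ (ψ₁ q) (c q) (Ps q) q ∩ GC γ (ψ₁ r) (c r) (Ps r) r ∩ Set.Ioc 0 1) := by
      refine sum_congr rfl fun q hq => ?_
      rw [sum_image hinj2]
      refine sum_congr rfl fun r hr => ?_
      rw [image_mul_div hn, image_mul_div hn, GC_scaled_volume γ _ _ _ _ _ _ _ _
        (fun p hp => (h1 q hq p hp).2) (fun p hp => (h1 r hr p hp).2) hn]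
    rw [this]
    refine h3.trans ?_
    rw [hmass]
    calc C * Mn ψ T₁ n ≤ C * 1 := mul_le_mul_of_nonneg_left hmass1 hC.le
      _ = C := mul_one C

/-- all the windows together -/
theorem windows_joined (hF : MomentF) : ∃ (C : ℝ) (N₁ : ℕ), 0 < C ∧ 3 ≤ N₁ ∧
    ∀ (γ : ℝ) (ψ : ℕ → ℝ) (S : Finset ℕ) (a : ℕ),
      (∀ q ∈ S, N₁ ≤ q ∧ lv q % 3 = a ∧ 1 / (q : ℝ) ^ 2 ≤ ψ q ∧ ψ q ≤ 1 / 2) →
      (∀ i n : ℕ, 0 < n → Mn ψ (S.filter (fun q => lv q = i)) n ≤ 1) →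
      ∃ S' ⊆ S, ∃ (Ps : ℕ → Finset ℕ) (c : ℕ → ℕ → ℤ),
        (∀ q ∈ S', ∀ p ∈ Ps q, p.Prime ∧ p ∣ q) ∧
        ∑ q ∈ S, (q.totient : ℝ) / q * ψ q ≤ 2 * ∑ q ∈ S', (q.totient : ℝ) / q * ψ q ∧
        ∑ q ∈ S', ∑ r ∈ S', wC (Ps q) q * wC (Ps r) r *
          volume.real (GC γ (ψ q) (c q) (Ps q) q ∩ GC γ (ψ r) (c r) (Ps r) r ∩ Set.Ioc 0 1) ≤
        C * ((∑ q ∈ S, (q.totient : ℝ) / q * ψ q) + (∑ q ∈ S, (q.totient : ℝ) / q * ψ q) ^ 2) := by
  classical
  obtain ⟨C₁, hC₁, X₀, hlev⟩ := hF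
  obtain ⟨C₂, hC₂, Q₀, hcross⟩ := cross_overlap_cls
  obtain ⟨M, hM⟩ := exists_nat_ge ((max X₀ 1) ^ 3)
  refine ⟨C₁ + C₂, max (max M Q₀) 3, by positivity, le_max_right _ _, ?_⟩
  intro γ ψ S a hS hcarl
  have hM' : ∀ q ∈ S, M ≤ q := fun q hq =>
    ((le_max_left _ _).trans (le_max_left _ _)).trans (hS q hq).1
  have hQ' : ∀ q ∈ S, Q₀ ≤ q := fun q hq =>
    ((le_max_right _ _).trans (le_max_left _ _)).trans (hS q hq).1
  have h3 : ∀ q ∈ S, 3 ≤ q := fun q hq => (le_max_right _ _).trans (hS q hq).1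
  have hpos : ∀ q ∈ S, 0 < ψ q := by
    intro q hq
    refine lt_of_lt_of_le ?_ (hS q hq).2.2.1
    have : (0 : ℝ) < q := by
      have := h3 q hq
      (clear * - this; positivity)
    (clear * - this; positivity)
  set f : ℕ → ℝ := fun q => (q.totient : ℝ) / q * ψ q with hf
  have hf0 : ∀ q ∈ S, 0 ≤ f q := fun q hq => mul_nonneg (by (clear * -; positivity)) (hpos q hq).le
  -- one window
  have hwin : ∀ i : ℕ, ∃ S' ⊆ S.filter (fun q => lv q = i), ∃ (Ps : ℕ → Finset ℕ) (c : ℕ → ℕ → ℤ),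
      (∀ q ∈ S', ∀ p ∈ Ps q, p.Prime ∧ p ∣ q) ∧
      ∑ q ∈ S.filter (fun q => lv q = i), f q ≤ 2 * ∑ q ∈ S', f q ∧
      ∑ q ∈ S', ∑ r ∈ S', wC (Ps q) q * wC (Ps r) r *
        volume.real (GC γ (ψ q) (c q) (Ps q) q ∩ GC γ (ψ r) (c r) (Ps r) r ∩ Set.Ioc 0 1) ≤
        C₁ * ∑ q ∈ S.filter (fun q => lv q = i), f q := by
    intro i
    rcases (S.filter (fun q => lv q = i)).eq_empty_or_nonempty with hemp | ⟨q₀, hq₀⟩
    · rw [hemp]
      refine ⟨∅, Subset.refl _, fun _ => ∅, fun _ _ => 0, ?_, ?_, ?_⟩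
      · intro q hq
        exact absurd hq (notMem_empty _)
      · simp
      · simp
    · rw [mem_filter] at hq₀
      have hX : X₀ ≤ Real.exp ((3 : ℝ) ^ i) := by
        obtain ⟨-, h5⟩ := lv_bounds (h3 q₀ hq₀.1)
        rw [hq₀.2] at h5
        have h6 : (max X₀ 1) ^ 3 ≤ (Real.exp ((3 : ℝ) ^ i)) ^ 3 := by
          refine hM.trans (le_trans ?_ h5)
          exact_mod_cast hM' q₀ hq₀.1
        have h7 : max X₀ 1 ≤ Real.exp ((3 : ℝ) ^ i) :=
          le_of_pow_le_pow_left₀ (by norm_num) (Real.exp_pos _).le h6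
        exact (le_max_left _ _).trans h7
      apply hlev γ (Real.exp ((3 : ℝ) ^ i)) ψ _ hX
      · intro q hq
        rw [mem_filter] at hq
        obtain ⟨hqS, hqi⟩ := hq
        obtain ⟨h4, h5⟩ := lv_bounds (h3 q hqS)
        rw [hqi] at h4 h5
        have hq0 : (0 : ℝ) < q := by
          have := h3 q hqS
          (clear * - this; positivity)
        refine ⟨by have := h3 q hqS; omega, h5, ?_, (hS q hqS).2.2.2⟩
        refine le_trans ?_ (hS q hqS).2.2.1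
        apply one_div_le_one_div_of_le (by positivity)
        calc (q : ℝ) ^ 2 ≤ (Real.exp ((3 : ℝ) ^ i) ^ 3) ^ 2 := pow_le_pow_left₀ hq0.le h5 2
          _ = Real.exp ((3 : ℝ) ^ i) ^ 6 := by ring
      · intro n hn
        exact hcarl i n hn
  choose S' hS' Ps c h1 h2 h4 using hwin
  set I : Finset ℕ := S.image lv with hI
  set Sf : Finset ℕ := S.filter (fun q => q ∈ S' (lv q)) with hSf
  have hSfi : ∀ i, Sf.filter (fun q => lv q = i) = S' i := by
    intro i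
    ext q
    rw [mem_filter, hSf, mem_filter]
    constructor
    · rintro ⟨⟨-, h5⟩, rfl⟩
      exact h5
    · intro h5
      have h6 := hS' i h5
      rw [mem_filter] at h6
      exact ⟨⟨h6.1, by rw [h6.2]; exact h5⟩, h6.2⟩
  have hSfS : Sf ⊆ S := filter_subset _ _
  have hPs : ∀ q ∈ Sf, ∀ p ∈ Ps (lv q) q, p.Prime ∧ p ∣ q := by
    intro q hq
    rw [hSf, mem_filter] at hq
    exact h1 (lv q) q hq.2
  refine ⟨Sf, hSfS, fun q => Ps (lv q) q, fun q => c (lv q) q, hPs, ?_, ?_⟩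
  · have e1 : ∑ q ∈ S, f q = ∑ i ∈ I, ∑ q ∈ S.filter (fun q => lv q = i), f q :=
      (sum_fiberwise_of_maps_to (fun q hq => mem_image_of_mem _ hq) _).symm
    have e2 : ∑ q ∈ Sf, f q = ∑ i ∈ I, ∑ q ∈ Sf.filter (fun q => lv q = i), f q :=
      (sum_fiberwise_of_maps_to (fun q hq => mem_image_of_mem _ (hSfS hq)) _).symm
    change ∑ q ∈ S, f q ≤ 2 * ∑ q ∈ Sf, f q
    rw [e1, e2, mul_sum]
    apply sum_le_sum
    intro i _
    rw [hSfi]
    exact h2 i
  set T : ℕ → ℕ → ℝ := fun q r => wC (Ps (lv q) q) q * wC (Ps (lv r) r) r *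
        volume.real (GC γ (ψ q) (c (lv q) q) (Ps (lv q) q) q ∩
          GC γ (ψ r) (c (lv r) r) (Ps (lv r) r) r ∩ Set.Ioc 0 1) with hT
  have hTsymm : ∀ q r, T q r = T r q := by
    intro q r
    simp only [hT]
    rw [Set.inter_comm (GC γ (ψ q) (c (lv q) q) (Ps (lv q) q) q), mul_comm (wC (Ps (lv q) q) q)]
  -- different levels
  have hdiff : ∀ q ∈ Sf, ∀ r ∈ Sf, lv q < lv r → T q r ≤ C₂ * (f q * f r) := by
    intro q hqf r hrf hlt
    have hq := hSfS hqf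
    have hr := hSfS hrf
    have h4 : lv q + 3 ≤ lv r := by
      have h5 := (hS q hq).2.1
      have h6 := (hS r hr).2.1
      omega
    have h5 := pow_six_le_of_lv (h3 q hq) (h3 r hr) h4
    have h6 := hcross γ q r (ψ q) (ψ r) (hQ' q hq) h5 (hpos q hq) (hS q hq).2.2.2 (hpos r hr)
      (hS r hr).2.2.2 (hS q hq).2.2.1 (c (lv q) q) (c (lv r) r) (Ps (lv q) q) (Ps (lv r) r)
      (hPs q hqf) (hPs r hrf)
    have h7 := wC_nonneg (fun p hp => (hPs q hqf p hp).1) q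
    have h8 := wC_nonneg (fun p hp => (hPs r hrf p hp).1) r
    calc T q r ≤ wC (Ps (lv q) q) q * wC (Ps (lv r) r) r *
          (C₂ * (ψ q * ψ r) * pr (Ps (lv q) q) * pr (Ps (lv r) r)) := by
          simp only [hT]
          exact mul_le_mul_of_nonneg_left h6 (mul_nonneg h7 h8)
      _ = C₂ * ((wC (Ps (lv q) q) q * pr (Ps (lv q) q)) * ψ q *
          ((wC (Ps (lv r) r) r * pr (Ps (lv r) r)) * ψ r)) := by ring
      _ = C₂ * (f q * f r) := by
          rw [wC_mul_pr (fun p hp => (hPs q hqf p hp).1), wC_mul_pr (fun p hp => (hPs r hrf p hp).1)]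
  have hpt : ∀ q ∈ Sf, ∀ r ∈ Sf, T q r ≤ (if lv r = lv q then T q r else 0) + C₂ * (f q * f r) := by
    intro q hq r hr
    have hff : 0 ≤ C₂ * (f q * f r) :=
      mul_nonneg hC₂.le (mul_nonneg (hf0 q (hSfS hq)) (hf0 r (hSfS hr)))
    rcases lt_trichotomy (lv q) (lv r) with h | h | h
    · rw [if_neg (by omega)]
      linarith only [hdiff q hq r hr h]
    · rw [if_pos h.symm]
      linarith only [hff]
    · rw [if_neg (by omega)]
      have := hdiff r hr q hq h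
      rw [hTsymm q r]
      linarith only [this]
  set F : ℝ := ∑ q ∈ S, f q with hF
  have hF0 : 0 ≤ F := sum_nonneg hf0
  have hFf : ∑ q ∈ Sf, f q ≤ F := sum_le_sum_of_subset_of_nonneg hSfS fun q hq _ => hf0 q hq
  have hFf0 : 0 ≤ ∑ q ∈ Sf, f q := sum_nonneg fun q hq => hf0 q (hSfS hq)
  -- same level
  have hsame : ∑ q ∈ Sf, ∑ r ∈ Sf, (if lv r = lv q then T q r else 0) ≤ C₁ * F := by
    have e1 : ∑ q ∈ Sf, ∑ r ∈ Sf, (if lv r = lv q then T q r else 0) =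
        ∑ i ∈ I, ∑ q ∈ Sf.filter (fun q => lv q = i), ∑ r ∈ Sf.filter (fun r => lv r = i), T q r := by
      rw [← sum_fiberwise_of_maps_to (s := Sf) (t := I) (g := lv)
        (fun q hq => mem_image_of_mem _ (hSfS hq))]
      refine sum_congr rfl fun i _ => sum_congr rfl fun q hq => ?_
      rw [mem_filter] at hq
      rw [sum_filter (s := Sf) (p := fun r => lv r = i)]
      refine sum_congr rfl fun r _ => ?_
      rw [hq.2]
    rw [e1]
    have e3 : F = ∑ i ∈ I, ∑ q ∈ S.filter (fun q => lv q = i), f q :=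
      (sum_fiberwise_of_maps_to (fun q hq => mem_image_of_mem _ hq) _).symm
    rw [e3, mul_sum]
    apply sum_le_sum
    intro i _
    refine le_trans (le_of_eq ?_) (h4 i)
    rw [hSfi]
    refine sum_congr rfl fun q hq => sum_congr rfl fun r hr => ?_
    have hq' := (mem_filter.1 (hS' i hq)).2
    have hr' := (mem_filter.1 (hS' i hr)).2
    simp only [hT]
    rw [hq', hr']
  calc ∑ q ∈ Sf, ∑ r ∈ Sf, T q r
      ≤ ∑ q ∈ Sf, ∑ r ∈ Sf, ((if lv r = lv q then T q r else 0) + C₂ * (f q * f r)) :=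
        sum_le_sum fun q hq => sum_le_sum fun r hr => hpt q hq r hr
    _ = ∑ q ∈ Sf, ∑ r ∈ Sf, (if lv r = lv q then T q r else 0) + C₂ * (∑ q ∈ Sf, f q) ^ 2 := by
        simp_rw [sum_add_distrib]
        congr 1
        rw [sq, sum_mul_sum, mul_sum]
        simp_rw [mul_sum]
    _ ≤ C₁ * F + C₂ * F ^ 2 := by
        have h5 : (∑ q ∈ Sf, f q) ^ 2 ≤ F ^ 2 := pow_le_pow_left₀ hFf0 hFf 2
        have h6 := mul_le_mul_of_nonneg_left h5 hC₂.le
        linarith only [hsame, h6]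
    _ ≤ (C₁ + C₂) * (F + F ^ 2) := by
        have h5 : 0 ≤ C₁ * F ^ 2 := mul_nonneg hC₁.le (sq_nonneg _)
        have h6 : 0 ≤ C₂ * F := mul_nonneg hC₂.le hF0
        linarith only [h5, h6]

/-- Theorem F (the full first question) from the finite statement -/
theorem theoremF_of_MomentF (hF : MomentF) (γ : ℝ) (ψ : ℕ → ℝ) (hψ : ∀ q, 0 ≤ ψ q)
    (hdiv : ¬ Summable (fun q : ℕ => ((q.totient : ℝ) / q) * ψ q)) :
    volume (W γ ψ)ᶜ = 0 := by
  classical
  by_cases hbig : ∀ N : ℕ, ∃ q, N ≤ q ∧ 1 / 2 < ψ q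
  · -- everything is covered
    have : W γ ψ = Set.univ := by
      rw [Set.eq_univ_iff_forall]
      intro x
      rw [W, Set.mem_ofPred_eq]
      apply Set.infinite_of_forall_exists_gt
      intro N
      obtain ⟨q, h1, h2⟩ := hbig (N + 1)
      refine ⟨q, ⟨by omega, ?_⟩, by omega⟩
      have : distInt (q * x - γ) ≤ 1 / 2 := by
        unfold distInt
        exact abs_sub_round _
      linarith only [this, h2]
    rw [this]
    simp
  push Not at hbig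
  obtain ⟨N₄, hN₄⟩ := hbig
  obtain ⟨C₁, hC₁, X₀, hresc⟩ := window_rescaled hF
  obtain ⟨C₂, N₁, hC₂, hN₁, hjoin⟩ := windows_joined hF
  obtain ⟨a, ha⟩ := exists_level_class hψ hdiv
  obtain ⟨M, hM⟩ := exists_nat_ge ((max X₀ 1) ^ 3)
  apply full_of_mass γ ψ (16 * C₁ + 8 * C₂) (1 / 2) (by positivity) (by norm_num)
  intro N
  obtain ⟨Q₀, hQ₀⟩ := lower_count_cls (1 / ((N : ℝ) + 1)) (by (clear * -; positivity))
  obtain ⟨S, hS, hF1⟩ := exists_finset_sum_ge (g := fun q : ℕ =>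
    if lv q % 3 = a ∧ 1 / (q : ℝ) ^ 2 ≤ ψ q then ((q.totient : ℝ) / q) * ψ q else 0)
    (fun q => by
      split_ifs
      · exact mul_nonneg (by (clear * -; positivity)) (hψ q)
      · exact le_rfl) ha (N₁ + N₄ + Q₀ + N + M)
  have hS1 : ∀ q ∈ S, N₁ + N₄ + Q₀ + N + M ≤ q ∧ lv q % 3 = a ∧ 1 / (q : ℝ) ^ 2 ≤ ψ q := by
    intro q hq
    obtain ⟨h1, h2⟩ := hS q hq
    by_cases h3 : lv q % 3 = a ∧ 1 / (q : ℝ) ^ 2 ≤ ψ q
    · exact ⟨h1, h3⟩
    · rw [if_neg h3] at h2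
      exact absurd rfl h2
  have hsum : ∑ q ∈ S, (if lv q % 3 = a ∧ 1 / (q : ℝ) ^ 2 ≤ ψ q then
      ((q.totient : ℝ) / q) * ψ q else 0) = ∑ q ∈ S, (q.totient : ℝ) / q * ψ q := by
    refine sum_congr rfl fun q hq => ?_
    rw [if_pos (hS1 q hq).2]
  rw [hsum] at hF1
  have hq3 : ∀ q ∈ S, 3 ≤ q := fun q hq => by have := (hS1 q hq).1; omega
  have hq0 : ∀ q ∈ S, 0 < q := fun q hq => by have := hq3 q hq; omega
  have hhalf : ∀ q ∈ S, ψ q ≤ 1 / 2 := fun q hq => hN₄ q (by have := (hS1 q hq).1; omega)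
  have hpos : ∀ q ∈ S, 0 < ψ q := by
    intro q hq
    refine lt_of_lt_of_le ?_ (hS1 q hq).2.2
    have : (0 : ℝ) < q := by exact_mod_cast hq0 q hq
    (clear * - this; positivity)
  by_cases hcarl : ∀ i n : ℕ, 0 < n → Mn ψ (S.filter (fun q => lv q = i)) n ≤ 1
  · -- all windows are thin
    obtain ⟨S', hS', Ps, c, h1, h2, h3⟩ := hjoin γ ψ S a (fun q hq =>
      ⟨by have := (hS1 q hq).1; omega, (hS1 q hq).2.1, (hS1 q hq).2.2, hhalf q hq⟩) hcarl
    refine ⟨S', fun q => wC (Ps q) q, fun q => (q.totient : ℝ) / q, fun q => AC (c q) (Ps q),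
      ?_, ?_, ?_, ?_, ?_, ?_⟩
    · intro q hq
      exact ⟨by have := (hS1 q (hS' hq)).1; omega, hpos q (hS' hq), hhalf q (hS' hq)⟩
    · intro q hq
      exact wC_nonneg (fun p hp => (h1 q hq p hp).1) q
    · intro q _
      exact tot_div_nonneg q
    · linarith only [hF1, h2]
    · intro q hq m n hmn
      have h4 := hQ₀ q (c q) (Ps q) (by have := (hS1 q (hS' hq)).1; omega) (h1 q hq) m n
        (by rw [one_div_mul_eq_div]; exact hmn)
      have hpr : ∀ p ∈ Ps q, p.Prime := fun p hp => (h1 q hq p hp).1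
      calc 1 / 2 * ((q.totient : ℝ) / q) * ((n : ℝ) - m)
          = wC (Ps q) q * (1 / 2 * ((n : ℝ) - m) * pr (Ps q)) := by
            rw [← wC_mul_pr hpr q]; ring
        _ ≤ _ := mul_le_mul_of_nonneg_left h4 (wC_nonneg hpr q)
    · refine h3.trans ?_
      set F := ∑ q ∈ S, (q.totient : ℝ) / q * ψ q with hF
      set F' := ∑ q ∈ S', (q.totient : ℝ) / q * ψ q with hF'
      have h5 : F + F ^ 2 ≤ 8 * F' ^ 2 := by nlinarith only [hF1, h2]
      have h6 := mul_le_mul_of_nonneg_left h5 hC₂.le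
      have h7 : 0 ≤ 16 * C₁ * F' ^ 2 := by positivity
      linarith only [h6, h7]
  · -- one window with a large mass
    push Not at hcarl
    obtain ⟨i, n₀, hn₀, hbig⟩ := hcarl
    have hne : (S.filter (fun q => lv q = i)).Nonempty := by
      by_contra h
      rw [not_nonempty_iff_eq_empty] at h
      rw [h] at hbig
      simp only [Mn, filter_empty, sum_empty] at hbig
      norm_num at hbig
    obtain ⟨q₀, hq₀⟩ := hne
    rw [mem_filter] at hq₀
    have hX : X₀ ≤ Real.exp ((3 : ℝ) ^ i) := by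
      obtain ⟨-, h5⟩ := lv_bounds (hq3 q₀ hq₀.1)
      rw [hq₀.2] at h5
      have h6 : (max X₀ 1) ^ 3 ≤ (Real.exp ((3 : ℝ) ^ i)) ^ 3 := by
        refine hM.trans (le_trans ?_ h5)
        exact_mod_cast (by have := (hS1 q₀ hq₀.1).1; omega : M ≤ q₀)
      have h7 : max X₀ 1 ≤ Real.exp ((3 : ℝ) ^ i) :=
        le_of_pow_le_pow_left₀ (by norm_num) (Real.exp_pos _).le h6
      exact (le_max_left _ _).trans h7
    obtain ⟨n, hn, S', hS', hdvd, Ps, c, h1, h2, h3⟩ := hresc γ (Real.exp ((3 : ℝ) ^ i)) ψ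
      (S.filter (fun q => lv q = i)) hX (by
        intro q hq
        rw [mem_filter] at hq
        obtain ⟨hqS, hqi⟩ := hq
        obtain ⟨h4, h5⟩ := lv_bounds (hq3 q hqS)
        rw [hqi] at h4 h5
        have hq0' : (0 : ℝ) < q := by exact_mod_cast hq0 q hqS
        refine ⟨hq0 q hqS, h5, ?_, hhalf q hqS⟩
        refine le_trans ?_ (hS1 q hqS).2.2
        apply one_div_le_one_div_of_le (by positivity)
        calc (q : ℝ) ^ 2 ≤ (Real.exp ((3 : ℝ) ^ i) ^ 3) ^ 2 := pow_le_pow_left₀ hq0'.le h5 2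
          _ = Real.exp ((3 : ℝ) ^ i) ^ 6 := by ring) (Real.exp_pos _) ⟨n₀, hn₀, hbig⟩
    have hS'S : S' ⊆ S := hS'.trans (filter_subset _ _)
    refine ⟨S', fun q => wC (Ps q) (q / n), fun q => ((q / n : ℕ).totient : ℝ) / (q / n : ℕ),
      fun q => AC (c q) (Ps q), ?_, ?_, ?_, ?_, ?_, ?_⟩
    · intro q hq
      exact ⟨by have := (hS1 q (hS'S hq)).1; omega, hpos q (hS'S hq), hhalf q (hS'S hq)⟩
    · intro q hq
      exact wC_nonneg (fun p hp => (h1 q hq p hp).1) _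
    · intro q _
      exact tot_div_nonneg _
    · linarith only [h2]
    · intro q hq m n' hmn
      have h4 := hQ₀ q (c q) (Ps q) (by have := (hS1 q (hS'S hq)).1; omega)
        (fun p hp => ⟨(h1 q hq p hp).1,
          (h1 q hq p hp).2.trans (Nat.div_dvd_of_dvd (hdvd q hq))⟩) m n'
        (by rw [one_div_mul_eq_div]; exact hmn)
      have hpr : ∀ p ∈ Ps q, p.Prime := fun p hp => (h1 q hq p hp).1
      calc 1 / 2 * (((q / n : ℕ).totient : ℝ) / (q / n : ℕ)) * ((n' : ℝ) - m)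
          = wC (Ps q) (q / n) * (1 / 2 * ((n' : ℝ) - m) * pr (Ps q)) := by
            rw [← wC_mul_pr hpr (q / n)]; ring
        _ ≤ _ := mul_le_mul_of_nonneg_left h4 (wC_nonneg hpr _)
    · refine h3.trans ?_
      set F' := ∑ q ∈ S', ((q / n : ℕ).totient : ℝ) / (q / n : ℕ) * ψ q with hF'
      have h5 : 1 ≤ 16 * F' ^ 2 := by nlinarith only [h2]
      have h6 := mul_le_mul_of_nonneg_left h5 hC₁.le
      have h7 : 0 ≤ 8 * C₂ * F' ^ 2 := by positivity
      linarith only [h6, h7]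

end Vale.P028
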