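import Vale.Agent.P028.MathlibUsed
import Vale.Agent.P028.FTop

/-!
# Theorem F from the finite statement `MomentFE` (additional predicate on the centres)
-/

namespace Vale.P028

open Finset MeasureTheory Filter

/-- The sifted set of `q` with an additional condition `E` on the centres. -/
def GE (γ x : ℝ) (c : ℕ → ℤ) (Ps : Finset ℕ) (E : ℤ → Prop) (q : ℕ) : Set ℝ :=
  GS γ q x (fun al => AC c Ps al ∧ E al)

open Classical in
/-- As `MomentF`, but the centres of `q` may in addition be restricted by a `q`-periodic predicate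
`E q` which keeps at least a quarter of the expected number of centres in every interval of length
`≥ L₀ + q ^ (3/4)`. -/
def MomentFE : Prop := ∃ C > 0, ∃ L₀ X₀ : ℝ, ∀ (γ X : ℝ) (ψ : ℕ → ℝ) (S : Finset ℕ), X₀ ≤ X →
  (∀ q ∈ S, 0 < q ∧ (q : ℝ) ≤ X ^ 3 ∧ 1 / X ^ 6 ≤ ψ q ∧ ψ q ≤ 1 / 2) →
  (∀ n : ℕ, 0 < n → ∑ q ∈ S.filter (fun q => n ∣ q),
    (((q / n : ℕ).totient : ℝ) / (q / n : ℕ)) * ψ q ≤ 1) →
  ∃ S' ⊆ S, ∃ (Ps : ℕ → Finset ℕ) (c : ℕ → ℕ → ℤ) (E : ℕ → ℤ → Prop),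
    (∀ q ∈ S', ∀ p ∈ Ps q, p.Prime ∧ p ∣ q) ∧
    (∀ q ∈ S', ∀ al : ℤ, E q (al + q) ↔ E q al) ∧
    (∀ q ∈ S', ∀ m n : ℤ, L₀ + (q : ℝ) ^ (3 / 4 : ℝ) ≤ (n : ℝ) - m →
      1 / 4 * ((n : ℝ) - m) * pr (Ps q) ≤
        (((Ioc m n).filter (fun al => AC (c q) (Ps q) al ∧ E q al)).card : ℝ)) ∧
    ∑ q ∈ S, (q.totient : ℝ) / q * ψ q ≤ 2 * ∑ q ∈ S', (q.totient : ℝ) / q * ψ q ∧
    ∑ q ∈ S', ∑ r ∈ S', wC (Ps q) q * wC (Ps r) r *
      volume.real (GE γ (ψ q) (c q) (Ps q) (E q) q ∩ GE γ (ψ r) (c r) (Ps r) (E r) r ∩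
        Set.Ioc 0 1) ≤ C * ∑ q ∈ S, (q.totient : ℝ) / q * ψ q

theorem cross_overlap_E : ∃ C > 0, ∃ Q₀ : ℕ, ∀ (γ : ℝ) (q r : ℕ) (α β : ℝ), Q₀ ≤ q →
    q ^ 6 ≤ r → 0 < α → α ≤ 1 / 2 → 0 < β → β ≤ 1 / 2 → 1 / (q : ℝ) ^ 2 ≤ α →
    ∀ (c c' : ℕ → ℤ) (Pa Pb : Finset ℕ), (∀ p ∈ Pa, p.Prime ∧ p ∣ q) →
    (∀ p ∈ Pb, p.Prime ∧ p ∣ r) → ∀ E E' : ℤ → Prop,
    volume.real (GE γ α c Pa E q ∩ GE γ β c' Pb E' r ∩ Set.Ioc 0 1) ≤
      C * (α * β) * pr Pa * pr Pb := by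
  obtain ⟨C, hC, Q₀, h⟩ := cross_overlap
  refine ⟨C, hC, Q₀, fun γ q r α β hq hqr hα hα2 hβ hβ2 hαq c c' Pa Pb h₁ h₂ E E' => ?_⟩
  obtain ⟨e, he⟩ := crt_classes c Pa fun p hp => (h₁ p hp).1
  obtain ⟨e', he'⟩ := crt_classes c' Pb fun p hp => (h₂ p hp).1
  exact h γ q r α β hq hqr hα hα2 hβ hβ2 hαq 1 1 (-e) (-e') Pa Pb
    (fun p hp => ⟨(h₁ p hp).1, (h₁ p hp).2, by rw [Nat.dvd_one]; exact (h₁ p hp).1.one_lt.ne'⟩)
    (fun p hp => ⟨(h₂ p hp).1, (h₂ p hp).2, by rw [Nat.dvd_one]; exact (h₂ p hp).1.one_lt.ne'⟩)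
    _ _ (fun al hal => (AC_iff he al).1 hal.1) (fun al hal => (AC_iff he' al).1 hal.1)

/-- the sets are periodic -/
theorem GE_periodic {γ x : ℝ} {c : ℕ → ℤ} {Ps : Finset ℕ} {E : ℤ → Prop} {q : ℕ}
    (h : ∀ p ∈ Ps, p ∣ q) (hE : ∀ al : ℤ, E (al + q) ↔ E al) (y : ℝ) :
    y + 1 ∈ GE γ x c Ps E q ↔ y ∈ GE γ x c Ps E q := by
  simp only [GE, GS, Set.mem_ofPred_eq]
  constructor
  · rintro ⟨al, ⟨h1, h1'⟩, h2⟩
    refine ⟨al - q, ⟨?_, ?_⟩, ?_⟩
    · rw [← AC_add h]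
      simpa using h1
    · rw [← hE]
      simpa using h1'
    · have : (q : ℝ) * y - γ - ((al - q : ℤ) : ℝ) = (q : ℝ) * (y + 1) - γ - al := by
        push_cast; ring
      rw [this]
      exact h2
  · rintro ⟨al, ⟨h1, h1'⟩, h2⟩
    refine ⟨al + q, ⟨?_, ?_⟩, ?_⟩
    · rw [AC_add h]
      exact h1
    · rw [hE]
      exact h1'
    · have : (q : ℝ) * (y + 1) - γ - ((al + q : ℤ) : ℝ) = (q : ℝ) * y - γ - al := by
        push_cast; ring
      rw [this]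
      exact h2

theorem GE_scaled_volume (γ x x' : ℝ) (c c' : ℕ → ℤ) (Pa Pb : Finset ℕ) (E E' : ℤ → Prop)
    (q r : ℕ) (ha : ∀ p ∈ Pa, p ∣ q) (hb : ∀ p ∈ Pb, p ∣ r)
    (hE : ∀ al : ℤ, E (al + q) ↔ E al) (hE' : ∀ al : ℤ, E' (al + r) ↔ E' al) {n : ℕ}
    (hn : 0 < n) :
    volume.real (GS γ (n * q) x (fun al => AC c Pa al ∧ E al) ∩
        GS γ (n * r) x' (fun al => AC c' Pb al ∧ E' al) ∩ Set.Ioc 0 1) =
      volume.real (GE γ x c Pa E q ∩ GE γ x' c' Pb E' r ∩ Set.Ioc 0 1) := by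
  rw [GS_mul, GS_mul, ← Set.preimage_inter]
  exact scaled_volume ((isOpen_GS _ _ _ _).measurableSet.inter (isOpen_GS _ _ _ _).measurableSet)
    (fun y => by
      rw [Set.mem_inter_iff, Set.mem_inter_iff]
      exact and_congr (GE_periodic ha hE y) (GE_periodic hb hE' y)) hn

open Classical in
/-- one rescaled window -/
theorem window_rescaled_E (hF : MomentFE) : ∃ C > 0, ∃ L₀ X₀ : ℝ, ∀ (γ X : ℝ) (ψ : ℕ → ℝ)
    (T : Finset ℕ), X₀ ≤ X →
    (∀ q ∈ T, 0 < q ∧ (q : ℝ) ≤ X ^ 3 ∧ 1 / X ^ 6 ≤ ψ q ∧ ψ q ≤ 1 / 2) → 0 < X →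
    (∃ n₀ : ℕ, 0 < n₀ ∧ 1 < Mn ψ T n₀) →
    ∃ n : ℕ, 0 < n ∧ ∃ S' ⊆ T, (∀ q ∈ S', n ∣ q) ∧ ∃ (Ps : ℕ → Finset ℕ) (c : ℕ → ℕ → ℤ)
      (E : ℕ → ℤ → Prop),
      (∀ q ∈ S', ∀ p ∈ Ps q, p.Prime ∧ p ∣ q / n) ∧
      (∀ q ∈ S', ∀ m n' : ℤ, L₀ + (q : ℝ) ^ (3 / 4 : ℝ) ≤ (n' : ℝ) - m →
        1 / 4 * ((n' : ℝ) - m) * pr (Ps q) ≤
          (((Ioc m n').filter (fun al => AC (c q) (Ps q) al ∧ E q al)).card : ℝ)) ∧
      1 / 4 < ∑ q ∈ S', ((q / n : ℕ).totient : ℝ) / (q / n : ℕ) * ψ q ∧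
      ∑ q ∈ S', ∑ r ∈ S', wC (Ps q) (q / n) * wC (Ps r) (r / n) *
        volume.real (GS γ q (ψ q) (fun al => AC (c q) (Ps q) al ∧ E q al) ∩
          GS γ r (ψ r) (fun al => AC (c r) (Ps r) al ∧ E r al) ∩ Set.Ioc 0 1) ≤ C := by
  obtain ⟨C, hC, L₀, X₀, hmom⟩ := hF
  refine ⟨C, hC, L₀, X₀, ?_⟩
  rintro γ X ψ T hX hT hX0 ⟨n₀, hn₀, hbig⟩
  have hXp : 0 < 1 / X ^ 6 := by positivity
  obtain ⟨n, hn, T₁, hT₁, hdvd, hlow, hup⟩ := rescale (fun q hq =>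
    ⟨(hT q hq).1, lt_of_lt_of_le hXp (hT q hq).2.2.1, (hT q hq).2.2.2⟩) hn₀ hbig
  set S₁ : Finset ℕ := T₁.image (fun q => q / n) with hS₁
  set ψ₁ : ℕ → ℝ := fun q => ψ (n * q) with hψ₁
  have hmul : ∀ q ∈ T₁, n * (q / n) = q := fun q hq => Nat.mul_div_cancel' (hdvd q hq)
  have hinj : Set.InjOn (fun q => q / n) (T₁ : Set ℕ) := by
    intro q hq r hr h
    have h1 := hmul q hq
    have h2 := hmul r hr
    simp only at h
    rw [← h1, ← h2, h]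
  have hmem : ∀ q', q' ∈ S₁ ↔ n * q' ∈ T₁ := by
    intro q'
    rw [hS₁, mem_image]
    constructor
    · rintro ⟨q, hq, rfl⟩
      rw [hmul q hq]
      exact hq
    · intro h
      exact ⟨n * q', h, image_mul_div hn q'⟩
  obtain ⟨S', hS', Ps, c, E, h1, hE, hcnt, h2, h3⟩ := hmom γ X ψ₁ S₁ hX (by
    intro q hq
    have h4 := hT _ (hT₁ ((hmem q).1 hq))
    refine ⟨Nat.pos_of_mul_pos_left h4.1, ?_, h4.2.2.1, h4.2.2.2⟩
    refine le_trans ?_ h4.2.1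
    exact_mod_cast Nat.le_mul_of_pos_left q hn) (by
    intro m hm
    refine le_trans (le_of_eq ?_) (hup m hm)
    unfold Mn
    have e1 : T₁.filter (fun q => n * m ∣ q) = (S₁.filter (fun q => m ∣ q)).image (fun q => n * q) := by
      ext q
      rw [mem_filter, mem_image]
      constructor
      · rintro ⟨h4, h5⟩
        refine ⟨q / n, ?_, hmul q h4⟩
        rw [mem_filter, hmem, hmul q h4]
        refine ⟨h4, ?_⟩
        rw [Nat.dvd_div_iff_mul_dvd (hdvd q h4)]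
        exact h5
      · rintro ⟨q', h4, rfl⟩
        rw [mem_filter, hmem] at h4
        exact ⟨h4.1, Nat.mul_dvd_mul_left n h4.2⟩
    rw [e1, sum_image (by
      intro a _ b _ h
      exact Nat.eq_of_mul_eq_mul_left hn h)]
    refine sum_congr rfl fun q _ => ?_
    rw [Nat.mul_div_mul_left _ _ hn])
  have hmass : ∑ q ∈ S₁, (q.totient : ℝ) / q * ψ₁ q = Mn ψ T₁ n := by
    unfold Mn
    rw [filter_true_of_mem hdvd, hS₁, sum_image hinj]
    refine sum_congr rfl fun q hq => ?_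
    simp only [hψ₁]
    rw [hmul q hq]
  have hmass1 : Mn ψ T₁ n ≤ 1 := by
    have := hup 1 one_pos
    rwa [mul_one] at this
  have hinj2 : Set.InjOn (fun q => n * q) (S' : Set ℕ) := by
    intro a _ b _ h
    exact Nat.eq_of_mul_eq_mul_left hn h
  refine ⟨n, hn, S'.image (fun q => n * q), ?_, ?_, fun q => Ps (q / n), fun q => c (q / n),
    fun q => E (q / n), ?_, ?_, ?_, ?_⟩
  · intro q hq
    rw [mem_image] at hq
    obtain ⟨q', hq', rfl⟩ := hq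
    exact hT₁ ((hmem q').1 (hS' hq'))
  · intro q hq
    rw [mem_image] at hq
    obtain ⟨q', hq', rfl⟩ := hq
    exact dvd_mul_right n q'
  · intro q hq p hp
    rw [mem_image] at hq
    obtain ⟨q', hq', rfl⟩ := hq
    simp only at hp
    rw [image_mul_div hn] at hp ⊢
    exact h1 q' hq' p hp
  · intro q hq m n' hmn
    rw [mem_image] at hq
    obtain ⟨q', hq', rfl⟩ := hq
    simp only [image_mul_div hn]
    apply hcnt q' hq' m n'
    refine le_trans ?_ hmn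
    have h5 : (q' : ℝ) ^ (3 / 4 : ℝ) ≤ ((n * q' : ℕ) : ℝ) ^ (3 / 4 : ℝ) := by
      apply Real.rpow_le_rpow (Nat.cast_nonneg _) _ (by norm_num)
      exact_mod_cast Nat.le_mul_of_pos_left q' hn
    linarith only [h5]
  · rw [sum_image hinj2]
    have : ∑ q ∈ S', ((n * q / n : ℕ).totient : ℝ) / (n * q / n : ℕ) * ψ (n * q) =
        ∑ q ∈ S', (q.totient : ℝ) / q * ψ₁ q := by
      refine sum_congr rfl fun q _ => ?_
      rw [image_mul_div hn]
    rw [this]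
    rw [hmass] at h2
    linarith only [h2, hlow]
  · rw [sum_image hinj2]
    have : ∑ q ∈ S', ∑ r ∈ S'.image (fun q => n * q), wC (Ps (n * q / n)) (n * q / n) *
        wC (Ps (r / n)) (r / n) * volume.real (GS γ (n * q) (ψ (n * q))
          (fun al => AC (c (n * q / n)) (Ps (n * q / n)) al ∧ E (n * q / n) al) ∩
          GS γ r (ψ r) (fun al => AC (c (r / n)) (Ps (r / n)) al ∧ E (r / n) al) ∩
          Set.Ioc 0 1) = ∑ q ∈ S', ∑ r ∈ S', wC (Ps q) q * wC (Ps r) r *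
      volume.real (GE γ (ψ₁ q) (c q) (Ps q) (E q) q ∩ GE γ (ψ₁ r) (c r) (Ps r) (E r) r ∩
        Set.Ioc 0 1) := by
      refine sum_congr rfl fun q hq => ?_
      rw [sum_image hinj2]
      refine sum_congr rfl fun r hr => ?_
      rw [image_mul_div hn, image_mul_div hn, GE_scaled_volume γ _ _ _ _ _ _ _ _ _ _
        (fun p hp => (h1 q hq p hp).2) (fun p hp => (h1 r hr p hp).2) (hE q hq) (hE r hr) hn]
    rw [this]
    refine h3.trans ?_
    rw [hmass]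
    calc C * Mn ψ T₁ n ≤ C * 1 := mul_le_mul_of_nonneg_left hmass1 hC.le
      _ = C := mul_one C

open Classical in
/-- all the windows together -/
theorem windows_joined_E (hF : MomentFE) : ∃ (C L₀ : ℝ) (N₁ : ℕ), 0 < C ∧ 3 ≤ N₁ ∧
    ∀ (γ : ℝ) (ψ : ℕ → ℝ) (S : Finset ℕ) (a : ℕ),
      (∀ q ∈ S, N₁ ≤ q ∧ lv q % 3 = a ∧ 1 / (q : ℝ) ^ 2 ≤ ψ q ∧ ψ q ≤ 1 / 2) →
      (∀ i n : ℕ, 0 < n → Mn ψ (S.filter (fun q => lv q = i)) n ≤ 1) →
      ∃ S' ⊆ S, ∃ (Ps : ℕ → Finset ℕ) (c : ℕ → ℕ → ℤ) (E : ℕ → ℤ → Prop),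
        (∀ q ∈ S', ∀ p ∈ Ps q, p.Prime ∧ p ∣ q) ∧
        (∀ q ∈ S', ∀ m n : ℤ, L₀ + (q : ℝ) ^ (3 / 4 : ℝ) ≤ (n : ℝ) - m →
          1 / 4 * ((n : ℝ) - m) * pr (Ps q) ≤
            (((Ioc m n).filter (fun al => AC (c q) (Ps q) al ∧ E q al)).card : ℝ)) ∧
        ∑ q ∈ S, (q.totient : ℝ) / q * ψ q ≤ 2 * ∑ q ∈ S', (q.totient : ℝ) / q * ψ q ∧
        ∑ q ∈ S', ∑ r ∈ S', wC (Ps q) q * wC (Ps r) r *
          volume.real (GE γ (ψ q) (c q) (Ps q) (E q) q ∩ GE γ (ψ r) (c r) (Ps r) (E r) r ∩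
            Set.Ioc 0 1) ≤
        C * ((∑ q ∈ S, (q.totient : ℝ) / q * ψ q) + (∑ q ∈ S, (q.totient : ℝ) / q * ψ q) ^ 2) := by
  obtain ⟨C₁, hC₁, L₀, X₀, hlev⟩ := hF
  obtain ⟨C₂, hC₂, Q₀, hcross⟩ := cross_overlap_E
  obtain ⟨M, hM⟩ := exists_nat_ge ((max X₀ 1) ^ 3)
  refine ⟨C₁ + C₂, L₀, max (max M Q₀) 3, by positivity, le_max_right _ _, ?_⟩
  intro γ ψ S a hS hcarl
  have hM' : ∀ q ∈ S, M ≤ q := fun q hq =>
    ((le_max_left _ _).trans (le_max_left _ _)).trans (hS q hq).1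
  have hQ' : ∀ q ∈ S, Q₀ ≤ q := fun q hq =>
    ((le_max_right _ _).trans (le_max_left _ _)).trans (hS q hq).1
  have h3 : ∀ q ∈ S, 3 ≤ q := fun q hq => (le_max_right _ _).trans (hS q hq).1
  have hpos : ∀ q ∈ S, 0 < ψ q := by
    intro q hq
    refine lt_of_lt_of_le ?_ (hS q hq).2.2.1
    have : (0 : ℝ) < q := by
      have := h3 q hq
      (clear * - this; positivity)
    (clear * - this; positivity)
  set f : ℕ → ℝ := fun q => (q.totient : ℝ) / q * ψ q with hf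
  have hf0 : ∀ q ∈ S, 0 ≤ f q := fun q hq => mul_nonneg (by (clear * -; positivity)) (hpos q hq).le
  -- one window
  have hwin : ∀ i : ℕ, ∃ S' ⊆ S.filter (fun q => lv q = i), ∃ (Ps : ℕ → Finset ℕ)
      (c : ℕ → ℕ → ℤ) (E : ℕ → ℤ → Prop),
      (∀ q ∈ S', ∀ p ∈ Ps q, p.Prime ∧ p ∣ q) ∧
      (∀ q ∈ S', ∀ m n : ℤ, L₀ + (q : ℝ) ^ (3 / 4 : ℝ) ≤ (n : ℝ) - m →
        1 / 4 * ((n : ℝ) - m) * pr (Ps q) ≤
          (((Ioc m n).filter (fun al => AC (c q) (Ps q) al ∧ E q al)).card : ℝ)) ∧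
      ∑ q ∈ S.filter (fun q => lv q = i), f q ≤ 2 * ∑ q ∈ S', f q ∧
      ∑ q ∈ S', ∑ r ∈ S', wC (Ps q) q * wC (Ps r) r *
        volume.real (GE γ (ψ q) (c q) (Ps q) (E q) q ∩ GE γ (ψ r) (c r) (Ps r) (E r) r ∩
          Set.Ioc 0 1) ≤
        C₁ * ∑ q ∈ S.filter (fun q => lv q = i), f q := by
    intro i
    rcases (S.filter (fun q => lv q = i)).eq_empty_or_nonempty with hemp | ⟨q₀, hq₀⟩
    · rw [hemp]
      refine ⟨∅, Subset.refl _, fun _ => ∅, fun _ _ => 0, fun _ _ => True, ?_, ?_, ?_, ?_⟩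
      · intro q hq
        exact absurd hq (notMem_empty _)
      · intro q hq
        exact absurd hq (notMem_empty _)
      · simp
      · simp
    · rw [mem_filter] at hq₀
      have hX : X₀ ≤ Real.exp ((3 : ℝ) ^ i) := by
        obtain ⟨-, h5⟩ := lv_bounds (h3 q₀ hq₀.1)
        rw [hq₀.2] at h5
        have h6 : (max X₀ 1) ^ 3 ≤ (Real.exp ((3 : ℝ) ^ i)) ^ 3 := by
          refine hM.trans (le_trans ?_ h5)
          exact_mod_cast hM' q₀ hq₀.1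
        have h7 : max X₀ 1 ≤ Real.exp ((3 : ℝ) ^ i) :=
          le_of_pow_le_pow_left₀ (by norm_num) (Real.exp_pos _).le h6
        exact (le_max_left _ _).trans h7
      obtain ⟨S', hS', Ps, c, E, g1, -, g2, g3, g4⟩ := hlev γ (Real.exp ((3 : ℝ) ^ i)) ψ
        (S.filter (fun q => lv q = i)) hX (by
          intro q hq
          rw [mem_filter] at hq
          obtain ⟨hqS, hqi⟩ := hq
          obtain ⟨h4, h5⟩ := lv_bounds (h3 q hqS)
          rw [hqi] at h4 h5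
          have hq0 : (0 : ℝ) < q := by
            have := h3 q hqS
            (clear * - this; positivity)
          refine ⟨by have := h3 q hqS; omega, h5, ?_, (hS q hqS).2.2.2⟩
          refine le_trans ?_ (hS q hqS).2.2.1
          apply one_div_le_one_div_of_le (by positivity)
          calc (q : ℝ) ^ 2 ≤ (Real.exp ((3 : ℝ) ^ i) ^ 3) ^ 2 := pow_le_pow_left₀ hq0.le h5 2
            _ = Real.exp ((3 : ℝ) ^ i) ^ 6 := by ring) (fun n hn => hcarl i n hn)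
      exact ⟨S', hS', Ps, c, E, g1, g2, g3, g4⟩
  choose S' hS' Ps c E h1 hcnt h2 h4 using hwin
  set I : Finset ℕ := S.image lv with hI
  set Sf : Finset ℕ := S.filter (fun q => q ∈ S' (lv q)) with hSf
  have hSfi : ∀ i, Sf.filter (fun q => lv q = i) = S' i := by
    intro i
    ext q
    rw [mem_filter, hSf, mem_filter]
    constructor
    · rintro ⟨⟨-, h5⟩, rfl⟩
      exact h5
    · intro h5
      have h6 := hS' i h5
      rw [mem_filter] at h6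
      exact ⟨⟨h6.1, by rw [h6.2]; exact h5⟩, h6.2⟩
  have hSfS : Sf ⊆ S := filter_subset _ _
  have hPs : ∀ q ∈ Sf, ∀ p ∈ Ps (lv q) q, p.Prime ∧ p ∣ q := by
    intro q hq
    rw [hSf, mem_filter] at hq
    exact h1 (lv q) q hq.2
  refine ⟨Sf, hSfS, fun q => Ps (lv q) q, fun q => c (lv q) q, fun q => E (lv q) q, hPs, ?_, ?_, ?_⟩
  · intro q hq
    rw [hSf, mem_filter] at hq
    exact hcnt (lv q) q hq.2
  · have e1 : ∑ q ∈ S, f q = ∑ i ∈ I, ∑ q ∈ S.filter (fun q => lv q = i), f q :=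
      (sum_fiberwise_of_maps_to (fun q hq => mem_image_of_mem _ hq) _).symm
    have e2 : ∑ q ∈ Sf, f q = ∑ i ∈ I, ∑ q ∈ Sf.filter (fun q => lv q = i), f q :=
      (sum_fiberwise_of_maps_to (fun q hq => mem_image_of_mem _ (hSfS hq)) _).symm
    change ∑ q ∈ S, f q ≤ 2 * ∑ q ∈ Sf, f q
    rw [e1, e2, mul_sum]
    apply sum_le_sum
    intro i _
    rw [hSfi]
    exact h2 i
  set T : ℕ → ℕ → ℝ := fun q r => wC (Ps (lv q) q) q * wC (Ps (lv r) r) r *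
        volume.real (GE γ (ψ q) (c (lv q) q) (Ps (lv q) q) (E (lv q) q) q ∩
          GE γ (ψ r) (c (lv r) r) (Ps (lv r) r) (E (lv r) r) r ∩ Set.Ioc 0 1) with hT
  have hTsymm : ∀ q r, T q r = T r q := by
    intro q r
    simp only [hT]
    rw [Set.inter_comm (GE γ (ψ q) (c (lv q) q) (Ps (lv q) q) (E (lv q) q) q),
      mul_comm (wC (Ps (lv q) q) q)]
  -- different levels
  have hdiff : ∀ q ∈ Sf, ∀ r ∈ Sf, lv q < lv r → T q r ≤ C₂ * (f q * f r) := by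
    intro q hqf r hrf hlt
    have hq := hSfS hqf
    have hr := hSfS hrf
    have h4 : lv q + 3 ≤ lv r := by
      have h5 := (hS q hq).2.1
      have h6 := (hS r hr).2.1
      omega
    have h5 := pow_six_le_of_lv (h3 q hq) (h3 r hr) h4
    have h6 := hcross γ q r (ψ q) (ψ r) (hQ' q hq) h5 (hpos q hq) (hS q hq).2.2.2 (hpos r hr)
      (hS r hr).2.2.2 (hS q hq).2.2.1 (c (lv q) q) (c (lv r) r) (Ps (lv q) q) (Ps (lv r) r)
      (hPs q hqf) (hPs r hrf) (E (lv q) q) (E (lv r) r)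
    have h7 := wC_nonneg (fun p hp => (hPs q hqf p hp).1) q
    have h8 := wC_nonneg (fun p hp => (hPs r hrf p hp).1) r
    calc T q r ≤ wC (Ps (lv q) q) q * wC (Ps (lv r) r) r *
          (C₂ * (ψ q * ψ r) * pr (Ps (lv q) q) * pr (Ps (lv r) r)) := by
          simp only [hT]
          exact mul_le_mul_of_nonneg_left h6 (mul_nonneg h7 h8)
      _ = C₂ * ((wC (Ps (lv q) q) q * pr (Ps (lv q) q)) * ψ q *
          ((wC (Ps (lv r) r) r * pr (Ps (lv r) r)) * ψ r)) := by ring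
      _ = C₂ * (f q * f r) := by
          rw [wC_mul_pr (fun p hp => (hPs q hqf p hp).1), wC_mul_pr (fun p hp => (hPs r hrf p hp).1)]
  have hpt : ∀ q ∈ Sf, ∀ r ∈ Sf, T q r ≤ (if lv r = lv q then T q r else 0) + C₂ * (f q * f r) := by
    intro q hq r hr
    have hff : 0 ≤ C₂ * (f q * f r) :=
      mul_nonneg hC₂.le (mul_nonneg (hf0 q (hSfS hq)) (hf0 r (hSfS hr)))
    rcases lt_trichotomy (lv q) (lv r) with h | h | h
    · rw [if_neg (by omega)]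
      linarith only [hdiff q hq r hr h]
    · rw [if_pos h.symm]
      linarith only [hff]
    · rw [if_neg (by omega)]
      have := hdiff r hr q hq h
      rw [hTsymm q r]
      linarith only [this]
  set F : ℝ := ∑ q ∈ S, f q with hF
  have hF0 : 0 ≤ F := sum_nonneg hf0
  have hFf : ∑ q ∈ Sf, f q ≤ F := sum_le_sum_of_subset_of_nonneg hSfS fun q hq _ => hf0 q hq
  have hFf0 : 0 ≤ ∑ q ∈ Sf, f q := sum_nonneg fun q hq => hf0 q (hSfS hq)
  -- same level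
  have hsame : ∑ q ∈ Sf, ∑ r ∈ Sf, (if lv r = lv q then T q r else 0) ≤ C₁ * F := by
    have e1 : ∑ q ∈ Sf, ∑ r ∈ Sf, (if lv r = lv q then T q r else 0) =
        ∑ i ∈ I, ∑ q ∈ Sf.filter (fun q => lv q = i), ∑ r ∈ Sf.filter (fun r => lv r = i), T q r := by
      rw [← sum_fiberwise_of_maps_to (s := Sf) (t := I) (g := lv)
        (fun q hq => mem_image_of_mem _ (hSfS hq))]
      refine sum_congr rfl fun i _ => sum_congr rfl fun q hq => ?_
      rw [mem_filter] at hq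
      rw [sum_filter (s := Sf) (p := fun r => lv r = i)]
      refine sum_congr rfl fun r _ => ?_
      rw [hq.2]
    rw [e1]
    have e3 : F = ∑ i ∈ I, ∑ q ∈ S.filter (fun q => lv q = i), f q :=
      (sum_fiberwise_of_maps_to (fun q hq => mem_image_of_mem _ hq) _).symm
    rw [e3, mul_sum]
    apply sum_le_sum
    intro i _
    refine le_trans (le_of_eq ?_) (h4 i)
    rw [hSfi]
    refine sum_congr rfl fun q hq => sum_congr rfl fun r hr => ?_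
    have hq' := (mem_filter.1 (hS' i hq)).2
    have hr' := (mem_filter.1 (hS' i hr)).2
    simp only [hT]
    rw [hq', hr']
  calc ∑ q ∈ Sf, ∑ r ∈ Sf, T q r
      ≤ ∑ q ∈ Sf, ∑ r ∈ Sf, ((if lv r = lv q then T q r else 0) + C₂ * (f q * f r)) :=
        sum_le_sum fun q hq => sum_le_sum fun r hr => hpt q hq r hr
    _ = ∑ q ∈ Sf, ∑ r ∈ Sf, (if lv r = lv q then T q r else 0) + C₂ * (∑ q ∈ Sf, f q) ^ 2 := by
        simp_rw [sum_add_distrib]
        congr 1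
        rw [sq, sum_mul_sum, mul_sum]
        simp_rw [mul_sum]
    _ ≤ C₁ * F + C₂ * F ^ 2 := by
        have h5 : (∑ q ∈ Sf, f q) ^ 2 ≤ F ^ 2 := pow_le_pow_left₀ hFf0 hFf 2
        have h6 := mul_le_mul_of_nonneg_left h5 hC₂.le
        linarith only [hsame, h6]
    _ ≤ (C₁ + C₂) * (F + F ^ 2) := by
        have h5 : 0 ≤ C₁ * F ^ 2 := mul_nonneg hC₁.le (sq_nonneg _)
        have h6 : 0 ≤ C₂ * F := mul_nonneg hC₂.le hF0
        linarith only [h5, h6]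

/-- for large `q` the intervals of length `q / (N + 1)` are long enough -/
theorem long_interval (N : ℕ) (L₀ : ℝ) : ∃ Q₁ : ℕ, ∀ q : ℕ, Q₁ ≤ q →
    L₀ + (q : ℝ) ^ (3 / 4 : ℝ) ≤ (q : ℝ) / (N + 1) := by
  have h1 : Tendsto (fun x : ℝ => x ^ (1 / 4 : ℝ)) atTop atTop :=
    tendsto_rpow_atTop (by norm_num)
  obtain ⟨A, hA⟩ := eventually_atTop.1 (h1.eventually_ge_atTop (2 * ((N : ℝ) + 1)))
  obtain ⟨Q₁, hQ₁⟩ := exists_nat_ge (max (max A 1) (2 * ((N : ℝ) + 1) * |L₀|))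
  refine ⟨Q₁, fun q hq => ?_⟩
  have hqR : (Q₁ : ℝ) ≤ q := by exact_mod_cast hq
  have hqA : A ≤ q := ((le_max_left _ _).trans (le_max_left _ _)).trans (hQ₁.trans hqR)
  have hq1 : (1 : ℝ) ≤ q := ((le_max_right _ _).trans (le_max_left _ _)).trans (hQ₁.trans hqR)
  have hqL : 2 * ((N : ℝ) + 1) * |L₀| ≤ q := (le_max_right _ _).trans (hQ₁.trans hqR)
  have h2 := hA q hqA
  have hq0 : (0 : ℝ) < q := by linarith only [hq1]
  have h3 : (q : ℝ) = (q : ℝ) ^ (3 / 4 : ℝ) * (q : ℝ) ^ (1 / 4 : ℝ) := by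
    rw [← Real.rpow_add hq0]; norm_num
  have h4 : 0 < (q : ℝ) ^ (3 / 4 : ℝ) := Real.rpow_pos_of_pos hq0 _
  have hN : (0 : ℝ) < (N : ℝ) + 1 := by positivity
  rw [le_div_iff₀ hN]
  have h5 : (q : ℝ) ^ (3 / 4 : ℝ) * (2 * ((N : ℝ) + 1)) ≤ q := by
    calc (q : ℝ) ^ (3 / 4 : ℝ) * (2 * ((N : ℝ) + 1)) ≤
        (q : ℝ) ^ (3 / 4 : ℝ) * (q : ℝ) ^ (1 / 4 : ℝ) := mul_le_mul_of_nonneg_left h2 h4.le
      _ = q := h3.symm
  have h6 : L₀ * ((N : ℝ) + 1) ≤ |L₀| * ((N : ℝ) + 1) :=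
    mul_le_mul_of_nonneg_right (le_abs_self _) hN.le
  linarith only [h5, h6, hqL]

open Classical in
/-- Theorem F (the full first question) from the finite statement -/
theorem theoremF_of_MomentFE (hF : MomentFE) (γ : ℝ) (ψ : ℕ → ℝ) (hψ : ∀ q, 0 ≤ ψ q)
    (hdiv : ¬ Summable (fun q : ℕ => ((q.totient : ℝ) / q) * ψ q)) :
    volume (W γ ψ)ᶜ = 0 := by
  by_cases hbig : ∀ N : ℕ, ∃ q, N ≤ q ∧ 1 / 2 < ψ q
  · -- everything is covered
    have : W γ ψ = Set.univ := by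
      rw [Set.eq_univ_iff_forall]
      intro x
      rw [W, Set.mem_ofPred_eq]
      apply Set.infinite_of_forall_exists_gt
      intro N
      obtain ⟨q, h1, h2⟩ := hbig (N + 1)
      refine ⟨q, ⟨by omega, ?_⟩, by omega⟩
      have : distInt (q * x - γ) ≤ 1 / 2 := by
        unfold distInt
        exact abs_sub_round _
      linarith only [this, h2]
    rw [this]
    simp
  push Not at hbig
  obtain ⟨N₄, hN₄⟩ := hbig
  obtain ⟨C₁, hC₁, L₁, X₀, hresc⟩ := window_rescaled_E hF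
  obtain ⟨C₂, L₂, N₁, hC₂, hN₁, hjoin⟩ := windows_joined_E hF
  obtain ⟨a, ha⟩ := exists_level_class hψ hdiv
  obtain ⟨M, hM⟩ := exists_nat_ge ((max X₀ 1) ^ 3)
  apply full_of_mass γ ψ (16 * C₁ + 8 * C₂) (1 / 4) (by positivity) (by norm_num)
  intro N
  obtain ⟨Q₁, hQ₁⟩ := long_interval N L₁
  obtain ⟨Q₂, hQ₂⟩ := long_interval N L₂
  obtain ⟨S, hS, hF1⟩ := exists_finset_sum_ge (g := fun q : ℕ =>
    if lv q % 3 = a ∧ 1 / (q : ℝ) ^ 2 ≤ ψ q then ((q.totient : ℝ) / q) * ψ q else 0)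
    (fun q => by
      split_ifs
      · exact mul_nonneg (by (clear * -; positivity)) (hψ q)
      · exact le_rfl) ha (N₁ + N₄ + Q₁ + Q₂ + N + M)
  have hS1 : ∀ q ∈ S, N₁ + N₄ + Q₁ + Q₂ + N + M ≤ q ∧ lv q % 3 = a ∧ 1 / (q : ℝ) ^ 2 ≤ ψ q := by
    intro q hq
    obtain ⟨h1, h2⟩ := hS q hq
    by_cases h3 : lv q % 3 = a ∧ 1 / (q : ℝ) ^ 2 ≤ ψ q
    · exact ⟨h1, h3⟩
    · rw [if_neg h3] at h2
      exact absurd rfl h2
  have hsum : ∑ q ∈ S, (if lv q % 3 = a ∧ 1 / (q : ℝ) ^ 2 ≤ ψ q then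
      ((q.totient : ℝ) / q) * ψ q else 0) = ∑ q ∈ S, (q.totient : ℝ) / q * ψ q := by
    refine sum_congr rfl fun q hq => ?_
    rw [if_pos (hS1 q hq).2]
  rw [hsum] at hF1
  have hq3 : ∀ q ∈ S, 3 ≤ q := fun q hq => by have := (hS1 q hq).1; omega
  have hq0 : ∀ q ∈ S, 0 < q := fun q hq => by have := hq3 q hq; omega
  have hhalf : ∀ q ∈ S, ψ q ≤ 1 / 2 := fun q hq => hN₄ q (by have := (hS1 q hq).1; omega)
  have hpos : ∀ q ∈ S, 0 < ψ q := by
    intro q hq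
    refine lt_of_lt_of_le ?_ (hS1 q hq).2.2
    have : (0 : ℝ) < q := by exact_mod_cast hq0 q hq
    (clear * - this; positivity)
  by_cases hcarl : ∀ i n : ℕ, 0 < n → Mn ψ (S.filter (fun q => lv q = i)) n ≤ 1
  · -- all windows are thin
    obtain ⟨S', hS', Ps, c, E, h1, hcnt, h2, h3⟩ := hjoin γ ψ S a (fun q hq =>
      ⟨by have := (hS1 q hq).1; omega, (hS1 q hq).2.1, (hS1 q hq).2.2, hhalf q hq⟩) hcarl
    refine ⟨S', fun q => wC (Ps q) q, fun q => (q.totient : ℝ) / q,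
      fun q al => AC (c q) (Ps q) al ∧ E q al, ?_, ?_, ?_, ?_, ?_, ?_⟩
    · intro q hq
      exact ⟨by have := (hS1 q (hS' hq)).1; omega, hpos q (hS' hq), hhalf q (hS' hq)⟩
    · intro q hq
      exact wC_nonneg (fun p hp => (h1 q hq p hp).1) q
    · intro q _
      exact tot_div_nonneg q
    · linarith only [hF1, h2]
    · intro q hq m n hmn
      have h4 := hcnt q hq m n ((hQ₂ q (by have := (hS1 q (hS' hq)).1; omega)).trans hmn)
      have hpr : ∀ p ∈ Ps q, p.Prime := fun p hp => (h1 q hq p hp).1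
      calc 1 / 4 * ((q.totient : ℝ) / q) * ((n : ℝ) - m)
          = wC (Ps q) q * (1 / 4 * ((n : ℝ) - m) * pr (Ps q)) := by
            rw [← wC_mul_pr hpr q]; ring
        _ ≤ _ := by
            refine (mul_le_mul_of_nonneg_left h4 (wC_nonneg hpr q)).trans (le_of_eq ?_)
            congr!
    · refine h3.trans ?_
      set F := ∑ q ∈ S, (q.totient : ℝ) / q * ψ q with hF
      set F' := ∑ q ∈ S', (q.totient : ℝ) / q * ψ q with hF'
      have h5 : F + F ^ 2 ≤ 8 * F' ^ 2 := by nlinarith only [hF1, h2]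
      have h6 := mul_le_mul_of_nonneg_left h5 hC₂.le
      have h7 : 0 ≤ 16 * C₁ * F' ^ 2 := by positivity
      linarith only [h6, h7]
  · -- one window with a large mass
    push Not at hcarl
    obtain ⟨i, n₀, hn₀, hbig⟩ := hcarl
    have hne : (S.filter (fun q => lv q = i)).Nonempty := by
      by_contra h
      rw [not_nonempty_iff_eq_empty] at h
      rw [h] at hbig
      simp only [Mn, filter_empty, sum_empty] at hbig
      norm_num at hbig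
    obtain ⟨q₀, hq₀⟩ := hne
    rw [mem_filter] at hq₀
    have hX : X₀ ≤ Real.exp ((3 : ℝ) ^ i) := by
      obtain ⟨-, h5⟩ := lv_bounds (hq3 q₀ hq₀.1)
      rw [hq₀.2] at h5
      have h6 : (max X₀ 1) ^ 3 ≤ (Real.exp ((3 : ℝ) ^ i)) ^ 3 := by
        refine hM.trans (le_trans ?_ h5)
        exact_mod_cast (by have := (hS1 q₀ hq₀.1).1; omega : M ≤ q₀)
      have h7 : max X₀ 1 ≤ Real.exp ((3 : ℝ) ^ i) :=
        le_of_pow_le_pow_left₀ (by norm_num) (Real.exp_pos _).le h6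
      exact (le_max_left _ _).trans h7
    obtain ⟨n, hn, S', hS', hdvd, Ps, c, E, h1, hcnt, h2, h3⟩ :=
      hresc γ (Real.exp ((3 : ℝ) ^ i)) ψ (S.filter (fun q => lv q = i)) hX (by
        intro q hq
        rw [mem_filter] at hq
        obtain ⟨hqS, hqi⟩ := hq
        obtain ⟨h4, h5⟩ := lv_bounds (hq3 q hqS)
        rw [hqi] at h4 h5
        have hq0' : (0 : ℝ) < q := by exact_mod_cast hq0 q hqS
        refine ⟨hq0 q hqS, h5, ?_, hhalf q hqS⟩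
        refine le_trans ?_ (hS1 q hqS).2.2
        apply one_div_le_one_div_of_le (by positivity)
        calc (q : ℝ) ^ 2 ≤ (Real.exp ((3 : ℝ) ^ i) ^ 3) ^ 2 := pow_le_pow_left₀ hq0'.le h5 2
          _ = Real.exp ((3 : ℝ) ^ i) ^ 6 := by ring) (Real.exp_pos _) ⟨n₀, hn₀, hbig⟩
    have hS'S : S' ⊆ S := hS'.trans (filter_subset _ _)
    refine ⟨S', fun q => wC (Ps q) (q / n), fun q => ((q / n : ℕ).totient : ℝ) / (q / n : ℕ),
      fun q al => AC (c q) (Ps q) al ∧ E q al, ?_, ?_, ?_, ?_, ?_, ?_⟩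
    · intro q hq
      exact ⟨by have := (hS1 q (hS'S hq)).1; omega, hpos q (hS'S hq), hhalf q (hS'S hq)⟩
    · intro q hq
      exact wC_nonneg (fun p hp => (h1 q hq p hp).1) _
    · intro q _
      exact tot_div_nonneg _
    · linarith only [h2]
    · intro q hq m n' hmn
      have h4 := hcnt q hq m n' ((hQ₁ q (by have := (hS1 q (hS'S hq)).1; omega)).trans hmn)
      have hpr : ∀ p ∈ Ps q, p.Prime := fun p hp => (h1 q hq p hp).1
      calc 1 / 4 * (((q / n : ℕ).totient : ℝ) / (q / n : ℕ)) * ((n' : ℝ) - m)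
          = wC (Ps q) (q / n) * (1 / 4 * ((n' : ℝ) - m) * pr (Ps q)) := by
            rw [← wC_mul_pr hpr (q / n)]; ring
        _ ≤ _ := by
            refine (mul_le_mul_of_nonneg_left h4 (wC_nonneg hpr _)).trans (le_of_eq ?_)
            congr!
    · refine h3.trans ?_
      set F' := ∑ q ∈ S', ((q / n : ℕ).totient : ℝ) / (q / n : ℕ) * ψ q with hF'
      have h5 : 1 ≤ 16 * F' ^ 2 := by nlinarith only [h2]
      have h6 := mul_le_mul_of_nonneg_left h5 hC₁.le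
      have h7 : 0 ≤ 8 * C₂ * F' ^ 2 := by positivity
      linarith only [h6, h7]

end Vale.P028
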