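import Vale.Agent.P028.MathlibUsed
import Vale.Agent.P028.KSieve
import Vale.Agent.P028.FDefs

/-!
# Sheet sums for class systems (letter G)

`sheet_far`: far pairs, arbitrary classes; `sheet_coh`: coherent classes; `sheet_triv`: trivial
bound.
-/

namespace Vale.P028

open Finset

/-- Mertens: the product over all primes `≤ w` is `≥ c / log w`. -/
theorem pr_inv_le_log : ∃ C > 0, ∀ (Ps : Finset ℕ) (w : ℝ), 2 ≤ w →
    (∀ p ∈ Ps, p.Prime ∧ (p : ℝ) ≤ w) → (pr Ps)⁻¹ ≤ C * Real.log w := by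
  obtain ⟨C₀, hC₀, hM⟩ := Vale.Agent.P013.mertens_prod
  have hl2 : 0 < Real.log 2 := Real.log_pos (by norm_num)
  obtain ⟨x, hx⟩ := exists_nat_gt (Real.exp (C₀ + 1))
  have hx2 : 2 ≤ x := by
    have h1 : (2 : ℝ) < Real.exp (C₀ + 1) := by
      have := Real.add_one_le_exp (C₀ + 1)
      have h3 : (2 : ℝ) < Real.exp 1 := by
        have := Real.exp_one_gt_d9; linarith
      have h4 : Real.exp 1 ≤ Real.exp (C₀ + 1) := Real.exp_le_exp.2 (by linarith only [hC₀])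
      linarith only [h3, h4]
    have : (2 : ℝ) < x := h1.trans hx
    exact_mod_cast this.le
  have hlx : 1 ≤ Real.log x - C₀ := by
    have : C₀ + 1 ≤ Real.log x := by
      rw [Real.le_log_iff_exp_le (by exact_mod_cast (by omega : 0 < x))]
      exact hx.le
    linarith only [this]
  set P₀ := (range x).filter Nat.Prime with hP₀
  have hP₀p : ∀ p ∈ P₀, p.Prime := fun p hp => (mem_filter.1 hp).2
  have hP₀0 : 0 < pr P₀ := ks_pr_pos hP₀p
  -- constant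
  refine ⟨(pr P₀)⁻¹ * ((1 / Real.log 2) * (2 * (x : ℝ) + 4) + 4), by positivity, ?_⟩
  intro Ps w hw hPs
  have hPp : ∀ p ∈ Ps, p.Prime := fun p hp => (hPs p hp).1
  have hlw : Real.log 2 ≤ Real.log w := Real.log_le_log (by norm_num) hw
  have hlw0 : 0 < Real.log w := hl2.trans_le hlw
  set z : ℕ := max x (⌊w⌋₊ + 1) with hz
  have hxz : x ≤ z := le_max_left _ _
  have hz2 : (2 : ℝ) ≤ z := by exact_mod_cast hx2.trans hxz
  have hlz : Real.log z ≤ ((1 / Real.log 2) * (2 * (x : ℝ) + 4) + 4) * Real.log w := by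
    have h0 : (z : ℝ) ≤ (2 * x + 4) * w := by
      have hx0 : (0 : ℝ) ≤ x := Nat.cast_nonneg _
      rw [hz, Nat.cast_max]
      apply max_le
      · nlinarith
      · have := Nat.floor_le (by linarith only [hw] : 0 ≤ w)
        push_cast
        nlinarith
    have h1 : Real.log z ≤ Real.log (2 * x + 4) + Real.log w := by
      rw [← Real.log_mul (by positivity) (by linarith only [hw])]
      exact Real.log_le_log (by linarith only [hz2]) h0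
    have h2 : Real.log (2 * (x : ℝ) + 4) ≤ 2 * x + 4 := by
      have := Real.log_le_sub_one_of_pos (by positivity : (0 : ℝ) < 2 * x + 4)
      linarith only [this]
    have h3 : 2 * (x : ℝ) + 4 ≤ (1 / Real.log 2) * (2 * (x : ℝ) + 4) * Real.log w := by
      have h4 : 1 ≤ (1 / Real.log 2) * Real.log w := by
        rw [one_div, ← div_eq_inv_mul, le_div_iff₀ hl2]
        linarith only [hlw]
      have h5 : (0 : ℝ) ≤ 2 * (x : ℝ) + 4 := by positivity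
      calc 2 * (x : ℝ) + 4 = (2 * (x : ℝ) + 4) * 1 := by ring
        _ ≤ (2 * (x : ℝ) + 4) * ((1 / Real.log 2) * Real.log w) :=
            mul_le_mul_of_nonneg_left h4 h5
        _ = _ := by ring
    nlinarith
  have hlz0 : 0 < Real.log z := Real.log_pos (by linarith only [hz2])
  have h1 := hM x z hx2 hxz
  set P₁ := (Ico x z).filter Nat.Prime with hP₁
  have hP₁p : ∀ p ∈ P₁, p.Prime := fun p hp => (mem_filter.1 hp).2
  have hP₁0 : 0 < pr P₁ := ks_pr_pos hP₁p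
  have h2 : 1 ≤ Real.log z * pr P₁ := hlx.trans h1
  have hdis : Disjoint P₀ P₁ := by
    rw [Finset.disjoint_left]
    intro p hp hp'
    rw [hP₀, mem_filter, mem_range] at hp
    rw [hP₁, mem_filter, mem_Ico] at hp'
    omega
  have hsub : Ps ⊆ P₀ ∪ P₁ := by
    intro p hp
    rw [mem_union, hP₀, hP₁, mem_filter, mem_filter, mem_range, mem_Ico]
    have h3 := hPs p hp
    have h4 : p < z := by
      have : p ≤ ⌊w⌋₊ := Nat.le_floor h3.2
      exact lt_of_lt_of_le (Nat.lt_succ_of_le this) (le_max_right _ _)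
    rcases lt_or_ge p x with h | h
    · exact Or.inl ⟨h, h3.1⟩
    · exact Or.inr ⟨⟨h, h4⟩, h3.1⟩
  have hU : ∀ p ∈ P₀ ∪ P₁, p.Prime := fun p hp => (mem_union.1 hp).elim (hP₀p p) (hP₁p p)
  have h5 : pr (P₀ ∪ P₁) = pr P₀ * pr P₁ := prod_union hdis
  have h6 : pr P₀ * pr P₁ ≤ pr Ps := by rw [← h5]; exact ks_pr_mono hU hsub
  have h7 : (pr P₁)⁻¹ ≤ Real.log z := by
    rw [inv_le_iff_one_le_mul₀ hP₁0]
    exact h2
  calc (pr Ps)⁻¹ ≤ (pr P₀ * pr P₁)⁻¹ := inv_anti₀ (by positivity) h6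
    _ = (pr P₀)⁻¹ * (pr P₁)⁻¹ := by rw [mul_inv]
    _ ≤ (pr P₀)⁻¹ * (((1 / Real.log 2) * (2 * (x : ℝ) + 4) + 4) * Real.log w) :=
        mul_le_mul_of_nonneg_left (h7.trans hlz) (by positivity)
    _ = _ := by ring

/-- Superadditivity of `∏ (1 - 1/p)⁻¹ - 1` over disjoint sets. -/
theorem pr_inv_superadd {ι : Type*} [DecidableEq ι] (Ks : Finset ι) (E : ι → Finset ℕ)
    (hE : ∀ k ∈ Ks, ∀ p ∈ E k, p.Prime)
    (hdis : ∀ k ∈ Ks, ∀ l ∈ Ks, k ≠ l → Disjoint (E k) (E l)) :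
    ∑ k ∈ Ks, ((pr (E k))⁻¹ - 1) ≤ (pr (Ks.biUnion E))⁻¹ - 1 := by
  classical
  induction Ks using Finset.induction_on with
  | empty => simp [pr]
  | insert k Ks hk ih =>
    have ih' := ih (fun l hl => hE l (mem_insert_of_mem hl))
      (fun l hl m hm => hdis l (mem_insert_of_mem hl) m (mem_insert_of_mem hm))
    rw [sum_insert hk, biUnion_insert]
    have hd : Disjoint (E k) (Ks.biUnion E) := by
      rw [Finset.disjoint_biUnion_right]
      intro l hl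
      exact hdis k (mem_insert_self _ _) l (mem_insert_of_mem hl) (fun h => hk (h ▸ hl))
    have h1 : pr (E k ∪ Ks.biUnion E) = pr (E k) * pr (Ks.biUnion E) := prod_union hd
    have hp1 : ∀ p ∈ E k, p.Prime := hE k (mem_insert_self _ _)
    have hp2 : ∀ p ∈ Ks.biUnion E, p.Prime := by
      intro p hp
      obtain ⟨l, hl, hp⟩ := mem_biUnion.1 hp
      exact hE l (mem_insert_of_mem hl) p hp
    have h2 : 1 ≤ (pr (E k))⁻¹ := (one_le_inv₀ (ks_pr_pos hp1)).2 (ks_pr_le_one hp1)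
    have h3 : 1 ≤ (pr (Ks.biUnion E))⁻¹ := (one_le_inv₀ (ks_pr_pos hp2)).2 (ks_pr_le_one hp2)
    rw [h1, mul_inv]
    nlinarith

/-- combined class of the primes of `u`, of `v` and of the common primes -/
noncomputable def cstar (c c' : ℕ → ℤ) (u v : ℕ) (p : ℕ) : ℤ :=
  if p ∣ u then c p * v else if p ∣ v then -(c' p * u) else c p * v - c' p * u

/-- the agreement set of the sheet `k` -/
def AgS (c c' : ℕ → ℤ) (u v : ℕ) (Pa Pb : Finset ℕ) (k : ℤ) : Finset ℕ :=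
  (Pa ∩ Pb).filter (fun p : ℕ => ¬ p ∣ u ∧ ¬ p ∣ v ∧ (p : ℤ) ∣ k - (c p * (v : ℤ) - c' p * (u : ℤ)))

/-- the sheet `k` is not killed -/
def Alive (c c' : ℕ → ℤ) (u v : ℕ) (Pa Pb : Finset ℕ) (k : ℤ) : Prop :=
  (∀ p ∈ Pa, p ∣ u → ¬ (p : ℤ) ∣ k - c p * v) ∧ (∀ p ∈ Pb, p ∣ v → ¬ (p : ℤ) ∣ k + c' p * u)

/-- the primes that sieve the sheets -/
def QsS (u v : ℕ) (Pa Pb : Finset ℕ) : Finset ℕ :=
  Pa.filter (fun p : ℕ => p ∣ u) ∪ Pb.filter (fun p : ℕ => p ∣ v)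

/-- centres avoiding the classes give sheets that are alive -/
theorem alive_of_AC {c c' : ℕ → ℤ} {u v : ℕ} (huv : u.Coprime v) {Pa Pb : Finset ℕ}
    (hPa : ∀ p ∈ Pa, p.Prime) (hPb : ∀ p ∈ Pb, p.Prime) {al be : ℤ} (h₁ : AC c Pa al)
    (h₂ : AC c' Pb be) : Alive c c' u v Pa Pb (al * v - be * u) := by
  have hnot : ∀ p : ℕ, p.Prime → ¬ (p ∣ u ∧ p ∣ v) := fun p hp h =>
    hp.one_lt.ne' (Nat.dvd_one.1 (huv ▸ Nat.dvd_gcd h.1 h.2))
  refine ⟨fun p hp hpu hd => ?_, fun p hp hpv hd => ?_⟩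
  · have hpp := Nat.prime_iff_prime_int.1 (hPa p hp)
    have e : al * v - be * u - c p * v = (al - c p) * v - be * u := by ring
    rw [e] at hd
    have h3 : (p : ℤ) ∣ be * u := Dvd.dvd.mul_left (Int.natCast_dvd_natCast.2 hpu) _
    have h4 : (p : ℤ) ∣ (al - c p) * v := (dvd_sub_left h3).1 hd
    rcases hpp.dvd_or_dvd h4 with h5 | h5
    · exact h₁ p hp h5
    · exact hnot p (hPa p hp) ⟨hpu, Int.natCast_dvd_natCast.1 h5⟩
  · have hpp := Nat.prime_iff_prime_int.1 (hPb p hp)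
    have e : al * v - be * u + c' p * u = al * v - (be - c' p) * u := by ring
    rw [e] at hd
    have h3 : (p : ℤ) ∣ al * v := Dvd.dvd.mul_left (Int.natCast_dvd_natCast.2 hpv) _
    have h4 : (p : ℤ) ∣ (be - c' p) * u := (dvd_sub_right h3).1 hd
    rcases hpp.dvd_or_dvd h4 with h5 | h5
    · exact h₂ p hp h5
    · exact hnot p (hPb p hp) ⟨Int.natCast_dvd_natCast.1 h5, hpv⟩

theorem sheet_small : ∃ C > 0, ∀ (c c' : ℕ → ℤ) (u v : ℕ) (Pa Pb : Finset ℕ) (D c₀ : ℝ)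
    (Ks : Finset ℤ), (∀ p ∈ Pa, p.Prime) → (∀ p ∈ Pb, p.Prime) → u.Coprime v →
    1 / 1024 ≤ D → (∀ k ∈ Ks, |(k : ℝ) - c₀| < 2 * D) →
    (∀ k ∈ Ks, Alive c c' u v Pa Pb k) →
    ∑ k ∈ Ks, (pr ((AgS c c' u v Pa Pb k).filter (fun p : ℕ => (p : ℝ) ≤ D)))⁻¹ ≤
      C * D * pr ((QsS u v Pa Pb).filter (fun p : ℕ => (p : ℝ) ≤ D)) := by
  obtain ⟨C₁, hC₁, h1⟩ := ks_core
  refine ⟨C₁, hC₁, ?_⟩
  intro c c' u v Pa Pb D c₀ Ks hPa hPb huv hD hK hn
  have hD0 : 0 < D := by linarith only [hD]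
  set Qs := QsS u v Pa Pb with hQs
  set G := (Pa ∩ Pb).filter (fun p : ℕ => ¬ p ∣ u ∧ ¬ p ∣ v ∧ (p : ℝ) ≤ D) with hG
  have hnot : ∀ p : ℕ, p.Prime → p ∣ v → ¬ p ∣ u := fun p hp h h' =>
    hp.one_lt.ne' (Nat.dvd_one.1 (huv ▸ Nat.dvd_gcd h' h))
  have hQp : ∀ p ∈ Qs, p.Prime := by
    intro p hp
    rw [hQs, QsS, mem_union, mem_filter, mem_filter] at hp
    rcases hp with hp | hp
    · exact hPa p hp.1
    · exact hPb p hp.1
  have hGp : ∀ p ∈ G, p.Prime ∧ (p : ℝ) ≤ D := by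
    intro p hp
    rw [hG, mem_filter, mem_inter] at hp
    exact ⟨hPa p hp.1.1, hp.2.2.2⟩
  have hdis : Disjoint Qs G := by
    rw [Finset.disjoint_left]
    intro p hp hp'
    rw [hQs, QsS, mem_union, mem_filter, mem_filter] at hp
    rw [hG, mem_filter] at hp'
    rcases hp with hp | hp
    · exact hp'.2.1 hp.2
    · exact hp'.2.2.1 hp.2
  have h2 := h1 Qs G (cstar c c' u v) c₀ D Ks hQp hGp hdis hD (fun k hk => by
      have := hK k hk
      linarith only [hD0, this]) (fun k hk p hp hdvd => by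
      rw [hQs, QsS, mem_union, mem_filter, mem_filter] at hp
      obtain ⟨hka, hkb⟩ := hn k hk
      rcases hp with hp | hp
      · rw [cstar, if_pos hp.2] at hdvd
        exact hka p hp.1 hp.2 hdvd
      · rw [cstar, if_neg (hnot p (hPb p hp.1) hp.2), if_pos hp.2, sub_neg_eq_add] at hdvd
        exact hkb p hp.1 hp.2 hdvd)
  refine le_trans (sum_le_sum fun k hk => ?_) h2
  refine inv_anti₀ (ks_pr_pos fun p hp => (hGp p (mem_filter.1 hp).1).1) ?_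
  refine ks_pr_mono (fun p hp => (hGp p (mem_filter.1 hp).1).1) ?_
  intro p hp
  rw [mem_filter, AgS, mem_filter] at hp
  obtain ⟨⟨hp1, hpu, hpv, hpn⟩, hpD⟩ := hp
  rw [mem_filter, hG, mem_filter]
  refine ⟨⟨hp1, hpu, hpv, hpD⟩, ?_⟩
  rw [cstar, if_neg hpu, if_neg hpv]
  exact hpn

theorem AgS_prime {c c' : ℕ → ℤ} {u v : ℕ} {Pa Pb : Finset ℕ} (hPa : ∀ p ∈ Pa, p.Prime) (k : ℤ) :
    ∀ p ∈ AgS c c' u v Pa Pb k, p.Prime := fun p hp =>
  hPa p (mem_inter.1 (mem_filter.1 hp).1).1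

/-- **Coherent classes.** -/
theorem sheet_coh : ∃ C > 0, ∀ (c c' : ℕ → ℤ) (u v h : ℕ) (e : ℤ) (Pa Pb : Finset ℕ)
    (y W D c₀ : ℝ) (Ks : Finset ℤ), (∀ p ∈ Pa, p.Prime) → (∀ p ∈ Pb, p.Prime) → u.Coprime v →
    (∀ p ∈ Pa ∩ Pb, ¬ p ∣ u → ¬ p ∣ v →
      y < (p : ℝ) ∧ (p : ℤ) ∣ h * (c p * (v : ℤ) - c' p * (u : ℤ)) - e) →
    2 ≤ y → 1 ≤ W → Real.log W ≤ y → 1 / 1024 ≤ D →
    (∀ k ∈ Ks, |(k : ℝ) - c₀| < 2 * D) → (∀ k ∈ Ks, Alive c c' u v Pa Pb k) →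
    (∀ k ∈ Ks, (h : ℤ) * k - e ≠ 0 ∧ |(((h : ℤ) * k - e : ℤ) : ℝ)| ≤ D * W) →
    ∑ k ∈ Ks, (pr (AgS c c' u v Pa Pb k))⁻¹ ≤
      C * D * pr ((QsS u v Pa Pb).filter (fun p : ℕ => (p : ℝ) ≤ D)) := by
  obtain ⟨C₁, hC₁, h1⟩ := sheet_small
  refine ⟨Real.exp (4 / Real.log 2) * C₁, by positivity, ?_⟩
  intro c c' u v h e Pa Pb y W D c₀ Ks hPa hPb huv hco hy2 hW hWy hD hK hal hn
  have hD0 : 0 < D := by linarith only [hD]
  have h2 := h1 c c' u v Pa Pb D c₀ Ks hPa hPb huv hD hK hal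
  have h3 : ∀ k ∈ Ks, (pr (AgS c c' u v Pa Pb k))⁻¹ ≤ Real.exp (4 / Real.log 2) *
      (pr ((AgS c c' u v Pa Pb k).filter (fun p : ℕ => (p : ℝ) ≤ D)))⁻¹ := by
    intro k hk
    obtain ⟨hn0, hnW⟩ := hn k hk
    set n : ℤ := (h : ℤ) * k - e with hndef
    set E := AgS c c' u v Pa Pb k with hE
    have hEp : ∀ p ∈ E, p.Prime := AgS_prime hPa k
    have hsplit : pr E = pr (E.filter (fun p : ℕ => (p : ℝ) ≤ D)) *
        pr (E.filter (fun p : ℕ => ¬ (p : ℝ) ≤ D)) :=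
      (prod_filter_mul_prod_filter_not _ _ _).symm
    have hlg : (pr (E.filter (fun p : ℕ => ¬ (p : ℝ) ≤ D)))⁻¹ ≤ Real.exp (4 / Real.log 2) := by
      refine ks_large (n := n) (Y := max D y) (fun p hp => ?_) (hy2.trans (le_max_right _ _)) hn0 ?_
      · rw [mem_filter, hE, AgS, mem_filter] at hp
        obtain ⟨⟨hp1, hpu, hpv, hpn⟩, hpD⟩ := hp
        obtain ⟨hyp, hdv⟩ := hco p hp1 hpu hpv
        refine ⟨hPa p (mem_inter.1 hp1).1, max_lt (not_le.1 hpD) hyp, ?_⟩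
        have e1 : n = h * (k - (c p * (v : ℤ) - c' p * (u : ℤ))) +
            (h * (c p * (v : ℤ) - c' p * (u : ℤ)) - e) := by rw [hndef]; ring
        rw [e1]
        exact dvd_add (Dvd.dvd.mul_left hpn _) hdv
      · have h4 : 0 < |(n : ℝ)| := abs_pos.2 (by exact_mod_cast hn0)
        calc Real.log |(n : ℝ)| ≤ Real.log (D * W) := Real.log_le_log h4 hnW
          _ = Real.log D + Real.log W := Real.log_mul hD0.ne' (by linarith only [hW])
          _ ≤ D + y := by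
              have := Real.log_le_sub_one_of_pos hD0
              linarith only [hWy, this]
          _ ≤ 2 * max D y := by
              have := le_max_left D y
              have := le_max_right D y
              linarith
    rw [hsplit, mul_inv, mul_comm]
    exact mul_le_mul_of_nonneg_right hlg (inv_pos.2 (ks_pr_pos fun p hp =>
      hEp p (mem_filter.1 hp).1)).le
  calc _ ≤ ∑ k ∈ Ks, Real.exp (4 / Real.log 2) *
        (pr ((AgS c c' u v Pa Pb k).filter (fun p : ℕ => (p : ℝ) ≤ D)))⁻¹ := sum_le_sum h3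
    _ = Real.exp (4 / Real.log 2) *
        ∑ k ∈ Ks, (pr ((AgS c c' u v Pa Pb k).filter (fun p : ℕ => (p : ℝ) ≤ D)))⁻¹ := by
        rw [mul_sum]
    _ ≤ Real.exp (4 / Real.log 2) * (C₁ * D *
        pr ((QsS u v Pa Pb).filter (fun p : ℕ => (p : ℝ) ≤ D))) :=
        mul_le_mul_of_nonneg_left h2 (Real.exp_pos _).le
    _ = _ := by ring

theorem sheet_card {D c₀ : ℝ} {Ks : Finset ℤ} (hD : 0 ≤ D)
    (hK : ∀ k ∈ Ks, |(k : ℝ) - c₀| < 2 * D) : (Ks.card : ℝ) ≤ 4 * D + 1 := by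
  have hsub : Ks ⊆ Icc ⌈c₀ - 2 * D⌉ ⌊c₀ + 2 * D⌋ := by
    intro k hk
    have := abs_lt.1 (hK k hk)
    rw [mem_Icc]
    exact ⟨Int.ceil_le.2 (by linarith only [this.1]), Int.le_floor.2 (by linarith only [this.2])⟩
  have h1 := card_le_card hsub
  rw [Int.card_Icc] at h1
  have h2 : ((⌊c₀ + 2 * D⌋ + 1 - ⌈c₀ - 2 * D⌉ : ℤ) : ℝ) ≤ 4 * D + 1 := by
    push_cast
    have := Int.floor_le (c₀ + 2 * D)
    have := Int.le_ceil (c₀ - 2 * D)
    linarith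
  have h3 : (((⌊c₀ + 2 * D⌋ + 1 - ⌈c₀ - 2 * D⌉).toNat : ℕ) : ℝ) ≤ 4 * D + 1 := by
    rcases le_or_gt 0 (⌊c₀ + 2 * D⌋ + 1 - ⌈c₀ - 2 * D⌉) with h | h
    · have : ((((⌊c₀ + 2 * D⌋ + 1 - ⌈c₀ - 2 * D⌉).toNat : ℤ)) : ℝ) ≤ 4 * D + 1 := by
        rw [Int.toNat_of_nonneg h]; exact h2
      exact_mod_cast this
    · rw [Int.toNat_of_nonpos h.le]
      push_cast
      linarith
  exact (by exact_mod_cast h1 : (Ks.card : ℝ) ≤ _).trans h3

/-- **Trivial bound.** -/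
theorem sheet_triv : ∃ C > 0, ∀ (c c' : ℕ → ℤ) (u v : ℕ) (Pa Pb : Finset ℕ)
    (w D c₀ : ℝ) (Ks : Finset ℤ), (∀ p ∈ Pa, p.Prime) →
    (∀ p ∈ Pa ∩ Pb, ¬ p ∣ u → ¬ p ∣ v → (p : ℝ) ≤ w) → 2 ≤ w → 0 ≤ D →
    (∀ k ∈ Ks, |(k : ℝ) - c₀| < 2 * D) →
    ∑ k ∈ Ks, (pr (AgS c c' u v Pa Pb k))⁻¹ ≤ C * (D + 1) * Real.log w := by
  obtain ⟨C₁, hC₁, h1⟩ := pr_inv_le_log
  refine ⟨4 * C₁, by positivity, ?_⟩
  intro c c' u v Pa Pb w D c₀ Ks hPa hco hw hD hK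
  have hlw : 0 < Real.log w := Real.log_pos (by linarith only [hw])
  have h2 : ∀ k ∈ Ks, (pr (AgS c c' u v Pa Pb k))⁻¹ ≤ C₁ * Real.log w := by
    intro k _
    refine h1 _ w hw fun p hp => ⟨AgS_prime hPa k p hp, ?_⟩
    rw [AgS, mem_filter] at hp
    exact hco p hp.1 hp.2.1 hp.2.2.1
  calc _ ≤ ∑ k ∈ Ks, C₁ * Real.log w := sum_le_sum h2
    _ = (Ks.card : ℝ) * (C₁ * Real.log w) := by rw [sum_const, nsmul_eq_mul]
    _ ≤ (4 * D + 1) * (C₁ * Real.log w) :=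
        mul_le_mul_of_nonneg_right (sheet_card hD hK) (by positivity)
    _ ≤ _ := by nlinarith [mul_pos hC₁ hlw]

/-- **Far pairs, arbitrary classes.** -/
theorem sheet_far : ∃ C > 0, ∀ (c c' : ℕ → ℤ) (u v : ℕ) (Pa Pb : Finset ℕ)
    (w D c₀ : ℝ) (Ks : Finset ℤ), (∀ p ∈ Pa, p.Prime) → (∀ p ∈ Pb, p.Prime) → u.Coprime v →
    (∀ p ∈ Pa ∩ Pb, ¬ p ∣ u → ¬ p ∣ v → (p : ℝ) ≤ w) → 2 ≤ w → 2 ≤ D → Real.log w ^ 2 ≤ D →
    (∀ k ∈ Ks, |(k : ℝ) - c₀| < 2 * D) → (∀ k ∈ Ks, Alive c c' u v Pa Pb k) →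
    ∑ k ∈ Ks, (pr (AgS c c' u v Pa Pb k))⁻¹ ≤
      C * D * pr ((QsS u v Pa Pb).filter (fun p : ℕ => (p : ℝ) ≤ D)) := by
  obtain ⟨C₁, hC₁, h1⟩ := sheet_small
  obtain ⟨C₂, hC₂, h2⟩ := pr_inv_le_log
  obtain ⟨C₃, hC₃, h3⟩ := ks_sum_ratio (K := 3) (by norm_num)
  have hlogD : ∀ D : ℝ, 2 ≤ D → Real.log D ^ 2 ≤ 16 * D ^ (1 / 2 : ℝ) := by
    intro D hD
    have hl : 0 ≤ Real.log D := Real.log_nonneg (by linarith only [hD])
    have h4 : Real.log D ≤ D ^ (1 / 4 : ℝ) / (1 / 4) :=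
      Real.log_le_rpow_div (by linarith only [hD]) (by norm_num)
    have h5 : Real.log D ^ 2 ≤ (D ^ (1 / 4 : ℝ) / (1 / 4)) ^ 2 := pow_le_pow_left₀ hl h4 2
    have h6 : (D ^ (1 / 4 : ℝ) / (1 / 4)) ^ 2 = 16 * D ^ (1 / 2 : ℝ) := by
      rw [div_pow, ← Real.rpow_natCast (D ^ (1 / 4 : ℝ)), ← Real.rpow_mul (by linarith only [hD])]
      norm_num
      ring
    linarith only [h5, h6]
  refine ⟨Real.exp (2 * C₃) * (C₁ + 16 * C₂ ^ 3), by positivity, ?_⟩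
  intro c c' u v Pa Pb w D c₀ Ks hPa hPb huv hco hw hD hwD hK hal
  have hD0 : 0 < D := by linarith only [hD]
  have hlD : 0 < Real.log D := Real.log_pos (by linarith only [hD])
  have hlw : 0 < Real.log w := Real.log_pos (by linarith only [hw])
  have h4 := h1 c c' u v Pa Pb D c₀ Ks hPa hPb huv (by linarith only [hD]) hK hal
  -- splitting
  set E : ℤ → Finset ℕ := fun k => AgS c c' u v Pa Pb k with hE
  have hEp : ∀ k, ∀ p ∈ E k, p.Prime := fun k => AgS_prime hPa k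
  set Es : ℤ → Finset ℕ := fun k => (E k).filter (fun p : ℕ => (p : ℝ) ≤ D) with hEs
  set Em : ℤ → Finset ℕ := fun k => ((E k).filter (fun p : ℕ => ¬ (p : ℝ) ≤ D)).filter
    (fun p : ℕ => (p : ℝ) ≤ 4 * D) with hEm
  set El : ℤ → Finset ℕ := fun k => ((E k).filter (fun p : ℕ => ¬ (p : ℝ) ≤ D)).filter
    (fun p : ℕ => ¬ (p : ℝ) ≤ 4 * D) with hEl
  have hEsp : ∀ k, ∀ p ∈ Es k, p.Prime := fun k p hp => hEp k p (mem_filter.1 hp).1
  have hEmp : ∀ k, ∀ p ∈ Em k, p.Prime := fun k p hp =>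
    hEp k p (mem_filter.1 (mem_filter.1 hp).1).1
  have hElp : ∀ k, ∀ p ∈ El k, p.Prime := fun k p hp =>
    hEp k p (mem_filter.1 (mem_filter.1 hp).1).1
  have hsplit : ∀ k, (pr (E k))⁻¹ = (pr (Es k))⁻¹ * (pr (Em k))⁻¹ * (pr (El k))⁻¹ := by
    intro k
    have e1 : pr (E k) = pr (Es k) * pr ((E k).filter (fun p : ℕ => ¬ (p : ℝ) ≤ D)) :=
      (prod_filter_mul_prod_filter_not _ _ _).symm
    have e2 : pr ((E k).filter (fun p : ℕ => ¬ (p : ℝ) ≤ D)) = pr (Em k) * pr (El k) :=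
      (prod_filter_mul_prod_filter_not _ _ _).symm
    rw [e1, e2, mul_inv, mul_inv, mul_assoc]
  have hmid : ∀ k, (pr (Em k))⁻¹ ≤ Real.exp (2 * C₃) := by
    intro k
    refine (ks_pr_inv_le_exp (hEmp k)).trans (Real.exp_le_exp.2 ?_)
    have := h3 (Em k) D (4 * D) (fun p hp => by
      have h5 := mem_filter.1 hp
      have h6 := mem_filter.1 h5.1
      exact ⟨hEmp k p hp, (not_le.1 h6.2).le, h5.2⟩) hD (by
        have : (D : ℝ) ^ (3 : ℝ) = D * (D * D) := by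
          rw [show (3 : ℝ) = ((3 : ℕ) : ℝ) by norm_num, Real.rpow_natCast]; ring
        rw [this]
        nlinarith [mul_self_nonneg (D - 2)])
    linarith only [this]
  have hlarge : ∑ k ∈ Ks, ((pr (El k))⁻¹ - 1) ≤ C₂ * Real.log w := by
    have h5 := pr_inv_superadd Ks El (fun k _ => hElp k) (fun k hk l hl hkl => by
      rw [Finset.disjoint_left]
      intro p hp hp'
      have h6 := mem_filter.1 hp
      have h7 := mem_filter.1 hp'
      have h8 := (mem_filter.1 (mem_filter.1 h6.1).1).2.2.2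
      have h9 := (mem_filter.1 (mem_filter.1 h7.1).1).2.2.2
      have h10 : (p : ℤ) ∣ k - l := by
        have := dvd_sub h8 h9
        have e : k - (c p * (v : ℤ) - c' p * (u : ℤ)) - (l - (c p * (v : ℤ) - c' p * (u : ℤ))) =
          k - l := by ring
        rwa [e] at this
      have h11 : |(k : ℝ) - l| < 4 * D := by
        have h12 := abs_lt.1 (hK k hk)
        have h13 := abs_lt.1 (hK l hl)
        rw [abs_lt]
        constructor <;> linarith only [h12.1, h12.2, h13.1, h13.2]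
      have h12 : k - l ≠ 0 := sub_ne_zero.2 hkl
      have h13 := Int.le_of_dvd (abs_pos.2 h12) ((dvd_abs _ _).2 h10)
      have h14 : (p : ℝ) ≤ |(k : ℝ) - l| := by exact_mod_cast h13
      exact h6.2 (by linarith only [h11, h14]))
    refine h5.trans ?_
    have h6 := h2 (Ks.biUnion El) w hw (fun p hp => by
      obtain ⟨k, hk, hp⟩ := mem_biUnion.1 hp
      refine ⟨hElp k p hp, ?_⟩
      have h7 := mem_filter.1 (mem_filter.1 (mem_filter.1 hp).1).1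
      exact hco p h7.1 h7.2.1 h7.2.2.1)
    linarith only [h6]
  have hlarge0 : ∀ k, 0 ≤ (pr (El k))⁻¹ - 1 := fun k => by
    have := (one_le_inv₀ (ks_pr_pos (hElp k))).2 (ks_pr_le_one (hElp k))
    linarith only [this]
  have hsmall : ∀ k, (pr (Es k))⁻¹ ≤ C₂ * Real.log D := fun k =>
    h2 _ D hD fun p hp => ⟨hEsp k p hp, (mem_filter.1 hp).2⟩
  have hs0 : ∀ k, 0 < (pr (Es k))⁻¹ := fun k => inv_pos.2 (ks_pr_pos (hEsp k))
  have hm0 : ∀ k, 0 < (pr (Em k))⁻¹ := fun k => inv_pos.2 (ks_pr_pos (hEmp k))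
  set R := pr ((QsS u v Pa Pb).filter (fun p : ℕ => (p : ℝ) ≤ D)) with hR
  have hQp : ∀ p ∈ (QsS u v Pa Pb).filter (fun p : ℕ => (p : ℝ) ≤ D), p.Prime ∧ (p : ℝ) ≤ D := by
    intro p hp
    have h5 := mem_filter.1 hp
    refine ⟨?_, h5.2⟩
    rw [QsS, mem_union, mem_filter, mem_filter] at h5
    rcases h5.1 with h6 | h6
    · exact hPa p h6.1
    · exact hPb p h6.1
  have hR0 : 0 < R := ks_pr_pos fun p hp => (hQp p hp).1
  have hRlow : 1 ≤ C₂ * Real.log D * R := by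
    have := h2 _ D hD hQp
    rw [inv_le_iff_one_le_mul₀ hR0] at this
    exact this
  have hkey : ∀ k ∈ Ks, (pr (E k))⁻¹ ≤ Real.exp (2 * C₃) * ((pr (Es k))⁻¹ +
      C₂ * Real.log D * ((pr (El k))⁻¹ - 1)) := by
    intro k _
    rw [hsplit k]
    have h5 : (pr (Es k))⁻¹ * (pr (El k))⁻¹ ≤ (pr (Es k))⁻¹ +
        C₂ * Real.log D * ((pr (El k))⁻¹ - 1) := by
      have := mul_le_mul_of_nonneg_right (hsmall k) (hlarge0 k)
      linarith only [this]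
    have h6 : 0 ≤ (pr (Es k))⁻¹ * (pr (El k))⁻¹ :=
      mul_nonneg (hs0 k).le (inv_pos.2 (ks_pr_pos (hElp k))).le
    calc (pr (Es k))⁻¹ * (pr (Em k))⁻¹ * (pr (El k))⁻¹ =
        (pr (Em k))⁻¹ * ((pr (Es k))⁻¹ * (pr (El k))⁻¹) := by ring
      _ ≤ Real.exp (2 * C₃) * ((pr (Es k))⁻¹ * (pr (El k))⁻¹) :=
          mul_le_mul_of_nonneg_right (hmid k) h6
      _ ≤ _ := mul_le_mul_of_nonneg_left h5 (Real.exp_pos _).le
  have hlw2 : Real.log w ≤ D ^ (1 / 2 : ℝ) := by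
    rw [← Real.sqrt_eq_rpow]
    exact Real.le_sqrt_of_sq_le hwD
  have hfin : C₂ * Real.log D * (C₂ * Real.log w) ≤ 16 * C₂ ^ 3 * D * R := by
    have h5 : (0 : ℝ) < D ^ (1 / 2 : ℝ) := by positivity
    have h6 : D ^ (1 / 2 : ℝ) * D ^ (1 / 2 : ℝ) = D := by
      rw [← Real.rpow_add hD0]; norm_num
    have h7 : Real.log D * Real.log w ≤ Real.log D * D ^ (1 / 2 : ℝ) :=
      mul_le_mul_of_nonneg_left hlw2 hlD.le
    have h8 : Real.log D * D ^ (1 / 2 : ℝ) ≤ Real.log D * D ^ (1 / 2 : ℝ) * (C₂ * Real.log D * R) := by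
      have : 0 ≤ Real.log D * D ^ (1 / 2 : ℝ) := by positivity
      nlinarith
    have h9 : Real.log D * D ^ (1 / 2 : ℝ) * (C₂ * Real.log D * R) =
        Real.log D ^ 2 * D ^ (1 / 2 : ℝ) * (C₂ * R) := by ring
    have h10 : Real.log D ^ 2 * D ^ (1 / 2 : ℝ) * (C₂ * R) ≤
        16 * D ^ (1 / 2 : ℝ) * D ^ (1 / 2 : ℝ) * (C₂ * R) := by
      have h11 := hlogD D hD
      have h12 : 0 ≤ D ^ (1 / 2 : ℝ) * (C₂ * R) := by positivity
      nlinarith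
    have h11 : 16 * D ^ (1 / 2 : ℝ) * D ^ (1 / 2 : ℝ) * (C₂ * R) = 16 * C₂ * D * R := by
      rw [mul_assoc 16, h6]; ring
    have h12 : Real.log D * Real.log w ≤ 16 * C₂ * D * R := by linarith only [h7, h8, h9, h10, h11]
    calc C₂ * Real.log D * (C₂ * Real.log w) = C₂ ^ 2 * (Real.log D * Real.log w) := by ring
      _ ≤ C₂ ^ 2 * (16 * C₂ * D * R) := mul_le_mul_of_nonneg_left h12 (by positivity)
      _ = _ := by ring
  calc ∑ k ∈ Ks, (pr (E k))⁻¹ ≤ ∑ k ∈ Ks, Real.exp (2 * C₃) * ((pr (Es k))⁻¹ +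
      C₂ * Real.log D * ((pr (El k))⁻¹ - 1)) := sum_le_sum hkey
    _ = Real.exp (2 * C₃) * (∑ k ∈ Ks, (pr (Es k))⁻¹ +
        C₂ * Real.log D * ∑ k ∈ Ks, ((pr (El k))⁻¹ - 1)) := by
        rw [← mul_sum, sum_add_distrib, ← mul_sum]
    _ ≤ Real.exp (2 * C₃) * (C₁ * D * R + C₂ * Real.log D * (C₂ * Real.log w)) := by
        refine mul_le_mul_of_nonneg_left (add_le_add h4 ?_) (Real.exp_pos _).le
        exact mul_le_mul_of_nonneg_left hlarge (by positivity)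
    _ ≤ Real.exp (2 * C₃) * (C₁ * D * R + 16 * C₂ ^ 3 * D * R) := by
        refine mul_le_mul_of_nonneg_left ?_ (Real.exp_pos _).le
        linarith only [hfin]
    _ = _ := by ring

end Vale.P028
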