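import Vale.Agent.P028.LCofac
import Vale.Agent.P028.MT1

/-!
# The mass of the lifted numbers (D1 of the lift lemma)
-/

namespace Vale.P028

open Finset

open Classical in
/-- lifted arcs -/
noncomputable def l1psi (S : Finset ℕ) (LR : ℝ) (n : ℕ) : ℝ := if n ∈ S then (n : ℝ) / LR else 0

open Classical in
/-- lifted masses -/
noncomputable def l1f (S : Finset ℕ) (LR : ℝ) (n : ℕ) : ℝ :=
  if n ∈ S then (n.totient : ℝ) / LR else 0

theorem l1psi_nonneg {S : Finset ℕ} {LR : ℝ} (h : 0 < LR) (n : ℕ) : 0 ≤ l1psi S LR n := by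
  unfold l1psi
  split_ifs
  · exact div_nonneg (Nat.cast_nonneg _) h.le
  · exact le_rfl

theorem l1f_nonneg {S : Finset ℕ} {LR : ℝ} (h : 0 < LR) (n : ℕ) : 0 ≤ l1f S LR n := by
  unfold l1f
  split_ifs
  · exact div_nonneg (Nat.cast_nonneg _) h.le
  · exact le_rfl

theorem l1f_le {S : Finset ℕ} {LR : ℝ} (h : 0 < LR) (hS : ∀ n ∈ S, 0 < n) (n : ℕ) :
    l1f S LR n ≤ l1psi S LR n * ((n.totient : ℝ) / n) := by
  unfold l1f l1psi
  split_ifs with hn
  · have hn0 : (0 : ℝ) < n := by exact_mod_cast hS n hn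
    have : (n : ℝ) / LR * ((n.totient : ℝ) / n) = (n.totient : ℝ) / LR := by
      field_simp
    exact this.ge
  · simp

theorem l1_mem_lset {N : ℕ} {ψ f : ℕ → ℝ} {s τ z : ℝ} {n : ℕ} :
    n ∈ lset N ψ f s τ z ↔ n ∈ Icc 1 (N * N) ∧
      ∃ q ∈ Icc 1 N, ∃ p j : ℕ, LPop N ψ f s τ z q p j ∧ n = q * p ^ j := by
  simp only [lset, mem_filter]

/-- elements of `lset` are positive -/
theorem l1_lset_pos {N : ℕ} {ψ f : ℕ → ℝ} {s τ z : ℝ} (n : ℕ) (hn : n ∈ lset N ψ f s τ z) :
    0 < n := (mem_Icc.1 (l1_mem_lset.1 hn).1).1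

theorem l1_sum_f {N : ℕ} {ψ f : ℕ → ℝ} {s τ z LR : ℝ} :
    ∑ n ∈ Icc 1 (N * N), l1f (lset N ψ f s τ z) LR n = lmass N ψ f s τ z LR := by
  classical
  unfold lmass l1f
  rw [← Finset.sum_filter]
  apply Finset.sum_congr _ (fun _ _ => rfl)
  ext n
  simp only [mem_filter]
  constructor
  · exact fun h => h.2
  · intro h
    exact ⟨(l1_mem_lset.1 h).1, h⟩

/-- the mass over the large range is the mass over `[1,N]` -/
theorem l1_sum_big {N : ℕ} {ψ f : ℕ → ℝ} {R L : ℝ} (h : LHyp N ψ f R L) :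
    ∑ r ∈ Icc 1 (N * N), f r = ∑ r ∈ Icc 1 N, f r := by
  symm
  apply Finset.sum_subset
  · intro r hr
    have := mem_Icc.1 hr
    refine mem_Icc.2 ⟨this.1, this.2.trans ?_⟩
    exact Nat.le_mul_of_pos_left N (by omega)
  · intro r _ hr
    have h0 := (h.hf r).1
    by_contra hne
    exact hr (h.hN r (lt_of_le_of_ne h0 (Ne.symm hne)))

/-- each lifted number has at least the mass `τ s` of neighbours -/
theorem l1_nbr {N : ℕ} {ψ f : ℕ → ℝ} {R L s τ z : ℝ} (h : LHyp N ψ f R L)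
    {n : ℕ} (hn : n ∈ lset N ψ f s τ z) :
    τ * s ≤ ∑ r ∈ Icc 1 (N * N),
      (open Classical in if (cofac r n : ℝ) * l1psi (lset N ψ f s τ z) (L * R) n ≤ s ∧
        (cofac n r : ℝ) * ψ r ≤ s then f r else 0) := by
  classical
  have hLR : 0 < L * R := mul_pos (lt_of_lt_of_le one_pos h.hL) h.hR
  obtain ⟨_, q, hq, p, j, hpop, rfl⟩ := l1_mem_lset.1 hn
  obtain ⟨hp, _, _, hfq, hτ⟩ := hpop
  refine hτ.trans ?_
  unfold lpop
  have hsub : Icc 1 N ⊆ Icc 1 (N * N) := by
    intro r hr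
    have := mem_Icc.1 hr
    refine mem_Icc.2 ⟨this.1, this.2.trans ?_⟩
    exact Nat.le_mul_of_pos_left N (by omega)
  refine le_trans ?_ (Finset.sum_le_sum_of_subset_of_nonneg hsub ?_)
  · apply Finset.sum_le_sum
    intro r hr
    have hf0 := (h.hf r).1
    by_cases hc : (cofac r q : ℝ) * ψ q ≤ s ∧ (cofac q r : ℝ) * ψ r ≤ s ∧ p ^ j ∣ cofac r q
    · rw [if_pos hc]
      by_cases hfr : f r = 0
      · split_ifs <;> simp [hfr]
      · rw [if_pos]
        have hr0 : 0 < r := (mem_Icc.1 hr).1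
        have hq0 : 0 < q := (mem_Icc.1 hq).1
        obtain ⟨h1, h2, h3⟩ := hc
        obtain ⟨hc1, hc2⟩ := lift_cofac (j := j) hp hq0 hr0
        have hv0 : 0 < cofac r q := cofac_pos q hr0
        have hm : min ((cofac r q).factorization p) j = j :=
          min_eq_right ((hp.pow_dvd_iff_le_factorization hv0.ne').1 h3)
        rw [hm] at hc1 hc2
        rw [Nat.sub_self, pow_zero, mul_one] at hc2
        constructor
        · have hpsi : l1psi (lset N ψ f s τ z) (L * R) (q * p ^ j) =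
              ((q * p ^ j : ℕ) : ℝ) / (L * R) := by
            unfold l1psi
            rw [if_pos hn]
          rw [hpsi]
          have e1 : (cofac r (q * p ^ j) : ℝ) * (((q * p ^ j : ℕ) : ℝ) / (L * R)) =
              (cofac r q : ℝ) * ((q : ℝ) / (L * R)) := by
            rw [← hc1]
            push_cast
            ring
          rw [e1]
          exact (mul_le_mul_of_nonneg_left (h.hw q hfq).1 (Nat.cast_nonneg _)).trans h1
        · rw [hc2]
          exact h2
    · rw [if_neg hc]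
      split_ifs
      · exact hf0
      · exact le_rfl
  · intro r _ _
    split_ifs
    · exact (h.hf r).1
    · exact le_rfl

/-! D1 -/
theorem lift_mass {θ : ℝ} (hθ : 1 / 2 < θ) (hθ1 : θ < 1) :
    ∃ C > 0, ∀ (N : ℕ) (ψ f : ℕ → ℝ) (R L s τ z : ℝ), LHyp N ψ f R L → 0 < s → 0 < τ → 0 ≤ z →
      (lmass N ψ f s τ z (L * R)) ^ (1 - θ) ≤
        C * τ⁻¹ * s ^ (-(2 * θ - 1)) * (∑ q ∈ Icc 1 N, f q) ^ θ := by
  classical
  obtain ⟨C, hC, hT⟩ := T1 hθ hθ1
  refine ⟨C, hC, ?_⟩
  intro N ψ f R L s τ z h hs hτ hz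
  have hLR : 0 < L * R := mul_pos (lt_of_lt_of_le one_pos h.hL) h.hR
  set S := lset N ψ f s τ z with hS
  set F := lmass N ψ f s τ z (L * R) with hF
  set M := ∑ q ∈ Icc 1 N, f q with hM
  have hM0 : 0 ≤ M := Finset.sum_nonneg (fun q _ => (h.hf q).1)
  have hF0 : 0 ≤ F := by
    rw [hF]
    unfold lmass
    exact Finset.sum_nonneg (fun n _ => div_nonneg (Nat.cast_nonneg _) hLR.le)
  have hrhs : 0 ≤ C * τ⁻¹ * s ^ (-(2 * θ - 1)) * M ^ θ := by positivity
  have key := hT (l1psi S (L * R)) ψ (l1f S (L * R)) f s s (N * N) hs hs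
    (l1psi_nonneg hLR) h.hψ
    (fun n => ⟨l1f_nonneg hLR n, l1f_le hLR (fun m hm => l1_lset_pos m hm) n⟩) h.hf
  rw [l1_sum_f, l1_sum_big h, ← hF, ← hM] at key
  have low : τ * s * F ≤ psum (fun q r => (cofac r q : ℝ) * l1psi S (L * R) q ≤ s ∧
      (cofac q r : ℝ) * ψ r ≤ s) (N * N) (l1f S (L * R)) f := by
    rw [hF, ← l1_sum_f, Finset.mul_sum]
    unfold psum
    apply Finset.sum_le_sum
    intro n hn
    by_cases hnS : n ∈ S
    · have h1 := l1_nbr h hnS
      have h2 : 0 ≤ l1f S (L * R) n := l1f_nonneg hLR n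
      calc τ * s * l1f S (L * R) n = l1f S (L * R) n * (τ * s) := by ring
        _ ≤ l1f S (L * R) n * ∑ r ∈ Icc 1 (N * N),
            (if (cofac r n : ℝ) * l1psi S (L * R) n ≤ s ∧
              (cofac n r : ℝ) * ψ r ≤ s then f r else 0) := mul_le_mul_of_nonneg_left h1 h2
        _ = _ := by
          rw [Finset.mul_sum]
          apply Finset.sum_congr rfl
          intro r _
          split_ifs <;> simp
    · have : l1f S (L * R) n = 0 := by
        unfold l1f
        rw [if_neg hnS]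
      rw [this, mul_zero]
      apply Finset.sum_nonneg
      intro r _
      split_ifs <;> simp
  have main := low.trans key
  rcases hF0.eq_or_lt with hz0 | hFpos
  · rw [← hz0, Real.zero_rpow (by linarith)]
    exact hrhs
  · have e1 : (s * s) ^ (1 - θ) = s * s ^ (-(2 * θ - 1)) := by
      rw [Real.mul_rpow hs.le hs.le, ← Real.rpow_add hs]
      nth_rewrite 2 [← Real.rpow_one s]
      rw [← Real.rpow_add hs]
      congr 1
      ring
    have e2 : (F * M) ^ θ = F ^ θ * M ^ θ := Real.mul_rpow hF0 hM0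
    have e3 : F = F ^ (1 - θ) * F ^ θ := by
      rw [← Real.rpow_add hFpos]
      ring_nf
      rw [Real.rpow_one]
    have hFθ : 0 < F ^ θ := Real.rpow_pos_of_pos hFpos θ
    rw [e1, e2] at main
    have main2 : (τ * s * F ^ (1 - θ)) * F ^ θ ≤
        (C * (s * s ^ (-(2 * θ - 1))) * M ^ θ) * F ^ θ := by
      calc (τ * s * F ^ (1 - θ)) * F ^ θ = τ * s * (F ^ (1 - θ) * F ^ θ) := by ring
        _ = τ * s * F := by rw [← e3]
        _ ≤ C * (s * s ^ (-(2 * θ - 1))) * (F ^ θ * M ^ θ) := main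
        _ = _ := by ring
    have main3 := le_of_mul_le_mul_right main2 hFθ
    have hτs : 0 < τ * s := mul_pos hτ hs
    rw [← mul_le_mul_iff_right₀ hτs]
    refine main3.trans (le_of_eq ?_)
    field_simp

end Vale.P028
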