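import Vale.Agent.P028.LDefs
import Vale.Agent.P028.MT1
import Vale.Agent.P028.MTensor
import Vale.Agent.P028.KAnat

set_option linter.all false

/-!
# Letter D, part D3: pairs with a popular prime that does not divide the cofactor
-/

namespace Vale.P028

open Finset

theorem l3_gcd {p q t : ℕ} (hp : p.Prime) (hq : 0 < q) (h : ¬ p ∣ cofac t q) :
    Nat.gcd (q * p) t = Nat.gcd q t := by
  have h1 : Nat.gcd q t * cofac q t = q := gcd_mul_cofac q t
  have h2 : Nat.gcd q t * cofac t q = t := by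
    have := gcd_mul_cofac t q
    rwa [Nat.gcd_comm] at this
  have hc : Nat.Coprime (cofac q t) (cofac t q) := cofac_coprime hq
  have hpc : Nat.Coprime p (cofac t q) := (Nat.Prime.coprime_iff_not_dvd hp).2 h
  have h3 : Nat.Coprime (cofac q t * p) (cofac t q) := Nat.Coprime.mul_left hc hpc
  have h4 : Nat.gcd (Nat.gcd q t * (cofac q t * p)) (Nat.gcd q t * cofac t q) = Nat.gcd q t := by
    rw [Nat.gcd_mul_left, h3.gcd_eq_one, mul_one]
  rw [← mul_assoc, h1, h2] at h4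
  exact h4

theorem l3_cofac {p q t : ℕ} (hp : p.Prime) (hq : 0 < q) (h : ¬ p ∣ cofac t q) :
    cofac t (q * p) = cofac t q ∧ cofac (q * p) t = cofac q t * p := by
  have h1 := l3_gcd hp hq h
  constructor
  · unfold cofac
    rw [Nat.gcd_comm t (q * p), h1, Nat.gcd_comm q t]
  · unfold cofac
    rw [h1, Nat.mul_div_right_comm (Nat.gcd_dvd_left q t)]

theorem l3_pop_mem {N : ℕ} {ψ f : ℕ → ℝ} {s τ z : ℝ} {q p : ℕ} (hs : 0 < s) (hτ : 0 < τ)
    (h : LPop N ψ f s τ z q p 1) : p ∈ (Icc 1 N).filter Nat.Prime := by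
  classical
  obtain ⟨hp, hz, _, hfq, hpop⟩ := h
  have h1 : 0 < lpop N ψ f s q (p ^ 1) := lt_of_lt_of_le (mul_pos hτ hs) hpop
  unfold lpop at h1
  obtain ⟨r, hr, hr1⟩ := Finset.exists_ne_zero_of_sum_ne_zero h1.ne'
  have hr2 : p ^ 1 ∣ cofac r q := by
    by_contra hcon
    apply hr1
    rw [if_neg]
    intro h
    exact hcon h.2.2
  rw [pow_one] at hr2
  have h3 : p ∣ r := hr2.trans (cofac_dvd r q)
  have hr' := mem_Icc.1 hr
  have h4 : p ≤ r := Nat.le_of_dvd (by omega) h3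
  simp only [mem_filter, mem_Icc]
  exact ⟨⟨hp.one_lt.le, by omega⟩, hp⟩

theorem l3_mem_lset {N : ℕ} {ψ f : ℕ → ℝ} {s τ z : ℝ} {n : ℕ} :
    n ∈ lset N ψ f s τ z ↔ n ∈ Icc 1 (N * N) ∧ ∃ q ∈ Icc 1 N, ∃ p j : ℕ,
      LPop N ψ f s τ z q p j ∧ n = q * p ^ j :=
  @Finset.mem_filter _ _ (fun _ => Classical.propDecidable _) _ _

/-- the lifted arcs -/
noncomputable def l3psi (S : Finset ℕ) (LR : ℝ) (n : ℕ) : ℝ := if n ∈ S then (n : ℝ) / LR else 0

/-- the lifted masses -/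
noncomputable def l3f (S : Finset ℕ) (LR : ℝ) (n : ℕ) : ℝ :=
  if n ∈ S then (n.totient : ℝ) / LR else 0

theorem l3psi_nonneg (S : Finset ℕ) {LR : ℝ} (h : 0 < LR) (n : ℕ) : 0 ≤ l3psi S LR n := by
  unfold l3psi
  split_ifs
  · positivity
  · exact le_rfl

theorem l3f_nonneg (S : Finset ℕ) {LR : ℝ} (h : 0 < LR) (n : ℕ) : 0 ≤ l3f S LR n := by
  unfold l3f
  split_ifs
  · positivity
  · exact le_rfl

theorem l3f_le (S : Finset ℕ) {LR : ℝ} (h : 0 < LR) (n : ℕ) :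
    0 ≤ l3f S LR n ∧ l3f S LR n ≤ l3psi S LR n * (n.totient / n) := by
  refine ⟨l3f_nonneg S h n, ?_⟩
  unfold l3f l3psi
  split_ifs
  · rcases Nat.eq_zero_or_pos n with rfl | hn
    · simp
    · have hn' : (0 : ℝ) < n := by exact_mod_cast hn
      apply le_of_eq
      field_simp
  · rw [zero_mul]

theorem l3_sum_f {N : ℕ} {ψ f : ℕ → ℝ} {s τ z LR : ℝ} :
    ∑ n ∈ Icc 1 (N * N), l3f (lset N ψ f s τ z) LR n = lmass N ψ f s τ z LR := by
  unfold l3f lmass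
  rw [← sum_filter]
  congr 1
  ext n
  simp only [mem_filter]
  constructor
  · exact fun h => h.2
  · intro h
    refine ⟨?_, h⟩
    exact (l3_mem_lset.1 h).1

theorem l3_sum_g {N : ℕ} {ψ f : ℕ → ℝ} {R L : ℝ} (H : LHyp N ψ f R L) :
    ∑ n ∈ Icc 1 (N * N), f n = ∑ n ∈ Icc 1 N, f n := by
  symm
  apply sum_subset
  · intro n hn
    rw [mem_Icc] at hn ⊢
    exact ⟨hn.1, hn.2.trans (Nat.le_mul_self N)⟩
  · intro n _ hn
    by_contra hne
    exact hn (H.hN n (lt_of_le_of_ne (H.hf n).1 (Ne.symm hne)))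

/-- pointwise facts for a bad pair -/
theorem l3_point {N : ℕ} {ψ f : ℕ → ℝ} {R L s τ z K : ℝ} (H : LHyp N ψ f R L) (hs : 0 < s)
    (hτ : 0 < τ) (hz : 1 ≤ z) (hK : 0 < K) {q t p : ℕ} (hq : q ∈ Icc 1 N) (ht : t ∈ Icc 1 N)
    (h1 : (cofac t q : ℝ) * ψ q ≤ K) (h2 : (cofac q t : ℝ) * ψ t ≤ K)
    (hpop : LPop N ψ f s τ z q p 1) (hnd : ¬ p ∣ cofac t q) :
    q * p ∈ lset N ψ f s τ z ∧
    f q ≤ 2 * L / p * l3f (lset N ψ f s τ z) (L * R) (q * p) ∧
    (cofac t (q * p) : ℝ) * l3psi (lset N ψ f s τ z) (L * R) (q * p) ≤ p * K ∧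
    (cofac (q * p) t : ℝ) * ψ t ≤ p * K ∧ p ∣ cofac (q * p) t := by
  have hmem := l3_pop_mem hs hτ hpop
  obtain ⟨hp, hzp, hj, hfq, hpp⟩ := id hpop
  rw [mem_filter, mem_Icc] at hmem
  rw [mem_Icc] at hq ht
  have hq0 : 0 < q := hq.1
  have hp0 : 0 < p := hp.pos
  have hp0' : (0 : ℝ) < p := by exact_mod_cast hp0
  have hp2' : (2 : ℝ) ≤ p := by exact_mod_cast hp.two_le
  have hR := H.hR
  have hL : 0 < L := lt_of_lt_of_le one_pos H.hL
  have hLR : 0 < L * R := mul_pos hL hR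
  have hqp : q * p ∈ lset N ψ f s τ z := by
    rw [l3_mem_lset, mem_Icc]
    refine ⟨⟨Nat.mul_pos hq0 hp0, Nat.mul_le_mul hq.2 hmem.1.2⟩, q, mem_Icc.2 hq, p, 1, hpop, ?_⟩
    rw [pow_one]
  obtain ⟨hc1, hc2⟩ := l3_cofac (t := t) hp hq0 hnd
  have hw := H.hw q hfq
  refine ⟨hqp, ?_, ?_, ?_, ?_⟩
  · unfold l3f
    rw [if_pos hqp]
    have hq' : (0 : ℝ) < q := by exact_mod_cast hq0
    have h3 : f q ≤ (q.totient : ℝ) / R := by
      refine (H.hf q).2.trans ?_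
      have h4 : ψ q * ((q.totient : ℝ) / q) ≤ (q : ℝ) / R * ((q.totient : ℝ) / q) :=
        mul_le_mul_of_nonneg_right hw.2 (by positivity)
      refine h4.trans (le_of_eq ?_)
      field_simp
    have h5 : (q.totient : ℝ) * ((p : ℝ) / 2) ≤ ((q * p).totient : ℝ) := by
      have h6 : q.totient * p.totient ≤ (q * p).totient := Nat.totient_super_multiplicative q p
      have h7 : (q.totient : ℝ) * (p.totient : ℝ) ≤ ((q * p).totient : ℝ) := by
        exact_mod_cast h6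
      have h8 : (p : ℝ) / 2 ≤ (p.totient : ℝ) := by
        rw [Nat.totient_prime hp, Nat.cast_sub hp.one_lt.le]
        push_cast
        linarith only [hp2']
      exact (mul_le_mul_of_nonneg_left h8 (Nat.cast_nonneg _)).trans h7
    calc f q ≤ (q.totient : ℝ) / R := h3
      _ = 2 * L / p * (((q.totient : ℝ) * ((p : ℝ) / 2)) / (L * R)) := by
          field_simp
      _ ≤ 2 * L / p * (((q * p).totient : ℝ) / (L * R)) := by
          apply mul_le_mul_of_nonneg_left _ (by positivity)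
          exact div_le_div_of_nonneg_right h5 hLR.le
  · unfold l3psi
    rw [if_pos hqp, hc1]
    have h3 : ((q * p : ℕ) : ℝ) / (L * R) = p * ((q : ℝ) / (L * R)) := by
      push_cast
      ring
    rw [h3]
    calc (cofac t q : ℝ) * (p * ((q : ℝ) / (L * R))) = p * ((cofac t q : ℝ) * ((q : ℝ) / (L * R))) := by
          ring
      _ ≤ p * ((cofac t q : ℝ) * ψ q) := by
          apply mul_le_mul_of_nonneg_left _ hp0'.le
          exact mul_le_mul_of_nonneg_left hw.1 (Nat.cast_nonneg _)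
      _ ≤ p * K := mul_le_mul_of_nonneg_left h1 hp0'.le
  · rw [hc2]
    push_cast
    calc (cofac q t : ℝ) * p * ψ t = p * ((cofac q t : ℝ) * ψ t) := by ring
      _ ≤ p * K := mul_le_mul_of_nonneg_left h2 hp0'.le
  · rw [hc2]
    exact Dvd.intro_left _ rfl

open Classical in
/-- the terms of `psum` -/
noncomputable def l3g (R : ℕ → ℕ → Prop) (f h : ℕ → ℝ) (q r : ℕ) : ℝ :=
  if R q r then f q * h r else 0

theorem l3g_pos {R : ℕ → ℕ → Prop} {f h : ℕ → ℝ} {q r : ℕ} (H : R q r) :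
    l3g R f h q r = f q * h r := by
  unfold l3g
  rw [if_pos H]

theorem l3g_neg {R : ℕ → ℕ → Prop} {f h : ℕ → ℝ} {q r : ℕ} (H : ¬ R q r) :
    l3g R f h q r = 0 := by
  unfold l3g
  rw [if_neg H]

theorem l3g_nonneg (R : ℕ → ℕ → Prop) {f h : ℕ → ℝ} (hf : ∀ q, 0 ≤ f q) (hh : ∀ q, 0 ≤ h q)
    (q r : ℕ) : 0 ≤ l3g R f h q r := by
  by_cases H : R q r
  · rw [l3g_pos H]
    exact mul_nonneg (hf q) (hh r)
  · rw [l3g_neg H]

theorem l3_psum_eq (R : ℕ → ℕ → Prop) (N : ℕ) (f h : ℕ → ℝ) :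
    psum R N f h = ∑ q ∈ Icc 1 N, ∑ r ∈ Icc 1 N, l3g R f h q r := rfl

open Classical in
/-- the terms of `wsum` -/
noncomputable def l3w (R : ℕ → ℕ → Prop) (f h : ℕ → ℝ) (G : ℕ → ℕ → ℝ) (q r : ℕ) : ℝ :=
  if R q r then f q * h r * G q r else 0

theorem l3w_pos {R : ℕ → ℕ → Prop} {f h : ℕ → ℝ} {G : ℕ → ℕ → ℝ} {q r : ℕ} (H : R q r) :
    l3w R f h G q r = f q * h r * G q r := by
  unfold l3w
  rw [if_pos H]

theorem l3w_neg {R : ℕ → ℕ → Prop} {f h : ℕ → ℝ} {G : ℕ → ℕ → ℝ} {q r : ℕ} (H : ¬ R q r) :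
    l3w R f h G q r = 0 := by
  unfold l3w
  rw [if_neg H]

theorem l3_wsum_eq (R : ℕ → ℕ → Prop) (N : ℕ) (f h : ℕ → ℝ) (G : ℕ → ℕ → ℝ) :
    wsum R N f h G = ∑ q ∈ Icc 1 N, ∑ r ∈ Icc 1 N, l3w R f h G q r := rfl

theorem l3_step1 {N : ℕ} {ψ f : ℕ → ℝ} {R L s τ z K : ℝ} (H : LHyp N ψ f R L) (hs : 0 < s)
    (hτ : 0 < τ) (hz : 1 ≤ z) (hK : 0 < K) :
    psum (fun q t => (cofac t q : ℝ) * ψ q ≤ K ∧ (cofac q t : ℝ) * ψ t ≤ K ∧
        ∃ p : ℕ, LPop N ψ f s τ z q p 1 ∧ ¬ p ∣ cofac t q) N f f ≤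
      ∑ p ∈ ((Icc 1 N).filter Nat.Prime).filter (fun p : ℕ => z < (p : ℝ)),
        (2 * L / p) * psum (fun n t =>
          (cofac t n : ℝ) * l3psi (lset N ψ f s τ z) (L * R) n ≤ p * K ∧
          (cofac n t : ℝ) * ψ t ≤ p * K ∧ p ∣ cofac n t) (N * N)
          (l3f (lset N ψ f s τ z) (L * R)) f := by
  have hR := H.hR
  have hL : 0 < L := lt_of_lt_of_le one_pos H.hL
  have hLR : 0 < L * R := mul_pos hL hR
  set S := lset N ψ f s τ z with hS
  set P := ((Icc 1 N).filter Nat.Prime).filter (fun p : ℕ => z < (p : ℝ)) with hP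
  have hf0 : ∀ q, 0 ≤ f q := fun q => (H.hf q).1
  have hF0 : ∀ n, 0 ≤ l3f S (L * R) n := l3f_nonneg S hLR
  -- the terms
  set Rp : ℕ → ℕ → ℕ → Prop := fun p n t => (cofac t n : ℝ) * l3psi S (L * R) n ≤ p * K ∧
    (cofac n t : ℝ) * ψ t ≤ p * K ∧ p ∣ cofac n t with hRp
  set R0 : ℕ → ℕ → Prop := fun q t => (cofac t q : ℝ) * ψ q ≤ K ∧ (cofac q t : ℝ) * ψ t ≤ K ∧
        ∃ p : ℕ, LPop N ψ f s τ z q p 1 ∧ ¬ p ∣ cofac t q with hR0
  have hG0 : ∀ p n t, 0 ≤ l3g (Rp p) (l3f S (L * R)) f n t := fun p n t =>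
    l3g_nonneg _ hF0 hf0 n t
  have hpt : ∀ q ∈ Icc 1 N, ∀ t ∈ Icc 1 N, l3g R0 f f q t ≤
      ∑ p ∈ P, (2 * L / p) * l3g (Rp p) (l3f S (L * R)) f (q * p) t := by
    intro q hq t ht
    have hnn : ∀ p ∈ P, 0 ≤ (2 * L / p) * l3g (Rp p) (l3f S (L * R)) f (q * p) t :=
      fun p _ => mul_nonneg (by positivity) (hG0 _ _ _)
    by_cases hc : R0 q t
    · rw [l3g_pos hc]
      obtain ⟨h1, h2, p, hpop, hnd⟩ := hc
      obtain ⟨ha, hb, hc, hd, he⟩ := l3_point H hs hτ hz hK hq ht h1 h2 hpop hnd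
      have hpP : p ∈ P := by
        rw [hP, mem_filter]
        exact ⟨l3_pop_mem hs hτ hpop, hpop.2.1⟩
      refine le_trans ?_ (single_le_sum hnn hpP)
      have hRR : Rp p (q * p) t := ⟨hc, hd, he⟩
      rw [l3g_pos hRR, ← mul_assoc]
      exact mul_le_mul_of_nonneg_right hb (hf0 t)
    · rw [l3g_neg hc]
      exact sum_nonneg hnn
  rw [l3_psum_eq]
  calc ∑ q ∈ Icc 1 N, ∑ t ∈ Icc 1 N, l3g R0 f f q t
      ≤ ∑ q ∈ Icc 1 N, ∑ t ∈ Icc 1 N, ∑ p ∈ P,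
          (2 * L / p) * l3g (Rp p) (l3f S (L * R)) f (q * p) t :=
        sum_le_sum fun q hq => sum_le_sum fun t ht => hpt q hq t ht
    _ = ∑ p ∈ P, (2 * L / p) * ∑ q ∈ Icc 1 N, ∑ t ∈ Icc 1 N,
          l3g (Rp p) (l3f S (L * R)) f (q * p) t := by
        have h1 : ∀ q ∈ Icc 1 N, ∑ t ∈ Icc 1 N, ∑ p ∈ P,
            (2 * L / p) * l3g (Rp p) (l3f S (L * R)) f (q * p) t =
            ∑ p ∈ P, ∑ t ∈ Icc 1 N,
              (2 * L / p) * l3g (Rp p) (l3f S (L * R)) f (q * p) t := fun q _ => sum_comm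
        rw [sum_congr rfl h1, sum_comm]
        refine sum_congr rfl fun p _ => ?_
        rw [mul_sum]
        refine sum_congr rfl fun q _ => ?_
        rw [mul_sum]
    _ ≤ ∑ p ∈ P, (2 * L / p) * ∑ n ∈ Icc 1 (N * N), ∑ t ∈ Icc 1 (N * N),
          l3g (Rp p) (l3f S (L * R)) f n t := by
        refine sum_le_sum fun p hp => mul_le_mul_of_nonneg_left ?_ (by positivity)
        rw [hP, mem_filter, mem_filter, mem_Icc] at hp
        have hp0 : 0 < p := hp.1.2.pos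
        have h1 : ∑ q ∈ Icc 1 N, ∑ t ∈ Icc 1 N, l3g (Rp p) (l3f S (L * R)) f (q * p) t ≤
            ∑ q ∈ Icc 1 N, ∑ t ∈ Icc 1 (N * N), l3g (Rp p) (l3f S (L * R)) f (q * p) t := by
          refine sum_le_sum fun q _ => ?_
          refine sum_le_sum_of_subset_of_nonneg ?_ (fun t _ _ => hG0 _ _ _)
          intro n hn
          rw [mem_Icc] at hn ⊢
          exact ⟨hn.1, hn.2.trans (Nat.le_mul_self N)⟩
        refine h1.trans ?_
        have h2 : ∑ q ∈ Icc 1 N, ∑ t ∈ Icc 1 (N * N), l3g (Rp p) (l3f S (L * R)) f (q * p) t =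
            ∑ n ∈ (Icc 1 N).image (fun q => q * p), ∑ t ∈ Icc 1 (N * N),
              l3g (Rp p) (l3f S (L * R)) f n t := by
          rw [sum_image]
          intro a _ b _ hab
          exact Nat.eq_of_mul_eq_mul_right hp0 hab
        rw [h2]
        refine sum_le_sum_of_subset_of_nonneg ?_ (fun n _ _ => sum_nonneg fun t _ => hG0 _ _ _)
        intro n hn
        rw [mem_image] at hn
        obtain ⟨q, hq, rfl⟩ := hn
        rw [mem_Icc] at hq ⊢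
        exact ⟨Nat.mul_pos hq.1 hp0, Nat.mul_le_mul hq.2 hp.1.1.2⟩
    _ = ∑ p ∈ P, (2 * L / p) * psum (Rp p) (N * N) (l3f S (L * R)) f := rfl

/-- weighted sum with the weight `LL` -/
theorem l3_wsum {θ : ℝ} (hθ : 1 / 2 < θ) (hθ1 : θ < 1) :
    ∃ C > 0, ∀ (T : ℝ), 2 ≤ T → ∀ (ψ₁ ψ₂ f h : ℕ → ℝ) (S : ℝ) (N : ℕ), 0 < S →
      (∀ q, 0 ≤ ψ₁ q) → (∀ q, 0 ≤ ψ₂ q) →
      (∀ q, 0 ≤ f q ∧ f q ≤ ψ₁ q * (q.totient / q)) →
      (∀ r, 0 ≤ h r ∧ h r ≤ ψ₂ r * (r.totient / r)) →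
      wsum (fun q r => (cofac r q : ℝ) * ψ₁ q ≤ S ∧ (cofac q r : ℝ) * ψ₂ r ≤ S) N f h
        (fun q r => LL T (cofac q r)) ≤
        C / T * (S * S) ^ (1 - θ) * ((∑ q ∈ Icc 1 N, f q) * ∑ r ∈ Icc 1 N, h r) ^ θ := by
  classical
  obtain ⟨C, hC, c, hc, hW⟩ := WT1 hθ hθ1
  have hec1 : Real.exp (-c) < 1 := by
    rw [Real.exp_lt_one_iff]
    linarith only [hc]
  have hec0 : 0 < Real.exp (-c) := Real.exp_pos _
  have hD : 0 < (1 - Real.exp (-c))⁻¹ := inv_pos.2 (by linarith only [hec1])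
  refine ⟨C * (1 - Real.exp (-c))⁻¹, mul_pos hC hD, ?_⟩
  intro T hT ψ₁ ψ₂ f h S N hS hψ₁ hψ₂ hf hh
  have hT0 : 0 < T := by linarith only [hT]
  have hf0 : ∀ q, 0 ≤ f q := fun q => (hf q).1
  have hh0 : ∀ q, 0 ≤ h q := fun q => (hh q).1
  set m₀ : ℕ := ⌊T * N⌋₊ + 1 with hm₀
  -- layer cake
  have hLLle : ∀ q ∈ Icc 1 N, ∀ r, LL T (cofac q r) ≤ N := by
    intro q hq r
    rw [mem_Icc] at hq
    have hc0 : cofac q r ≤ N := (cofac_le r hq.1).trans hq.2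
    unfold LL
    have h1 : ∑ p ∈ (cofac q r).primeFactors.filter (fun p : ℕ => T < (p : ℝ)), 1 / (p : ℝ) ≤
        ∑ p ∈ (cofac q r).primeFactors.filter (fun p : ℕ => T < (p : ℝ)), (1 : ℝ) := by
      refine sum_le_sum fun p hp => ?_
      rw [mem_filter] at hp
      rw [div_le_one (by linarith only [hp.2, hT0])]
      linarith only [hp.2, hT]
    refine h1.trans ?_
    rw [sum_const, nsmul_eq_mul, mul_one]
    have h2 : ((cofac q r).primeFactors.filter (fun p : ℕ => T < (p : ℝ))).card ≤ N := by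
      refine (card_le_card (filter_subset _ _)).trans ?_
      have h3 : (cofac q r).primeFactors ⊆ Icc 1 N := by
        intro p hp
        have hp1 := Nat.prime_of_mem_primeFactors hp
        have hp2 := Nat.le_of_mem_primeFactors hp
        rw [mem_Icc]
        exact ⟨hp1.one_lt.le, hp2.trans hc0⟩
      have h4 := card_le_card h3
      rwa [Nat.card_Icc, Nat.add_sub_cancel] at h4
    exact_mod_cast h2
  have hlayer : ∀ x : ℝ, 0 ≤ x → x ≤ N →
      x ≤ 1 / T * ∑ k ∈ range m₀, (if (k : ℝ) / T ≤ x then (1 : ℝ) else 0) := by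
    intro x hx0 hxN
    have h1 : T * x < (⌊T * x⌋₊ : ℝ) + 1 := Nat.lt_floor_add_one _
    have h2 : ⌊T * x⌋₊ + 1 ≤ m₀ := by
      rw [hm₀]
      exact Nat.add_le_add_right (Nat.floor_le_floor (mul_le_mul_of_nonneg_left hxN hT0.le)) 1
    have h3 : ((⌊T * x⌋₊ : ℝ) + 1) ≤ ∑ k ∈ range m₀, (if (k : ℝ) / T ≤ x then (1 : ℝ) else 0) := by
      calc ((⌊T * x⌋₊ : ℝ) + 1) = ∑ k ∈ range (⌊T * x⌋₊ + 1), (1 : ℝ) := by simp
        _ = ∑ k ∈ range (⌊T * x⌋₊ + 1), (if (k : ℝ) / T ≤ x then (1 : ℝ) else 0) := by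
            refine sum_congr rfl fun k hk => ?_
            rw [if_pos]
            rw [mem_range] at hk
            rw [div_le_iff₀ hT0]
            have h4 : (k : ℝ) ≤ ⌊T * x⌋₊ := by exact_mod_cast (by omega : k ≤ ⌊T * x⌋₊)
            have h5 : ((⌊T * x⌋₊ : ℕ) : ℝ) ≤ T * x := Nat.floor_le (mul_nonneg hT0.le hx0)
            linarith only [h4, h5]
        _ ≤ _ := by
            refine sum_le_sum_of_subset_of_nonneg (range_mono h2) (fun k _ _ => ?_)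
            split_ifs <;> norm_num
    rw [one_div, ← div_eq_inv_mul, le_div_iff₀ hT0]
    linarith only [h1, h3]
  set R0 : ℕ → ℕ → Prop := fun q r => (cofac r q : ℝ) * ψ₁ q ≤ S ∧ (cofac q r : ℝ) * ψ₂ r ≤ S
    with hR0
  set Rk : ℕ → ℕ → ℕ → Prop := fun k q r => (cofac r q : ℝ) * ψ₁ q ≤ S ∧
    (cofac q r : ℝ) * ψ₂ r ≤ S ∧ (k : ℝ) / T ≤ LL T (cofac q r) with hRk
  have hpt : ∀ q ∈ Icc 1 N, ∀ r ∈ Icc 1 N,
      l3w R0 f h (fun q r => LL T (cofac q r)) q r ≤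
      ∑ k ∈ range m₀, 1 / T * l3g (Rk k) f h q r := by
    intro q hq r hr
    by_cases hR : R0 q r
    · rw [l3w_pos hR]
      have h1 := hlayer (LL T (cofac q r)) (LL_nonneg _ _) (hLLle q hq r)
      have h2 := mul_le_mul_of_nonneg_left h1 (mul_nonneg (hf0 q) (hh0 r))
      refine h2.trans (le_of_eq ?_)
      rw [mul_sum, mul_sum]
      refine sum_congr rfl fun k _ => ?_
      by_cases hk : (k : ℝ) / T ≤ LL T (cofac q r)
      · have hRR : Rk k q r := ⟨hR.1, hR.2, hk⟩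
        rw [if_pos hk, l3g_pos hRR]
        ring
      · have hRR : ¬ Rk k q r := fun h => hk h.2.2
        rw [if_neg hk, l3g_neg hRR]
        ring
    · rw [l3w_neg hR]
      exact sum_nonneg fun k _ => mul_nonneg (by positivity) (l3g_nonneg _ hf0 hh0 _ _)
  have hstep : wsum R0 N f h (fun q r => LL T (cofac q r)) ≤
      ∑ k ∈ range m₀, 1 / T * psum (Rk k) N f h := by
    rw [l3_wsum_eq]
    refine (sum_le_sum fun q hq => sum_le_sum fun r hr => hpt q hq r hr).trans (le_of_eq ?_)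
    have h1 : ∀ q ∈ Icc 1 N, ∑ r ∈ Icc 1 N, ∑ k ∈ range m₀, 1 / T * l3g (Rk k) f h q r =
        ∑ k ∈ range m₀, ∑ r ∈ Icc 1 N, 1 / T * l3g (Rk k) f h q r := fun q _ => sum_comm
    rw [sum_congr rfl h1, sum_comm]
    refine sum_congr rfl fun k _ => ?_
    rw [l3_psum_eq, mul_sum]
    refine sum_congr rfl fun q _ => ?_
    rw [mul_sum]
  refine hstep.trans ?_
  set X := (S * S) ^ (1 - θ) * ((∑ q ∈ Icc 1 N, f q) * ∑ r ∈ Icc 1 N, h r) ^ θ with hX
  have hX0 : 0 ≤ X := by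
    have hF0 : 0 ≤ ∑ q ∈ Icc 1 N, f q := sum_nonneg fun q _ => hf0 q
    have hH0 : 0 ≤ ∑ q ∈ Icc 1 N, h q := sum_nonneg fun q _ => hh0 q
    rw [hX]
    positivity
  have hk : ∀ k ∈ range m₀, 1 / T * psum (Rk k) N f h ≤
        1 / T * (C * X) * Real.exp (-c) ^ k := by
    intro k _
    have h1 := hW T ((k : ℝ) / T) hT (by positivity) ψ₁ ψ₂ f h S S N hS hS hψ₁ hψ₂ hf hh
    have h2 : -(c * T * ((k : ℝ) / T)) = (k : ℝ) * (-c) := by
      field_simp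
    rw [h2, Real.exp_nat_mul] at h1
    have h3 := mul_le_mul_of_nonneg_left h1 (by positivity : 0 ≤ 1 / T)
    refine h3.trans (le_of_eq ?_)
    rw [hX]
    ring
  refine (sum_le_sum hk).trans ?_
  rw [← mul_sum]
  have hgeo : ∑ k ∈ range m₀, Real.exp (-c) ^ k ≤ (1 - Real.exp (-c))⁻¹ := by
    rw [← tsum_geometric_of_lt_one hec0.le hec1]
    exact (summable_geometric_of_lt_one hec0.le hec1).sum_le_tsum _
      (fun k _ => pow_nonneg hec0.le k)
  calc 1 / T * (C * X) * ∑ k ∈ range m₀, Real.exp (-c) ^ k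
      ≤ 1 / T * (C * X) * (1 - Real.exp (-c))⁻¹ :=
        mul_le_mul_of_nonneg_left hgeo (by positivity)
    _ = C * (1 - Real.exp (-c))⁻¹ / T * (S * S) ^ (1 - θ) *
          ((∑ q ∈ Icc 1 N, f q) * ∑ r ∈ Icc 1 N, h r) ^ θ := by
        rw [hX]
        ring

theorem l3_block {L K A : ℝ} (hL : 0 < L) (hK : 0 < K) (hA : 1 ≤ A) (M : ℕ)
    (ψ₁ ψ₂ F h : ℕ → ℝ) (hF : ∀ n, 0 ≤ F n) (hh : ∀ n, 0 ≤ h n) (P' : Finset ℕ)
    (hP' : ∀ p ∈ P', p.Prime ∧ 3 ≤ p ∧ A ≤ (p : ℝ) ∧ (p : ℝ) < 2 * A) :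
    ∑ p ∈ P', (2 * L / p) * psum (fun n t => (cofac t n : ℝ) * ψ₁ n ≤ p * K ∧
        (cofac n t : ℝ) * ψ₂ t ≤ p * K ∧ p ∣ cofac n t) M F h ≤
      2 * L * wsum (fun n t => (cofac t n : ℝ) * ψ₁ n ≤ 2 * A * K ∧
        (cofac n t : ℝ) * ψ₂ t ≤ 2 * A * K) M F h
        (fun n t => LL (max 2 (A / 2)) (cofac n t)) := by
  set Rp : ℕ → ℕ → ℕ → Prop := fun p n t => (cofac t n : ℝ) * ψ₁ n ≤ p * K ∧
    (cofac n t : ℝ) * ψ₂ t ≤ p * K ∧ p ∣ cofac n t with hRp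
  set R0 : ℕ → ℕ → Prop := fun n t => (cofac t n : ℝ) * ψ₁ n ≤ 2 * A * K ∧
        (cofac n t : ℝ) * ψ₂ t ≤ 2 * A * K with hR0
  have hpt : ∀ n ∈ Icc 1 M, ∀ t ∈ Icc 1 M,
      ∑ p ∈ P', (2 * L / p) * l3g (Rp p) F h n t ≤
        2 * L * l3w R0 F h (fun n t => LL (max 2 (A / 2)) (cofac n t)) n t := by
    intro n hn t ht
    rw [mem_Icc] at hn
    have hFh : 0 ≤ F n * h t := mul_nonneg (hF n) (hh t)
    have himp : ∀ p ∈ P', Rp p n t → R0 n t := by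
      intro p hp hR
      have h1 := (hP' p hp).2.2.2
      have h2 : (p : ℝ) * K ≤ 2 * A * K := mul_le_mul_of_nonneg_right h1.le hK.le
      exact ⟨hR.1.trans h2, hR.2.1.trans h2⟩
    by_cases hR : R0 n t
    · rw [l3w_pos hR]
      have h1 : ∀ p ∈ P', (2 * L / p) * l3g (Rp p) F h n t ≤
          if p ∣ cofac n t then 2 * L * (F n * h t) * (1 / (p : ℝ)) else 0 := by
        intro p hp
        by_cases hd : p ∣ cofac n t
        · rw [if_pos hd]
          by_cases hR' : Rp p n t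
          · rw [l3g_pos hR']
            apply le_of_eq
            ring
          · rw [l3g_neg hR', mul_zero]
            positivity
        · have hR' : ¬ Rp p n t := fun h => hd h.2.2
          rw [if_neg hd, l3g_neg hR', mul_zero]
      refine (sum_le_sum h1).trans ?_
      rw [← sum_filter, ← mul_sum]
      have h2 : ∑ p ∈ P'.filter (fun p => p ∣ cofac n t), 1 / (p : ℝ) ≤
          LL (max 2 (A / 2)) (cofac n t) := by
        unfold LL
        refine sum_le_sum_of_subset_of_nonneg ?_ (fun p _ _ => by positivity)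
        intro p hp
        rw [mem_filter] at hp
        obtain ⟨hpr, hp3, hpA, _⟩ := hP' p hp.1
        rw [mem_filter, Nat.mem_primeFactors]
        refine ⟨⟨hpr, hp.2, (cofac_pos t hn.1).ne'⟩, ?_⟩
        have h3 : (3 : ℝ) ≤ p := by exact_mod_cast hp3
        rw [max_lt_iff]
        constructor
        · linarith only [h3]
        · linarith only [hpA, hA]
      calc 2 * L * (F n * h t) * ∑ p ∈ P'.filter (fun p => p ∣ cofac n t), 1 / (p : ℝ)
          ≤ 2 * L * (F n * h t) * LL (max 2 (A / 2)) (cofac n t) :=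
            mul_le_mul_of_nonneg_left h2 (by positivity)
        _ = 2 * L * (F n * h t * LL (max 2 (A / 2)) (cofac n t)) := by ring
    · rw [l3w_neg hR, mul_zero]
      apply le_of_eq
      refine sum_eq_zero fun p hp => ?_
      rw [l3g_neg (fun h => hR (himp p hp h)), mul_zero]
  rw [l3_wsum_eq]
  calc ∑ p ∈ P', (2 * L / p) * psum (Rp p) M F h
      = ∑ n ∈ Icc 1 M, ∑ t ∈ Icc 1 M, ∑ p ∈ P', (2 * L / p) * l3g (Rp p) F h n t := by
        have h1 : ∀ n ∈ Icc 1 M, ∑ t ∈ Icc 1 M, ∑ p ∈ P', (2 * L / p) * l3g (Rp p) F h n t =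
            ∑ p ∈ P', ∑ t ∈ Icc 1 M, (2 * L / p) * l3g (Rp p) F h n t := fun n _ => sum_comm
        rw [sum_congr rfl h1, sum_comm]
        refine sum_congr rfl fun p _ => ?_
        rw [l3_psum_eq, mul_sum]
        refine sum_congr rfl fun n _ => ?_
        rw [mul_sum]
    _ ≤ ∑ n ∈ Icc 1 M, ∑ t ∈ Icc 1 M,
          2 * L * l3w R0 F h (fun n t => LL (max 2 (A / 2)) (cofac n t)) n t :=
        sum_le_sum fun n hn => sum_le_sum fun t ht => hpt n hn t ht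
    _ = 2 * L * ∑ n ∈ Icc 1 M, ∑ t ∈ Icc 1 M,
          l3w R0 F h (fun n t => LL (max 2 (A / 2)) (cofac n t)) n t := by
        rw [mul_sum]
        refine sum_congr rfl fun n _ => ?_
        rw [mul_sum]

/-- the sum over dyadic blocks -/
theorem l3_dyadic (P : Finset ℕ) (N : ℕ) (z : ℝ) (hz : 1 ≤ z) (a : ℕ → ℝ) (ha : ∀ p, 0 ≤ a p)
    (hP : ∀ p ∈ P, p ≤ N ∧ z < (p : ℝ)) :
    ∑ p ∈ P, a p ≤ ∑ l ∈ range N,
      ∑ p ∈ P.filter (fun p : ℕ => z * 2 ^ l ≤ (p : ℝ) ∧ (p : ℝ) < 2 * (z * 2 ^ l)), a p := by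
  have hz0 : 0 < z := lt_of_lt_of_le one_pos hz
  have h1 : ∀ p ∈ P, a p ≤ ∑ l ∈ range N,
      if (z * 2 ^ l ≤ (p : ℝ) ∧ (p : ℝ) < 2 * (z * 2 ^ l)) then a p else 0 := by
    intro p hp
    obtain ⟨hpN, hpz⟩ := hP p hp
    have h2 : (1 : ℝ) ≤ (p : ℝ) / z := by
      rw [le_div_iff₀ hz0]
      linarith only [hpz]
    obtain ⟨l, hl1, hl2⟩ := exists_nat_pow_near h2 (one_lt_two : (1 : ℝ) < 2)
    rw [le_div_iff₀ hz0] at hl1
    rw [div_lt_iff₀ hz0] at hl2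
    have h3 : l < N := by
      have h4 : (2 : ℝ) ^ l ≤ N := by
        have h5 : (2 : ℝ) ^ l ≤ 2 ^ l * z := le_mul_of_one_le_right (by positivity) hz
        have h6 : (p : ℝ) ≤ N := by exact_mod_cast hpN
        linarith only [h5, hl1, h6]
      have h7 : 2 ^ l ≤ N := by exact_mod_cast h4
      exact lt_of_lt_of_le Nat.lt_two_pow_self h7
    have h8 : z * 2 ^ l ≤ (p : ℝ) ∧ (p : ℝ) < 2 * (z * 2 ^ l) := by
      constructor
      · linarith only [hl1]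
      · rw [pow_succ] at hl2
        linarith only [hl2]
    have h9 : ∀ l ∈ range N, 0 ≤ (if (z * 2 ^ l ≤ (p : ℝ) ∧ (p : ℝ) < 2 * (z * 2 ^ l)) then
        a p else 0) := by
      intro l _
      split_ifs
      · exact ha p
      · exact le_rfl
    refine le_trans ?_ (single_le_sum h9 (mem_range.2 h3))
    rw [if_pos h8]
  refine (sum_le_sum h1).trans (le_of_eq ?_)
  rw [sum_comm]
  refine sum_congr rfl fun l _ => ?_
  rw [sum_filter]

/-! D3 (primes): pairs with a popular prime `p` that does not divide the cofactor -/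
theorem lift_prime {θ : ℝ} (hθ : 1 / 2 < θ) (hθ1 : θ < 1) :
    ∃ C > 0, ∀ (N : ℕ) (ψ f : ℕ → ℝ) (R L s τ z K : ℝ), LHyp N ψ f R L → 0 < s → 0 < τ → 1 ≤ z →
      0 < K →
      psum (fun q t => (cofac t q : ℝ) * ψ q ≤ K ∧ (cofac q t : ℝ) * ψ t ≤ K ∧
        ∃ p : ℕ, LPop N ψ f s τ z q p 1 ∧ ¬ p ∣ cofac t q) N f f ≤
        C * L * K ^ (2 * (1 - θ)) * z ^ (-(2 * θ - 1)) *
          (lmass N ψ f s τ z (L * R) * ∑ q ∈ Icc 1 N, f q) ^ θ := by
  obtain ⟨C₁, hC₁, hT1⟩ := T1 hθ hθ1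
  obtain ⟨C₂, hC₂, hW⟩ := l3_wsum hθ hθ1
  have hη : 0 < 2 * θ - 1 := by linarith only [hθ]
  have hlam : 0 < 1 - θ := by linarith only [hθ1]
  set ρ : ℝ := (2 : ℝ) ^ (-(2 * θ - 1)) with hρ
  have hρ0 : 0 < ρ := by positivity
  have hρ1 : ρ < 1 := by
    rw [hρ]
    exact Real.rpow_lt_one_of_one_lt_of_neg one_lt_two (by linarith only [hη])
  have hD : 0 < (1 - ρ)⁻¹ := inv_pos.2 (by linarith only [hρ1])
  refine ⟨C₁ * 4 ^ (1 - θ) * ρ⁻¹ + 4 * C₂ * 4 ^ (1 - θ) * (1 - ρ)⁻¹, by positivity, ?_⟩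
  intro N ψ f R L s τ z K H hs hτ hz hK
  have hR := H.hR
  have hL : 0 < L := lt_of_lt_of_le one_pos H.hL
  have hLR : 0 < L * R := mul_pos hL hR
  have hz0 : 0 < z := lt_of_lt_of_le one_pos hz
  refine (l3_step1 H hs hτ hz hK).trans ?_
  set S := lset N ψ f s τ z with hS
  have hf0 : ∀ q, 0 ≤ f q := fun q => (H.hf q).1
  have hF0 : ∀ n, 0 ≤ l3f S (L * R) n := l3f_nonneg S hLR
  have hψp : ∀ n, 0 ≤ l3psi S (L * R) n := l3psi_nonneg S hLR
  set a : ℕ → ℝ := fun p => (2 * L / p) * psum (fun n t =>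
          (cofac t n : ℝ) * l3psi S (L * R) n ≤ p * K ∧
          (cofac n t : ℝ) * ψ t ≤ p * K ∧ p ∣ cofac n t) (N * N) (l3f S (L * R)) f with ha
  have ha0 : ∀ p, 0 ≤ a p := fun p => mul_nonneg (by positivity) (psum_nonneg _ _ _ _ hF0 hf0)
  set P := ((Icc 1 N).filter Nat.Prime).filter (fun p : ℕ => z < (p : ℝ)) with hP
  set X := (lmass N ψ f s τ z (L * R) * ∑ q ∈ Icc 1 N, f q) ^ θ with hX
  have hlm0 : 0 ≤ lmass N ψ f s τ z (L * R) := by
    rw [← l3_sum_f]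
    exact sum_nonneg fun n _ => hF0 n
  have hM0 : 0 ≤ ∑ q ∈ Icc 1 N, f q := sum_nonneg fun q _ => hf0 q
  have hX0 : 0 ≤ X := Real.rpow_nonneg (mul_nonneg hlm0 hM0) _
  have hsumX : ((∑ q ∈ Icc 1 (N * N), l3f S (L * R) q) * ∑ r ∈ Icc 1 (N * N), f r) ^ θ = X := by
    rw [l3_sum_f, l3_sum_g H]
  -- powers of the sizes
  have hpow : ∀ B : ℝ, 0 < B → (2 * B * K * (2 * B * K)) ^ (1 - θ) =
      4 ^ (1 - θ) * B ^ (2 * (1 - θ)) * K ^ (2 * (1 - θ)) := by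
    intro B hB
    have h1 : 2 * B * K * (2 * B * K) = 4 * (B ^ (2 : ℝ)) * (K ^ (2 : ℝ)) := by
      rw [Real.rpow_two, Real.rpow_two]
      ring
    rw [h1, Real.mul_rpow (by positivity) (by positivity), Real.mul_rpow (by positivity)
      (by positivity), ← Real.rpow_mul hB.le, ← Real.rpow_mul hK.le]
  set Y := K ^ (2 * (1 - θ)) with hY
  have hY0 : 0 ≤ Y := Real.rpow_nonneg hK.le _
  set Z := z ^ (-(2 * θ - 1)) with hZ
  have hZ0 : 0 ≤ Z := Real.rpow_nonneg hz0.le _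
  -- the prime 2
  have hpart1 : ∑ p ∈ P.filter (fun p => p = 2), a p ≤
      C₁ * 4 ^ (1 - θ) * ρ⁻¹ * L * Y * Z * X := by
    have hrhs : 0 ≤ C₁ * 4 ^ (1 - θ) * ρ⁻¹ * L * Y * Z * X := by positivity
    rw [Finset.filter_eq']
    split_ifs with h2
    · rw [sum_singleton]
      rw [hP, mem_filter] at h2
      have hz2 : z < 2 := by exact_mod_cast h2.2
      have h3 : psum (fun n t => (cofac t n : ℝ) * l3psi S (L * R) n ≤ ((2 : ℕ) : ℝ) * K ∧
          (cofac n t : ℝ) * ψ t ≤ ((2 : ℕ) : ℝ) * K ∧ 2 ∣ cofac n t) (N * N) (l3f S (L * R)) f ≤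
          C₁ * (2 * 1 * K * (2 * 1 * K)) ^ (1 - θ) * X := by
        refine le_trans ?_ ((hT1 (l3psi S (L * R)) ψ (l3f S (L * R)) f (2 * 1 * K) (2 * 1 * K)
          (N * N) (by positivity) (by positivity) hψp H.hψ (l3f_le S hLR) H.hf).trans
          (le_of_eq ?_))
        · refine psum_mono _ _ _ _ _ _ _ hF0 hf0 ?_
          intro n _ t _ hR _
          refine ⟨⟨?_, ?_⟩, le_rfl⟩
          · have := hR.1
            push_cast at this
            linarith only [this]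
          · have := hR.2.1
            push_cast at this
            linarith only [this]
        · rw [hsumX]
      rw [hpow 1 one_pos, Real.one_rpow] at h3
      have h4 : 1 ≤ ρ⁻¹ * Z := by
        rw [← div_eq_inv_mul, one_le_div hρ0, hρ, hZ]
        exact Real.rpow_le_rpow_of_nonpos hz0 hz2.le (by linarith only [hη])
      simp only [ha]
      have h5 : 2 * L / ((2 : ℕ) : ℝ) = L := by
        push_cast
        ring
      rw [h5]
      calc L * _ ≤ L * (C₁ * (4 ^ (1 - θ) * 1 * Y) * X) := mul_le_mul_of_nonneg_left h3 hL.le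
        _ = (C₁ * 4 ^ (1 - θ) * L * Y * X) * 1 := by ring
        _ ≤ (C₁ * 4 ^ (1 - θ) * L * Y * X) * (ρ⁻¹ * Z) :=
            mul_le_mul_of_nonneg_left h4 (by positivity)
        _ = C₁ * 4 ^ (1 - θ) * ρ⁻¹ * L * Y * Z * X := by ring
    · rw [sum_empty]
      exact hrhs
  -- the other primes
  have hpart2 : ∑ p ∈ P.filter (fun p => ¬ p = 2), a p ≤
      4 * C₂ * 4 ^ (1 - θ) * (1 - ρ)⁻¹ * L * Y * Z * X := by
    have hPmem : ∀ p ∈ P.filter (fun p => ¬ p = 2), p ≤ N ∧ z < (p : ℝ) := by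
      intro p hp
      rw [mem_filter, hP, mem_filter, mem_filter, mem_Icc] at hp
      exact ⟨hp.1.1.1.2, hp.1.2⟩
    refine (l3_dyadic _ N z hz a ha0 hPmem).trans ?_
    have hblock : ∀ l ∈ range N, ∑ p ∈ (P.filter (fun p => ¬ p = 2)).filter
        (fun p : ℕ => z * 2 ^ l ≤ (p : ℝ) ∧ (p : ℝ) < 2 * (z * 2 ^ l)), a p ≤
        4 * C₂ * 4 ^ (1 - θ) * L * Y * Z * X * ρ ^ l := by
      intro l _
      have hA : 1 ≤ z * 2 ^ l := by
        have h1 : (1 : ℝ) ≤ 2 ^ l := one_le_pow₀ one_le_two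
        nlinarith only [h1, hz]
      set A : ℝ := z * 2 ^ l with hAdef
      have hA0 : 0 < A := lt_of_lt_of_le one_pos hA
      have h1 := l3_block hL hK hA (N * N) (l3psi S (L * R)) ψ (l3f S (L * R)) f hF0 hf0
        ((P.filter (fun p => ¬ p = 2)).filter (fun p : ℕ => A ≤ (p : ℝ) ∧ (p : ℝ) < 2 * A)) (by
          intro p hp
          rw [mem_filter, mem_filter, hP, mem_filter, mem_filter, mem_Icc] at hp
          have hpr : p.Prime := hp.1.1.1.2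
          refine ⟨hpr, ?_, hp.2.1, hp.2.2⟩
          have h2 := hpr.two_le
          have h3 : p ≠ 2 := hp.1.2
          omega)
      refine h1.trans ?_
      have hT2 : (2 : ℝ) ≤ max 2 (A / 2) := le_max_left _ _
      have hTA : A / 2 ≤ max 2 (A / 2) := le_max_right _ _
      have h2 := hW (max 2 (A / 2)) hT2 (l3psi S (L * R)) ψ (l3f S (L * R)) f (2 * A * K) (N * N)
        (by positivity) hψp H.hψ (l3f_le S hLR) H.hf
      rw [hsumX, hpow A hA0] at h2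
      have h3 : C₂ / max 2 (A / 2) ≤ 2 * C₂ * A⁻¹ := by
        have h4 : C₂ / max 2 (A / 2) ≤ C₂ / (A / 2) :=
          div_le_div_of_nonneg_left hC₂.le (by positivity) hTA
        refine h4.trans (le_of_eq ?_)
        field_simp
      have h5 : A⁻¹ * A ^ (2 * (1 - θ)) = Z * ρ ^ l := by
        rw [← Real.rpow_neg_one, ← Real.rpow_add hA0]
        have h6 : -1 + 2 * (1 - θ) = -(2 * θ - 1) := by ring
        rw [h6, hAdef, Real.mul_rpow hz0.le (by positivity), hZ, hρ, ← Real.rpow_natCast,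
          ← Real.rpow_natCast, ← Real.rpow_mul (by norm_num), ← Real.rpow_mul (by norm_num),
          mul_comm (l : ℝ)]
      calc 2 * L * _ ≤ 2 * L * (C₂ / max 2 (A / 2) * (4 ^ (1 - θ) * A ^ (2 * (1 - θ)) * Y) * X) :=
            mul_le_mul_of_nonneg_left h2 (by positivity)
        _ ≤ 2 * L * (2 * C₂ * A⁻¹ * (4 ^ (1 - θ) * A ^ (2 * (1 - θ)) * Y) * X) := by
            refine mul_le_mul_of_nonneg_left ?_ (by positivity)
            refine mul_le_mul_of_nonneg_right ?_ hX0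
            exact mul_le_mul_of_nonneg_right h3 (by positivity)
        _ = 4 * C₂ * 4 ^ (1 - θ) * L * Y * X * (A⁻¹ * A ^ (2 * (1 - θ))) := by ring
        _ = 4 * C₂ * 4 ^ (1 - θ) * L * Y * Z * X * ρ ^ l := by
            rw [h5]
            ring
    refine (sum_le_sum hblock).trans ?_
    rw [← mul_sum]
    have hgeo : ∑ l ∈ range N, ρ ^ l ≤ (1 - ρ)⁻¹ := by
      rw [← tsum_geometric_of_lt_one hρ0.le hρ1]
      exact (summable_geometric_of_lt_one hρ0.le hρ1).sum_le_tsum _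
        (fun k _ => pow_nonneg hρ0.le k)
    calc 4 * C₂ * 4 ^ (1 - θ) * L * Y * Z * X * ∑ l ∈ range N, ρ ^ l
        ≤ 4 * C₂ * 4 ^ (1 - θ) * L * Y * Z * X * (1 - ρ)⁻¹ :=
          mul_le_mul_of_nonneg_left hgeo (by positivity)
      _ = 4 * C₂ * 4 ^ (1 - θ) * (1 - ρ)⁻¹ * L * Y * Z * X := by ring
  calc ∑ p ∈ P, a p = ∑ p ∈ P.filter (fun p => p = 2), a p +
        ∑ p ∈ P.filter (fun p => ¬ p = 2), a p := (sum_filter_add_sum_filter_not _ _ _).symm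
    _ ≤ C₁ * 4 ^ (1 - θ) * ρ⁻¹ * L * Y * Z * X +
        4 * C₂ * 4 ^ (1 - θ) * (1 - ρ)⁻¹ * L * Y * Z * X := add_le_add hpart1 hpart2
    _ = (C₁ * 4 ^ (1 - θ) * ρ⁻¹ + 4 * C₂ * 4 ^ (1 - θ) * (1 - ρ)⁻¹) * L * Y * Z * X := by ring

end Vale.P028
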