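import Vale.Agent.P028.MathlibUsed
import Vale.Agent.P028.LDefs
import Vale.Agent.P028.BT1
import Vale.Agent.P028.LMass
import Vale.Agent.P028.LHigh
import Vale.Agent.P028.LPrime

/-!
# Letter D: the bad pairs of the lift lemma (assembly, and the version with the cost factor)
-/

namespace Vale.P028

open Finset

theorem l4_psum_or {R R₁ R₂ : ℕ → ℕ → Prop} {N : ℕ} {f h : ℕ → ℝ} (hf : ∀ q, 0 ≤ f q)
    (hh : ∀ q, 0 ≤ h q) (H : ∀ q ∈ Icc 1 N, ∀ r ∈ Icc 1 N, R q r → R₁ q r ∨ R₂ q r) :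
    psum R N f h ≤ psum R₁ N f h + psum R₂ N f h := by
  classical
  unfold psum
  rw [← sum_add_distrib]
  refine sum_le_sum fun q hq => ?_
  rw [← sum_add_distrib]
  refine sum_le_sum fun r hr => ?_
  have h0 : 0 ≤ f q * h r := mul_nonneg (hf q) (hh r)
  by_cases h1 : R q r
  · rw [if_pos h1]
    rcases H q hq r hr h1 with h2 | h2
    · rw [if_pos h2]
      split_ifs <;> linarith only [h0]
    · rw [if_pos h2]
      split_ifs <;> linarith only [h0]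
  · rw [if_neg h1]
    split_ifs <;> linarith only [h0]

/-- D4 (assembly): the bad pairs. -/
theorem lift_bad {θ : ℝ} (hθ : 1 / 2 < θ) (hθ1 : θ < 1) :
    ∃ C > 0, ∀ (N : ℕ) (ψ f : ℕ → ℝ) (R L s τ z K : ℝ), LHyp N ψ f R L → 0 < s → 0 < τ → 1 ≤ z →
      0 < K →
      psum (fun q t => (cofac t q : ℝ) * ψ q ≤ K ∧ (cofac q t : ℝ) * ψ t ≤ K ∧
        LBad N ψ f s τ z q t) N f f ≤
        C * L * K ^ (2 * (1 - θ)) * z ^ (-(2 * θ - 1)) *
          (lmass N ψ f s τ z (L * R) * ∑ q ∈ Icc 1 N, f q) ^ θ := by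
  obtain ⟨C₁, hC₁, h₁⟩ := lift_high hθ hθ1
  obtain ⟨C₂, hC₂, h₂⟩ := lift_prime hθ hθ1
  refine ⟨C₁ + C₂, by positivity, ?_⟩
  intro N ψ f R L s τ z K hL hs hτ hz hK
  have e1 := h₁ N ψ f R L s τ z K hL hs hτ hz hK
  have e2 := h₂ N ψ f R L s τ z K hL hs hτ hz hK
  refine (l4_psum_or (fun q => (hL.hf q).1) (fun q => (hL.hf q).1) ?_).trans
    ((add_le_add e1 e2).trans (le_of_eq (by ring)))
  rintro q - r - ⟨ha, hb, p, j, hp, hd⟩
  rcases Nat.lt_or_ge 1 j with hj | hj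
  · exact Or.inl ⟨ha, hb, p, j, hj, hp, hd⟩
  · have hj1 : j = 1 := le_antisymm hj hp.2.2.1
    subst hj1
    refine Or.inr ⟨ha, hb, p, hp, ?_⟩
    rwa [pow_one] at hd

theorem l4_GG_nonneg (n : ℕ) : 0 ≤ GG n := by
  unfold GG
  exact prod_nonneg fun p hp =>
    inv_nonneg.2 (bt_one_sub_inv (Nat.prime_of_mem_primeFactors hp)).1.le

/-- Cauchy–Schwarz. -/
theorem l4_cs {R R' : ℕ → ℕ → Prop} {N : ℕ} {f : ℕ → ℝ} (hf : ∀ q, 0 ≤ f q) (G : ℕ → ℕ → ℝ)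
    (hG : ∀ q r, 0 ≤ G q r) (A : ℕ) (H : ∀ q r, R q r → R' q r) :
    (wsum R N f f (fun q r => G q r ^ A)) ^ 2 ≤
      psum R N f f * wsum R' N f f (fun q r => G q r ^ (2 * A)) := by
  classical
  unfold wsum psum
  rw [← sum_product', ← sum_product', ← sum_product']
  refine sum_sq_le_sum_mul_sum_of_sq_le_mul _ ?_ ?_ ?_
  · rintro ⟨q, r⟩ -
    show 0 ≤ if R q r then f q * f r else 0
    split_ifs
    · exact mul_nonneg (hf q) (hf r)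
    · exact le_rfl
  · rintro ⟨q, r⟩ -
    show 0 ≤ if R' q r then f q * f r * G q r ^ (2 * A) else 0
    split_ifs
    · exact mul_nonneg (mul_nonneg (hf q) (hf r)) (pow_nonneg (hG q r) _)
    · exact le_rfl
  · rintro ⟨q, r⟩ -
    show (if R q r then f q * f r * G q r ^ A else 0) ^ 2 ≤
      (if R q r then f q * f r else 0) * if R' q r then f q * f r * G q r ^ (2 * A) else 0
    by_cases h1 : R q r
    · rw [if_pos h1, if_pos h1, if_pos (H q r h1)]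
      exact le_of_eq (by ring)
    · rw [if_neg h1, if_neg h1]
      simp

theorem l4_expand (a b c d e g h : ℝ) :
    (a * b * c * d * e * g * h) ^ 2 = a ^ 2 * b ^ 2 * c ^ 2 * d ^ 2 * e ^ 2 * g ^ 2 * h ^ 2 := by
  ring

/-- D5: the bad pairs with the cost factor (`θ = 3/4`). -/
theorem lift_bad_cost (A : ℕ) :
    ∃ C > 0, ∀ (N : ℕ) (ψ f : ℕ → ℝ) (R L s τ z K : ℝ), LHyp N ψ f R L → 0 < s → 0 < τ → 1 ≤ z →
      0 < K →
      wsum (fun q t => (cofac t q : ℝ) * ψ q ≤ K ∧ (cofac q t : ℝ) * ψ t ≤ K ∧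
        LBad N ψ f s τ z q t) N f f (fun q t => GG (cofac q t * cofac t q) ^ A) ≤
        C * L ^ (1 / 2 : ℝ) * K ^ (1 / 2 : ℝ) * z ^ (-(1 / 4) : ℝ) * τ ^ (-(3 / 2) : ℝ) *
          s ^ (-(3 / 4) : ℝ) * (∑ q ∈ Icc 1 N, f q) ^ (9 / 4 : ℝ) := by
  obtain ⟨C₁, hC₁, h₁⟩ := lift_bad (θ := 3 / 4) (by norm_num) (by norm_num)
  obtain ⟨C₂, hC₂, h₂⟩ := lift_mass (θ := 3 / 4) (by norm_num) (by norm_num)
  obtain ⟨C₃, hC₃, h₃⟩ := T1_cost (θ := 3 / 4) (by norm_num) (by norm_num) (2 * A)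
  refine ⟨(C₁ * C₂ ^ 3 * C₃) ^ (1 / 2 : ℝ), by positivity, ?_⟩
  intro N ψ f R L s τ z K hL hs hτ hz hK
  have hz0 : 0 < z := by linarith only [hz]
  have hL0 : 0 < L := by linarith only [hL.hL]
  have e1 := h₁ N ψ f R L s τ z K hL hs hτ hz hK
  have e2 := h₂ N ψ f R L s τ z hL hs hτ hz0.le
  have e3 := h₃ ψ ψ f f K K N hK hK hL.hψ hL.hψ hL.hf hL.hf
  have hM0 : 0 ≤ ∑ q ∈ Icc 1 N, f q := sum_nonneg fun q _ => (hL.hf q).1
  set M := ∑ q ∈ Icc 1 N, f q with hM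
  have hF0 : 0 ≤ lmass N ψ f s τ z (L * R) := by
    unfold lmass
    refine sum_nonneg fun n _ => ?_
    have := hL.hR
    positivity
  set F := lmass N ψ f s τ z (L * R) with hF
  have hcs := l4_cs (N := N) (fun q => (hL.hf q).1) (fun q t => GG (cofac q t * cofac t q))
    (fun q r => l4_GG_nonneg _) A
    (R := fun q t => (cofac t q : ℝ) * ψ q ≤ K ∧ (cofac q t : ℝ) * ψ t ≤ K ∧
        LBad N ψ f s τ z q t)
    (R' := fun q t => (cofac t q : ℝ) * ψ q ≤ K ∧ (cofac q t : ℝ) * ψ t ≤ K)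
    (fun q r h => ⟨h.1, h.2.1⟩)
  set W := wsum (fun q t => (cofac t q : ℝ) * ψ q ≤ K ∧ (cofac q t : ℝ) * ψ t ≤ K ∧
        LBad N ψ f s τ z q t) N f f (fun q t => GG (cofac q t * cofac t q) ^ A) with hW
  have e3' : wsum (fun q t => (cofac t q : ℝ) * ψ q ≤ K ∧ (cofac q t : ℝ) * ψ t ≤ K) N f f
      (fun q t => GG (cofac q t * cofac t q) ^ (2 * A)) ≤
      C₃ * (K * K) ^ (1 - 3 / 4 : ℝ) * (M * M) ^ (3 / 4 : ℝ) := by
    refine le_trans (le_of_eq ?_) e3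
    unfold wsum GG
    refine sum_congr rfl fun q _ => sum_congr rfl fun r _ => ?_
    congr
  have hF3 : F ^ (3 / 4 : ℝ) ≤ (C₂ * τ⁻¹ * s ^ (-(2 * (3 / 4) - 1) : ℝ) * M ^ (3 / 4 : ℝ)) ^ 3 := by
    have h4 : F ^ (3 / 4 : ℝ) = (F ^ (1 - 3 / 4 : ℝ)) ^ 3 := by
      rw [← Real.rpow_natCast, ← Real.rpow_mul hF0]
      norm_num
    rw [h4]
    exact pow_le_pow_left₀ (by positivity) e2 3
  have hP : psum (fun q t => (cofac t q : ℝ) * ψ q ≤ K ∧ (cofac q t : ℝ) * ψ t ≤ K ∧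
        LBad N ψ f s τ z q t) N f f ≤ C₁ * L * K ^ (2 * (1 - 3 / 4) : ℝ) *
        z ^ (-(2 * (3 / 4) - 1) : ℝ) *
        ((C₂ * τ⁻¹ * s ^ (-(2 * (3 / 4) - 1) : ℝ) * M ^ (3 / 4 : ℝ)) ^ 3 * M ^ (3 / 4 : ℝ)) := by
    refine e1.trans ?_
    rw [Real.mul_rpow hF0 hM0]
    gcongr
  have hQ0 : 0 ≤ C₃ * (K * K) ^ (1 - 3 / 4 : ℝ) * (M * M) ^ (3 / 4 : ℝ) := by positivity
  have hP0 : 0 ≤ psum (fun q t => (cofac t q : ℝ) * ψ q ≤ K ∧ (cofac q t : ℝ) * ψ t ≤ K ∧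
        LBad N ψ f s τ z q t) N f f := by
    unfold psum
    refine sum_nonneg fun q _ => sum_nonneg fun r _ => ?_
    split_ifs
    · exact mul_nonneg (hL.hf q).1 (hL.hf r).1
    · exact le_rfl
  have hQ1 : 0 ≤ wsum (fun q t => (cofac t q : ℝ) * ψ q ≤ K ∧ (cofac q t : ℝ) * ψ t ≤ K) N f f
      (fun q t => GG (cofac q t * cofac t q) ^ (2 * A)) := by
    unfold wsum
    refine sum_nonneg fun q _ => sum_nonneg fun r _ => ?_
    split_ifs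
    · exact mul_nonneg (mul_nonneg (hL.hf q).1 (hL.hf r).1) (pow_nonneg (l4_GG_nonneg _) _)
    · exact le_rfl
  have hW2 := hcs.trans (mul_le_mul hP e3' hQ1 (by positivity))
  refine le_of_abs_le (abs_le_of_sq_le_sq (hW2.trans (le_of_eq ?_)) (by positivity))
  have k1 : ((C₁ * C₂ ^ 3 * C₃) ^ (1 / 2 : ℝ)) ^ 2 = C₁ * C₂ ^ 3 * C₃ := by
    rw [← Real.rpow_natCast, ← Real.rpow_mul (by positivity)]
    norm_num
  have k2 : (L ^ (1 / 2 : ℝ)) ^ 2 = L := by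
    rw [← Real.rpow_natCast, ← Real.rpow_mul (by positivity)]
    norm_num
  have k3 : (K ^ (1 / 2 : ℝ)) ^ 2 = K ^ (2 * (1 - 3 / 4) : ℝ) * (K * K) ^ (1 - 3 / 4 : ℝ) := by
    rw [← Real.rpow_natCast, ← Real.rpow_mul (by positivity), Real.mul_rpow hK.le hK.le,
      ← Real.rpow_add hK, ← Real.rpow_add hK]
    norm_num
  have k4 : (z ^ (-(1 / 4) : ℝ)) ^ 2 = z ^ (-(2 * (3 / 4) - 1) : ℝ) := by
    rw [← Real.rpow_natCast, ← Real.rpow_mul (by positivity)]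
    norm_num
  have k5 : (τ ^ (-(3 / 2) : ℝ)) ^ 2 = (τ⁻¹) ^ 3 := by
    rw [← Real.rpow_natCast, ← Real.rpow_mul (by positivity), ← Real.rpow_neg_one,
      ← Real.rpow_natCast, ← Real.rpow_mul (by positivity)]
    norm_num
  have k6 : (s ^ (-(3 / 4) : ℝ)) ^ 2 = (s ^ (-(2 * (3 / 4) - 1) : ℝ)) ^ 3 := by
    rw [← Real.rpow_natCast, ← Real.rpow_mul (by positivity),
      ← Real.rpow_natCast, ← Real.rpow_mul (by positivity)]
    norm_num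
  have k7 : (M ^ (9 / 4 : ℝ)) ^ 2 = (M ^ (3 / 4 : ℝ)) ^ 3 * M ^ (3 / 4 : ℝ) *
      (M * M) ^ (3 / 4 : ℝ) := by
    rw [Real.mul_rpow hM0 hM0, ← Real.rpow_natCast, ← Real.rpow_mul (by positivity),
      ← Real.rpow_natCast, ← Real.rpow_mul (by positivity),
      ← Real.rpow_add_of_nonneg hM0 (by norm_num) (by norm_num),
      ← Real.rpow_add_of_nonneg hM0 (by norm_num) (by norm_num),
      ← Real.rpow_add_of_nonneg hM0 (by norm_num) (by norm_num)]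
    norm_num
  rw [l4_expand, k1, k2, k3, k4, k5, k6, k7]
  ring

end Vale.P028
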