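import Vale.Agent.P028.LProb

/-!
# Number of small primes of the cofactors in a dense frame

`frame_count`: if the divisors `q ∈ S` of `F` (weights `f q ≤ φ(q)/R`) carry mass at least
`2 ^ (-a) F / R`, then on average the cofactor `F / q` has at most `C a` primes in a set `P` of primes
with `∑_{p ∈ P, p ∣ F} 1/p ≤ a + 2`.
-/

namespace Vale.P028

open Finset

theorem lc_PN_le {F q : ℕ} {R : ℝ} (hF : 0 < F) (hR : 0 < R) (h : q ∣ F) :
    (q.totient : ℝ) / R = (F : ℝ) / R * PN F (F / q) := by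
  unfold PN
  rw [Nat.div_div_self h hF.ne']
  have : (F : ℝ) ≠ 0 := by exact_mod_cast hF.ne'
  field_simp

/-- First moment of the number of primes, restricted to large values. -/
theorem lc_tail {F : ℕ} (hF : 0 < F) (P : Finset ℕ) (hP : ∀ p ∈ P, p.Prime) {T : ℝ}
    (hT : ∑ p ∈ P.filter (fun p => p ∣ F), 1 / (p : ℝ) ≤ T) (n : ℕ) :
    ∑ y ∈ F.divisors.filter (fun y => n ≤ (P.filter (fun p => p ∣ y)).card),
      PN F y * (P.filter (fun p => p ∣ y)).card ≤ Real.exp (15 * T - 2 * n) := by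
  classical
  have hmom := PN_moment hF P hP (15 : ℝ)
  have h2 : ∏ p ∈ P.filter (fun p => p ∣ F), (1 + 15 / (p : ℝ)) ≤ Real.exp (15 * T) := by
    refine le_trans ?_ (Real.exp_le_exp.2 (mul_le_mul_of_nonneg_left hT (by norm_num)))
    rw [Finset.mul_sum, Real.exp_sum]
    apply Finset.prod_le_prod
    · intro p _
      positivity
    · intro p _
      have := Real.add_one_le_exp (15 * (1 / (p : ℝ)))
      have e : 15 * (1 / (p : ℝ)) = 15 / p := by ring
      rw [e] at this ⊢
      linarith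
  have hpt : ∀ m : ℕ, n ≤ m → (m : ℝ) ≤ Real.exp (-(2 * (n : ℝ))) * (1 + 15) ^ m := by
    intro m hm
    have h3 : (m : ℝ) ≤ 2 ^ m := by exact_mod_cast Nat.lt_two_pow_self.le
    have h4 : (1 : ℝ) ≤ Real.exp (-(2 * (n : ℝ))) * 8 ^ m := by
      have h5 : Real.exp (2 * (n : ℝ)) ≤ 8 ^ m := by
        have h6 : Real.exp (2 * (n : ℝ)) = (Real.exp 1 ^ 2) ^ n := by
          rw [← pow_mul, ← Real.exp_nat_mul]
          push_cast
          ring_nf
        rw [h6]
        have h7 : Real.exp 1 ^ 2 ≤ 8 := by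
          have := Real.exp_one_lt_d9
          have h0 := Real.exp_pos 1
          nlinarith
        calc (Real.exp 1 ^ 2) ^ n ≤ 8 ^ n := pow_le_pow_left₀ (by positivity) h7 n
          _ ≤ 8 ^ m := pow_le_pow_right₀ (by norm_num) hm
      rw [Real.exp_neg, ← div_eq_inv_mul, le_div_iff₀ (Real.exp_pos _), one_mul]
      exact h5
    calc (m : ℝ) ≤ 2 ^ m * 1 := by rw [mul_one]; exact h3
      _ ≤ 2 ^ m * (Real.exp (-(2 * (n : ℝ))) * 8 ^ m) :=
        mul_le_mul_of_nonneg_left h4 (by positivity)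
      _ = Real.exp (-(2 * (n : ℝ))) * (2 * 8) ^ m := by rw [mul_pow]; ring
      _ = _ := by norm_num
  have h8 : ∑ y ∈ F.divisors.filter (fun y => n ≤ (P.filter (fun p => p ∣ y)).card),
      PN F y * (P.filter (fun p => p ∣ y)).card ≤
      ∑ y ∈ F.divisors, Real.exp (-(2 * (n : ℝ))) *
        (PN F y * (1 + 15) ^ (P.filter (fun p => p ∣ y)).card) := by
    refine le_trans (Finset.sum_le_sum fun y hy => ?_)
      (Finset.sum_le_sum_of_subset_of_nonneg (Finset.filter_subset _ _) fun y _ _ =>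
        mul_nonneg (Real.exp_pos _).le (mul_nonneg (PN_nonneg _ _) (by positivity)))
    have := mul_le_mul_of_nonneg_left (hpt _ (mem_filter.1 hy).2) (PN_nonneg F y)
    refine this.trans (le_of_eq (by ring))
  rw [← Finset.mul_sum, hmom] at h8
  refine h8.trans ((mul_le_mul_of_nonneg_left h2 (Real.exp_pos _).le).trans (le_of_eq ?_))
  rw [← Real.exp_add]
  congr 1
  ring

/-- In a dense frame the cofactors have on average few primes in `P`. -/
theorem frame_count {F : ℕ} (hF : 0 < F) (S P : Finset ℕ) (f : ℕ → ℝ) {R : ℝ} (hR : 0 < R)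
    (a : ℕ) (ha : 1 ≤ a) (hS : ∀ q ∈ S, q ∣ F) (hf : ∀ q ∈ S, 0 ≤ f q ∧ f q ≤ (q.totient : ℝ) / R)
    (hm : (1 / 2 : ℝ) ^ a * ((F : ℝ) / R) ≤ ∑ q ∈ S, f q) (hP : ∀ p ∈ P, p.Prime)
    (hT : ∑ p ∈ P.filter (fun p => p ∣ F), 1 / (p : ℝ) ≤ a + 2) :
    ∑ q ∈ S, f q * (P.filter (fun p => p ∣ F / q)).card ≤ 30 * a * ∑ q ∈ S, f q := by
  classical
  set n : ℕ := 8 * a + 16 + a with hn
  have hFR : 0 < (F : ℝ) / R := div_pos (by exact_mod_cast hF) hR
  have h1 : ∑ q ∈ S, f q * (P.filter (fun p => p ∣ F / q)).card ≤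
      (n : ℝ) * ∑ q ∈ S, f q + ∑ q ∈ S.filter
        (fun q => n ≤ (P.filter (fun p => p ∣ F / q)).card),
        f q * (P.filter (fun p => p ∣ F / q)).card := by
    rw [Finset.mul_sum, Finset.sum_filter, ← Finset.sum_add_distrib]
    apply Finset.sum_le_sum
    intro q hq
    have h0 := (hf q hq).1
    split_ifs with hc
    · have : 0 ≤ (n : ℝ) * f q := by positivity
      linarith
    · have : ((P.filter (fun p => p ∣ F / q)).card : ℝ) ≤ n := by
        exact_mod_cast (not_le.1 hc).le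
      nlinarith
  have h2 : ∑ q ∈ S.filter (fun q => n ≤ (P.filter (fun p => p ∣ F / q)).card),
        f q * (P.filter (fun p => p ∣ F / q)).card ≤
      (F : ℝ) / R * ∑ y ∈ F.divisors.filter
        (fun y => n ≤ (P.filter (fun p => p ∣ y)).card),
          PN F y * (P.filter (fun p => p ∣ y)).card := by
    have hinj : Set.InjOn (fun q => F / q)
        ((S.filter (fun q => n ≤ (P.filter (fun p => p ∣ F / q)).card) : Finset ℕ) : Set ℕ) := by
      intro q hq q' hq' h
      have hqF := hS q (mem_filter.1 (Finset.mem_coe.1 hq)).1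
      have hqF' := hS q' (mem_filter.1 (Finset.mem_coe.1 hq')).1
      have h' : F / q = F / q' := h
      rw [← Nat.div_div_self hqF hF.ne', h', Nat.div_div_self hqF' hF.ne']
    rw [Finset.mul_sum]
    have e1 : ∑ q ∈ S.filter (fun q => n ≤ (P.filter (fun p => p ∣ F / q)).card),
        f q * (P.filter (fun p => p ∣ F / q)).card ≤
        ∑ q ∈ S.filter (fun q => n ≤ (P.filter (fun p => p ∣ F / q)).card),
          (F : ℝ) / R * (PN F (F / q) * (P.filter (fun p => p ∣ F / q)).card) := by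
      apply Finset.sum_le_sum
      intro q hq
      have hqS := (mem_filter.1 hq).1
      have := (hf q hqS).2
      rw [lc_PN_le hF hR (hS q hqS)] at this
      have h0 : (0 : ℝ) ≤ (P.filter (fun p => p ∣ F / q)).card := Nat.cast_nonneg _
      nlinarith
    refine e1.trans ?_
    rw [← Finset.sum_image (f := fun y => (F : ℝ) / R *
      (PN F y * (P.filter (fun p => p ∣ y)).card)) hinj]
    apply Finset.sum_le_sum_of_subset_of_nonneg
    · intro y hy
      obtain ⟨q, hq, rfl⟩ := mem_image.1 hy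
      have hqS := (mem_filter.1 hq)
      refine mem_filter.2 ⟨Nat.mem_divisors.2 ⟨Nat.div_dvd_of_dvd (hS q hqS.1), hF.ne'⟩, hqS.2⟩
    · intro y _ _
      exact mul_nonneg hFR.le (mul_nonneg (PN_nonneg _ _) (Nat.cast_nonneg _))
  have h3 := lc_tail hF P hP hT n
  have h4 : Real.exp (15 * ((a : ℝ) + 2) - 2 * n) ≤ (1 / 2 : ℝ) ^ a := by
    have e : (15 * ((a : ℝ) + 2) - 2 * n) = -(3 * a + 2) := by
      rw [hn]
      push_cast
      ring
    rw [e]
    have h5 : Real.exp (-(3 * (a : ℝ) + 2)) ≤ Real.exp (-(a : ℝ)) :=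
      Real.exp_le_exp.2 (by have : (0 : ℝ) ≤ a := Nat.cast_nonneg _; linarith)
    refine h5.trans ?_
    have h6 : Real.exp (-(a : ℝ)) = (Real.exp (-1)) ^ a := by
      rw [← Real.exp_nat_mul]
      ring_nf
    rw [h6]
    apply pow_le_pow_left₀ (Real.exp_pos _).le
    rw [Real.exp_neg]
    have := Real.add_one_le_exp (1 : ℝ)
    rw [one_div]
    apply inv_anti₀ (by norm_num)
    linarith
  have h5 : ∑ q ∈ S.filter (fun q => n ≤ (P.filter (fun p => p ∣ F / q)).card),
        f q * (P.filter (fun p => p ∣ F / q)).card ≤ ∑ q ∈ S, f q := by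
    refine h2.trans (le_trans ?_ hm)
    rw [mul_comm ((1 / 2 : ℝ) ^ a)]
    exact mul_le_mul_of_nonneg_left (h3.trans h4) hFR.le
  have hM0 : 0 ≤ ∑ q ∈ S, f q := Finset.sum_nonneg fun q hq => (hf q hq).1
  have hn' : (n : ℝ) + 1 ≤ 30 * a := by
    have : (1 : ℝ) ≤ a := by exact_mod_cast ha
    rw [hn]
    push_cast
    linarith
  calc ∑ q ∈ S, f q * (P.filter (fun p => p ∣ F / q)).card
      ≤ (n : ℝ) * ∑ q ∈ S, f q + ∑ q ∈ S, f q := by linarith
    _ = ((n : ℝ) + 1) * ∑ q ∈ S, f q := by ring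
    _ ≤ _ := mul_le_mul_of_nonneg_right hn' hM0

end Vale.P028
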