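import Vale.Agent.P028.MathlibUsed

/-!
# The measure `P_N(y) = φ(N/y)/N` on the divisors of `N`

`∑_{y ∣ N} P_N(y) = 1`, `P_N(d ∣ y) = 1/d`, and the exponential moment of the number of primes of
`P` dividing `y` is `∏_{p ∈ P, p ∣ N} (1 + (λ - 1)/p)`.
-/

namespace Vale.P028

open Finset

/-- The weight of the divisor `y` of `N`. -/
noncomputable def PN (N y : ℕ) : ℝ := ((N / y).totient : ℝ) / N

theorem PN_nonneg (N y : ℕ) : 0 ≤ PN N y := by
  unfold PN
  positivity

theorem PN_sum {N : ℕ} (hN : 0 < N) : ∑ y ∈ N.divisors, PN N y = 1 := by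
  unfold PN
  rw [← Finset.sum_div, Nat.sum_div_divisors N (fun d => ((d.totient : ℕ) : ℝ)), ← Nat.cast_sum,
    Nat.sum_totient]
  have : (N : ℝ) ≠ 0 := by exact_mod_cast hN.ne'
  exact div_self this

/-- `P_N(d ∣ y) = 1/d` for `d ∣ N`. -/
theorem PN_dvd {N d : ℕ} (hN : 0 < N) (hd : d ∣ N) :
    ∑ y ∈ N.divisors.filter (fun y => d ∣ y), PN N y = 1 / d := by
  obtain ⟨e, he⟩ := hd
  have hd0 : 0 < d := Nat.pos_of_ne_zero fun h => by rw [h, zero_mul] at he; omega
  have he0 : 0 < e := Nat.pos_of_ne_zero fun h => by rw [h, mul_zero] at he; omega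
  have h1 : N.divisors.filter (fun y => d ∣ y) = e.divisors.image (fun y => d * y) := by
    ext y
    simp only [mem_filter, Nat.mem_divisors, mem_image]
    constructor
    · rintro ⟨⟨hy, _⟩, w, rfl⟩
      refine ⟨w, ⟨?_, he0.ne'⟩, rfl⟩
      rw [he] at hy
      exact Nat.dvd_of_mul_dvd_mul_left hd0 hy
    · rintro ⟨w, ⟨hw, _⟩, rfl⟩
      refine ⟨⟨?_, hN.ne'⟩, Dvd.intro w rfl⟩
      rw [he]
      exact Nat.mul_dvd_mul_left d hw
  rw [h1, Finset.sum_image (by
    intro a _ b _ hab
    exact Nat.eq_of_mul_eq_mul_left hd0 hab)]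
  have h2 : ∀ y ∈ e.divisors, PN N (d * y) = (1 / (d : ℝ)) * PN e y := by
    intro y hy
    have hdr : (d : ℝ) ≠ 0 := by exact_mod_cast hd0.ne'
    have her : (e : ℝ) ≠ 0 := by exact_mod_cast he0.ne'
    unfold PN
    rw [he, Nat.mul_div_mul_left _ _ hd0]
    push_cast
    field_simp
  rw [Finset.sum_congr rfl h2, ← Finset.mul_sum, PN_sum he0, mul_one]

/-- `P_N(d ∣ y) ≤ 1/d` for every `d > 0`. -/
theorem PN_dvd_le {N d : ℕ} (hN : 0 < N) (hd0 : 0 < d) :
    ∑ y ∈ N.divisors.filter (fun y => d ∣ y), PN N y ≤ 1 / d := by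
  by_cases hd : d ∣ N
  · exact (PN_dvd hN hd).le
  · have : N.divisors.filter (fun y => d ∣ y) = ∅ := by
      ext y
      simp only [mem_filter, Nat.mem_divisors, notMem_empty, iff_false, not_and]
      intro h1 h2
      exact hd (h2.trans h1.1)
    rw [this, Finset.sum_empty]
    positivity

/-- The exponential moment of the number of primes of `P` that divide `y`. -/
theorem PN_moment {N : ℕ} (hN : 0 < N) (P : Finset ℕ) (hP : ∀ p ∈ P, p.Prime) (x : ℝ) :
    ∑ y ∈ N.divisors, PN N y * (1 + x) ^ (P.filter (fun p => p ∣ y)).card =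
      ∏ p ∈ P.filter (fun p => p ∣ N), (1 + x / p) := by
  classical
  have h1 : ∀ y ∈ N.divisors, (1 + x) ^ (P.filter (fun p => p ∣ y)).card =
      ∑ T ∈ (P.filter (fun p => p ∣ N)).powerset, if (∏ p ∈ T, p) ∣ y then x ^ T.card else 0 := by
    intro y hy
    have hyN := (Nat.mem_divisors.1 hy).1
    have e1 : (1 + x) ^ (P.filter (fun p => p ∣ y)).card =
        ∏ p ∈ P.filter (fun p => p ∣ y), (x + 1) := by
      rw [Finset.prod_const, add_comm]
    rw [e1, Finset.prod_add]
    have e2 : ∀ T ∈ (P.filter (fun p => p ∣ y)).powerset,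
        (∏ _i ∈ T, x) * ∏ _i ∈ (P.filter (fun p => p ∣ y)) \ T, (1 : ℝ) = x ^ T.card := by
      intro T _
      rw [Finset.prod_const, Finset.prod_const_one, mul_one]
    rw [Finset.sum_congr rfl e2, ← Finset.sum_filter]
    apply Finset.sum_congr _ (fun _ _ => rfl)
    ext T
    simp only [mem_filter, mem_powerset]
    constructor
    · intro hT
      refine ⟨fun p hp => ?_, ?_⟩
      · have := hT hp
        rw [mem_filter] at this ⊢
        exact ⟨this.1, this.2.trans hyN⟩
      · apply Finset.prod_primes_dvd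
        · intro p hp
          exact (hP p (mem_filter.1 (hT hp)).1).prime
        · intro p hp
          exact (mem_filter.1 (hT hp)).2
    · rintro ⟨hT, hdvd⟩ p hp
      have := hT hp
      rw [mem_filter] at this ⊢
      exact ⟨this.1, (Finset.dvd_prod_of_mem (fun p => p) hp).trans hdvd⟩
  have h2 : ∑ y ∈ N.divisors, PN N y * (1 + x) ^ (P.filter (fun p => p ∣ y)).card =
      ∑ T ∈ (P.filter (fun p => p ∣ N)).powerset, x ^ T.card *
        ∑ y ∈ N.divisors.filter (fun y => (∏ p ∈ T, p) ∣ y), PN N y := by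
    rw [Finset.sum_congr rfl (fun y hy => by rw [h1 y hy, Finset.mul_sum]), Finset.sum_comm]
    apply Finset.sum_congr rfl
    intro T _
    rw [Finset.sum_filter, Finset.mul_sum]
    apply Finset.sum_congr rfl
    intro y _
    split_ifs
    · ring
    · simp
  rw [h2, Finset.prod_one_add]
  apply Finset.sum_congr rfl
  intro T hT
  have hT' := mem_powerset.1 hT
  have hdvd : (∏ p ∈ T, p) ∣ N := by
    apply Finset.prod_primes_dvd
    · intro p hp
      exact (hP p (mem_filter.1 (hT' hp)).1).prime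
    · intro p hp
      exact (mem_filter.1 (hT' hp)).2
  rw [PN_dvd hN hdvd, Finset.prod_div_distrib, Finset.prod_const]
  push_cast
  ring

/-- Tail of the number of primes of `P` that divide `y`. -/
theorem PN_omega_tail {N : ℕ} (hN : 0 < N) (P : Finset ℕ) (hP : ∀ p ∈ P, p.Prime) {x : ℝ}
    (hx : 0 ≤ x) (n : ℕ) :
    ∑ y ∈ N.divisors.filter (fun y => n ≤ (P.filter (fun p => p ∣ y)).card), PN N y ≤
      (1 + x) ^ (-(n : ℤ)) * Real.exp (x * ∑ p ∈ P.filter (fun p => p ∣ N), 1 / (p : ℝ)) := by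
  classical
  have h1 : (1 + x) ^ n * ∑ y ∈ N.divisors.filter
      (fun y => n ≤ (P.filter (fun p => p ∣ y)).card), PN N y ≤
      ∑ y ∈ N.divisors, PN N y * (1 + x) ^ (P.filter (fun p => p ∣ y)).card := by
    rw [Finset.mul_sum]
    refine le_trans (Finset.sum_le_sum fun y hy => ?_)
      (Finset.sum_le_sum_of_subset_of_nonneg (Finset.filter_subset _ _) fun y _ _ =>
        mul_nonneg (PN_nonneg _ _) (pow_nonneg (by linarith) _))
    rw [mul_comm]
    exact mul_le_mul_of_nonneg_left (pow_le_pow_right₀ (by linarith) (mem_filter.1 hy).2)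
      (PN_nonneg _ _)
  rw [PN_moment hN P hP x] at h1
  have h2 : ∏ p ∈ P.filter (fun p => p ∣ N), (1 + x / p) ≤
      Real.exp (x * ∑ p ∈ P.filter (fun p => p ∣ N), 1 / (p : ℝ)) := by
    rw [Finset.mul_sum, Real.exp_sum]
    apply Finset.prod_le_prod
    · intro p _
      positivity
    · intro p _
      have := Real.add_one_le_exp (x * (1 / (p : ℝ)))
      have e : x * (1 / (p : ℝ)) = x / p := by ring
      rw [e] at this ⊢
      linarith
  have hpos : (0 : ℝ) < (1 + x) ^ n := by positivity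
  rw [zpow_neg, zpow_natCast, ← div_eq_inv_mul, le_div_iff₀ hpos, mul_comm]
  exact h1.trans h2

end Vale.P028
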