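import Vale.Agent.P028.LMass
import Vale.Agent.P028.LProb

/-!
# The total mass of dense frames

`frame_mass`: a finite set `FF` of integers `F` (frames) with `F / R ≤ s` such that the divisors
`q ∣ F` carry mass at least `τ s` satisfies
`(∑ φ(F) / (L R)) ^ (1 - θ) ≤ C τ⁻¹ s ^ (-(2 θ - 1)) M ^ θ`.
-/

namespace Vale.P028

open Finset

theorem lf_cofac_dvd {q F : ℕ} (hq : 0 < q) (h : q ∣ F) : cofac q F = 1 := by
  unfold cofac
  rw [Nat.gcd_eq_left h, Nat.div_self hq]

theorem lf_cofac_mul {q F : ℕ} (_hq : 0 < q) (h : q ∣ F) : cofac F q * q = F := by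
  unfold cofac
  rw [Nat.gcd_comm, Nat.gcd_eq_left h, Nat.div_mul_cancel h]

theorem frame_mass {θ : ℝ} (hθ : 1 / 2 < θ) (hθ1 : θ < 1) :
    ∃ C > 0, ∀ (N : ℕ) (ψ f : ℕ → ℝ) (R L s τ : ℝ), LHyp N ψ f R L → 0 < s → 0 < τ →
      ∀ (N' : ℕ) (FF : Finset ℕ), N ≤ N' → FF ⊆ Icc 1 N' →
      (∀ F ∈ FF, (F : ℝ) / R ≤ s ∧ τ * s ≤ ∑ q ∈ (Icc 1 N).filter (fun q => q ∣ F), f q) →
      (∑ F ∈ FF, (F.totient : ℝ) / (L * R)) ^ (1 - θ) ≤
        C * τ⁻¹ * s ^ (-(2 * θ - 1)) * (∑ q ∈ Icc 1 N, f q) ^ θ := by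
  classical
  obtain ⟨C, hC, hT⟩ := T1 hθ hθ1
  refine ⟨C, hC, ?_⟩
  intro N ψ f R L s τ h hs hτ N' FF hNN hFF hF'
  have hL0 : 0 < L := lt_of_lt_of_le one_pos h.hL
  have hLR : 0 < L * R := mul_pos hL0 h.hR
  set F := ∑ F ∈ FF, (F.totient : ℝ) / (L * R) with hF
  set M := ∑ q ∈ Icc 1 N, f q with hM
  have hM0 : 0 ≤ M := Finset.sum_nonneg (fun q _ => (h.hf q).1)
  have hF0 : 0 ≤ F := Finset.sum_nonneg (fun n _ => div_nonneg (Nat.cast_nonneg _) hLR.le)
  have hrhs : 0 ≤ C * τ⁻¹ * s ^ (-(2 * θ - 1)) * M ^ θ := by positivity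
  have hpos : ∀ m ∈ FF, 0 < m := fun m hm => (mem_Icc.1 (hFF hm)).1
  have key := hT (l1psi FF (L * R)) ψ (l1f FF (L * R)) f s s N' hs hs
    (l1psi_nonneg hLR) h.hψ (fun n => ⟨l1f_nonneg hLR n, l1f_le hLR hpos n⟩) h.hf
  have hsumF : ∑ n ∈ Icc 1 N', l1f FF (L * R) n = F := by
    unfold l1f
    rw [← Finset.sum_filter, hF]
    apply Finset.sum_congr _ (fun _ _ => rfl)
    ext n
    simp only [mem_filter]
    exact ⟨fun h => h.2, fun h => ⟨hFF h, h⟩⟩
  have hsub : Icc 1 N ⊆ Icc 1 N' := Finset.Icc_subset_Icc_right hNN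
  have hsumM : ∑ r ∈ Icc 1 N', f r = M := by
    symm
    apply Finset.sum_subset hsub
    intro r _ hr
    have h0 := (h.hf r).1
    by_contra hne
    exact hr (h.hN r (lt_of_le_of_ne h0 (Ne.symm hne)))
  rw [hsumF, hsumM] at key
  have low : τ * s * F ≤ psum (fun q r => (cofac r q : ℝ) * l1psi FF (L * R) q ≤ s ∧
      (cofac q r : ℝ) * ψ r ≤ s) N' (l1f FF (L * R)) f := by
    rw [← hsumF, Finset.mul_sum]
    unfold psum
    apply Finset.sum_le_sum
    intro n _
    by_cases hnS : n ∈ FF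
    · have h2 : 0 ≤ l1f FF (L * R) n := l1f_nonneg hLR n
      have h1 : τ * s ≤ ∑ r ∈ Icc 1 N', (if (cofac r n : ℝ) * l1psi FF (L * R) n ≤ s ∧
          (cofac n r : ℝ) * ψ r ≤ s then f r else 0) := by
        refine (hF' n hnS).2.trans ?_
        rw [Finset.sum_filter]
        refine le_trans ?_ (Finset.sum_le_sum_of_subset_of_nonneg hsub ?_)
        · apply Finset.sum_le_sum
          intro r hr
          have hr0 : 0 < r := (mem_Icc.1 hr).1
          by_cases hfr : f r = 0
          · split_ifs <;> simp [hfr]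
          · have hfr' : 0 < f r := lt_of_le_of_ne (h.hf r).1 (Ne.symm hfr)
            by_cases hd : r ∣ n
            · rw [if_pos hd, if_pos]
              have hn0 : (0 : ℝ) < n := by exact_mod_cast hpos n hnS
              constructor
              · rw [lf_cofac_dvd hr0 hd, Nat.cast_one, one_mul]
                unfold l1psi
                rw [if_pos hnS]
                refine le_trans ?_ (hF' n hnS).1
                apply div_le_div_of_nonneg_left hn0.le h.hR
                exact le_mul_of_one_le_left h.hR.le h.hL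
              · refine le_trans ?_ (hF' n hnS).1
                have e : ((cofac n r * r : ℕ) : ℝ) = n := by rw [lf_cofac_mul hr0 hd]
                push_cast at e
                rw [← e, mul_div_assoc]
                exact mul_le_mul_of_nonneg_left (h.hw r hfr').2 (Nat.cast_nonneg _)
            · rw [if_neg hd]
              split_ifs
              · exact (h.hf r).1
              · exact le_rfl
        · intro r _ _
          split_ifs
          · exact (h.hf r).1
          · exact le_rfl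
      calc τ * s * l1f FF (L * R) n = l1f FF (L * R) n * (τ * s) := by ring
        _ ≤ l1f FF (L * R) n * ∑ r ∈ Icc 1 N',
            (if (cofac r n : ℝ) * l1psi FF (L * R) n ≤ s ∧
              (cofac n r : ℝ) * ψ r ≤ s then f r else 0) := mul_le_mul_of_nonneg_left h1 h2
        _ = _ := by
          rw [Finset.mul_sum]
          apply Finset.sum_congr rfl
          intro r _
          split_ifs <;> simp
    · have : l1f FF (L * R) n = 0 := by
        unfold l1f
        rw [if_neg hnS]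
      rw [this, mul_zero]
      apply Finset.sum_nonneg
      intro r _
      split_ifs <;> simp
  have main := low.trans key
  rcases hF0.eq_or_lt with hz0 | hFpos
  · rw [← hz0, Real.zero_rpow (by linarith)]
    exact hrhs
  · have e1 : (s * s) ^ (1 - θ) = s * s ^ (-(2 * θ - 1)) := by
      rw [Real.mul_rpow hs.le hs.le, ← Real.rpow_add hs]
      nth_rewrite 2 [← Real.rpow_one s]
      rw [← Real.rpow_add hs]
      congr 1
      ring
    have e2 : (F * M) ^ θ = F ^ θ * M ^ θ := Real.mul_rpow hF0 hM0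
    have e3 : F = F ^ (1 - θ) * F ^ θ := by
      rw [← Real.rpow_add hFpos]
      ring_nf
      rw [Real.rpow_one]
    have hFθ : 0 < F ^ θ := Real.rpow_pos_of_pos hFpos θ
    rw [e1, e2] at main
    have main2 : (τ * s * F ^ (1 - θ)) * F ^ θ ≤
        (C * (s * s ^ (-(2 * θ - 1))) * M ^ θ) * F ^ θ := by
      calc (τ * s * F ^ (1 - θ)) * F ^ θ = τ * s * (F ^ (1 - θ) * F ^ θ) := by ring
        _ = τ * s * F := by rw [← e3]
        _ ≤ C * (s * s ^ (-(2 * θ - 1))) * (F ^ θ * M ^ θ) := main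
        _ = _ := by ring
    have main3 := le_of_mul_le_mul_right main2 hFθ
    have hτs : 0 < τ * s := mul_pos hτ hs
    rw [← mul_le_mul_iff_right₀ hτs]
    refine main3.trans (le_of_eq ?_)
    field_simp

end Vale.P028
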