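import Mathlib
import Vale.Agent.P028.MDyadic
import Vale.Agent.P028.MT1
import Vale.Agent.P028.MNear

/-!
# Level set bound with the extra weight `(1 + log 1/ψ)^(-ε)`
-/

namespace Vale.P028

open Finset

/-- extra weight -/
noncomputable def omegaW (ε x : ℝ) : ℝ := (1 + Real.log (1 / x)) ^ (-ε)

theorem log_inv_nonneg {x : ℝ} (h0 : 0 ≤ x) (h1 : x ≤ 1) : 0 ≤ Real.log (1 / x) := by
  rcases h0.eq_or_lt with h | h
  · rw [← h]; simp
  · apply Real.log_nonneg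
    rw [le_div_iff₀ h]; linarith

theorem omegaW_pos {ε x : ℝ} (h0 : 0 ≤ x) (h1 : x ≤ 1) : 0 < omegaW ε x := by
  have := log_inv_nonneg h0 h1
  exact Real.rpow_pos_of_pos (by linarith) _

theorem omegaW_le_one {ε x : ℝ} (hε : 0 < ε) (h0 : 0 ≤ x) (h1 : x ≤ 1) : omegaW ε x ≤ 1 := by
  have := log_inv_nonneg h0 h1
  exact Real.rpow_le_one_of_one_le_of_nonpos (by linarith) (by linarith)

theorem rpow_two_theta_le {F θ : ℝ} (hF0 : 0 ≤ F) (hF : F ≤ 2) (hθ : 1 / 2 < θ) (hθ1 : θ < 1) :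
    F ^ (2 * θ) ≤ 2 * F := by
  rcases hF0.eq_or_lt with h | h
  · rw [← h, Real.zero_rpow (by linarith)]; simp
  · have h1 : F ^ (2 * θ) = F ^ (2 * θ - 1) * F := by
      rw [← Real.rpow_add_one h.ne']; ring_nf
    have h2 : F ^ (2 * θ - 1) ≤ (2 : ℝ) ^ (2 * θ - 1) := Real.rpow_le_rpow hF0 hF (by linarith)
    have h3 : (2 : ℝ) ^ (2 * θ - 1) ≤ (2 : ℝ) ^ (1 : ℝ) :=
      Real.rpow_le_rpow_of_exponent_le (by norm_num) (by linarith)
    rw [Real.rpow_one] at h3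
    rw [h1]
    gcongr
    linarith

theorem psum_swap (R : ℕ → ℕ → Prop) (N : ℕ) (f h : ℕ → ℝ) :
    psum R N f h = psum (fun q r => R r q) N h f := by
  classical
  unfold psum
  rw [sum_comm]
  refine sum_congr rfl fun q _ => sum_congr rfl fun r _ => ?_
  simp only [mul_comm]

/-- key estimate: large cofactor forces a small weight. -/
theorem omegaW_le_of_large {ε ε₁ s x v : ℝ} (hε : 0 < ε) (hs : 0 < s)
    (hs4 : s ≤ 1 / 4) (hx : 0 < x) (hx1 : x ≤ 1) (hv : Real.exp (s ^ (-ε₁)) < v) (h : v * x ≤ s) :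
    omegaW ε x ≤ s ^ (ε * ε₁) := by
  have hv0 : 0 < v := (Real.exp_pos _).trans hv
  have h1 : x ≤ 1 / v := by
    rw [le_div_iff₀ hv0, mul_comm]; linarith
  have h2 : s ^ (-ε₁) ≤ Real.log (1 / x) := by
    have h3 : v ≤ 1 / x := by
      rw [le_div_iff₀ hx]; linarith
    have h4 : Real.exp (s ^ (-ε₁)) ≤ 1 / x := hv.le.trans h3
    rw [Real.le_log_iff_exp_le (by positivity)]
    exact h4
  have hpos : 0 < s ^ (-ε₁) := Real.rpow_pos_of_pos hs _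
  calc omegaW ε x = (1 + Real.log (1 / x)) ^ (-ε) := rfl
    _ ≤ (s ^ (-ε₁)) ^ (-ε) :=
        Real.rpow_le_rpow_of_nonpos hpos (by linarith) (by linarith)
    _ = s ^ (ε * ε₁) := by
        rw [← Real.rpow_mul hs.le]; ring_nf

/-- The far part. -/
theorem far_bound {ε ε₁ : ℝ} (hε : 0 < ε) (hε₁ : 0 < ε₁) :
    ∃ C c : ℝ, 0 ≤ C ∧ 0 < c ∧ ∀ (N : ℕ) (γ : ℝ) (ψ f : ℕ → ℝ), (∀ q, 0 ≤ ψ q ∧ ψ q ≤ 1 / 4) →
      (∀ q, 0 ≤ f q ∧ f q ≤ ψ q * (q.totient / q) * omegaW ε (ψ q)) →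
      (∑ q ∈ Icc 1 N, f q) ≤ 2 → ∀ s : ℝ, 0 < s → s ≤ 1 / 4 →
      psum (fun q r => Rel γ ψ s q r ∧ Real.exp (s ^ (-ε₁)) < (cofac r q : ℝ)) N f f ≤
        C * s ^ (1 + c) * ∑ q ∈ Icc 1 N, f q := by
  classical
  set η : ℝ := ε * ε₁ with hη
  have hη0 : 0 < η := mul_pos hε hε₁
  set θ : ℝ := 1 - 1 / (2 + η / 2) with hθdef
  have h2η : 0 < 2 + η / 2 := by linarith
  have hlam : 1 - θ = 1 / (2 + η / 2) := by rw [hθdef]; ring
  have hlam2 : 1 / (2 + η / 2) < 1 / 2 := by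
    apply one_div_lt_one_div_of_lt <;> linarith
  have hlam0 : 0 < 1 / (2 + η / 2) := by positivity
  have hθ : 1 / 2 < θ := by rw [hθdef]; linarith
  have hθ1 : θ < 1 := by rw [hθdef]; linarith
  obtain ⟨C, hC0, hC⟩ := T1 hθ hθ1
  refine ⟨C * 2, (η / 2) / (2 + η / 2), by positivity, by positivity, ?_⟩
  intro N γ ψ f hψ hf hF s hs hs4
  set F : ℝ := ∑ q ∈ Icc 1 N, f q with hFdef
  have hf0 : ∀ q, 0 ≤ f q := fun q => (hf q).1
  have hF0 : 0 ≤ F := sum_nonneg fun q _ => hf0 q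
  have hφ : ∀ q : ℕ, (0 : ℝ) ≤ (q.totient : ℝ) / q := fun q => by positivity
  have hω0 : ∀ q, 0 < omegaW ε (ψ q) := fun q =>
    omegaW_pos (hψ q).1 (by linarith [(hψ q).2])
  have hω1 : ∀ q, omegaW ε (ψ q) ≤ 1 := fun q =>
    omegaW_le_one hε (hψ q).1 (by linarith [(hψ q).2])
  -- the truncated function
  set f₁ : ℕ → ℝ := fun q => if omegaW ε (ψ q) ≤ s ^ η then f q else 0 with hf₁
  set ψ₁ : ℕ → ℝ := fun q => if omegaW ε (ψ q) ≤ s ^ η then ψ q * omegaW ε (ψ q) else 0 with hψ₁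
  have hf₁0 : ∀ q, 0 ≤ f₁ q := by
    intro q; rw [hf₁]; dsimp only
    split_ifs
    · exact hf0 q
    · exact le_rfl
  have hsη : 0 < s ^ η := Real.rpow_pos_of_pos hs _
  have hkey := hC ψ₁ ψ f₁ f (s * s ^ η) s N (mul_pos hs hsη) hs
    (by
      intro q; rw [hψ₁]; dsimp only
      split_ifs
      · exact mul_nonneg (hψ q).1 (hω0 q).le
      · exact le_rfl)
    (fun q => (hψ q).1)
    (by
      intro q
      refine ⟨hf₁0 q, ?_⟩
      rw [hf₁, hψ₁]; dsimp only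
      split_ifs
      · have := (hf q).2
        linarith [this, mul_right_comm (ψ q) ((q.totient : ℝ) / q) (omegaW ε (ψ q))]
      · simp)
    (by
      intro r
      refine ⟨hf0 r, (hf r).2.trans ?_⟩
      have h1 : 0 ≤ ψ r * ((r.totient : ℝ) / r) := mul_nonneg (hψ r).1 (hφ r)
      calc ψ r * ((r.totient : ℝ) / r) * omegaW ε (ψ r) ≤ ψ r * ((r.totient : ℝ) / r) * 1 := by
            gcongr
            exact hω1 r
        _ = _ := by ring)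
  have hmono : psum (fun q r => Rel γ ψ s q r ∧ Real.exp (s ^ (-ε₁)) < (cofac r q : ℝ)) N f f ≤
      psum (fun q r => (cofac r q : ℝ) * ψ₁ q ≤ s * s ^ η ∧ (cofac q r : ℝ) * ψ r ≤ s) N f₁ f := by
    apply psum_mono _ _ _ _ _ _ _ hf₁0 hf0
    intro q hq r hr hR hne
    obtain ⟨⟨_, h1, h2, _⟩, h3⟩ := hR
    have hfq : f q ≠ 0 := left_ne_zero_of_mul hne
    have hψq : 0 < ψ q := by
      rcases (hψ q).1.eq_or_lt with h | h
      · exfalso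
        have h4 := (hf q).2
        rw [← h] at h4
        simp only [zero_mul] at h4
        exact hfq (le_antisymm h4 (hf0 q))
      · exact h
    have hω := omegaW_le_of_large (ε := ε) hε hs hs4 hψq (by linarith [(hψ q).2]) h3 h1
    rw [← hη] at hω
    refine ⟨⟨?_, h2⟩, ?_⟩
    · rw [hψ₁]; dsimp only
      rw [if_pos hω]
      calc (cofac r q : ℝ) * (ψ q * omegaW ε (ψ q)) = ((cofac r q : ℝ) * ψ q) * omegaW ε (ψ q) := by
            ring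
        _ ≤ s * s ^ η := mul_le_mul h1 hω (hω0 q).le hs.le
    · rw [hf₁]; dsimp only
      rw [if_pos hω]
  have hF1 : ∑ q ∈ Icc 1 N, f₁ q ≤ F := by
    refine sum_le_sum fun q _ => ?_
    rw [hf₁]; dsimp only
    split_ifs
    · exact le_rfl
    · exact hf0 q
  have hF10 : 0 ≤ ∑ q ∈ Icc 1 N, f₁ q := sum_nonneg fun q _ => hf₁0 q
  have hpow : ((∑ q ∈ Icc 1 N, f₁ q) * F) ^ θ ≤ 2 * F := by
    calc ((∑ q ∈ Icc 1 N, f₁ q) * F) ^ θ ≤ (F * F) ^ θ := by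
          apply Real.rpow_le_rpow (by positivity) _ (by linarith)
          gcongr
      _ = F ^ (2 * θ) := by
          rw [← sq, ← Real.rpow_natCast, ← Real.rpow_mul hF0]; norm_num
      _ ≤ 2 * F := rpow_two_theta_le hF0 hF hθ hθ1
  have hexp : (s * s ^ η * s) ^ (1 - θ) = s ^ (1 + (η / 2) / (2 + η / 2)) := by
    have h1 : s * s ^ η * s = s ^ (2 + η) := by
      rw [Real.rpow_add hs, mul_right_comm, ← sq]
      norm_cast
    rw [h1, ← Real.rpow_mul hs.le, hlam]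
    congr 1
    field_simp
    ring
  calc psum (fun q r => Rel γ ψ s q r ∧ Real.exp (s ^ (-ε₁)) < (cofac r q : ℝ)) N f f
      ≤ _ := hmono
    _ ≤ C * (s * s ^ η * s) ^ (1 - θ) * ((∑ q ∈ Icc 1 N, f₁ q) * F) ^ θ := hkey
    _ ≤ C * (s * s ^ η * s) ^ (1 - θ) * (2 * F) := by
        have : 0 ≤ (s * s ^ η * s) ^ (1 - θ) := Real.rpow_nonneg (by positivity) _
        gcongr
    _ = C * 2 * s ^ (1 + (η / 2) / (2 + η / 2)) * F := by rw [hexp]; ring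

theorem classII_bound {γ c₀ τ : ℝ} (hc₀ : 0 < c₀) (hτ : 1 ≤ τ) (hD : Dioph γ c₀ τ) {ε : ℝ}
    (hε : 0 < ε) :
    ∃ C c : ℝ, 0 ≤ C ∧ 0 < c ∧ ∀ (N : ℕ) (ψ f : ℕ → ℝ), (∀ q, 0 ≤ ψ q ∧ ψ q ≤ 1 / 4) →
      (∀ q, 0 ≤ f q ∧ f q ≤ ψ q * (q.totient / q) * omegaW ε (ψ q)) →
      (∑ q ∈ Icc 1 N, f q) ≤ 2 → ∀ s : ℝ, 0 < s → s ≤ 1 / 4 →
      psum (fun q r => Rel γ ψ s q r ∧
        s / 2 < max ((cofac r q : ℝ) * ψ q) ((cofac q r : ℝ) * ψ r)) N f f ≤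
        C * s ^ (1 + c) * ∑ q ∈ Icc 1 N, f q := by
  classical
  obtain ⟨θ₁, ε₁, c₁, C₁, hθ₁, hθ₁', hε₁, hc₁, hC₁, hnear⟩ := near hc₀ hτ hD
  obtain ⟨C₂, c₂, hC₂, hc₂, hfar⟩ := far_bound hε hε₁
  refine ⟨2 * C₁ + 2 * C₂, min c₁ c₂, by positivity, lt_min hc₁ hc₂, ?_⟩
  intro N ψ f hψ hf hF s hs hs4
  set F : ℝ := ∑ q ∈ Icc 1 N, f q with hFdef
  have hf0 : ∀ q, 0 ≤ f q := fun q => (hf q).1
  have hF0 : 0 ≤ F := sum_nonneg fun q _ => hf0 q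
  have hfψ : ∀ q, f q ≤ ψ q := by
    intro q
    have h1 := (hf q).2
    have h2 : (q.totient : ℝ) / q ≤ 1 := by
      rcases Nat.eq_zero_or_pos q with h | h
      · subst h; simp
      · rw [div_le_one (by exact_mod_cast h)]
        exact_mod_cast Nat.totient_le q
    have h3 := omegaW_le_one (ε := ε) hε (hψ q).1 (by linarith [(hψ q).2])
    have h4 := (omegaW_pos (ε := ε) (hψ q).1 (by linarith [(hψ q).2])).le
    have h5 := (hψ q).1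
    have h6 : (0 : ℝ) ≤ (q.totient : ℝ) / q := by positivity
    calc f q ≤ ψ q * (q.totient / q) * omegaW ε (ψ q) := h1
      _ ≤ ψ q * 1 * 1 := by gcongr
      _ = ψ q := by ring
  have h1 := hnear s hs hs4 N ψ f (fun q => ⟨hf0 q, hfψ q⟩)
  have h2 := hfar N γ ψ f hψ hf hF s hs hs4
  have hsplit : psum (fun q r => Rel γ ψ s q r ∧
        s / 2 < max ((cofac r q : ℝ) * ψ q) ((cofac q r : ℝ) * ψ r)) N f f ≤
      psum (fun q r => Rel γ ψ s q r ∧ (cofac q r : ℝ) ≤ Real.exp (s ^ (-ε₁)) ∧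
          (cofac r q : ℝ) ≤ Real.exp (s ^ (-ε₁))) N f f +
      (psum (fun q r => Rel γ ψ s q r ∧ Real.exp (s ^ (-ε₁)) < (cofac r q : ℝ)) N f f +
       psum (fun q r => Rel γ ψ s q r ∧ Real.exp (s ^ (-ε₁)) < (cofac q r : ℝ)) N f f) := by
    refine (psum_or_le _ (fun q r => Rel γ ψ s q r ∧ (cofac q r : ℝ) ≤ Real.exp (s ^ (-ε₁)) ∧
          (cofac r q : ℝ) ≤ Real.exp (s ^ (-ε₁)))
        (fun q r => (Rel γ ψ s q r ∧ Real.exp (s ^ (-ε₁)) < (cofac r q : ℝ)) ∨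
          (Rel γ ψ s q r ∧ Real.exp (s ^ (-ε₁)) < (cofac q r : ℝ))) N f f hf0 hf0 ?_).trans ?_
    · rintro q r ⟨hR, _⟩
      by_cases h3 : Real.exp (s ^ (-ε₁)) < (cofac r q : ℝ)
      · exact Or.inr (Or.inl ⟨hR, h3⟩)
      · by_cases h4 : Real.exp (s ^ (-ε₁)) < (cofac q r : ℝ)
        · exact Or.inr (Or.inr ⟨hR, h4⟩)
        · exact Or.inl ⟨hR, not_lt.mp h4, not_lt.mp h3⟩
    · gcongr
      exact psum_or_le _ _ _ N f f hf0 hf0 (fun q r h => h)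
  have hswap : psum (fun q r => Rel γ ψ s q r ∧ Real.exp (s ^ (-ε₁)) < (cofac q r : ℝ)) N f f ≤
      psum (fun q r => Rel γ ψ s q r ∧ Real.exp (s ^ (-ε₁)) < (cofac r q : ℝ)) N f f := by
    rw [psum_swap]
    apply psum_mono _ _ _ _ _ _ _ hf0 hf0
    rintro q _ r _ ⟨⟨h3, h4, h5, h6⟩, h7⟩ _
    refine ⟨⟨⟨fun h => h3 h.symm, h5, h4, ?_⟩, h7⟩, le_rfl⟩
    have e : ((cofac q r : ℝ) - (cofac r q : ℝ)) * γ = -(((cofac r q : ℝ) - (cofac q r : ℝ)) * γ) := by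
      ring
    rw [e, distInt_neg]
    exact h6
  have hs1 : s ≤ 1 := by linarith
  have hp1 : s ^ (1 + c₁) ≤ s ^ (1 + min c₁ c₂) :=
    Real.rpow_le_rpow_of_exponent_ge hs hs1 (by linarith [min_le_left c₁ c₂])
  have hp2 : s ^ (1 + c₂) ≤ s ^ (1 + min c₁ c₂) :=
    Real.rpow_le_rpow_of_exponent_ge hs hs1 (by linarith [min_le_right c₁ c₂])
  have hFθ := rpow_two_theta_le hF0 hF hθ₁ hθ₁'
  have hpn : 0 ≤ s ^ (1 + c₁) := (Real.rpow_pos_of_pos hs _).le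
  calc _ ≤ _ := hsplit
    _ ≤ C₁ * s ^ (1 + c₁) * F ^ (2 * θ₁) +
        (C₂ * s ^ (1 + c₂) * F + C₂ * s ^ (1 + c₂) * F) := by
        gcongr
        · exact hswap.trans h2
    _ ≤ C₁ * s ^ (1 + min c₁ c₂) * (2 * F) +
        (C₂ * s ^ (1 + min c₁ c₂) * F + C₂ * s ^ (1 + min c₁ c₂) * F) := by
        gcongr
    _ = (2 * C₁ + 2 * C₂) * s ^ (1 + min c₁ c₂) * F := by ring

end Vale.P028
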