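import Mathlib
import Vale.Agent.P028.KDefs
import Vale.Agent.P028.MTheoremL

/-!
# Definitions for Theorem N (no loss when the arcs of the support are separated)

`θ = 501/1000` throughout.  A window is given by `γ`, a level `s` and a size `V`.
-/

namespace Vale.P028

open Finset MeasureTheory

/-- precision of the window -/
noncomputable def tb (s V : ℝ) : ℝ := s ^ (27 / 32 : ℝ) / V

/-- pairs of cofactors of the window -/
def NWin (γ s V : ℝ) (u v : ℕ) : Prop :=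
  V ≤ max (u : ℝ) v ∧ max (u : ℝ) v ≤ V * s ^ (-(3 / 16) : ℝ) ∧
    s ^ (1 / 32 : ℝ) * max (u : ℝ) v ≤ min (u : ℝ) v ∧
    distInt (((u : ℝ) - v) * γ) < 2 * s ∧ Far γ s u v

/-- `a` is bad: a small multiple of `a γ` is very close to an integer. -/
def NBad (γ s V : ℝ) (a : ℕ) : Prop :=
  ∃ h : ℕ, 0 < h ∧ (h : ℝ) ≤ s ^ (-(1 / 16) : ℝ) ∧ distInt ((h : ℝ) * a * γ) < a * tb s V

/-- denominators of the fractions within `tb` of `γ` -/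
def NB (γ s V : ℝ) (B : ℕ) : Prop :=
  0 < B ∧ Int.gcd (round ((B : ℝ) * γ)) B = 1 ∧ distInt ((B : ℝ) * γ) < B * tb s V

/-- special cofactors -/
def NStar (γ s V : ℝ) (u : ℕ) : Prop :=
  ∃ B h : ℕ, s ^ (-(1 / 4) : ℝ) < B ∧ (B : ℝ) ≤ V ^ (1 / 3 : ℝ) ∧ NB γ s V B ∧ 0 < h ∧
    (h : ℝ) ≤ s ^ (-(1 / 16) : ℝ) ∧ B ∣ h * u

/-- the allowed pairs -/
def NOm (γ s V : ℝ) (u v : ℕ) : Prop :=
  NWin γ s V u v ∧ ¬ NStar γ s V u ∧ ¬ NStar γ s V v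

/-- dead states -/
def NDead (γ s V : ℝ) (a b : ℕ) : Prop :=
  ∀ m n : ℕ, 0 < m → 0 < n → ¬ NOm γ s V (a * m) (b * n)

/-- final states -/
def NFin (γ s V : ℝ) (a b : ℕ) : Prop :=
  (∃ m n : ℕ, 0 < m ∧ 0 < n ∧ (m : ℝ) ≤ s ^ (-(1 / 64) : ℝ) ∧ (n : ℝ) ≤ s ^ (-(1 / 64) : ℝ) ∧
    NOm γ s V (a * m) (b * n)) ∨ NBad γ s V a ∨ NBad γ s V b

open Classical in
/-- the density of a state -/
noncomputable def nsig (γ s V : ℝ) (a b : ℕ) : ℝ :=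
  if NDead γ s V a b then 0 else if NFin γ s V a b then 1 else s ^ (1 / 150 : ℝ)

/-- the large primes are the primes `> nw s V` -/
noncomputable def nw (s V : ℝ) : ℝ := Real.exp (Real.log V / Real.log (1 / s))

/-- the hypotheses on a window -/
def NHyp (s₀ s V : ℝ) : Prop :=
  0 < s ∧ s ≤ s₀ ∧ 0 < V ∧ 100 * Real.log (1 / s) ^ 2 ≤ Real.log V

/-- Single prime inequality with general growth `W`. -/
def SPw (θ : ℝ) (W : ℕ → ℝ) (x c : ℝ) : Prop :=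
  ∀ (N : ℕ) (φ χ : ℕ → ℝ), (∀ i, 0 ≤ φ i) → (∀ i, 0 ≤ χ i) →
    (∑ i ∈ range (N + 1), ∑ j ∈ range (N + 1), W (ad i j) * (φ i * χ j) ^ θ
      ≤ c * ((∑ i ∈ range (N + 1), φ i) * ∑ j ∈ range (N + 1), χ j) ^ θ) ∨
    ∃ k ≤ N, (if k = 0 then (1 : ℝ) else (1 - x) ^ (2 * (1 - θ))) *
        ((∑ i ∈ Icc k N, φ i) * ∑ j ∈ Icc k N, χ j) ^ θ
      + ∑ i ∈ range (N + 1), ∑ j ∈ range (N + 1),
          (if min i j = k then 0 else W (ad i j) * (φ i * χ j) ^ θ)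
      ≤ c * ((∑ i ∈ range (N + 1), φ i) * ∑ j ∈ range (N + 1), χ j) ^ θ

/-- the sizes of a pair -/
def Szs (ψ : ℕ → ℝ) (s : ℝ) (q r : ℕ) : Prop :=
  (cofac r q : ℝ) * ψ q ≤ s ∧ (cofac q r : ℝ) * ψ r ≤ s

/-- the arcs `ψ q / q`, `ψ r / r` are separated -/
def ArcSep (c₀ : ℝ) (ψ : ℕ → ℝ) (q r : ℕ) : Prop :=
  c₀ * ((r : ℝ) / q) ^ (1 / 4 : ℝ) ≤ max (ψ q / q / (ψ r / r)) (ψ r / r / (ψ q / q))

/-! ### different denominators -/

/-- largest prime factor of `v` that does not divide `B` (`0` if there is none) -/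
noncomputable def gpB (B v : ℕ) : ℕ := (v.primeFactors.filter (fun p => ¬ p ∣ B)).sup id

open Classical in
/-- kernel of the pairs with different denominators `B < B'` -/
noncomputable def KD (B B' u v : ℕ) : ℝ :=
  if B < B' ∧ B' / Nat.gcd B B' ∣ u ∧
      (∀ p ∈ u.primeFactors, p ∣ B' ∨ (p : ℝ) ≤ 20 * Real.log B' + 4) then
    GG B * GG B' * (((u : ℝ) * v) ^ (-(1 / 4) : ℝ) *
      (min 1 ((B' : ℝ) ^ (5 / 2 : ℝ) * Real.exp (-((gpB B v : ℝ) - 2) / 4))) ^ (1 / 2 : ℝ))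
  else 0

end Vale.P028
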