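import Mathlib
import Vale.Agent.P028.NDefs

/-!
# Simple facts on windows
-/

namespace Vale.P028

open Finset MeasureTheory

theorem distInt_neg' (x : ℝ) : distInt (-x) = distInt x := by
  unfold distInt
  apply le_antisymm
  · have h := round_le (-x) (-(round x))
    have e : |-x - ((-(round x) : ℤ) : ℝ)| = |x - round x| := by
      push_cast
      rw [← abs_neg]
      congr 1
      ring
    rw [e] at h
    exact h
  · have h := round_le x (-(round (-x)))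
    have e : |x - ((-(round (-x)) : ℤ) : ℝ)| = |-x - round (-x)| := by
      push_cast
      rw [← abs_neg]
      congr 1
      ring
    rw [e] at h
    exact h

theorem NWin_comm {γ s V : ℝ} {u v : ℕ} (h : NWin γ s V u v) : NWin γ s V v u := by
  obtain ⟨h1, h2, h3, h4, h5⟩ := h
  refine ⟨by rw [max_comm]; exact h1, by rw [max_comm]; exact h2,
    by rw [max_comm, min_comm]; exact h3, ?_, ?_⟩
  · have e : ((v : ℝ) - u) * γ = -(((u : ℝ) - v) * γ) := by ring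
    rw [e, distInt_neg']
    exact h4
  · intro B hB
    rw [max_comm]
    exact h5 B hB

theorem NOm_comm {γ s V : ℝ} {u v : ℕ} (h : NOm γ s V u v) : NOm γ s V v u :=
  ⟨NWin_comm h.1, h.2.2, h.2.1⟩

theorem NDead_comm {γ s V : ℝ} {a b : ℕ} (h : NDead γ s V a b) : NDead γ s V b a :=
  fun m n hm hn h' => h n m hn hm (NOm_comm h')

theorem NDead_comm_iff {γ s V : ℝ} {a b : ℕ} : NDead γ s V a b ↔ NDead γ s V b a :=
  ⟨NDead_comm, NDead_comm⟩

theorem NFin_comm {γ s V : ℝ} {a b : ℕ} (h : NFin γ s V a b) : NFin γ s V b a := by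
  rcases h with ⟨m, n, hm, hn, h1, h2, h3⟩ | h | h
  · exact Or.inl ⟨n, m, hn, hm, h2, h1, NOm_comm h3⟩
  · exact Or.inr (Or.inr h)
  · exact Or.inr (Or.inl h)

theorem NFin_comm_iff {γ s V : ℝ} {a b : ℕ} : NFin γ s V a b ↔ NFin γ s V b a :=
  ⟨NFin_comm, NFin_comm⟩

theorem nsig_comm (γ s V : ℝ) (a b : ℕ) : nsig γ s V a b = nsig γ s V b a := by
  classical
  unfold nsig
  rw [if_congr (NDead_comm_iff (a := a) (b := b)) rfl
    (if_congr (NFin_comm_iff (a := a) (b := b)) rfl rfl)]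

theorem nsig_nonneg {γ s V : ℝ} (hs : 0 < s) (a b : ℕ) : 0 ≤ nsig γ s V a b := by
  classical
  unfold nsig
  split_ifs
  · exact le_rfl
  · exact zero_le_one
  · positivity

theorem nsig_le_one {γ s V : ℝ} (hs : 0 < s) (hs1 : s ≤ 1) (a b : ℕ) : nsig γ s V a b ≤ 1 := by
  classical
  unfold nsig
  split_ifs
  · exact zero_le_one
  · exact le_rfl
  · exact Real.rpow_le_one hs.le hs1 (by norm_num)

theorem nsig_dead {γ s V : ℝ} {a b : ℕ} (h : NDead γ s V a b) : nsig γ s V a b = 0 := by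
  classical
  unfold nsig
  rw [if_pos h]

theorem nsig_fin {γ s V : ℝ} {a b : ℕ} (h : ¬ NDead γ s V a b) (h' : NFin γ s V a b) :
    nsig γ s V a b = 1 := by
  classical
  unfold nsig
  rw [if_neg h, if_pos h']

theorem nsig_mid {γ s V : ℝ} {a b : ℕ} (h : ¬ NDead γ s V a b) (h' : ¬ NFin γ s V a b) :
    nsig γ s V a b = s ^ (1 / 150 : ℝ) := by
  classical
  unfold nsig
  rw [if_neg h, if_neg h']

theorem NDead_mul_left {γ s V : ℝ} {a b c : ℕ} (hc : 0 < c) (h : NDead γ s V a b) :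
    NDead γ s V (a * c) b := by
  intro m n hm hn h'
  rw [mul_assoc] at h'
  exact h (c * m) n (Nat.mul_pos hc hm) hn h'

theorem NDead_mul_right {γ s V : ℝ} {a b c : ℕ} (hc : 0 < c) (h : NDead γ s V a b) :
    NDead γ s V a (b * c) := by
  intro m n hm hn h'
  rw [mul_assoc] at h'
  exact h m (c * n) hm (Nat.mul_pos hc hn) h'

/-- states with a large multiplier are dead -/
theorem NDead_of_large {γ s V : ℝ} {a b : ℕ} (ha : V * s ^ (-(3 / 16) : ℝ) < a) :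
    NDead γ s V a b := by
  intro m n hm _ h
  have h1 := h.1.2.1
  have hm1 : (1 : ℝ) ≤ m := by exact_mod_cast hm
  have h2 : (a : ℝ) ≤ ((a * m : ℕ) : ℝ) := by
    push_cast
    have h0 : (0 : ℝ) ≤ a := by positivity
    nlinarith only [hm1, h0]
  have h3 := le_max_left (((a * m : ℕ) : ℕ) : ℝ) (((b * n : ℕ) : ℕ) : ℝ)
  linarith only [h1, h2, h3, ha]

theorem NHyp.mono {s₀ s₁ s V : ℝ} (h : NHyp s₀ s V) (h' : s₀ ≤ s₁) : NHyp s₁ s V :=
  ⟨h.1, h.2.1.trans h', h.2.2⟩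

theorem LBound_mono {Ω : ℕ → ℕ → Prop} {θ : ℝ} {K K' : ℕ → ℕ → ℝ} {P : Finset ℕ} {x : ℕ → ℝ}
    (h : LBound Ω θ K P x 1) (hK : ∀ a b : ℕ, 0 < a → 0 < b → K a b ≤ K' a b) :
    LBound Ω θ K' P x 1 := by
  intro a b ha hb ψ₁ ψ₂ f g s₁ s₂ N hs₁ hs₂ hψ₁ hψ₂ hf hg
  refine (h a b ha hb ψ₁ ψ₂ f g s₁ s₂ N hs₁ hs₂ hψ₁ hψ₂ hf hg).trans ?_
  have h1 : 0 ≤ ((∑ q ∈ Icc 1 N, f q) * ∑ r ∈ Icc 1 N, g r) ^ θ :=
    Real.rpow_nonneg (mul_nonneg (sum_nonneg fun q _ => (hf q).1)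
      (sum_nonneg fun r _ => (hg r).1)) _
  have h2 : 0 ≤ (s₁ * s₂) ^ (1 - θ) := Real.rpow_nonneg (mul_nonneg hs₁.le hs₂.le) _
  have h3 := hK a b ha hb
  gcongr

end Vale.P028
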