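import Vale.Agent.P028.MathlibUsed
import Vale.Agent.P028.NDefs
import Vale.Agent.P028.KResid
import Vale.Agent.P028.KBad
attribute [-instance] ProperSMul.toContinuousSMul IsTopologicalTorsor.toContinuousSMul IdemSemiring.toCanonicallyOrderedAdd IdemSemiring.toMulLeftMono IdemSemiring.toMulRightMono AddQuantale.instAddLeftMono AddQuantale.instAddRightMono Quantale.instMulLeftMono Quantale.instMulRightMono FiniteDimensional.rclike_to_real IsScalarTower.complexToReal FiniteDimensional.complexToReal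

/-!
# Pairs with different denominators: the sum of the kernel
-/

namespace Vale.P028

open Finset

/-- `n ↦ n^{-1/4}`. -/
noncomputable def n14_f : ℕ →* ℝ where
  toFun n := (n : ℝ) ^ (-(1 / 4) : ℝ)
  map_one' := by simp
  map_mul' m n := by
    push_cast
    exact Real.mul_rpow (Nat.cast_nonneg _) (Nat.cast_nonneg _)

theorem n14_f_apply (n : ℕ) : n14_f n = (n : ℝ) ^ (-(1 / 4) : ℝ) := rfl

theorem n14_f_nonneg (n : ℕ) : 0 ≤ n14_f n := by
  rw [n14_f_apply]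
  positivity

theorem n14_f_lt_one {p : ℕ} (hp : p.Prime) : n14_f p < 1 := by
  rw [n14_f_apply]
  exact Real.rpow_lt_one_of_one_lt_of_neg (by exact_mod_cast hp.one_lt) (by norm_num)

theorem n14_fac_one_le {p : ℕ} (hp : p.Prime) : 1 ≤ (1 - n14_f p)⁻¹ := by
  have h1 := n14_f_lt_one hp
  have h2 := n14_f_nonneg p
  exact (one_le_inv₀ (by linarith only [h1])).2 (by linarith only [h2])

/-- the Euler product -/
noncomputable def n14_E (P : Finset ℕ) : ℝ := ∏ p ∈ P, (1 - n14_f p)⁻¹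

theorem n14_E_one_le {P : Finset ℕ} (hP : ∀ p ∈ P, p.Prime) : 1 ≤ n14_E P := by
  unfold n14_E
  calc (1 : ℝ) = ∏ _p ∈ P, (1 : ℝ) := by rw [prod_const_one]
    _ ≤ _ := prod_le_prod (fun _ _ => zero_le_one) fun p hp => n14_fac_one_le (hP p hp)

/-- general Euler product bound -/
theorem n14_euler {ε : ℝ} (hε : 0 < ε) : ∃ C : ℝ, 1 ≤ C ∧ ∀ P : Finset ℕ, (∀ p ∈ P, p.Prime) →
    n14_E P ≤ C * ((∏ p ∈ P, p : ℕ) : ℝ) ^ ε := by
  classical
  obtain ⟨p₀, hp₀⟩ : ∃ p₀ : ℕ, ∀ p : ℕ, p₀ ≤ p → n14_f p ≤ 1 / 2 ∧ 2 ≤ (p : ℝ) ^ ε := by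
    have h1 : Filter.Tendsto (fun n : ℕ => (n : ℝ) ^ (-(1 / 4) : ℝ)) Filter.atTop (nhds 0) :=
      (tendsto_rpow_neg_atTop (by norm_num)).comp tendsto_natCast_atTop_atTop
    have h2 := h1.eventually (gt_mem_nhds (by norm_num : (0 : ℝ) < 1 / 2))
    have h3 : Filter.Tendsto (fun n : ℕ => (n : ℝ) ^ ε) Filter.atTop Filter.atTop :=
      (tendsto_rpow_atTop hε).comp tendsto_natCast_atTop_atTop
    obtain ⟨p₀, h4⟩ := Filter.eventually_atTop.1 (h2.and (h3.eventually_ge_atTop 2))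
    exact ⟨p₀, fun p hp => ⟨(h4 p hp).1.le, (h4 p hp).2⟩⟩
  have h2 : 1 ≤ (1 - n14_f 2)⁻¹ := n14_fac_one_le Nat.prime_two
  set M : ℝ := (1 - n14_f 2)⁻¹ with hM
  refine ⟨M ^ p₀, one_le_pow₀ h2, ?_⟩
  intro P hP
  have hfac : ∀ p ∈ P, (1 - n14_f p)⁻¹ ≤ (if p < p₀ then M else 1) * (p : ℝ) ^ ε := by
    intro p hp
    have hpp := hP p hp
    have hp2 : (2 : ℝ) ≤ p := by exact_mod_cast hpp.two_le
    have hpe : 1 ≤ (p : ℝ) ^ ε := Real.one_le_rpow (by linarith only [hp2]) hε.le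
    split_ifs with h
    · have h3 : (1 - n14_f p)⁻¹ ≤ M := by
        rw [hM]
        have h4 := n14_f_lt_one Nat.prime_two
        have h5 : n14_f p ≤ n14_f 2 := by
          rw [n14_f_apply, n14_f_apply]
          exact Real.rpow_le_rpow_of_nonpos (by norm_num) (by exact_mod_cast hpp.two_le)
            (by norm_num)
        exact inv_anti₀ (by linarith only [h4]) (by linarith only [h5])
      calc (1 - n14_f p)⁻¹ ≤ M * 1 := by rw [mul_one]; exact h3
        _ ≤ M * (p : ℝ) ^ ε := mul_le_mul_of_nonneg_left hpe (by linarith only [h2])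
    · obtain ⟨h3, h4⟩ := hp₀ p (not_lt.1 h)
      rw [one_mul]
      refine le_trans ?_ h4
      rw [inv_le_iff_one_le_mul₀ (by linarith only [h3])]
      linarith only [h3]
  unfold n14_E
  calc ∏ p ∈ P, (1 - n14_f p)⁻¹ ≤ ∏ p ∈ P, (if p < p₀ then M else 1) * (p : ℝ) ^ ε :=
        prod_le_prod (fun p hp => zero_le_one.trans (n14_fac_one_le (hP p hp))) hfac
    _ = (∏ p ∈ P, (if p < p₀ then M else 1)) * ∏ p ∈ P, (p : ℝ) ^ ε := prod_mul_distrib
    _ = (∏ p ∈ P, (if p < p₀ then M else 1)) * ((∏ p ∈ P, p : ℕ) : ℝ) ^ ε := by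
        rw [Nat.cast_prod, Real.finsetProd_rpow _ _ (fun p _ => Nat.cast_nonneg p)]
    _ ≤ M ^ p₀ * ((∏ p ∈ P, p : ℕ) : ℝ) ^ ε := by
        refine mul_le_mul_of_nonneg_right ?_ (by positivity)
        rw [prod_ite, prod_const_one, mul_one, prod_const]
        refine pow_le_pow_right₀ h2 ?_
        calc (P.filter (fun p => p < p₀)).card ≤ (range p₀).card := by
              refine card_le_card fun p hp => ?_
              rw [mem_range]
              exact (mem_filter.1 hp).2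
          _ = p₀ := card_range _

/-- sums over smooth numbers -/
theorem n14_smooth {P : Finset ℕ} (hP : ∀ p ∈ P, p.Prime) (Z : Finset ℕ)
    (hZ : ∀ w ∈ Z, w ≠ 0 ∧ w.primeFactors ⊆ P) : ∑ w ∈ Z, n14_f w ≤ n14_E P := by
  classical
  have hlt1 : ∀ {p : ℕ}, p.Prime → ‖n14_f p‖ < 1 := by
    intro p hp
    rw [Real.norm_of_nonneg (n14_f_nonneg p)]
    exact n14_f_lt_one hp
  obtain ⟨hsum, hhas⟩ :=
    EulerProduct.summable_and_hasSum_factoredNumbers_prod_filter_prime_geometric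
      (f := n14_f) hlt1 P
  have hmem : ∀ u ∈ Z, u ∈ Nat.factoredNumbers P := by
    intro u hu
    exact Nat.mem_factoredNumbers_iff_primeFactors_subset.2 (hZ u hu)
  have h5 : ∑ u ∈ Z, n14_f u =
      ∑ m ∈ Z.attach.image (fun u => (⟨u.1, hmem u.1 u.2⟩ : Nat.factoredNumbers P)),
        n14_f m.1 := by
    rw [sum_image]
    · rw [← sum_attach]
    · intro a _ b _ hab
      have : a.1 = b.1 := by simpa using congrArg Subtype.val hab
      exact Subtype.ext this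
  have h6 : P.filter (fun p => p.Prime) = P := filter_true_of_mem hP
  rw [h6] at hhas
  unfold n14_E
  rw [h5, ← hhas.tsum_eq]
  exact hhas.summable.sum_le_tsum _ (fun m _ => n14_f_nonneg _)

theorem n14_E_mono {P Q : Finset ℕ} (hQ : ∀ p ∈ Q, p.Prime) (h : P ⊆ Q) :
    n14_E P ≤ n14_E Q := by
  classical
  unfold n14_E
  rw [← prod_sdiff h]
  have h1 : 1 ≤ ∏ p ∈ Q \ P, (1 - n14_f p)⁻¹ :=
    n14_E_one_le (P := Q \ P) fun p hp => hQ p (mem_sdiff.1 hp).1
  have h2 : 0 ≤ ∏ p ∈ P, (1 - n14_f p)⁻¹ :=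
    zero_le_one.trans (n14_E_one_le (P := P) fun p hp => hQ p (h hp))
  nlinarith only [h1, h2]

theorem n14_E_union {P Q R : Finset ℕ} (hP : ∀ p ∈ P, p.Prime) (hQ : ∀ p ∈ Q, p.Prime)
    (hR : R ⊆ P ∪ Q) : n14_E R ≤ n14_E P * n14_E Q := by
  classical
  have hPQ : ∀ p ∈ P ∪ Q, p.Prime := by
    intro p hp
    rcases mem_union.1 hp with h | h
    · exact hP p h
    · exact hQ p h
  refine (n14_E_mono hPQ hR).trans ?_
  have h1 : n14_E (P ∪ Q) * n14_E (P ∩ Q) = n14_E P * n14_E Q := by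
    unfold n14_E
    exact prod_union_inter
  have h2 : 1 ≤ n14_E (P ∩ Q) := n14_E_one_le fun p hp => hP p (mem_inter.1 hp).1
  have h3 : 0 ≤ n14_E (P ∪ Q) := zero_le_one.trans (n14_E_one_le hPQ)
  rw [← h1]
  nlinarith only [h2, h3]

/-- `GG` is bounded by the Euler product -/
theorem n14_GG_le (n : ℕ) : GG n ≤ n14_E n.primeFactors := by
  unfold GG n14_E
  refine prod_le_prod (fun p hp => ?_) fun p hp => ?_
  · have hp2 : (2 : ℝ) ≤ p := by exact_mod_cast (Nat.prime_of_mem_primeFactors hp).two_le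
    have h1 : 1 / (p : ℝ) ≤ 1 / 2 := one_div_le_one_div_of_le (by norm_num) hp2
    exact inv_nonneg.mpr (by linarith only [h1])
  · have hpp := Nat.prime_of_mem_primeFactors hp
    have hp2 : (2 : ℝ) ≤ p := by exact_mod_cast hpp.two_le
    have h1 := n14_f_lt_one hpp
    refine inv_anti₀ (by linarith only [h1]) ?_
    have h2 : 1 / (p : ℝ) ≤ n14_f p := by
      rw [n14_f_apply, one_div, ← Real.rpow_neg_one]
      exact Real.rpow_le_rpow_of_exponent_le (by linarith only [hp2]) (by norm_num)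
    linarith only [h2]

theorem n14_GG_nonneg (n : ℕ) : 0 ≤ GG n := by
  unfold GG
  refine prod_nonneg fun p hp => inv_nonneg.mpr ?_
  have hp2 : (2 : ℝ) ≤ p := by exact_mod_cast (Nat.prime_of_mem_primeFactors hp).two_le
  have h1 : 1 / (p : ℝ) ≤ 1 / 2 := one_div_le_one_div_of_le (by norm_num) hp2
  linarith only [h1]

theorem n14_E_primeFactors {ε C : ℝ} (hε : 0 < ε) (hC : 1 ≤ C) (h : ∀ P : Finset ℕ,
    (∀ p ∈ P, p.Prime) → n14_E P ≤ C * ((∏ p ∈ P, p : ℕ) : ℝ) ^ ε) {n : ℕ} (hn : 0 < n) :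
    n14_E n.primeFactors ≤ C * (n : ℝ) ^ ε := by
  refine (h _ fun p hp => Nat.prime_of_mem_primeFactors hp).trans ?_
  refine mul_le_mul_of_nonneg_left ?_ (by linarith only [hC])
  refine Real.rpow_le_rpow (Nat.cast_nonneg _) ?_ hε.le
  exact_mod_cast Nat.le_of_dvd hn (Nat.prod_primeFactors_dvd n)

theorem n14_E_primesLE {ε C : ℝ} (hε : 0 < ε) (hC : 1 ≤ C) (h : ∀ P : Finset ℕ,
    (∀ p ∈ P, p.Prime) → n14_E P ≤ C * ((∏ p ∈ P, p : ℕ) : ℝ) ^ ε) (n : ℕ) :
    n14_E ((range (n + 1)).filter Nat.Prime) ≤ C * Real.exp (7 / 5 * ε * n) := by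
  refine (h _ fun p hp => (mem_filter.1 hp).2).trans ?_
  refine mul_le_mul_of_nonneg_left ?_ (by linarith only [hC])
  have h1 : ((∏ p ∈ (range (n + 1)).filter Nat.Prime, p : ℕ) : ℝ) ≤ 4 ^ n := by
    exact_mod_cast primorial_le_four_pow n
  have h4 : (4 : ℝ) ≤ Real.exp (7 / 5) := by
    have h5 := Real.exp_one_gt_d9
    have h6 : Real.exp (7 / 5 : ℝ) ^ 5 = Real.exp 1 ^ 7 := by
      rw [← Real.exp_nat_mul, ← Real.exp_nat_mul]
      congr 1
      norm_num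
    have h7 : (4 : ℝ) ^ 5 ≤ Real.exp (7 / 5 : ℝ) ^ 5 := by
      rw [h6]
      calc (4 : ℝ) ^ 5 ≤ 2.7182818283 ^ 7 := by norm_num
        _ ≤ Real.exp 1 ^ 7 := by gcongr
    exact le_of_pow_le_pow_left₀ (by norm_num) (Real.exp_pos _).le h7
  calc ((∏ p ∈ (range (n + 1)).filter Nat.Prime, p : ℕ) : ℝ) ^ ε
      ≤ (Real.exp (7 / 5) ^ n) ^ ε := by
        refine Real.rpow_le_rpow (Nat.cast_nonneg _) (h1.trans ?_) hε.le
        gcongr
    _ = Real.exp (7 / 5 * ε * n) := by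
        rw [← Real.exp_nat_mul, ← Real.exp_mul]
        congr 1
        ring

/-- the sum over `u` -/
theorem n14_usum {d n : ℕ} {y : ℝ} (hd : 0 < d) (hn : 0 < n) (S : Finset ℕ) (hS : ∀ u ∈ S, u ≠ 0 ∧ d ∣ u ∧ ∀ p ∈ u.primeFactors, p ∣ n ∨ (p : ℝ) ≤ y) :
    ∑ u ∈ S, n14_f u ≤ n14_f d * (n14_E n.primeFactors *
      n14_E ((range (⌊y⌋₊ + 1)).filter Nat.Prime)) := by
  classical
  have h1 : ∑ u ∈ S, n14_f u = n14_f d * ∑ w ∈ S.image (fun u => u / d), n14_f w := by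
    rw [sum_image, mul_sum]
    · refine sum_congr rfl fun u hu => ?_
      rw [← map_mul, Nat.mul_div_cancel' (hS u hu).2.1]
    · intro a ha b hb hab
      have hab' : a / d = b / d := hab
      rw [← Nat.mul_div_cancel' (hS a ha).2.1, ← Nat.mul_div_cancel' (hS b hb).2.1, hab']
  rw [h1]
  refine mul_le_mul_of_nonneg_left ?_ (n14_f_nonneg d)
  have hP1 : ∀ p ∈ n.primeFactors, p.Prime := fun p hp => Nat.prime_of_mem_primeFactors hp
  have hP2 : ∀ p ∈ (range (⌊y⌋₊ + 1)).filter Nat.Prime, p.Prime := fun p hp =>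
    (mem_filter.1 hp).2
  refine le_trans (n14_smooth (P := n.primeFactors ∪ (range (⌊y⌋₊ + 1)).filter Nat.Prime) ?_ _ ?_)
    (n14_E_union hP1 hP2 subset_rfl)
  · intro p hp
    rcases mem_union.1 hp with h | h
    · exact hP1 p h
    · exact hP2 p h
  · intro w hw
    obtain ⟨u, hu, rfl⟩ := mem_image.1 hw
    obtain ⟨hu0, hdu, hup⟩ := hS u hu
    have hw0 : u / d ≠ 0 := by
      have := Nat.div_pos (Nat.le_of_dvd (Nat.pos_of_ne_zero hu0) hdu) hd
      omega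
    refine ⟨hw0, fun p hp => ?_⟩
    have hpp := Nat.prime_of_mem_primeFactors hp
    have hpu : p ∈ u.primeFactors :=
      Nat.mem_primeFactors.2 ⟨hpp, (Nat.dvd_of_mem_primeFactors hp).trans (Nat.div_dvd_of_dvd hdu),
        hu0⟩
    rw [mem_union]
    rcases hup p hpu with h | h
    · left
      exact Nat.mem_primeFactors.2 ⟨hpp, h, hn.ne'⟩
    · right
      rw [mem_filter, mem_range]
      refine ⟨?_, hpp⟩
      have := Nat.le_floor h
      omega

theorem n14_gpB_le (B v : ℕ) : gpB B v ≤ v := by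
  unfold gpB
  refine Finset.sup_le fun p hp => ?_
  exact Nat.le_of_mem_primeFactors (mem_filter.1 hp).1

/-- the sum over `v` -/
theorem n14_vsum : ∃ C > 0, ∀ (B N : ℕ) (x : ℝ), 0 < B → 1 ≤ x →
    ∑ v ∈ Icc 1 N, n14_f v * (min 1 (x ^ (5 / 2 : ℝ) *
      Real.exp (-((gpB B v : ℝ) - 2) / 4))) ^ (1 / 2 : ℝ) ≤
      C * x ^ (1 / 32 : ℝ) * n14_E B.primeFactors := by
  classical
  obtain ⟨C, hC, hE⟩ := n14_euler (ε := 1 / 1000) (by norm_num)
  have hgeo : Summable (fun n : ℕ => Real.exp (-(1 / 1000 : ℝ)) ^ n) :=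
    summable_geometric_of_lt_one (Real.exp_pos _).le (by
      rw [Real.exp_lt_one_iff]
      norm_num)
  set K : ℝ := ∑' n : ℕ, Real.exp (-(1 / 1000 : ℝ)) ^ n with hK
  have hK0 : 0 ≤ K := tsum_nonneg fun n => by positivity
  have hC0 : 0 < C := by linarith only [hC]
  refine ⟨Real.exp (1 / 160) * C * (K + 1), by positivity, ?_⟩
  intro B N x hB hx
  have hx0 : 0 < x := by linarith only [hx]
  have hPB : ∀ p ∈ B.primeFactors, p.Prime := fun p hp => Nat.prime_of_mem_primeFactors hp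
  have hEB : 0 ≤ n14_E B.primeFactors := zero_le_one.trans (n14_E_one_le hPB)
  set m : ℕ → ℝ := fun P => (min 1 (x ^ (5 / 2 : ℝ) *
      Real.exp (-((P : ℝ) - 2) / 4))) ^ (1 / 2 : ℝ) with hm
  have hm0 : ∀ P, 0 ≤ m P := by
    intro P
    simp only [hm]
    positivity
  have hmle : ∀ P : ℕ, m P ≤ x ^ (1 / 32 : ℝ) * Real.exp (1 / 160) *
      Real.exp (-(P : ℝ) / 320) := by
    intro P
    simp only [hm]
    set X : ℝ := x ^ (5 / 2 : ℝ) * Real.exp (-((P : ℝ) - 2) / 4) with hX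
    have hX0 : 0 < X := by positivity
    have h0 : 0 ≤ min 1 X := by positivity
    calc (min 1 X) ^ (1 / 2 : ℝ) ≤ (min 1 X) ^ (1 / 80 : ℝ) :=
          Real.rpow_le_rpow_of_exponent_ge' h0 (min_le_left _ _) (by norm_num) (by norm_num)
      _ ≤ X ^ (1 / 80 : ℝ) := Real.rpow_le_rpow h0 (min_le_right _ _) (by norm_num)
      _ = x ^ (1 / 32 : ℝ) * Real.exp (-((P : ℝ) - 2) / 320) := by
          rw [hX, Real.mul_rpow (by positivity) (Real.exp_pos _).le, ← Real.rpow_mul hx0.le,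
            ← Real.exp_mul, show (5 / 2 * (1 / 80) : ℝ) = 1 / 32 by norm_num,
            show -((P : ℝ) - 2) / 4 * (1 / 80) = -((P : ℝ) - 2) / 320 by ring]
      _ = _ := by
          rw [mul_assoc, ← Real.exp_add]
          congr 2
          ring
  have h1 : ∑ v ∈ Icc 1 N, n14_f v * m (gpB B v) =
      ∑ P ∈ range (N + 1), ∑ v ∈ (Icc 1 N).filter (fun v => gpB B v = P),
        n14_f v * m (gpB B v) := by
    symm
    refine sum_fiberwise_of_maps_to ?_ _
    intro v hv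
    rw [mem_Icc] at hv
    rw [mem_range]
    have := n14_gpB_le B v
    omega
  have h2 : ∀ P ∈ range (N + 1), ∑ v ∈ (Icc 1 N).filter (fun v => gpB B v = P),
        n14_f v * m (gpB B v) ≤ (Real.exp (1 / 160) * C * x ^ (1 / 32 : ℝ) *
          n14_E B.primeFactors) * Real.exp (-(1 / 1000 : ℝ)) ^ P := by
    intro P _
    have h3 : ∑ v ∈ (Icc 1 N).filter (fun v => gpB B v = P), n14_f v * m (gpB B v) =
        m P * ∑ v ∈ (Icc 1 N).filter (fun v => gpB B v = P), n14_f v := by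
      rw [mul_sum]
      refine sum_congr rfl fun v hv => ?_
      rw [(mem_filter.1 hv).2, mul_comm]
    have hP2 : ∀ p ∈ (range (P + 1)).filter Nat.Prime, p.Prime := fun p hp => (mem_filter.1 hp).2
    have h4 : ∑ v ∈ (Icc 1 N).filter (fun v => gpB B v = P), n14_f v ≤
        n14_E B.primeFactors * n14_E ((range (P + 1)).filter Nat.Prime) := by
      refine le_trans (n14_smooth (P := B.primeFactors ∪ (range (P + 1)).filter Nat.Prime) ?_ _ ?_)
        (n14_E_union hPB hP2 subset_rfl)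
      · intro p hp
        rcases mem_union.1 hp with h | h
        · exact hPB p h
        · exact hP2 p h
      · intro v hv
        rw [mem_filter, mem_Icc] at hv
        refine ⟨by omega, fun p hp => ?_⟩
        have hpp := Nat.prime_of_mem_primeFactors hp
        rw [mem_union]
        by_cases hpB : p ∣ B
        · left
          exact Nat.mem_primeFactors.2 ⟨hpp, hpB, hB.ne'⟩
        · right
          rw [mem_filter, mem_range]
          refine ⟨?_, hpp⟩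
          have h5 : p ≤ gpB B v := by
            unfold gpB
            exact Finset.le_sup (f := id) (mem_filter.2 ⟨hp, hpB⟩)
          omega
    rw [h3]
    have h5 := n14_E_primesLE (by norm_num) hC hE P
    calc m P * ∑ v ∈ (Icc 1 N).filter (fun v => gpB B v = P), n14_f v
        ≤ (x ^ (1 / 32 : ℝ) * Real.exp (1 / 160) * Real.exp (-(P : ℝ) / 320)) *
          (n14_E B.primeFactors * (C * Real.exp (7 / 5 * (1 / 1000) * P))) := by
          refine mul_le_mul (hmle P) (h4.trans ?_) (sum_nonneg fun v _ => n14_f_nonneg v)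
            (by positivity)
          exact mul_le_mul_of_nonneg_left h5 hEB
      _ = (Real.exp (1 / 160) * C * x ^ (1 / 32 : ℝ) * n14_E B.primeFactors) *
          (Real.exp (-(P : ℝ) / 320) * Real.exp (7 / 5 * (1 / 1000) * P)) := by ring
      _ ≤ _ := by
          refine mul_le_mul_of_nonneg_left ?_ (by positivity)
          rw [← Real.exp_add, ← Real.exp_nat_mul]
          apply Real.exp_le_exp.2
          have : (0 : ℝ) ≤ P := Nat.cast_nonneg P
          linarith only [this]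
  change ∑ v ∈ Icc 1 N, n14_f v * m (gpB B v) ≤ _
  rw [h1]
  calc _ ≤ ∑ P ∈ range (N + 1), (Real.exp (1 / 160) * C * x ^ (1 / 32 : ℝ) *
          n14_E B.primeFactors) * Real.exp (-(1 / 1000 : ℝ)) ^ P := sum_le_sum h2
    _ = (Real.exp (1 / 160) * C * x ^ (1 / 32 : ℝ) * n14_E B.primeFactors) *
          ∑ P ∈ range (N + 1), Real.exp (-(1 / 1000 : ℝ)) ^ P := by rw [mul_sum]
    _ ≤ (Real.exp (1 / 160) * C * x ^ (1 / 32 : ℝ) * n14_E B.primeFactors) * (K + 1) := by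
        refine mul_le_mul_of_nonneg_left ?_ (by positivity)
        have := hgeo.sum_le_tsum (range (N + 1)) (fun n _ => by positivity)
        linarith only [this]
    _ = _ := by ring

/-- the sum over the pairs `(u, v)` -/
theorem n14_T : ∃ C > 0, ∀ (B B' N : ℕ), 0 < B → B < B' → 3 / 16 * (B : ℝ) ^ 4 ≤ B' →
    ∑ u ∈ Icc 1 N, ∑ v ∈ Icc 1 N, KD B B' u v ≤ C * (B' : ℝ) ^ (-(1 / 10) : ℝ) := by
  classical
  obtain ⟨C, hC, hE⟩ := n14_euler (ε := 1 / 1000) (by norm_num)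
  obtain ⟨D, hD, hv⟩ := n14_vsum
  have hC0 : 0 < C := by linarith only [hC]
  refine ⟨C ^ 5 * D * Real.exp (7 / 1250) * 2, by positivity, ?_⟩
  intro B B' N hB hBB' hgap
  set x : ℝ := (B' : ℝ) with hx
  have hB'0 : 0 < B' := by omega
  have hx2 : 2 ≤ x := by rw [hx]; exact_mod_cast (by omega : 2 ≤ B')
  have hx0 : 0 < x := by linarith only [hx2]
  have hx1 : 1 ≤ x := by linarith only [hx2]
  have hBx : (B : ℝ) ≤ x := by rw [hx]; exact_mod_cast hBB'.le
  set d : ℕ := B' / Nat.gcd B B' with hd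
  have hdge : x ^ (3 / 4 : ℝ) / 2 ≤ (d : ℝ) := kb_d_ge hB hBB' hgap
  have hd0 : 0 < d := by
    have : (0 : ℝ) < d := lt_of_lt_of_le (by positivity) hdge
    exact_mod_cast this
  have hlog0 : 0 ≤ Real.log x := Real.log_nonneg hx1
  set y : ℝ := 20 * Real.log x + 4 with hy
  have hy0 : 0 ≤ y := by linarith only [hlog0, hy]
  set m : ℕ → ℝ := fun v => (min 1 (x ^ (5 / 2 : ℝ) *
      Real.exp (-((gpB B v : ℝ) - 2) / 4))) ^ (1 / 2 : ℝ) with hm
  have hm0 : ∀ P, 0 ≤ m P := by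
    intro P
    simp only [hm]
    positivity
  set Q : ℕ → Prop := fun u => d ∣ u ∧ ∀ p ∈ u.primeFactors, p ∣ B' ∨ (p : ℝ) ≤ y with hQ
  have hKD : ∀ u v : ℕ, KD B B' u v =
      (GG B * GG B') * ((if Q u then n14_f u else 0) * (n14_f v * m v)) := by
    intro u v
    unfold KD
    by_cases h : Q u
    · rw [if_pos ⟨hBB', h.1, h.2⟩, if_pos h, Real.mul_rpow (Nat.cast_nonneg _) (Nat.cast_nonneg _)]
      simp only [hm, n14_f_apply]
      ring
    · rw [if_neg (fun h1 => h ⟨h1.2.1, h1.2.2⟩), if_neg h]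
      ring
  have hsum : ∑ u ∈ Icc 1 N, ∑ v ∈ Icc 1 N, KD B B' u v =
      (GG B * GG B') * ((∑ u ∈ (Icc 1 N).filter Q, n14_f u) * ∑ v ∈ Icc 1 N, n14_f v * m v) := by
    rw [sum_filter, sum_mul_sum, mul_sum]
    refine sum_congr rfl fun u _ => ?_
    rw [mul_sum]
    refine sum_congr rfl fun v _ => ?_
    exact hKD u v
  rw [hsum]
  have hE1 : n14_E B.primeFactors ≤ C * x ^ (1 / 1000 : ℝ) :=
    (n14_E_primeFactors (by norm_num) hC hE hB).trans
      (mul_le_mul_of_nonneg_left (Real.rpow_le_rpow (Nat.cast_nonneg _) hBx (by norm_num)) hC0.le)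
  have hE2 : n14_E B'.primeFactors ≤ C * x ^ (1 / 1000 : ℝ) :=
    n14_E_primeFactors (by norm_num) hC hE hB'0
  have hE3 : n14_E ((range (⌊y⌋₊ + 1)).filter Nat.Prime) ≤
      C * Real.exp (7 / 1250) * x ^ (7 / 250 : ℝ) := by
    refine (n14_E_primesLE (by norm_num) hC hE ⌊y⌋₊).trans ?_
    rw [mul_assoc C]
    refine mul_le_mul_of_nonneg_left ?_ hC0.le
    rw [Real.rpow_def_of_pos hx0, ← Real.exp_add]
    apply Real.exp_le_exp.2
    have := Nat.floor_le hy0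
    linarith only [this, hy]
  have hE1' : 0 ≤ n14_E B.primeFactors :=
    zero_le_one.trans (n14_E_one_le fun p hp => Nat.prime_of_mem_primeFactors hp)
  have hE2' : 0 ≤ n14_E B'.primeFactors :=
    zero_le_one.trans (n14_E_one_le fun p hp => Nat.prime_of_mem_primeFactors hp)
  have hE3' : 0 ≤ n14_E ((range (⌊y⌋₊ + 1)).filter Nat.Prime) :=
    zero_le_one.trans (n14_E_one_le fun p hp => (mem_filter.1 hp).2)
  have hG1 : GG B ≤ C * x ^ (1 / 1000 : ℝ) := (n14_GG_le B).trans hE1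
  have hG2 : GG B' ≤ C * x ^ (1 / 1000 : ℝ) := (n14_GG_le B').trans hE2
  have hU : ∑ u ∈ (Icc 1 N).filter Q, n14_f u ≤ n14_f d * (n14_E B'.primeFactors *
      n14_E ((range (⌊y⌋₊ + 1)).filter Nat.Prime)) := by
    refine n14_usum hd0 hB'0 _ ?_
    intro u hu
    rw [mem_filter, mem_Icc] at hu
    exact ⟨by omega, hu.2.1, hu.2.2⟩
  have hV : ∑ v ∈ Icc 1 N, n14_f v * m v ≤ D * x ^ (1 / 32 : ℝ) * n14_E B.primeFactors :=
    hv B N x hB hx1
  have hdf : n14_f d ≤ 2 * x ^ (-(3 / 16) : ℝ) := by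
    rw [n14_f_apply]
    calc (d : ℝ) ^ (-(1 / 4) : ℝ) ≤ (x ^ (3 / 4 : ℝ) / 2) ^ (-(1 / 4) : ℝ) :=
          Real.rpow_le_rpow_of_nonpos (by positivity) hdge (by norm_num)
      _ = x ^ (-(3 / 16) : ℝ) * (2 : ℝ) ^ (1 / 4 : ℝ) := by
          rw [Real.div_rpow (by positivity) (by norm_num), ← Real.rpow_mul hx0.le,
            show (3 / 4 * -(1 / 4) : ℝ) = -(3 / 16) by norm_num,
            Real.rpow_neg (by norm_num : (0 : ℝ) ≤ 2), div_inv_eq_mul]
      _ ≤ x ^ (-(3 / 16) : ℝ) * 2 := by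
          refine mul_le_mul_of_nonneg_left ?_ (by positivity)
          calc (2 : ℝ) ^ (1 / 4 : ℝ) ≤ (2 : ℝ) ^ (1 : ℝ) :=
                Real.rpow_le_rpow_of_exponent_le (by norm_num) (by norm_num)
            _ = 2 := Real.rpow_one 2
      _ = _ := mul_comm _ _
  have hU' : ∑ u ∈ (Icc 1 N).filter Q, n14_f u ≤ (2 * x ^ (-(3 / 16) : ℝ)) *
      ((C * x ^ (1 / 1000 : ℝ)) * (C * Real.exp (7 / 1250) * x ^ (7 / 250 : ℝ))) := by
    refine hU.trans (mul_le_mul hdf (mul_le_mul hE2 hE3 hE3' (by positivity))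
      (mul_nonneg hE2' hE3') (by positivity))
  have hV' : ∑ v ∈ Icc 1 N, n14_f v * m v ≤ D * x ^ (1 / 32 : ℝ) * (C * x ^ (1 / 1000 : ℝ)) :=
    hV.trans (mul_le_mul_of_nonneg_left hE1 (by positivity))
  have hG : GG B * GG B' ≤ (C * x ^ (1 / 1000 : ℝ)) * (C * x ^ (1 / 1000 : ℝ)) :=
    mul_le_mul hG1 hG2 (n14_GG_nonneg _) (by positivity)
  have hpow : x ^ (-(3 / 16) : ℝ) * (x ^ (1 / 1000 : ℝ)) ^ 4 * x ^ (7 / 250 : ℝ) *
      x ^ (1 / 32 : ℝ) ≤ x ^ (-(1 / 10) : ℝ) := by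
    rw [← Real.rpow_natCast, ← Real.rpow_mul hx0.le, ← Real.rpow_add hx0, ← Real.rpow_add hx0,
      ← Real.rpow_add hx0]
    exact Real.rpow_le_rpow_of_exponent_le hx1 (by norm_num)
  calc (GG B * GG B') * ((∑ u ∈ (Icc 1 N).filter Q, n14_f u) * ∑ v ∈ Icc 1 N, n14_f v * m v)
      ≤ ((C * x ^ (1 / 1000 : ℝ)) * (C * x ^ (1 / 1000 : ℝ))) *
        (((2 * x ^ (-(3 / 16) : ℝ)) *
          ((C * x ^ (1 / 1000 : ℝ)) * (C * Real.exp (7 / 1250) * x ^ (7 / 250 : ℝ)))) *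
          (D * x ^ (1 / 32 : ℝ) * (C * x ^ (1 / 1000 : ℝ)))) := by
        refine mul_le_mul hG (mul_le_mul hU' hV' (sum_nonneg fun v _ =>
          mul_nonneg (n14_f_nonneg v) (hm0 v)) (by positivity))
          (mul_nonneg (sum_nonneg fun v _ => n14_f_nonneg v) (sum_nonneg fun v _ =>
          mul_nonneg (n14_f_nonneg v) (hm0 v))) (by positivity)
    _ = (C ^ 5 * D * Real.exp (7 / 1250) * 2) * (x ^ (-(3 / 16) : ℝ) *
        (x ^ (1 / 1000 : ℝ)) ^ 4 * x ^ (7 / 250 : ℝ) * x ^ (1 / 32 : ℝ)) := by ring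
    _ ≤ _ := mul_le_mul_of_nonneg_left hpow (by positivity)

theorem n14_KD_nonneg (B B' u v : ℕ) : 0 ≤ KD B B' u v := by
  unfold KD
  split_ifs
  · have h1 := n14_GG_nonneg B
    have h2 := n14_GG_nonneg B'
    positivity
  · exact le_rfl

theorem n14_KD_zero {B B' : ℕ} (h : B' ≤ B) (u v : ℕ) : KD B B' u v = 0 := by
  unfold KD
  rw [if_neg (fun h1 => absurd h1.1 (not_lt.2 h))]

/-- sum of the kernel over `r` with `b r = B'` -/
theorem n14_fiber_row {C : ℝ} (hT : ∀ (B B' N : ℕ), 0 < B → B < B' →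
    3 / 16 * (B : ℝ) ^ 4 ≤ B' →
    ∑ u ∈ Icc 1 N, ∑ v ∈ Icc 1 N, KD B B' u v ≤ C * (B' : ℝ) ^ (-(1 / 10) : ℝ))
    {N q B B' : ℕ} (hq : q ∈ Icc 1 N) (S : Finset ℕ) (hS : S ⊆ Icc 1 N) (hB : 0 < B)
    (hlt : B < B') (hgap : 3 / 16 * (B : ℝ) ^ 4 ≤ B') :
    ∑ r ∈ S, KD B B' (cofac q r) (cofac r q) ≤ C * (B' : ℝ) ^ (-(1 / 10) : ℝ) := by
  classical
  refine le_trans ?_ (hT B B' N hB hlt hgap)
  rw [mem_Icc] at hq
  rw [← sum_product']
  have h1 : ∑ r ∈ S, KD B B' (cofac q r) (cofac r q) =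
      ∑ z ∈ S.image (fun r => ((cofac q r, cofac r q) : ℕ × ℕ)), KD B B' z.1 z.2 := by
    rw [sum_image]
    intro a _ b _ hab
    simp only [Prod.mk.injEq] at hab
    exact rd_cofac_inj (by omega) hab.1 hab.2
  rw [h1]
  refine sum_le_sum_of_subset_of_nonneg ?_ (fun z _ _ => n14_KD_nonneg _ _ _ _)
  intro z hz
  rw [mem_image] at hz
  obtain ⟨r, hr, rfl⟩ := hz
  have hr := hS hr
  rw [mem_Icc] at hr
  rw [mem_product, mem_Icc, mem_Icc]
  refine ⟨⟨cofac_pos r (by omega), (cofac_le r (by omega)).trans hq.2⟩,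
    cofac_pos q (by omega), (cofac_le q (by omega)).trans hr.2⟩

/-- sum of the kernel over `q` with `b q = B` -/
theorem n14_fiber_col {C : ℝ} (hT : ∀ (B B' N : ℕ), 0 < B → B < B' →
    3 / 16 * (B : ℝ) ^ 4 ≤ B' →
    ∑ u ∈ Icc 1 N, ∑ v ∈ Icc 1 N, KD B B' u v ≤ C * (B' : ℝ) ^ (-(1 / 10) : ℝ))
    {N r B B' : ℕ} (hr : r ∈ Icc 1 N) (S : Finset ℕ) (hS : S ⊆ Icc 1 N) (hB : 0 < B)
    (hlt : B < B') (hgap : 3 / 16 * (B : ℝ) ^ 4 ≤ B') :
    ∑ q ∈ S, KD B B' (cofac q r) (cofac r q) ≤ C * (B' : ℝ) ^ (-(1 / 10) : ℝ) := by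
  classical
  refine le_trans ?_ (hT B B' N hB hlt hgap)
  rw [mem_Icc] at hr
  rw [← sum_product']
  have h1 : ∑ q ∈ S, KD B B' (cofac q r) (cofac r q) =
      ∑ z ∈ S.image (fun q => ((cofac q r, cofac r q) : ℕ × ℕ)), KD B B' z.1 z.2 := by
    rw [sum_image]
    intro a _ b _ hab
    simp only [Prod.mk.injEq] at hab
    exact rd_cofac_inj (by omega) hab.2 hab.1
  rw [h1]
  refine sum_le_sum_of_subset_of_nonneg ?_ (fun z _ _ => n14_KD_nonneg _ _ _ _)
  intro z hz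
  rw [mem_image] at hz
  obtain ⟨q, hq, rfl⟩ := hz
  have hq := hS hq
  rw [mem_Icc] at hq
  rw [mem_product, mem_Icc, mem_Icc]
  refine ⟨⟨cofac_pos r (by omega), (cofac_le r (by omega)).trans hq.2⟩,
    cofac_pos q (by omega), (cofac_le q (by omega)).trans hr.2⟩

theorem diff_sum : ∃ C > 0, ∀ (N : ℕ) (f : ℕ → ℝ) (b : ℕ → ℕ), (∀ q, 0 ≤ f q) →
    (∀ q, 0 < b q) → (∀ q r, b q < b r → 2 * b q ≤ b r ∧ 3 / 16 * (b q : ℝ) ^ 4 ≤ b r) →
    ∑ q ∈ Icc 1 N, ∑ r ∈ Icc 1 N, Real.sqrt (f q * f r) *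
      KD (b q) (b r) (cofac q r) (cofac r q) ≤ C * ∑ q ∈ Icc 1 N, f q := by
  classical
  obtain ⟨C, hC, hT⟩ := n14_T
  obtain ⟨K, hK, hval⟩ := kb_sum_values
  refine ⟨2 * (C * K), by positivity, ?_⟩
  intro N f b hf hb hgap
  set 𝓑 : Finset ℕ := (Icc 1 N).image b with h𝓑
  have hBpos : ∀ B ∈ 𝓑, 0 < B := by
    intro B hB
    rw [h𝓑, mem_image] at hB
    obtain ⟨q, _, rfl⟩ := hB
    exact hb q
  have hBdouble : ∀ B ∈ 𝓑, ∀ B' ∈ 𝓑, B < B' → 2 * B ≤ B' := by
    intro B hB B' hB' hlt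
    rw [h𝓑, mem_image] at hB hB'
    obtain ⟨q, _, rfl⟩ := hB
    obtain ⟨r, _, rfl⟩ := hB'
    exact (hgap q r hlt).1
  have hBgap : ∀ B ∈ 𝓑, ∀ B' ∈ 𝓑, B < B' → 3 / 16 * (B : ℝ) ^ 4 ≤ B' := by
    intro B hB B' hB' hlt
    rw [h𝓑, mem_image] at hB hB'
    obtain ⟨q, _, rfl⟩ := hB
    obtain ⟨r, _, rfl⟩ := hB'
    exact (hgap q r hlt).2
  -- the double sum over the values
  have hS : ∑ B' ∈ 𝓑, ∑ B ∈ 𝓑.filter (fun B => B < B'), (B' : ℝ) ^ (-(1 / 10) : ℝ) ≤ 2 * K := by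
    have h1 := hval 𝓑 hBpos hBdouble (1 / 2) (by norm_num)
    have h2 : 𝓑.filter (fun B : ℕ => (1 / 2 : ℝ) < (B : ℝ)) = 𝓑 := by
      refine filter_true_of_mem fun B hB => ?_
      have : (1 : ℝ) ≤ B := by exact_mod_cast hBpos B hB
      linarith only [this]
    rw [h2] at h1
    refine h1.trans ?_
    have h3 : (1 / 2 : ℝ) ^ (-(1 / 20) : ℝ) ≤ 2 := by
      calc (1 / 2 : ℝ) ^ (-(1 / 20) : ℝ) ≤ (1 / 2 : ℝ) ^ (-1 : ℝ) :=
            Real.rpow_le_rpow_of_exponent_ge (by norm_num) (by norm_num) (by norm_num)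
        _ = 2 := by rw [Real.rpow_neg_one]; norm_num
    calc K * (1 / 2 : ℝ) ^ (-(1 / 20) : ℝ) ≤ K * 2 := mul_le_mul_of_nonneg_left h3 hK.le
      _ = _ := mul_comm _ _
  have hKDnn := n14_KD_nonneg
  have hpnn : ∀ B : ℕ, 0 ≤ (B : ℝ) ^ (-(1 / 10) : ℝ) := fun B => by positivity
  -- row sums
  have hrow : ∀ q ∈ Icc 1 N, ∑ r ∈ Icc 1 N, KD (b q) (b r) (cofac q r) (cofac r q) ≤
      C * (2 * K) := by
    intro q hq
    have hbq : b q ∈ 𝓑 := mem_image_of_mem b hq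
    have h1 : ∑ r ∈ Icc 1 N, KD (b q) (b r) (cofac q r) (cofac r q) =
        ∑ B' ∈ 𝓑, ∑ r ∈ (Icc 1 N).filter (fun r => b r = B'),
          KD (b q) (b r) (cofac q r) (cofac r q) := by
      symm
      exact sum_fiberwise_of_maps_to (fun r hr => mem_image_of_mem b hr) _
    rw [h1]
    have h2 : ∀ B' ∈ 𝓑, ∑ r ∈ (Icc 1 N).filter (fun r => b r = B'),
          KD (b q) (b r) (cofac q r) (cofac r q) ≤
        C * ∑ B ∈ 𝓑.filter (fun B => B < B'), (B' : ℝ) ^ (-(1 / 10) : ℝ) := by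
      intro B' hB'
      have h3 : ∑ r ∈ (Icc 1 N).filter (fun r => b r = B'),
          KD (b q) (b r) (cofac q r) (cofac r q) =
          ∑ r ∈ (Icc 1 N).filter (fun r => b r = B'), KD (b q) B' (cofac q r) (cofac r q) := by
        refine sum_congr rfl fun r hr => ?_
        rw [(mem_filter.1 hr).2]
      rw [h3]
      rcases lt_or_ge (b q) B' with hlt | hge
      · refine (n14_fiber_row hT hq _ (filter_subset _ _) (hb q) hlt
          (hBgap _ hbq _ hB' hlt)).trans ?_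
        refine mul_le_mul_of_nonneg_left ?_ hC.le
        exact single_le_sum (f := fun _ => (B' : ℝ) ^ (-(1 / 10) : ℝ)) (fun _ _ => hpnn B')
          (mem_filter.2 ⟨hbq, hlt⟩)
      · rw [sum_eq_zero (fun r _ => n14_KD_zero hge _ _)]
        exact mul_nonneg hC.le (sum_nonneg fun _ _ => hpnn B')
    refine (sum_le_sum h2).trans ?_
    rw [← mul_sum]
    exact mul_le_mul_of_nonneg_left hS hC.le
  -- column sums
  have hcol : ∀ r ∈ Icc 1 N, ∑ q ∈ Icc 1 N, KD (b q) (b r) (cofac q r) (cofac r q) ≤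
      C * (2 * K) := by
    intro r hr
    have hbr : b r ∈ 𝓑 := mem_image_of_mem b hr
    have h1 : ∑ q ∈ Icc 1 N, KD (b q) (b r) (cofac q r) (cofac r q) =
        ∑ B ∈ 𝓑, ∑ q ∈ (Icc 1 N).filter (fun q => b q = B),
          KD (b q) (b r) (cofac q r) (cofac r q) := by
      symm
      exact sum_fiberwise_of_maps_to (fun q hq => mem_image_of_mem b hq) _
    rw [h1]
    have h2 : ∀ B ∈ 𝓑, ∑ q ∈ (Icc 1 N).filter (fun q => b q = B),
          KD (b q) (b r) (cofac q r) (cofac r q) ≤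
        if B < b r then C * (b r : ℝ) ^ (-(1 / 10) : ℝ) else 0 := by
      intro B hB
      have h3 : ∑ q ∈ (Icc 1 N).filter (fun q => b q = B),
          KD (b q) (b r) (cofac q r) (cofac r q) =
          ∑ q ∈ (Icc 1 N).filter (fun q => b q = B), KD B (b r) (cofac q r) (cofac r q) := by
        refine sum_congr rfl fun q hq => ?_
        rw [(mem_filter.1 hq).2]
      rw [h3]
      split_ifs with hlt
      · exact n14_fiber_col hT hr _ (filter_subset _ _) (hBpos B hB) hlt (hBgap _ hB _ hbr hlt)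
      · rw [sum_eq_zero (fun q _ => n14_KD_zero (not_lt.1 hlt) _ _)]
    refine (sum_le_sum h2).trans ?_
    rw [← sum_filter, ← mul_sum]
    refine mul_le_mul_of_nonneg_left (le_trans ?_ hS) hC.le
    exact single_le_sum (f := fun B' : ℕ => ∑ B ∈ 𝓑.filter (fun B => B < B'),
      (B' : ℝ) ^ (-(1 / 10) : ℝ)) (fun B' _ => sum_nonneg fun _ _ => hpnn B') hbr
  have h1 : ∑ q ∈ Icc 1 N, ∑ r ∈ Icc 1 N, Real.sqrt (f q * f r) *
      KD (b q) (b r) (cofac q r) (cofac r q) ≤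
      ∑ q ∈ Icc 1 N, ∑ r ∈ Icc 1 N, (f q / 2 * KD (b q) (b r) (cofac q r) (cofac r q) +
        f r / 2 * KD (b q) (b r) (cofac q r) (cofac r q)) := by
    refine sum_le_sum fun q _ => sum_le_sum fun r _ => ?_
    have h2 : Real.sqrt (f q * f r) ≤ f q / 2 + f r / 2 := by
      rw [Real.sqrt_le_left (by linarith only [hf q, hf r])]
      nlinarith only [sq_nonneg (f q - f r)]
    calc Real.sqrt (f q * f r) * KD (b q) (b r) (cofac q r) (cofac r q)
        ≤ (f q / 2 + f r / 2) * KD (b q) (b r) (cofac q r) (cofac r q) :=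
          mul_le_mul_of_nonneg_right h2 (hKDnn _ _ _ _)
      _ = _ := by ring
  refine h1.trans ?_
  simp only [sum_add_distrib]
  have h2 : ∑ q ∈ Icc 1 N, ∑ r ∈ Icc 1 N, f q / 2 * KD (b q) (b r) (cofac q r) (cofac r q) ≤
      C * K * ∑ q ∈ Icc 1 N, f q := by
    rw [mul_sum]
    refine sum_le_sum fun q hq => ?_
    rw [← mul_sum]
    have h3 : 0 ≤ f q / 2 := by linarith only [hf q]
    calc f q / 2 * ∑ r ∈ Icc 1 N, KD (b q) (b r) (cofac q r) (cofac r q) ≤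
          f q / 2 * (C * (2 * K)) := mul_le_mul_of_nonneg_left (hrow q hq) h3
      _ = C * K * f q := by ring
  have h3 : ∑ q ∈ Icc 1 N, ∑ r ∈ Icc 1 N, f r / 2 * KD (b q) (b r) (cofac q r) (cofac r q) ≤
      C * K * ∑ q ∈ Icc 1 N, f q := by
    rw [sum_comm, mul_sum]
    refine sum_le_sum fun r hr => ?_
    rw [← mul_sum]
    have h3 : 0 ≤ f r / 2 := by linarith only [hf r]
    calc f r / 2 * ∑ q ∈ Icc 1 N, KD (b q) (b r) (cofac q r) (cofac r q) ≤
          f r / 2 * (C * (2 * K)) := mul_le_mul_of_nonneg_left (hcol r hr) h3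
      _ = C * K * f r := by ring
  linarith only [h2, h3]

end Vale.P028
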