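import Vale.Agent.P028.NDefs
import Vale.Agent.P028.MSP

/-!
# Single prime inequality with general growth (Theorem N, section N1)
-/

namespace Vale.P028

open Finset

/-- hypotheses on the growth `W` -/
structure N1Hyp (θ B : ℝ) (W ω : ℕ → ℝ) : Prop where
  w_zero : W 0 = 1
  w_nonneg : ∀ l, 0 ≤ W l
  o_nonneg : ∀ l, 0 ≤ ω l
  w_le : ∀ l, 1 ≤ l → W l ≤ (ω l) ^ (1 - θ)
  o_sum : ∀ n, ∑ l ∈ Icc 1 n, ω l ≤ B
  w_sum : ∀ n, ∑ l ∈ Icc 1 n, W l ≤ 2 * B ^ (1 - θ)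

theorem n1_sum_lt {f : ℕ → ℝ} {M : ℝ} (hM : ∀ n, ∑ l ∈ Icc 1 n, f l ≤ M) (k : ℕ) :
    ∑ j ∈ range k, f (ad k j) ≤ M := by
  refine le_trans (le_of_eq ?_) (hM k)
  refine Finset.sum_nbij' (fun j => k - j) (fun l => k - l) ?_ ?_ ?_ ?_ ?_
  · intro j hj
    have := Finset.mem_range.1 hj
    exact Finset.mem_Icc.2 ⟨by omega, by omega⟩
  · intro l hl
    have := Finset.mem_Icc.1 hl
    exact Finset.mem_range.2 (by omega)
  · intro j hj
    have := Finset.mem_range.1 hj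
    omega
  · intro l hl
    have := Finset.mem_Icc.1 hl
    omega
  · intro j hj
    have := Finset.mem_range.1 hj
    congr 1
    unfold ad
    omega

theorem n1_sum_off {f : ℕ → ℝ} {M : ℝ} (hf : ∀ l, 0 ≤ f l)
    (hM : ∀ n, ∑ l ∈ Icc 1 n, f l ≤ M) (i : ℕ) (J : Finset ℕ) (hJ : ∀ j ∈ J, j ≠ i) :
    ∑ j ∈ J, f (ad i j) ≤ 2 * M := by
  rw [← Finset.sum_filter_add_sum_filter_not J (fun j => j < i)]
  have h1 : ∑ j ∈ J.filter (fun j => j < i), f (ad i j) ≤ M := by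
    refine le_trans (Finset.sum_le_sum_of_subset_of_nonneg ?_ fun j _ _ => hf _) (n1_sum_lt hM i)
    intro j hj
    exact Finset.mem_range.2 (Finset.mem_filter.1 hj).2
  have h2 : ∑ j ∈ J.filter (fun j => ¬ j < i), f (ad i j) ≤ M := by
    have e : ∑ j ∈ J.filter (fun j => ¬ j < i), f (ad i j)
        = ∑ l ∈ (J.filter (fun j => ¬ j < i)).image (fun j => j - i), f l := by
      rw [Finset.sum_image]
      · refine Finset.sum_congr rfl fun j hj => ?_
        have := (Finset.mem_filter.1 hj).2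
        congr 1
        unfold ad
        omega
      · intro a ha b hb hab
        have h3 := (Finset.mem_filter.1 (Finset.mem_coe.1 ha)).2
        have h4 := (Finset.mem_filter.1 (Finset.mem_coe.1 hb)).2
        simp only at hab
        omega
    rw [e]
    refine le_trans (Finset.sum_le_sum_of_subset_of_nonneg ?_ fun j _ _ => hf _)
      (hM (J.sup id))
    intro l hl
    obtain ⟨j, hj, rfl⟩ := Finset.mem_image.1 hl
    obtain ⟨hj1, hj2⟩ := Finset.mem_filter.1 hj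
    have h3 := hJ j hj1
    have h4 : j ≤ J.sup id := Finset.le_sup (f := id) hj1
    exact Finset.mem_Icc.2 ⟨by omega, by omega⟩
  linarith only [h1, h2]

/-- Row sums of the whole kernel. -/
theorem n1_sum_all {θ B : ℝ} {W ω : ℕ → ℝ} (h : N1Hyp θ B W ω) (hb2 : B ^ (1 - θ) ≤ 1 / 2)
    (i : ℕ) (J : Finset ℕ) : ∑ j ∈ J, W (ad i j) ≤ 3 := by
  by_cases hi : i ∈ J
  · rw [← Finset.add_sum_erase J _ hi, ad_self', h.w_zero]
    have := n1_sum_off h.w_nonneg h.w_sum i (J.erase i) (fun j hj => Finset.ne_of_mem_erase hj)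
    linarith only [this, hb2]
  · have := n1_sum_off h.w_nonneg h.w_sum i J (fun j hj h => hi (h ▸ hj))
    linarith only [this, hb2]

/-- Two sequences, normalised version with an arbitrary bound for the row sums. -/
theorem n1_bilin_norm {θ K : ℝ} (hθ : 1 / 2 ≤ θ) (I J : Finset ℕ)
    (w : ℕ → ℕ → ℝ) (hw : ∀ i j, 0 ≤ w i j) (φ χ : ℕ → ℝ) (hφ : ∀ i, 0 ≤ φ i)
    (hχ : ∀ i, 0 ≤ χ i) (hφ1 : ∑ i ∈ I, φ i ≤ 1) (hχ1 : ∑ j ∈ J, χ j ≤ 1)
    (h1 : ∀ i ∈ I, ∑ j ∈ J, w i j ≤ K) (h2 : ∀ j ∈ J, ∑ i ∈ I, w i j ≤ K) (hK : 0 ≤ K) :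
    ∑ i ∈ I, ∑ j ∈ J, w i j * (φ i * χ j) ^ θ ≤ K := by
  have hterm : ∀ i ∈ I, ∀ j ∈ J, w i j * (φ i * χ j) ^ θ ≤
      φ i / 2 * w i j + χ j / 2 * w i j := by
    intro i hi j hj
    have hφi : φ i ≤ 1 := (Finset.single_le_sum (fun i _ => hφ i) hi).trans hφ1
    have hχj : χ j ≤ 1 := (Finset.single_le_sum (fun i _ => hχ i) hj).trans hχ1
    have e1 : (φ i) ^ (2 * θ) ≤ φ i := by
      rcases (hφ i).eq_or_lt with h | h
      · rw [← h, Real.zero_rpow (by linarith only [hθ])]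
      · calc (φ i) ^ (2 * θ) ≤ (φ i) ^ (1 : ℝ) :=
            Real.rpow_le_rpow_of_exponent_ge h hφi (by linarith only [hθ])
          _ = φ i := Real.rpow_one _
    have e2 : (χ j) ^ (2 * θ) ≤ χ j := by
      rcases (hχ j).eq_or_lt with h | h
      · rw [← h, Real.zero_rpow (by linarith only [hθ])]
      · calc (χ j) ^ (2 * θ) ≤ (χ j) ^ (1 : ℝ) :=
            Real.rpow_le_rpow_of_exponent_ge h hχj (by linarith only [hθ])
          _ = χ j := Real.rpow_one _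
    have e3 : (φ i * χ j) ^ θ ≤ (φ i) ^ (2 * θ) / 2 + (χ j) ^ (2 * θ) / 2 := by
      rw [Real.mul_rpow (hφ i) (hχ j)]
      have a1 : (φ i) ^ (2 * θ) = ((φ i) ^ θ) ^ 2 := by
        rw [← Real.rpow_natCast, ← Real.rpow_mul (hφ i)]
        norm_num
        ring_nf
      have a2 : (χ j) ^ (2 * θ) = ((χ j) ^ θ) ^ 2 := by
        rw [← Real.rpow_natCast, ← Real.rpow_mul (hχ j)]
        norm_num
        ring_nf
      rw [a1, a2]
      nlinarith only [sq_nonneg ((φ i) ^ θ - (χ j) ^ θ)]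
    have e5 : (φ i * χ j) ^ θ ≤ φ i / 2 + χ j / 2 := by linarith only [e1, e2, e3]
    have := mul_le_mul_of_nonneg_left e5 (hw i j)
    linarith only [this]
  calc ∑ i ∈ I, ∑ j ∈ J, w i j * (φ i * χ j) ^ θ
      ≤ ∑ i ∈ I, ∑ j ∈ J, (φ i / 2 * w i j + χ j / 2 * w i j) :=
        Finset.sum_le_sum fun i hi => Finset.sum_le_sum fun j hj => hterm i hi j hj
    _ = ∑ i ∈ I, φ i / 2 * ∑ j ∈ J, w i j + ∑ j ∈ J, χ j / 2 * ∑ i ∈ I, w i j := by
        simp only [Finset.sum_add_distrib]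
        congr 1
        · refine Finset.sum_congr rfl fun i _ => ?_
          rw [Finset.mul_sum]
        · rw [Finset.sum_comm]
          refine Finset.sum_congr rfl fun j _ => ?_
          rw [Finset.mul_sum]
    _ ≤ ∑ i ∈ I, φ i / 2 * K + ∑ j ∈ J, χ j / 2 * K := by
        refine add_le_add (Finset.sum_le_sum fun i hi => ?_) (Finset.sum_le_sum fun j hj => ?_)
        · exact mul_le_mul_of_nonneg_left (h1 i hi) (by have := hφ i; linarith only [this])
        · exact mul_le_mul_of_nonneg_left (h2 j hj) (by have := hχ j; linarith only [this])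
    _ = (∑ i ∈ I, φ i) / 2 * K + (∑ j ∈ J, χ j) / 2 * K := by
        rw [← Finset.sum_mul, ← Finset.sum_mul, Finset.sum_div, Finset.sum_div]
    _ ≤ 1 / 2 * K + 1 / 2 * K := by
        refine add_le_add ?_ ?_
        · exact mul_le_mul_of_nonneg_right (by linarith only [hφ1]) hK
        · exact mul_le_mul_of_nonneg_right (by linarith only [hχ1]) hK
    _ = K := by ring

/-- General version for all pairs. -/
theorem n1_bilin_all {θ K : ℝ} (hθ : 1 / 2 ≤ θ) (I J : Finset ℕ)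
    (w : ℕ → ℕ → ℝ) (hw : ∀ i j, 0 ≤ w i j) (hK : 0 ≤ K)
    (h1 : ∀ i, ∑ j ∈ J, w i j ≤ K) (h2 : ∀ j, ∑ i ∈ I, w i j ≤ K)
    (φ χ : ℕ → ℝ) (hφ : ∀ i, 0 ≤ φ i) (hχ : ∀ i, 0 ≤ χ i) :
    ∑ i ∈ I, ∑ j ∈ J, w i j * (φ i * χ j) ^ θ ≤
      K * ((∑ i ∈ I, φ i) * ∑ j ∈ J, χ j) ^ θ := by
  have hθ0 : θ ≠ 0 := by linarith only [hθ]
  rcases (Finset.sum_nonneg fun i (_ : i ∈ I) => hφ i).eq_or_lt with h | h
  · have h0 : ∀ i ∈ I, φ i = 0 := (Finset.sum_eq_zero_iff_of_nonneg (fun i _ => hφ i)).1 h.symm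
    rw [← h, zero_mul, Real.zero_rpow hθ0, mul_zero]
    refine le_of_eq (Finset.sum_eq_zero fun i hi => Finset.sum_eq_zero fun j _ => ?_)
    rw [h0 i hi, zero_mul, Real.zero_rpow hθ0, mul_zero]
  rcases (Finset.sum_nonneg fun i (_ : i ∈ J) => hχ i).eq_or_lt with h' | h'
  · have h0 : ∀ i ∈ J, χ i = 0 := (Finset.sum_eq_zero_iff_of_nonneg (fun i _ => hχ i)).1 h'.symm
    rw [← h', mul_zero, Real.zero_rpow hθ0, mul_zero]
    refine le_of_eq (Finset.sum_eq_zero fun i _ => Finset.sum_eq_zero fun j hj => ?_)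
    rw [h0 j hj, mul_zero, Real.zero_rpow hθ0, mul_zero]
  set Φ := ∑ i ∈ I, φ i with hΦ
  set X := ∑ j ∈ J, χ j with hX
  have hmain := n1_bilin_norm hθ I J w hw (fun i => φ i / Φ) (fun j => χ j / X)
    (fun i => div_nonneg (hφ i) h.le) (fun j => div_nonneg (hχ j) h'.le)
    (by rw [← Finset.sum_div, div_self h.ne']) (by rw [← Finset.sum_div, div_self h'.ne'])
    (K := K) (fun i _ => h1 i) (fun j _ => h2 j) hK
  have hpos : 0 < Φ * X := mul_pos h h'
  have hscale : ∀ i j, w i j * (φ i * χ j) ^ θ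
      = (Φ * X) ^ θ * (w i j * (φ i / Φ * (χ j / X)) ^ θ) := by
    intro i j
    have e : φ i * χ j = (Φ * X) * (φ i / Φ * (χ j / X)) := by
      (clear * - h h'; field_simp)
    rw [e, Real.mul_rpow hpos.le (mul_nonneg (div_nonneg (hφ i) h.le) (div_nonneg (hχ j) h'.le))]
    have e2 : Φ * X * (φ i / Φ * (χ j / X)) / (Φ * X) = φ i / Φ * (χ j / X) := by
      (clear * - h' h; field_simp)
    ring
  calc ∑ i ∈ I, ∑ j ∈ J, w i j * (φ i * χ j) ^ θ
      = ∑ i ∈ I, ∑ j ∈ J, (Φ * X) ^ θ * (w i j * (φ i / Φ * (χ j / X)) ^ θ) := by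
        refine Finset.sum_congr rfl fun i _ => Finset.sum_congr rfl fun j _ => hscale i j
    _ = (Φ * X) ^ θ * ∑ i ∈ I, ∑ j ∈ J, w i j * (φ i / Φ * (χ j / X)) ^ θ := by
        simp only [Finset.mul_sum]
    _ ≤ (Φ * X) ^ θ * K :=
        mul_le_mul_of_nonneg_left hmain (Real.rpow_nonneg hpos.le _)
    _ = _ := mul_comm _ _

/-- All pairs, for the kernel `W |i-j|`. -/
theorem n1_bilin_ad {θ B : ℝ} {W ω : ℕ → ℝ} (h : N1Hyp θ B W ω) (hθ : 1 / 2 ≤ θ)
    (hb2 : B ^ (1 - θ) ≤ 1 / 2) (I J : Finset ℕ)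
    (φ χ : ℕ → ℝ) (hφ : ∀ i, 0 ≤ φ i) (hχ : ∀ i, 0 ≤ χ i) :
    ∑ i ∈ I, ∑ j ∈ J, W (ad i j) * (φ i * χ j) ^ θ ≤
      3 * ((∑ i ∈ I, φ i) * ∑ j ∈ J, χ j) ^ θ := by
  refine n1_bilin_all hθ I J (fun i j => W (ad i j)) (fun i j => h.w_nonneg _) (by norm_num)
    (fun i => n1_sum_all h hb2 i J) (fun j => ?_) φ χ hφ hχ
  have := n1_sum_all h hb2 j I
  simpa only [ad_comm', ge_iff_le] using this

/-- Hoelder inequality for one row. -/
theorem n1_holder_row {θ B : ℝ} {W ω : ℕ → ℝ} (h : N1Hyp θ B W ω) (hθ : 0 < θ) (hθ1 : θ < 1)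
    (k : ℕ) (J : Finset ℕ) (hJ : ∀ j ∈ J, j ≠ k) (χ : ℕ → ℝ) (hχ : ∀ i, 0 ≤ χ i) :
    ∑ j ∈ J, W (ad k j) * (χ j) ^ θ ≤
      (∑ j ∈ J, χ j) ^ θ * (∑ j ∈ J, ω (ad k j)) ^ (1 - θ) := by
  have hpq : (1 / θ).HolderConjugate (1 / (1 - θ)) :=
    Real.holderConjugate_one_div hθ (by linarith) (by ring)
  have h3 := Real.inner_le_Lp_mul_Lq_of_nonneg (s := J) (f := fun j => (χ j) ^ θ)
    (g := fun j => (ω (ad k j)) ^ (1 - θ)) hpq (fun j _ => Real.rpow_nonneg (hχ j) _)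
    (fun j _ => Real.rpow_nonneg (h.o_nonneg _) _)
  have e1 : ∀ j, ((χ j) ^ θ) ^ (1 / θ) = χ j := by
    intro j
    rw [← Real.rpow_mul (hχ j), mul_one_div_cancel hθ.ne', Real.rpow_one]
  have e2 : ∀ j, ((ω (ad k j)) ^ (1 - θ)) ^ (1 / (1 - θ)) = ω (ad k j) := by
    intro j
    have h4 : (1 - θ) ≠ 0 := by linarith only [hθ1]
    rw [← Real.rpow_mul (h.o_nonneg _), mul_one_div_cancel h4, Real.rpow_one]
  simp only [e1, e2, one_div_one_div] at h3
  refine le_trans (Finset.sum_le_sum fun j hj => ?_) h3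
  have h5 : 1 ≤ ad k j := by
    have := hJ j hj
    unfold ad
    omega
  have h6 := mul_le_mul_of_nonneg_right (h.w_le _ h5) (Real.rpow_nonneg (hχ j) θ)
  linarith only [h6]

/-- Main estimate of the exact sum around the index `k`. -/
theorem n1_exact_le {θ B : ℝ} {W ω : ℕ → ℝ} (h : N1Hyp θ B W ω)
    (hθ : 1 / 2 < θ) (hθ1 : θ < 1) (hB : 0 < B)
    (hb2 : B ^ (1 - θ) ≤ 1 / 2) (N : ℕ) (φ χ : ℕ → ℝ) (hφ : ∀ i, 0 ≤ φ i) (hχ : ∀ i, 0 ≤ χ i)
    (hφ1 : ∑ i ∈ range (N + 1), φ i = 1) (hχ1 : ∑ i ∈ range (N + 1), χ i = 1) {k : ℕ}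
    (hk : k ∈ range (N + 1)) :
    ∑ i ∈ range (N + 1), ∑ j ∈ range (N + 1), W (ad i j) * (φ i * χ j) ^ θ ≤
      (φ k) ^ θ * (χ k) ^ θ + 2 * B ^ (1 - θ) * ((1 - φ k) ^ θ + (1 - χ k) ^ θ) +
        3 * ((1 - φ k) * (1 - χ k)) ^ θ := by
  set r := range (N + 1) with hr
  set b := B ^ (1 - θ) with hb
  have hb0 : 0 < b := Real.rpow_pos_of_pos hB _
  have hξ : ∑ i ∈ r.erase k, φ i = 1 - φ k := by
    rw [← hφ1, ← Finset.add_sum_erase r _ hk]; ring
  have hζ : ∑ i ∈ r.erase k, χ i = 1 - χ k := by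
    rw [← hχ1, ← Finset.add_sum_erase r _ hk]; ring
  have hφk : φ k ≤ 1 := by
    rw [← hφ1]; exact Finset.single_le_sum (fun i _ => hφ i) hk
  have hχk : χ k ≤ 1 := by
    rw [← hχ1]; exact Finset.single_le_sum (fun i _ => hχ i) hk
  have hKB : (∑ j ∈ r.erase k, ω (ad k j)) ^ (1 - θ) ≤ 2 * b := by
    have h1 := n1_sum_off h.o_nonneg h.o_sum k (r.erase k)
      (fun j hj => Finset.ne_of_mem_erase hj)
    have h0 : 0 ≤ ∑ j ∈ r.erase k, ω (ad k j) := Finset.sum_nonneg fun j _ => h.o_nonneg _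
    calc (∑ j ∈ r.erase k, ω (ad k j)) ^ (1 - θ) ≤ (2 * B) ^ (1 - θ) :=
          Real.rpow_le_rpow h0 h1 (by linarith only [hθ1])
      _ = 2 ^ (1 - θ) * b := by rw [Real.mul_rpow (by norm_num) hB.le]
      _ ≤ 2 * b := by
          refine mul_le_mul_of_nonneg_right ?_ hb0.le
          calc (2 : ℝ) ^ (1 - θ) ≤ (2 : ℝ) ^ (1 : ℝ) :=
                Real.rpow_le_rpow_of_exponent_le (by norm_num) (by linarith only [hθ])
            _ = 2 := Real.rpow_one _
  rw [split_cross hk]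
  have t1 : W (ad k k) * (φ k * χ k) ^ θ = (φ k) ^ θ * (χ k) ^ θ := by
    rw [ad_self', h.w_zero, one_mul, Real.mul_rpow (hφ k) (hχ k)]
  have t2 : ∑ j ∈ r.erase k, W (ad k j) * (φ k * χ j) ^ θ ≤ 2 * b * (1 - χ k) ^ θ := by
    calc ∑ j ∈ r.erase k, W (ad k j) * (φ k * χ j) ^ θ
        ≤ ∑ j ∈ r.erase k, W (ad k j) * (χ j) ^ θ := by
          refine Finset.sum_le_sum fun j _ => mul_le_mul_of_nonneg_left ?_ (h.w_nonneg _)
          exact Real.rpow_le_rpow (mul_nonneg (hφ k) (hχ j))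
            (mul_le_of_le_one_left (hχ j) hφk) (by linarith only [hθ])
      _ ≤ (∑ j ∈ r.erase k, χ j) ^ θ * (∑ j ∈ r.erase k, ω (ad k j)) ^ (1 - θ) :=
          n1_holder_row h (by linarith only [hθ]) hθ1 k _
            (fun j hj => Finset.ne_of_mem_erase hj) χ hχ
      _ ≤ (1 - χ k) ^ θ * (2 * b) := by
          rw [hζ]
          exact mul_le_mul_of_nonneg_left hKB (Real.rpow_nonneg (by linarith only [hχk]) _)
      _ = _ := by ring
  have t3 : ∑ i ∈ r.erase k, W (ad i k) * (φ i * χ k) ^ θ ≤ 2 * b * (1 - φ k) ^ θ := by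
    calc ∑ i ∈ r.erase k, W (ad i k) * (φ i * χ k) ^ θ
        ≤ ∑ i ∈ r.erase k, W (ad k i) * (φ i) ^ θ := by
          refine Finset.sum_le_sum fun i _ => ?_
          rw [ad_comm' i k]
          refine mul_le_mul_of_nonneg_left ?_ (h.w_nonneg _)
          exact Real.rpow_le_rpow (mul_nonneg (hφ i) (hχ k))
            (mul_le_of_le_one_right (hφ i) hχk) (by linarith only [hθ])
      _ ≤ (∑ j ∈ r.erase k, φ j) ^ θ * (∑ j ∈ r.erase k, ω (ad k j)) ^ (1 - θ) :=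
          n1_holder_row h (by linarith only [hθ]) hθ1 k _
            (fun j hj => Finset.ne_of_mem_erase hj) φ hφ
      _ ≤ (1 - φ k) ^ θ * (2 * b) := by
          rw [hξ]
          exact mul_le_mul_of_nonneg_left hKB (Real.rpow_nonneg (by linarith only [hφk]) _)
      _ = _ := by ring
  have t4 : ∑ i ∈ r.erase k, ∑ j ∈ r.erase k, W (ad i j) * (φ i * χ j) ^ θ ≤
      3 * ((1 - φ k) * (1 - χ k)) ^ θ := by
    have h7 := n1_bilin_ad h hθ.le hb2 (r.erase k) (r.erase k) φ χ hφ hχ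
    rwa [hξ, hζ] at h7
  rw [t1]
  linarith only [t2, t3, t4]

/-- Estimate of the cells outside the `L`-shaped cell `k`. -/
theorem n1_lcell_le {θ B : ℝ} {W ω : ℕ → ℝ} (h : N1Hyp θ B W ω)
    (hθ : 1 / 2 < θ) (hθ1 : θ < 1) (hB : 0 < B)
    (hb2 : B ^ (1 - θ) ≤ 1 / 2) (N : ℕ) (φ χ : ℕ → ℝ) (hφ : ∀ i, 0 ≤ φ i) (hχ : ∀ i, 0 ≤ χ i)
    (hφ1 : ∑ i ∈ range (N + 1), φ i = 1) (hχ1 : ∑ i ∈ range (N + 1), χ i = 1) {k : ℕ}
    (hk : k ∈ range (N + 1)) :
    ∑ i ∈ range (N + 1), ∑ j ∈ range (N + 1),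
      (if min i j = k then 0 else W (ad i j) * (φ i * χ j) ^ θ) ≤
      (1 + 2 * B) * B ^ (1 - θ) * ((∑ i ∈ range k, φ i) ^ θ + (∑ i ∈ range k, χ i) ^ θ) +
        3 * ((1 - φ k) * (1 - χ k)) ^ θ := by
  set r := range (N + 1) with hr
  set b := B ^ (1 - θ) with hb
  have hb0 : 0 < b := Real.rpow_pos_of_pos hB _
  have hξ : ∑ i ∈ r.erase k, φ i = 1 - φ k := by
    rw [← hφ1, ← Finset.add_sum_erase r _ hk]; ring
  have hζ : ∑ i ∈ r.erase k, χ i = 1 - χ k := by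
    rw [← hχ1, ← Finset.add_sum_erase r _ hk]; ring
  have hφk : φ k ≤ 1 := by
    rw [← hφ1]; exact Finset.single_le_sum (fun i _ => hφ i) hk
  have hχk : χ k ≤ 1 := by
    rw [← hχ1]; exact Finset.single_le_sum (fun i _ => hχ i) hk
  have hkN : k < N + 1 := Finset.mem_range.1 hk
  have hKB : (∑ j ∈ range k, ω (ad k j)) ^ (1 - θ) ≤ (1 + 2 * B) * b := by
    have h1 := n1_sum_lt h.o_sum k
    have h0 : 0 ≤ ∑ j ∈ range k, ω (ad k j) := Finset.sum_nonneg fun j _ => h.o_nonneg _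
    calc (∑ j ∈ range k, ω (ad k j)) ^ (1 - θ) ≤ B ^ (1 - θ) :=
          Real.rpow_le_rpow h0 h1 (by linarith only [hθ1])
      _ = 1 * b := by rw [one_mul]
      _ ≤ (1 + 2 * B) * b := mul_le_mul_of_nonneg_right (by linarith only [hB]) hb0.le
  have hT0 : ∀ i j, 0 ≤ W (ad i j) * (φ i * χ j) ^ θ := fun i j =>
    mul_nonneg (h.w_nonneg _) (Real.rpow_nonneg (mul_nonneg (hφ i) (hχ j)) _)
  have hne : ∀ j ∈ range k, j ≠ k := fun j hj => (Finset.mem_range.1 hj).ne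
  rw [split_cross hk (fun i j => if min i j = k then 0 else W (ad i j) * (φ i * χ j) ^ θ)]
  have t1 : (if min k k = k then (0 : ℝ) else W (ad k k) * (φ k * χ k) ^ θ) = 0 := by simp
  have t2 : ∑ j ∈ r.erase k, (if min k j = k then (0 : ℝ) else W (ad k j) * (φ k * χ j) ^ θ) ≤
      (1 + 2 * B) * b * (∑ i ∈ range k, χ i) ^ θ := by
    calc ∑ j ∈ r.erase k, (if min k j = k then (0 : ℝ) else W (ad k j) * (φ k * χ j) ^ θ)
        ≤ ∑ j ∈ range k, W (ad k j) * (χ j) ^ θ := by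
          have e : ∑ j ∈ r.erase k, (if min k j = k then (0 : ℝ) else
              W (ad k j) * (φ k * χ j) ^ θ)
              = ∑ j ∈ (r.erase k).filter (fun j => j < k), W (ad k j) * (φ k * χ j) ^ θ := by
            rw [Finset.sum_filter]
            refine Finset.sum_congr rfl fun j hj => ?_
            have hjk : j ≠ k := Finset.ne_of_mem_erase hj
            by_cases hlt : j < k
            · rw [if_neg (by (clear * - hlt; omega)), if_pos hlt]
            · rw [if_pos (by omega), if_neg hlt]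
          rw [e]
          have hsub : (r.erase k).filter (fun j => j < k) ⊆ range k := by
            intro j hj
            exact Finset.mem_range.2 (Finset.mem_filter.1 hj).2
          refine (Finset.sum_le_sum_of_subset_of_nonneg hsub
            (fun j _ _ => hT0 k j)).trans ?_
          refine Finset.sum_le_sum fun j _ => mul_le_mul_of_nonneg_left ?_ (h.w_nonneg _)
          exact Real.rpow_le_rpow (mul_nonneg (hφ k) (hχ j))
            (mul_le_of_le_one_left (hχ j) hφk) (by linarith only [hθ])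
      _ ≤ (∑ j ∈ range k, χ j) ^ θ * (∑ j ∈ range k, ω (ad k j)) ^ (1 - θ) :=
          n1_holder_row h (by linarith only [hθ]) hθ1 k _ hne χ hχ
      _ ≤ (∑ j ∈ range k, χ j) ^ θ * ((1 + 2 * B) * b) :=
          mul_le_mul_of_nonneg_left hKB
            (Real.rpow_nonneg (Finset.sum_nonneg fun i _ => hχ i) _)
      _ = _ := by ring
  have t3 : ∑ i ∈ r.erase k, (if min i k = k then (0 : ℝ) else W (ad i k) * (φ i * χ k) ^ θ) ≤
      (1 + 2 * B) * b * (∑ i ∈ range k, φ i) ^ θ := by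
    calc ∑ i ∈ r.erase k, (if min i k = k then (0 : ℝ) else W (ad i k) * (φ i * χ k) ^ θ)
        ≤ ∑ i ∈ range k, W (ad k i) * (φ i) ^ θ := by
          have e : ∑ i ∈ r.erase k, (if min i k = k then (0 : ℝ) else
              W (ad i k) * (φ i * χ k) ^ θ)
              = ∑ i ∈ (r.erase k).filter (fun i => i < k), W (ad i k) * (φ i * χ k) ^ θ := by
            rw [Finset.sum_filter]
            refine Finset.sum_congr rfl fun i hi => ?_
            have hik : i ≠ k := Finset.ne_of_mem_erase hi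
            by_cases hlt : i < k
            · rw [if_neg (by (clear * - hlt; omega)), if_pos hlt]
            · rw [if_pos (by omega), if_neg hlt]
          rw [e]
          have hsub : (r.erase k).filter (fun i => i < k) ⊆ range k := by
            intro i hi
            exact Finset.mem_range.2 (Finset.mem_filter.1 hi).2
          refine (Finset.sum_le_sum_of_subset_of_nonneg hsub
            (fun i _ _ => hT0 i k)).trans ?_
          refine Finset.sum_le_sum fun i _ => ?_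
          rw [ad_comm' i k]
          refine mul_le_mul_of_nonneg_left ?_ (h.w_nonneg _)
          exact Real.rpow_le_rpow (mul_nonneg (hφ i) (hχ k))
            (mul_le_of_le_one_right (hφ i) hχk) (by linarith only [hθ])
      _ ≤ (∑ j ∈ range k, φ j) ^ θ * (∑ j ∈ range k, ω (ad k j)) ^ (1 - θ) :=
          n1_holder_row h (by linarith only [hθ]) hθ1 k _ hne φ hφ
      _ ≤ (∑ j ∈ range k, φ j) ^ θ * ((1 + 2 * B) * b) :=
          mul_le_mul_of_nonneg_left hKB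
            (Real.rpow_nonneg (Finset.sum_nonneg fun i _ => hφ i) _)
      _ = _ := by ring
  have t4 : ∑ i ∈ r.erase k, ∑ j ∈ r.erase k,
      (if min i j = k then (0 : ℝ) else W (ad i j) * (φ i * χ j) ^ θ) ≤
      3 * ((1 - φ k) * (1 - χ k)) ^ θ := by
    have h7 := n1_bilin_ad h hθ.le hb2 (r.erase k) (r.erase k) φ χ hφ hχ
    rw [hξ, hζ] at h7
    refine le_trans (Finset.sum_le_sum fun i _ => Finset.sum_le_sum fun j _ => ?_) h7
    split_ifs
    · exact hT0 i j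
    · exact le_rfl
  rw [t1]
  linarith only [t2, t3, t4]

/-- If the exact sum exceeds one then there is a common index carrying almost all the mass. -/
theorem n1_exists_peak {θ B : ℝ} {W ω : ℕ → ℝ} (h : N1Hyp θ B W ω)
    (hθ : 1 / 2 < θ) (hθ1 : θ < 1) (hb0 : 0 ≤ B ^ (1 - θ)) (hb2 : B ^ (1 - θ) ≤ 1 / 4)
    (N : ℕ) (φ χ : ℕ → ℝ) (hφ : ∀ i, 0 ≤ φ i) (hχ : ∀ i, 0 ≤ χ i)
    (hφ1 : ∑ i ∈ range (N + 1), φ i = 1) (hχ1 : ∑ i ∈ range (N + 1), χ i = 1)
    (hS : 1 < ∑ i ∈ range (N + 1), ∑ j ∈ range (N + 1), W (ad i j) * (φ i * χ j) ^ θ) :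
    ∃ k ∈ range (N + 1), 1 - φ k ≤ 1 / (θ - 1 / 2) * (4 * B ^ (1 - θ)) ∧
      1 - χ k ≤ 1 / (θ - 1 / 2) * (4 * B ^ (1 - θ)) := by
  set r := range (N + 1) with hr
  set b := B ^ (1 - θ) with hb
  have hne : r.Nonempty := ⟨0, by simp only [hr, mem_range, lt_add_iff_pos_left,
    Order.lt_add_one_iff, zero_le]⟩
  obtain ⟨k, hk, hmax⟩ := Finset.exists_max_image r (fun i => φ i * χ i) hne
  refine ⟨k, hk, ?_⟩
  have hφk : φ k ≤ 1 := by
    rw [← hφ1]; exact Finset.single_le_sum (fun i _ => hφ i) hk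
  have hχk : χ k ≤ 1 := by
    rw [← hχ1]; exact Finset.single_le_sum (fun i _ => hχ i) hk
  have hm0 : 0 ≤ φ k * χ k := mul_nonneg (hφ k) (hχ k)
  -- splitting into diagonal and off-diagonal part
  have hsplit : ∑ i ∈ r, ∑ j ∈ r, W (ad i j) * (φ i * χ j) ^ θ
      = ∑ i ∈ r, (φ i * χ i) ^ θ +
        ∑ i ∈ r, ∑ j ∈ r, (if i ≠ j then W (ad i j) else 0) * (φ i * χ j) ^ θ := by
    rw [← Finset.sum_add_distrib]
    refine Finset.sum_congr rfl fun i hi => ?_
    rw [← Finset.add_sum_erase r _ hi, ← Finset.add_sum_erase r (fun j => (if i ≠ j then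
      W (ad i j) else 0) * (φ i * χ j) ^ θ) hi]
    simp only [ad_self', h.w_zero, one_mul, ne_eq, not_true_eq_false, if_false, zero_mul,
      zero_add]
    congr 1
    refine Finset.sum_congr rfl fun j hj => ?_
    rw [if_pos (Finset.ne_of_mem_erase hj).symm]
  have hoff : ∑ i ∈ r, ∑ j ∈ r, (if i ≠ j then W (ad i j) else 0) * (φ i * χ j) ^ θ ≤ 4 * b := by
    refine n1_bilin_norm hθ.le r r (fun i j => if i ≠ j then W (ad i j) else 0) ?_ φ χ hφ hχ
      hφ1.le hχ1.le ?_ ?_ (by linarith only [hb0])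
    · intro i j
      split_ifs
      · exact h.w_nonneg _
      · exact le_rfl
    · intro i _
      rw [← Finset.sum_filter]
      have := n1_sum_off h.w_nonneg h.w_sum i (r.filter (fun j => i ≠ j))
        (fun j hj => (Finset.mem_filter.1 hj).2.symm)
      linarith only [this]
    · intro j _
      rw [← Finset.sum_filter]
      have := n1_sum_off h.w_nonneg h.w_sum j (r.filter (fun i => i ≠ j))
        (fun i hi => (Finset.mem_filter.1 hi).2)
      have e : ∑ i ∈ r.filter (fun i => i ≠ j), W (ad i j)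
          = ∑ i ∈ r.filter (fun i => i ≠ j), W (ad j i) :=
        Finset.sum_congr rfl fun i _ => by rw [ad_comm']
      rw [e]
      linarith only [this]
  have hdiag : ∑ i ∈ r, (φ i * χ i) ^ θ ≤ (φ k * χ k) ^ (θ - 1 / 2) := by
    calc ∑ i ∈ r, (φ i * χ i) ^ θ
        ≤ ∑ i ∈ r, (φ k * χ k) ^ (θ - 1 / 2) * ((φ i + χ i) / 2) := by
          refine Finset.sum_le_sum fun i hi => ?_
          have h0 : 0 ≤ φ i * χ i := mul_nonneg (hφ i) (hχ i)
          have e : (φ i * χ i) ^ θ = (φ i * χ i) ^ (θ - 1 / 2) * (φ i * χ i) ^ (1 / 2 : ℝ) := by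
            rw [← Real.rpow_add_of_nonneg h0 (by linarith only [hθ]) (by norm_num)]
            congr 1
            ring
          rw [e]
          refine mul_le_mul (Real.rpow_le_rpow h0 (hmax i hi) (by linarith only [hθ])) ?_
            (Real.rpow_nonneg h0 _) (Real.rpow_nonneg hm0 _)
          rw [← Real.sqrt_eq_rpow]
          refine Real.sqrt_le_iff.2 ⟨by
            have h8 := hφ i
            have h9 := hχ i
            linarith only [h8, h9], ?_⟩
          nlinarith only [sq_nonneg (φ i - χ i)]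
      _ = (φ k * χ k) ^ (θ - 1 / 2) := by
          rw [← Finset.mul_sum, ← Finset.sum_div, Finset.sum_add_distrib, hφ1, hχ1]
          norm_num
  have hbig : 1 - 4 * b ≤ (φ k * χ k) ^ (θ - 1 / 2) := by
    rw [hsplit] at hS
    linarith only [hS, hoff, hdiag]
  have hr1 : 1 ≤ 1 / (θ - 1 / 2) := by
    rw [le_div_iff₀ (by linarith only [hθ])]
    linarith only [hθ1]
  have hm : 1 - 1 / (θ - 1 / 2) * (4 * b) ≤ φ k * χ k := by
    have h1 := one_add_mul_self_le_rpow_one_add (s := -(4 * b)) (by linarith only [hb2]) hr1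
    have h2 : (1 - 4 * b) ^ (1 / (θ - 1 / 2)) ≤ φ k * χ k := by
      calc (1 - 4 * b) ^ (1 / (θ - 1 / 2))
          ≤ ((φ k * χ k) ^ (θ - 1 / 2)) ^ (1 / (θ - 1 / 2)) :=
            Real.rpow_le_rpow (by linarith only [hb2]) hbig (by linarith only [hr1])
        _ = φ k * χ k := by
            rw [← Real.rpow_mul hm0, mul_one_div_cancel (by linarith only [hθ]), Real.rpow_one]
    have e : (1 : ℝ) + -(4 * b) = 1 - 4 * b := by ring
    rw [e] at h1
    linarith only [h1, h2]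
  constructor
  · have : φ k * χ k ≤ φ k := mul_le_of_le_one_right (hφ k) hχk
    linarith only [hm, this]
  · have : φ k * χ k ≤ χ k := mul_le_of_le_one_left (hχ k) hφk
    linarith only [hm, this]

/-- Normalised form of `SPw_small`. -/
theorem n1_norm_small {θ : ℝ} (hθ : 1 / 2 < θ) (hθ1 : θ < 1) :
    ∃ B₀ > 0, ∃ C ≥ 0, B₀ < 1 ∧ ∀ (W ω : ℕ → ℝ) (B x : ℝ), 0 < B → B ≤ B₀ → 0 ≤ x → x ≤ B →
      N1Hyp θ B W ω → ∀ (N : ℕ) (φ χ : ℕ → ℝ), (∀ i, 0 ≤ φ i) → (∀ i, 0 ≤ χ i) →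
      ∑ i ∈ range (N + 1), φ i = 1 → ∑ i ∈ range (N + 1), χ i = 1 →
      (∑ i ∈ range (N + 1), ∑ j ∈ range (N + 1), W (ad i j) * (φ i * χ j) ^ θ ≤ 1) ∨
      ∃ k ≤ N, (if k = 0 then (1 : ℝ) else (1 - x) ^ (2 * (1 - θ))) *
          ((∑ i ∈ Icc k N, φ i) * ∑ j ∈ Icc k N, χ j) ^ θ
        + ∑ i ∈ range (N + 1), ∑ j ∈ range (N + 1),
            (if min i j = k then 0 else W (ad i j) * (φ i * χ j) ^ θ)
        ≤ 1 + 2 * (1 - θ) * (B - x) + C * B ^ (2 * θ) := by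
  have hlam : 0 < 1 - θ := by linarith only [hθ1]
  set C₁ : ℝ := (16 / (3 * θ)) ^ (1 / (1 - θ)) with hC₁
  have h16 : 1 ≤ 16 / (3 * θ) := by
    rw [le_div_iff₀ (by linarith only [hθ])]
    linarith only [hθ1]
  have hC1 : 1 ≤ C₁ := Real.one_le_rpow h16 (by positivity)
  have hCθ : C₁ ^ (1 - θ) = 16 / (3 * θ) := by
    rw [hC₁, ← Real.rpow_mul (by linarith only [h16]), one_div_mul_cancel hlam.ne', Real.rpow_one]
  set T₀ : ℝ := min 1 ((θ / 8) ^ (1 / (2 * θ - 1))) with hT₀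
  have h2θ : 0 < 2 * θ - 1 := by linarith only [hθ]
  have hT0 : 0 < T₀ := lt_min one_pos (Real.rpow_pos_of_pos (by linarith only [hθ]) _)
  have hT1 : T₀ ≤ 1 := min_le_left _ _
  have hTθ : T₀ ^ (2 * θ - 1) ≤ θ / 8 := by
    calc T₀ ^ (2 * θ - 1) ≤ ((θ / 8) ^ (1 / (2 * θ - 1))) ^ (2 * θ - 1) :=
          Real.rpow_le_rpow hT0.le (min_le_right _ _) h2θ.le
      _ = θ / 8 := by
          rw [← Real.rpow_mul (by linarith only [hθ]), one_div_mul_cancel h2θ.ne', Real.rpow_one]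
  set ρ : ℝ := 1 / (θ - 1 / 2) with hρ
  have hρ0 : 0 < ρ := by
    rw [hρ]
    have : 0 < θ - 1 / 2 := by linarith only [hθ]
    positivity
  set β : ℝ := min (1 / 4) (T₀ / (4 * ρ)) with hβ
  have hβ0 : 0 < β := lt_min (by norm_num) (by positivity)
  have hβ4 : β ≤ 1 / 4 := min_le_left _ _
  have hβT : ρ * (4 * β) ≤ T₀ := by
    have h : β ≤ T₀ / (4 * ρ) := min_le_right _ _
    rw [le_div_iff₀ (by positivity)] at h
    linarith only [h]
  have hβ1 : β ^ (1 / (1 - θ)) ≤ 1 / 2 := by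
    calc β ^ (1 / (1 - θ)) ≤ β ^ (1 : ℝ) := by
          refine Real.rpow_le_rpow_of_exponent_ge hβ0 (by linarith only [hβ4]) ?_
          rw [le_div_iff₀ hlam]
          linarith only [hθ]
      _ ≤ 1 / 2 := by
          rw [Real.rpow_one]
          linarith only [hβ4]
  refine ⟨β ^ (1 / (1 - θ)), Real.rpow_pos_of_pos hβ0 _, 14 * C₁ ^ 2, by positivity,
    by linarith only [hβ1], ?_⟩
  intro W ω B x hB hBB hx hxB hW N φ χ hφ hχ hφ1 hχ1
  have hB2 : B ≤ 1 / 2 := hBB.trans hβ1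
  have hbβ : B ^ (1 - θ) ≤ β := by
    calc B ^ (1 - θ) ≤ (β ^ (1 / (1 - θ))) ^ (1 - θ) := Real.rpow_le_rpow hB.le hBB hlam.le
      _ = β := by rw [← Real.rpow_mul hβ0.le, one_div_mul_cancel hlam.ne', Real.rpow_one]
  have hb0 : 0 < B ^ (1 - θ) := Real.rpow_pos_of_pos hB _
  by_cases hS : ∑ i ∈ range (N + 1), ∑ j ∈ range (N + 1),
      W (ad i j) * (φ i * χ j) ^ θ ≤ 1
  · exact Or.inl hS
  push Not at hS
  obtain ⟨k, hk, hk1, hk2⟩ := n1_exists_peak hW hθ hθ1 hb0.le (hbβ.trans hβ4) N φ χ hφ hχ hφ1 hχ1 hS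
  have hφk : φ k ≤ 1 := by
    rw [← hφ1]; exact Finset.single_le_sum (fun i _ => hφ i) hk
  have hχk : χ k ≤ 1 := by
    rw [← hχ1]; exact Finset.single_le_sum (fun i _ => hχ i) hk
  have hξT : 1 - φ k ≤ T₀ := by
    refine hk1.trans (le_trans ?_ hβT)
    exact mul_le_mul_of_nonneg_left (by linarith only [hbβ]) hρ0.le
  have hζT : 1 - χ k ≤ T₀ := by
    refine hk2.trans (le_trans ?_ hβT)
    exact mul_le_mul_of_nonneg_left (by linarith only [hbβ]) hρ0.le
  by_cases hmax : C₁ * B ≤ max (1 - φ k) (1 - χ k)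
  · exfalso
    have h1 := n1_exact_le hW hθ hθ1 hB (by linarith only [hβ4, hbβ]) N φ χ hφ hχ hφ1 hχ1 hk
    have h2 := num_far (ξ := 1 - φ k) (ζ := 1 - χ k) hθ hθ1 hB rfl (by linarith only [hC1]) hCθ hT1 hTθ
      (by linarith only [hφk]) hξT (by linarith only [hχk]) hζT hmax
    have e1 : 1 - (1 - φ k) = φ k := by ring
    have e2 : 1 - (1 - χ k) = χ k := by ring
    rw [e1, e2] at h2
    linarith only [hS, h1, h2]
  push Not at hmax
  have hm1 : 1 - φ k ≤ C₁ * B := (le_max_left _ _).trans hmax.le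
  have hm2 : 1 - χ k ≤ C₁ * B := (le_max_right _ _).trans hmax.le
  right
  have hkN : k ≤ N := by
    have := Finset.mem_range.1 hk
    (clear * - this; omega)
  refine ⟨k, hkN, ?_⟩
  have hL := n1_lcell_le hW hθ hθ1 hB (by linarith only [hβ4, hbβ]) N φ χ hφ hχ hφ1 hχ1 hk
  have hnb : ∀ ψ : ℕ → ℝ, (∀ i, 0 ≤ ψ i) → ∑ i ∈ range (N + 1), ψ i = 1 →
      ∑ i ∈ Icc k N, ψ i = 1 - ∑ i ∈ range k, ψ i ∧ ∑ i ∈ range k, ψ i ≤ 1 - ψ k := by
    intro ψ hψ hψ1
    have h1 : ∑ i ∈ range k, ψ i + ∑ i ∈ Icc k N, ψ i = 1 := by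
      rw [← hψ1, ← Finset.sum_union]
      · refine Finset.sum_congr ?_ fun _ _ => rfl
        ext i
        simp only [mem_union, mem_range, mem_Icc]
        omega
      · rw [Finset.disjoint_left]
        intro i hi hi'
        rw [Finset.mem_range] at hi
        rw [Finset.mem_Icc] at hi'
        omega
    have h2 : ψ k ≤ ∑ i ∈ Icc k N, ψ i :=
      Finset.single_le_sum (fun i _ => hψ i) (Finset.mem_Icc.2 ⟨le_rfl, hkN⟩)
    constructor <;> linarith only [h1, h2]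
  obtain ⟨p1, p2⟩ := hnb φ hφ hφ1
  obtain ⟨p3, p4⟩ := hnb χ hχ hχ1
  have q1 : 0 ≤ ∑ i ∈ range k, φ i := Finset.sum_nonneg fun i _ => hφ i
  have q2 : 0 ≤ ∑ i ∈ range k, χ i := Finset.sum_nonneg fun i _ => hχ i
  have hn := num_near (x := x) (ξ := 1 - φ k) (ζ := 1 - χ k) (ξ' := ∑ i ∈ range k, φ i)
    (ζ' := ∑ i ∈ range k, χ i) hθ hθ1 hB hB2 rfl hC1 hx hxB (by linarith only [hφk]) (by linarith only [hχk]) hm1 hm2
    q1 q2 p2 p4 (by have := hφ k; linarith only [hT1, hξT]) (by have := hχ k; linarith only [hT1, hζT])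
  rw [p1, p3]
  by_cases hk0 : k = 0
  · rw [if_pos hk0]
    subst hk0
    simp only [Finset.range_zero, Finset.sum_empty, sub_zero, mul_one, Real.one_rpow] at hL ⊢
    have hn' := num_near (x := x) (ξ := 1 - φ 0) (ζ := 1 - χ 0) (ξ' := 0) (ζ' := 0) hθ hθ1 hB hB2
      rfl hC1 hx hxB (by linarith only [hφk]) (by linarith only [hχk]) hm1 hm2
      le_rfl le_rfl (by linarith only [hφk]) (by linarith only [hχk]) (by have := hφ 0; linarith only [hT1, hξT])
      (by have := hχ 0; linarith only [hT1, hζT])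
    have h0 : (0 : ℝ) ^ θ = 0 := Real.zero_rpow (by linarith only [hθ])
    rw [h0] at hL
    have b8 : 3 * ((1 - φ 0) * (1 - χ 0)) ^ θ ≤ 14 * C₁ ^ 2 * B ^ (2 * θ) := by
      have hC0 : 0 ≤ C₁ * B := by positivity
      have h3 : ((1 - φ 0) * (1 - χ 0)) ^ θ ≤ C₁ ^ 2 * B ^ (2 * θ) := by
        calc ((1 - φ 0) * (1 - χ 0)) ^ θ ≤ ((C₁ * B) * (C₁ * B)) ^ θ :=
              Real.rpow_le_rpow (mul_nonneg (by linarith only [hφk]) (by linarith only [hχk]))
                (mul_le_mul hm1 hm2 (by linarith only [hχk]) hC0) (by linarith only [hθ])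
          _ = (C₁ * B) ^ (2 * θ) := by
              rw [Real.mul_rpow hC0 hC0, ← Real.rpow_add (by (clear * - hθ hB; positivity))]
              congr 1
              ring
          _ = C₁ ^ (2 * θ) * B ^ (2 * θ) := Real.mul_rpow (by linarith only [hC1]) hB.le
          _ ≤ C₁ ^ 2 * B ^ (2 * θ) := by
              refine mul_le_mul_of_nonneg_right ?_ (Real.rpow_nonneg hB.le _)
              rw [← Real.rpow_natCast]
              exact Real.rpow_le_rpow_of_exponent_le hC1 (by push_cast; linarith only [hθ1])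
      have h4 : 0 ≤ C₁ ^ 2 * B ^ (2 * θ) := by positivity
      linarith only [h3, h4]
    have h5 : 0 ≤ 2 * (1 - θ) * (B - x) := mul_nonneg (by linarith only [hθ1]) (by linarith only [hxB])
    linarith only [hL, b8, h5]
  · rw [if_neg hk0]
    linarith only [hL, hn]

theorem SPw_small {θ : ℝ} (hθ : 1 / 2 < θ) (hθ1 : θ < 1) :
    ∃ B₀ > 0, ∃ C ≥ 0, B₀ < 1 ∧ ∀ (W ω : ℕ → ℝ) (B x : ℝ), 0 < B → B ≤ B₀ → 0 ≤ x → x ≤ B →
      W 0 = 1 → (∀ l, 0 ≤ W l) → (∀ l, 0 ≤ ω l) → (∀ l, 1 ≤ l → W l ≤ (ω l) ^ (1 - θ)) →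
      (∀ n, ∑ l ∈ Icc 1 n, ω l ≤ B) → (∀ n, ∑ l ∈ Icc 1 n, W l ≤ 2 * B ^ (1 - θ)) →
      SPw θ W x (1 + 2 * (1 - θ) * (B - x) + C * B ^ (2 * θ)) := by
  obtain ⟨B₀, hB₀, C, hC, hB₀1, hmain⟩ := n1_norm_small hθ hθ1
  refine ⟨B₀, hB₀, C, hC, hB₀1, ?_⟩
  intro W ω B x hB hBB hx hxB hw0 hwn hon hwo hos hws N φ χ hφ hχ
  have hW : N1Hyp θ B W ω := ⟨hw0, hwn, hon, hwo, hos, hws⟩
  have hθ0 : θ ≠ 0 := by (clear * - hθ hθ1; linarith)
  set c : ℝ := 1 + 2 * (1 - θ) * (B - x) + C * B ^ (2 * θ) with hc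
  have hc1 : 1 ≤ c := by
    have h1 : 0 ≤ 2 * (1 - θ) * (B - x) := mul_nonneg (by linarith only [hθ1]) (by linarith only [hxB])
    have h2 : 0 ≤ C * B ^ (2 * θ) := mul_nonneg hC (Real.rpow_nonneg hB.le _)
    linarith only [h1, h2]
  set Φ := ∑ i ∈ range (N + 1), φ i with hΦ
  set X := ∑ i ∈ range (N + 1), χ i with hX
  have hΦ0 : 0 ≤ Φ := Finset.sum_nonneg fun i _ => hφ i
  have hX0 : 0 ≤ X := Finset.sum_nonneg fun i _ => hχ i
  rcases hΦ0.eq_or_lt with h | h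
  · left
    have h0 : ∀ i ∈ range (N + 1), φ i = 0 :=
      (Finset.sum_eq_zero_iff_of_nonneg (fun i _ => hφ i)).1 h.symm
    rw [← h, zero_mul, Real.zero_rpow hθ0, mul_zero]
    refine le_of_eq (Finset.sum_eq_zero fun i hi => Finset.sum_eq_zero fun j _ => ?_)
    rw [h0 i hi, zero_mul, Real.zero_rpow hθ0, mul_zero]
  rcases hX0.eq_or_lt with h' | h'
  · left
    have h0 : ∀ i ∈ range (N + 1), χ i = 0 :=
      (Finset.sum_eq_zero_iff_of_nonneg (fun i _ => hχ i)).1 h'.symm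
    rw [← h', mul_zero, Real.zero_rpow hθ0, mul_zero]
    refine le_of_eq (Finset.sum_eq_zero fun i _ => Finset.sum_eq_zero fun j hj => ?_)
    rw [h0 j hj, mul_zero, Real.zero_rpow hθ0, mul_zero]
  have hpos : 0 < Φ * X := mul_pos h h'
  have hP : 0 ≤ (Φ * X) ^ θ := Real.rpow_nonneg hpos.le _
  have hscale : ∀ i j, (φ i * χ j) ^ θ = (Φ * X) ^ θ * (φ i / Φ * (χ j / X)) ^ θ := by
    intro i j
    rw [← Real.mul_rpow hpos.le (mul_nonneg (div_nonneg (hφ i) h.le) (div_nonneg (hχ j) h'.le))]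
    congr 1
    (clear * - h h'; field_simp)
  rcases hmain W ω B x hB hBB hx hxB hW N (fun i => φ i / Φ) (fun j => χ j / X)
    (fun i => div_nonneg (hφ i) h.le) (fun j => div_nonneg (hχ j) h'.le)
    (by rw [← Finset.sum_div]; exact div_self h.ne')
    (by rw [← Finset.sum_div]; exact div_self h'.ne') with hA | ⟨k, hkN, hA⟩
  · left
    calc ∑ i ∈ range (N + 1), ∑ j ∈ range (N + 1), W (ad i j) * (φ i * χ j) ^ θ
        = (Φ * X) ^ θ * ∑ i ∈ range (N + 1), ∑ j ∈ range (N + 1),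
          W (ad i j) * (φ i / Φ * (χ j / X)) ^ θ := by
          rw [Finset.mul_sum]
          refine Finset.sum_congr rfl fun i _ => ?_
          rw [Finset.mul_sum]
          refine Finset.sum_congr rfl fun j _ => ?_
          rw [hscale i j]
          ring
      _ ≤ (Φ * X) ^ θ * 1 := mul_le_mul_of_nonneg_left hA hP
      _ ≤ (Φ * X) ^ θ * c := mul_le_mul_of_nonneg_left hc1 hP
      _ = _ := mul_comm _ _
  · right
    refine ⟨k, hkN, ?_⟩
    have e1 : ((∑ i ∈ Icc k N, φ i) * ∑ j ∈ Icc k N, χ j) ^ θ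
        = (Φ * X) ^ θ * ((∑ i ∈ Icc k N, φ i / Φ) * ∑ j ∈ Icc k N, χ j / X) ^ θ := by
      rw [← Real.mul_rpow hpos.le (mul_nonneg
        (Finset.sum_nonneg fun i _ => div_nonneg (hφ i) h.le)
        (Finset.sum_nonneg fun i _ => div_nonneg (hχ i) h'.le)),
        ← Finset.sum_div, ← Finset.sum_div]
      congr 1
      (clear * - h h'; field_simp)
    have e2 : ∑ i ∈ range (N + 1), ∑ j ∈ range (N + 1),
        (if min i j = k then 0 else W (ad i j) * (φ i * χ j) ^ θ)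
        = (Φ * X) ^ θ * ∑ i ∈ range (N + 1), ∑ j ∈ range (N + 1),
          (if min i j = k then 0 else W (ad i j) * (φ i / Φ * (χ j / X)) ^ θ) := by
      rw [Finset.mul_sum]
      refine Finset.sum_congr rfl fun i _ => ?_
      rw [Finset.mul_sum]
      refine Finset.sum_congr rfl fun j _ => ?_
      split_ifs
      · rw [mul_zero]
      · rw [hscale i j]
        ring
    rw [e1, e2]
    calc _ = (Φ * X) ^ θ * ((if k = 0 then (1 : ℝ) else (1 - x) ^ (2 * (1 - θ))) *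
          ((∑ i ∈ Icc k N, φ i / Φ) * ∑ j ∈ Icc k N, χ j / X) ^ θ
        + ∑ i ∈ range (N + 1), ∑ j ∈ range (N + 1),
            (if min i j = k then 0 else
              W (ad i j) * (φ i / Φ * (χ j / X)) ^ θ)) := by ring
      _ ≤ (Φ * X) ^ θ * c := mul_le_mul_of_nonneg_left hA hP
      _ = _ := mul_comm _ _

end Vale.P028
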