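import Mathlib
import Vale.Agent.P028.NBasic
import Vale.Agent.P028.KSmall
import Vale.Agent.P028.KPair3

/-!
# Exact sheets with different denominators, improved kernel
-/

namespace Vale.P028

open Finset MeasureTheory

theorem n13_distInt_le (y : ℝ) : distInt y ≤ 1 / 2 := by
  unfold distInt
  exact abs_sub_round y

/-- a larger denominator is not selected for `x`, so `x` is not too small -/
theorem n13_big {γ x x' : ℝ} (hx : 0 < x) (hB : Bq γ x < Bq γ x') :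
    1 < (Bq γ x' : ℝ) ^ 4 * x := by
  have hB1 := Bq_pos γ x
  rcases Bsel_spec γ (1 / 1024) (min x' (1 / 1024)) with h | ⟨h, -⟩
  · exfalso
    have h1 : Bq γ x' = 1 := h
    omega
  · by_contra hle
    push Not at hle
    have hm : 0 < min x (1 / 1024 : ℝ) := lt_min hx (by norm_num)
    have h2 : (Bq γ x' : ℝ) ^ 4 * min x (1 / 1024 : ℝ) ≤ 1 := by
      refine le_trans ?_ hle
      exact mul_le_mul_of_nonneg_left (min_le_left _ _) (by positivity)
    have h3 : Bq γ x' ≤ Bq γ x := Bsel_ge hm h h2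
    omega

/-- the sifting starts early -/
theorem n13_yK {γ x x' : ℝ} (hx : 0 < x) (hB : Bq γ x < Bq γ x') :
    yK γ x ≤ 20 * Real.log (Bq γ x') + 4 := by
  have h1 := n13_big hx hB
  have hB1 := Bq_one_le γ x
  have hB2 := Bq_one_le γ x'
  have hBR : (Bq γ x : ℝ) ≤ Bq γ x' := by exact_mod_cast hB.le
  have hK1 := KK_one_le γ x
  have hK : KK γ x ≤ (Bq γ x' : ℝ) ^ 4 := by
    unfold KK
    refine max_le (one_le_pow₀ hB2) ?_
    rw [div_le_iff₀ hx]
    have := n13_distInt_le ((Bq γ x : ℝ) * γ)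
    linarith only [this, h1]
  have hlog : 0 ≤ Real.log (Bq γ x') := Real.log_nonneg hB2
  have h2 : Real.log (2 * Bq γ x * KK γ x) ≤ Real.log 2 + 5 * Real.log (Bq γ x') := by
    have h3 : Real.log (2 * Bq γ x * KK γ x) ≤ Real.log (2 * (Bq γ x' : ℝ) ^ 5) := by
      apply Real.log_le_log (by positivity)
      calc 2 * (Bq γ x : ℝ) * KK γ x ≤ 2 * (Bq γ x' : ℝ) * (Bq γ x' : ℝ) ^ 4 := by gcongr
        _ = 2 * (Bq γ x' : ℝ) ^ 5 := by ring
    have hb0 : (Bq γ x' : ℝ) ^ 5 ≠ 0 := (by positivity : (0 : ℝ) < (Bq γ x' : ℝ) ^ 5).ne'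
    have e : Real.log (2 * (Bq γ x' : ℝ) ^ 5) = Real.log 2 + 5 * Real.log (Bq γ x') := by
      rw [Real.log_mul (by norm_num) hb0, Real.log_pow]
      push_cast
      rfl
    rwa [e] at h3
  have h4 : Real.log 2 ≤ 1 := by
    have := Real.log_two_lt_d9
    linarith only [this]
  unfold yK
  linarith only [h2, h4, hlog]

/-- large primes of `u` divide `B'` -/
theorem n13_u {γ x x' : ℝ} {q r : ℕ} {k : ℤ} (hq : 0 < q) (hk : Sh γ x x' q r k)
    (h0 : nk γ x x' (cofac q r) (cofac r q) k = 0) {p : ℕ} (hp : p.Prime)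
    (hpu : p ∣ cofac q r) (hpB : ¬ p ∣ Bq γ x') : (p : ℝ) ≤ yK γ x := by
  by_contra hlt
  push Not at hlt
  have hpp := Nat.prime_iff_prime_int.mp hp
  have hcop := cofac_coprime (r := r) hq
  have hpv : ¬ p ∣ cofac r q := fun h' =>
    hp.one_lt.ne' (Nat.eq_one_of_dvd_coprimes hcop hpu h')
  have hpvZ : ¬ (p : ℤ) ∣ (cofac r q : ℤ) := fun h => hpv (by exact_mod_cast h)
  have hpuZ : (p : ℤ) ∣ (cofac q r : ℤ) := by exact_mod_cast hpu
  have hpBZ : ¬ (p : ℤ) ∣ (Bq γ x' : ℤ) := fun h => hpB (by exact_mod_cast h)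
  unfold nk at h0
  -- `p` divides `B' (B k + v A)`
  have h1 : (p : ℤ) ∣ (Bq γ x' : ℤ) * ((Bq γ x : ℤ) * k + (cofac r q : ℤ) * Aq γ x) := by
    have e : (Bq γ x' : ℤ) * ((Bq γ x : ℤ) * k + (cofac r q : ℤ) * Aq γ x) =
        (cofac q r : ℤ) * (Bq γ x * Aq γ x') := by linear_combination h0
    rw [e]
    exact dvd_mul_of_dvd_left hpuZ _
  have h2 : (p : ℤ) ∣ (Bq γ x : ℤ) * k + (cofac r q : ℤ) * Aq γ x :=
    (hpp.dvd_or_dvd h1).resolve_left hpBZ
  have hpB1 : ¬ p ∣ Bq γ x := by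
    intro h
    have hZ : (p : ℤ) ∣ (Bq γ x : ℤ) := by exact_mod_cast h
    have h3 : (p : ℤ) ∣ (cofac r q : ℤ) * Aq γ x :=
      (dvd_add_right (dvd_mul_of_dvd_left hZ _)).mp h2
    have h4 : (p : ℤ) ∣ Aq γ x := (hpp.dvd_or_dvd h3).resolve_left hpvZ
    exact hpp.not_isUnit ((Aq_coprime γ x).isUnit_of_dvd' hZ h4)
  have hmem : p ∈ PK γ x q := by
    unfold PK
    rw [mem_filter, Nat.mem_primeFactors]
    exact ⟨⟨hp, hpu.trans (cofac_dvd q r), hq.ne'⟩, hlt, hpB1⟩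
  refine (Sh_class hq hk).1 p hmem hpu ?_
  have e : (Bq γ x : ℤ) * k + ((cofac r q : ℤ) - cofac q r) * Aq γ x =
      ((Bq γ x : ℤ) * k + (cofac r q : ℤ) * Aq γ x) - (cofac q r : ℤ) * Aq γ x := by ring
  rw [e]
  exact dvd_sub h2 (dvd_mul_of_dvd_left hpuZ _)

/-- large primes of `v` divide `B` -/
theorem n13_v {γ x x' : ℝ} {q r : ℕ} {k : ℤ} (hq : 0 < q) (hr : 0 < r) (hk : Sh γ x x' q r k)
    (h0 : nk γ x x' (cofac q r) (cofac r q) k = 0) {p : ℕ} (hp : p.Prime)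
    (hpv : p ∣ cofac r q) (hpB : ¬ p ∣ Bq γ x) : (p : ℝ) ≤ yK γ x' := by
  by_contra hlt
  push Not at hlt
  have hpp := Nat.prime_iff_prime_int.mp hp
  have hcop := cofac_coprime (r := r) hq
  have hpu : ¬ p ∣ cofac q r := fun h' =>
    hp.one_lt.ne' (Nat.eq_one_of_dvd_coprimes hcop h' hpv)
  have hpuZ : ¬ (p : ℤ) ∣ (cofac q r : ℤ) := fun h => hpu (by exact_mod_cast h)
  have hpvZ : (p : ℤ) ∣ (cofac r q : ℤ) := by exact_mod_cast hpv
  have hpBZ : ¬ (p : ℤ) ∣ (Bq γ x : ℤ) := fun h => hpB (by exact_mod_cast h)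
  unfold nk at h0
  -- `p` divides `B (B' k - u A')`
  have h1 : (p : ℤ) ∣ (Bq γ x : ℤ) * ((Bq γ x' : ℤ) * k - (cofac q r : ℤ) * Aq γ x') := by
    have e : (Bq γ x : ℤ) * ((Bq γ x' : ℤ) * k - (cofac q r : ℤ) * Aq γ x') =
        (cofac r q : ℤ) * (-(Bq γ x' * Aq γ x)) := by linear_combination h0
    rw [e]
    exact dvd_mul_of_dvd_left hpvZ _
  have h2 : (p : ℤ) ∣ (Bq γ x' : ℤ) * k - (cofac q r : ℤ) * Aq γ x' :=
    (hpp.dvd_or_dvd h1).resolve_left hpBZ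
  have hpB1 : ¬ p ∣ Bq γ x' := by
    intro h
    have hZ : (p : ℤ) ∣ (Bq γ x' : ℤ) := by exact_mod_cast h
    have h3 : (p : ℤ) ∣ (cofac q r : ℤ) * Aq γ x' :=
      (dvd_sub_right (dvd_mul_of_dvd_left hZ _)).mp h2
    have h4 : (p : ℤ) ∣ Aq γ x' := (hpp.dvd_or_dvd h3).resolve_left hpuZ
    exact hpp.not_isUnit ((Aq_coprime γ x').isUnit_of_dvd' hZ h4)
  have hmem : p ∈ PK γ x' r := by
    unfold PK
    rw [mem_filter, Nat.mem_primeFactors]
    exact ⟨⟨hp, hpv.trans (cofac_dvd r q), hr.ne'⟩, hlt, hpB1⟩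
  refine (Sh_class hq hk).2 p hmem hpv ?_
  have e : (Bq γ x' : ℤ) * k + ((cofac r q : ℤ) - cofac q r) * Aq γ x' =
      ((Bq γ x' : ℤ) * k - (cofac q r : ℤ) * Aq γ x') + (cofac r q : ℤ) * Aq γ x' := by ring
  rw [e]
  exact dvd_add h2 (dvd_mul_of_dvd_left hpvZ _)

/-- the product over the primes of the cofactors -/
theorem n13_GU {γ x x' : ℝ} {q r : ℕ} {k : ℤ} (hq : 0 < q) (hr : 0 < r)
    (hk : Sh γ x x' q r k) (h0 : nk γ x x' (cofac q r) (cofac r q) k = 0) :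
    GU γ x x' q r ≤ GG (Bq γ x) * GG (Bq γ x') := by
  have h1 : (pr ((PK γ x q).filter (fun p => p ∣ cofac q r)))⁻¹ ≤ GG (Bq γ x') := by
    rw [GG_eq]
    refine pr_inv_mono ?_ fun p hp => Nat.prime_of_mem_primeFactors hp
    intro p hp
    rw [mem_filter] at hp
    obtain ⟨a, -, c, -⟩ := mem_PK hp.1
    rw [Nat.mem_primeFactors]
    refine ⟨a, ?_, (Bq_pos γ x').ne'⟩
    by_contra hcon
    exact absurd (n13_u hq hk h0 a hp.2 hcon) (not_le.mpr c)
  have h2 : (pr ((PK γ x' r).filter (fun p => p ∣ cofac r q)))⁻¹ ≤ GG (Bq γ x) := by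
    rw [GG_eq]
    refine pr_inv_mono ?_ fun p hp => Nat.prime_of_mem_primeFactors hp
    intro p hp
    rw [mem_filter] at hp
    obtain ⟨a, -, c, -⟩ := mem_PK hp.1
    rw [Nat.mem_primeFactors]
    refine ⟨a, ?_, (Bq_pos γ x).ne'⟩
    by_contra hcon
    exact absurd (n13_v hq hr hk h0 a hp.2 hcon) (not_le.mpr c)
  have h3 : 0 < pr ((PK γ x' r).filter (fun p => p ∣ cofac r q)) :=
    pr_pos fun p hp => PK_prime p (mem_filter.mp hp).1
  have h4 : 0 ≤ GG (Bq γ x') := by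
    rw [GG_eq]
    exact inv_nonneg.mpr (pr_pos fun p hp => Nat.prime_of_mem_primeFactors hp).le
  unfold GU
  rw [mul_comm (GG (Bq γ x))]
  exact mul_le_mul h1 h2 (inv_nonneg.mpr h3.le) h4

theorem n13_key {t w c : ℝ} (ht : 0 ≤ t) (hw : 1 ≤ w) (h1 : t ≤ w ^ (-(1 / 2) : ℝ))
    (h2 : t ≤ c) : t ≤ w ^ (-(1 / 4) : ℝ) * (min 1 c) ^ (1 / 2 : ℝ) := by
  have hw0 : 0 < w := by linarith only [hw]
  have h3 : w ^ (-(1 / 2) : ℝ) ≤ 1 := Real.rpow_le_one_of_one_le_of_nonpos hw (by norm_num)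
  have h4 : t ≤ min 1 c := le_min (h1.trans h3) h2
  have h5 : t ^ (1 / 2 : ℝ) ≤ w ^ (-(1 / 4) : ℝ) := by
    calc t ^ (1 / 2 : ℝ) ≤ (w ^ (-(1 / 2) : ℝ)) ^ (1 / 2 : ℝ) :=
          Real.rpow_le_rpow ht h1 (by norm_num)
      _ = w ^ (-(1 / 4) : ℝ) := by
          rw [← Real.rpow_mul hw0.le]
          norm_num
  have h6 : t ^ (1 / 2 : ℝ) ≤ (min 1 c) ^ (1 / 2 : ℝ) := Real.rpow_le_rpow ht h4 (by norm_num)
  calc t = t ^ (1 / 2 : ℝ) * t ^ (1 / 2 : ℝ) := by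
        rw [← Real.sqrt_eq_rpow, Real.mul_self_sqrt ht]
    _ ≤ w ^ (-(1 / 4) : ℝ) * (min 1 c) ^ (1 / 2 : ℝ) :=
        mul_le_mul h5 h6 (Real.rpow_nonneg ht _) (Real.rpow_nonneg hw0.le _)

theorem n13_size {u v x x' D : ℝ} (hu : 1 ≤ u) (hv : 1 ≤ v) (hx : 0 < x) (hx' : 0 < x')
    (h1 : v * x ≤ D) (h2 : u * x' ≤ D) :
    Real.sqrt (x * x') / D ≤ (u * v) ^ (-(1 / 2) : ℝ) := by
  have hu0 : 0 < u := by linarith only [hu]
  have hv0 : 0 < v := by linarith only [hv]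
  have hD : 0 < D := lt_of_lt_of_le (mul_pos hv0 hx) h1
  have h3 : (x * x') * (u * v) ≤ D ^ 2 := by
    calc (x * x') * (u * v) = (v * x) * (u * x') := by ring
      _ ≤ D * D := mul_le_mul h1 h2 (by positivity) hD.le
      _ = D ^ 2 := by ring
  have h4 : Real.sqrt (x * x') * Real.sqrt (u * v) ≤ D := by
    rw [← Real.sqrt_mul (by positivity)]
    exact (Real.sqrt_le_sqrt h3).trans (le_of_eq (Real.sqrt_sq hD.le))
  have h5 : 0 < Real.sqrt (u * v) := Real.sqrt_pos.2 (by positivity)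
  rw [Real.rpow_neg (by positivity), ← Real.sqrt_eq_rpow, div_le_iff₀ hD, ← div_eq_inv_mul,
    le_div_iff₀ h5]
  exact h4

theorem n13_size2 {v x x' D b : ℝ} (hv : 1 ≤ v) (hx : 0 < x) (hx' : 0 < x')
    (h1 : v * x ≤ D) (hb : 1 ≤ b) (hbx : 1 ≤ b ^ 4 * x) :
    Real.sqrt (x * x') / D ≤ b ^ 2 * Real.sqrt x' := by
  have hD : x ≤ D := le_trans (by nlinarith only [hv, hx]) h1
  have hD0 : 0 < D := hx.trans_le hD
  have hs : 0 < Real.sqrt x := Real.sqrt_pos.2 hx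
  have h2 : 1 ≤ b ^ 2 * Real.sqrt x := by
    have h3 : Real.sqrt (b ^ 4 * x) = b ^ 2 * Real.sqrt x := by
      rw [show b ^ 4 * x = (b ^ 2) ^ 2 * x by ring, Real.sqrt_mul (by positivity),
        Real.sqrt_sq (by positivity)]
    rw [← h3]
    exact Real.one_le_sqrt.2 hbx
  rw [div_le_iff₀ hD0, Real.sqrt_mul hx.le]
  calc Real.sqrt x * Real.sqrt x' = 1 * (Real.sqrt x * Real.sqrt x') := by ring
    _ ≤ (b ^ 2 * Real.sqrt x) * (Real.sqrt x * Real.sqrt x') := by gcongr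
    _ = b ^ 2 * Real.sqrt x' * (Real.sqrt x * Real.sqrt x) := by ring
    _ = b ^ 2 * Real.sqrt x' * x := by rw [Real.mul_self_sqrt hx.le]
    _ ≤ b ^ 2 * Real.sqrt x' * D := by gcongr

/-- the size of the kernel -/
theorem n13_kernel {γ x x' : ℝ} {q r : ℕ} {k : ℤ} (hq : 0 < q) (hr : 0 < r) (hx : 0 < x)
    (hx' : 0 < x') (hB : Bq γ x < Bq γ x') (hk : Sh γ x x' q r k)
    (h0 : nk γ x x' (cofac q r) (cofac r q) k = 0) :
    Real.sqrt (x * x') / DD q r x x' ≤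
      ((cofac q r : ℝ) * (cofac r q : ℝ)) ^ (-(1 / 4) : ℝ) *
      (min 1 ((Bq γ x' : ℝ) ^ (5 / 2 : ℝ) *
        Real.exp (-((gpB (Bq γ x) (cofac r q) : ℝ) - 2) / 4))) ^ (1 / 2 : ℝ) := by
  have hu0 : 0 < cofac q r := cofac_pos r hq
  have hv0 : 0 < cofac r q := cofac_pos q hr
  have hu1 : (1 : ℝ) ≤ cofac q r := by exact_mod_cast hu0
  have hv1 : (1 : ℝ) ≤ cofac r q := by exact_mod_cast hv0
  have hw : (1 : ℝ) ≤ (cofac q r : ℝ) * (cofac r q : ℝ) := by nlinarith only [hu1, hv1]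
  have hD0 : 0 < DD q r x x' := DD_pos hq hr hx
  have hDv : (cofac r q : ℝ) * x ≤ DD q r x x' := by rw [DD_eq' hq]; exact le_max_left _ _
  have hDu : (cofac q r : ℝ) * x' ≤ DD q r x x' := by rw [DD_eq' hq]; exact le_max_right _ _
  have ht : 0 ≤ Real.sqrt (x * x') / DD q r x x' := by positivity
  have h1 := n13_size hu1 hv1 hx hx' hDv hDu
  have h1' : Real.sqrt (x * x') / DD q r x x' ≤ 1 :=
    h1.trans (Real.rpow_le_one_of_one_le_of_nonpos hw (by norm_num))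
  refine n13_key ht hw h1 ?_
  have hb1 := Bq_one_le γ x'
  have hb2 : (2 : ℝ) ≤ Bq γ x' := by
    have h2 := Bq_pos γ x
    have h3 : 2 ≤ Bq γ x' := by omega
    exact_mod_cast h3
  have hb0 : (0 : ℝ) < Bq γ x' := by linarith only [hb1]
  set b : ℝ := (Bq γ x' : ℝ) with hb
  -- the largest prime
  have hP : (gpB (Bq γ x) (cofac r q) : ℝ) ≤ 2 ∨ (gpB (Bq γ x) (cofac r q) : ℝ) ≤ yK γ x' := by
    unfold gpB
    rcases ((cofac r q).primeFactors.filter (fun p => ¬ p ∣ Bq γ x)).eq_empty_or_nonempty with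
      he | hne
    · left
      rw [he]
      simp
    · right
      obtain ⟨p, hp, hpe⟩ := exists_mem_eq_sup _ hne id
      rw [hpe]
      rw [mem_filter, Nat.mem_primeFactors] at hp
      exact n13_v hq hr hk h0 hp.1.1 hp.1.2.1 hp.2
  set P : ℝ := (gpB (Bq γ x) (cofac r q) : ℝ) with hPd
  rcases hP with hP | hP
  · -- no large prime
    refine h1'.trans ?_
    have e1 : (1 : ℝ) ≤ b ^ (5 / 2 : ℝ) := Real.one_le_rpow hb1 (by norm_num)
    have e2 : (1 : ℝ) ≤ Real.exp (-(P - 2) / 4) := Real.one_le_exp (by linarith only [hP])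
    nlinarith only [e1, e2]
  · -- `exp ((P - 2) / 2) ≤ 2 B' K'`
    have hK1 := KK_one_le γ x'
    have h2 : Real.exp ((P - 2) / 2) ≤ 2 * b * KK γ x' := by
      rw [← Real.exp_log (show 0 < 2 * b * KK γ x' by positivity)]
      apply Real.exp_le_exp.2
      unfold yK at hP
      linarith only [hP]
    have h3 : Real.exp (-(P - 2) / 4) ^ 2 = (Real.exp ((P - 2) / 2))⁻¹ := by
      rw [← Real.exp_nat_mul, ← Real.exp_neg]
      congr 1
      push_cast
      ring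
    have hpos : 0 < Real.exp ((P - 2) / 2) := Real.exp_pos _
    have e0 : 0 < Real.exp (-(P - 2) / 4) := Real.exp_pos _
    have e5 : b ^ (5 / 2 : ℝ) = b ^ 2 * Real.sqrt b := by
      rw [Real.sqrt_eq_rpow, ← Real.rpow_natCast, ← Real.rpow_add hb0]
      norm_num
    rcases le_or_gt (KK γ x') 1 with hK | hK
    · -- `K' = 1`
      refine h1'.trans ?_
      have h4 : Real.exp ((P - 2) / 2) ≤ 2 * b := by
        calc Real.exp ((P - 2) / 2) ≤ 2 * b * KK γ x' := h2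
          _ ≤ 2 * b * 1 := by gcongr
          _ = 2 * b := mul_one _
      have h5 : (2 * b)⁻¹ ≤ Real.exp (-(P - 2) / 4) ^ 2 := by
        rw [h3]
        exact inv_anti₀ hpos h4
      have h6 : (1 : ℝ) ≤ (b ^ (5 / 2 : ℝ) * Real.exp (-(P - 2) / 4)) ^ 2 := by
        rw [e5, mul_pow, mul_pow, Real.sq_sqrt hb0.le]
        calc (1 : ℝ) ≤ (b ^ 2) ^ 2 * b * (2 * b)⁻¹ := by
              rw [← div_eq_mul_inv, le_div_iff₀ (by positivity)]
              nlinarith only [hb2, pow_le_pow_left₀ (by norm_num) hb2 4, hb0]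
          _ ≤ (b ^ 2) ^ 2 * b * Real.exp (-(P - 2) / 4) ^ 2 := by gcongr
      have h7 : 0 ≤ b ^ (5 / 2 : ℝ) * Real.exp (-(P - 2) / 4) := by positivity
      exact (one_le_sq_iff₀ h7).1 h6
    · -- `K' > 1`
      have h4 : KK γ x' * x' ≤ 1 / 2 := by
        have h5 : KK γ x' = distInt ((Bq γ x' : ℝ) * γ) / x' := by
          unfold KK at hK ⊢
          rcases lt_max_iff.1 hK with h | h
          · exact absurd h (lt_irrefl _)
          · exact max_eq_right h.le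
        rw [h5, div_mul_cancel₀ _ hx'.ne']
        exact n13_distInt_le _
      have h5 : x' ≤ b * Real.exp (-(P - 2) / 4) ^ 2 := by
        rw [h3, ← div_eq_mul_inv, le_div_iff₀ hpos]
        calc x' * Real.exp ((P - 2) / 2) ≤ x' * (2 * b * KK γ x') := by gcongr
          _ = 2 * b * (KK γ x' * x') := by ring
          _ ≤ 2 * b * (1 / 2) := by gcongr
          _ = b := by ring
      have h6 : Real.sqrt x' ≤ Real.sqrt b * Real.exp (-(P - 2) / 4) := by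
        have h7 := Real.sqrt_le_sqrt h5
        rwa [Real.sqrt_mul hb0.le, Real.sqrt_sq e0.le] at h7
      have h7 := n13_size2 hv1 hx hx' hDv hb1 (n13_big hx hB).le
      refine h7.trans ?_
      rw [e5]
      calc b ^ 2 * Real.sqrt x' ≤ b ^ 2 * (Real.sqrt b * Real.exp (-(P - 2) / 4)) := by gcongr
        _ = b ^ 2 * Real.sqrt b * Real.exp (-(P - 2) / 4) := by ring

theorem pair_diff {γ x x' : ℝ} {q r : ℕ} {k : ℤ} (hq : 0 < q) (hr : 0 < r) (hx : 0 < x)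
    (hx' : 0 < x') (hx2 : x ≤ 1 / 2) (hx2' : x' ≤ 1 / 2) (hB : Bq γ x < Bq γ x')
    (hk : Sh γ x x' q r k) (h0 : nk γ x x' (cofac q r) (cofac r q) k = 0) :
    16 * ((q.totient : ℝ) / q * x * ((r.totient : ℝ) / r * x') / DD q r x x') *
      GU γ x x' q r * (pr (F0 γ x x' q r))⁻¹ ≤
      16 * (Real.sqrt (((q.totient : ℝ) / q * x) * ((r.totient : ℝ) / r * x')) *
        KD (Bq γ x) (Bq γ x') (cofac q r) (cofac r q)) := by
  classical
  have hD0 : 0 < DD q r x x' := DD_pos hq hr hx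
  have hu0 : 0 < cofac q r := cofac_pos r hq
  have hKD : KD (Bq γ x) (Bq γ x') (cofac q r) (cofac r q) =
      GG (Bq γ x) * GG (Bq γ x') * (((cofac q r : ℝ) * (cofac r q : ℝ)) ^ (-(1 / 4) : ℝ) *
      (min 1 ((Bq γ x' : ℝ) ^ (5 / 2 : ℝ) *
        Real.exp (-((gpB (Bq γ x) (cofac r q) : ℝ) - 2) / 4))) ^ (1 / 2 : ℝ)) := by
    unfold KD
    rw [if_pos]
    refine ⟨hB, (exact_diff h0).1, fun p hp => ?_⟩
    rw [Nat.mem_primeFactors] at hp
    by_cases hpB : p ∣ Bq γ x'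
    · exact Or.inl hpB
    · exact Or.inr ((n13_u hq hk h0 hp.1 hp.2.1 hpB).trans (n13_yK hx hB))
  rw [hKD]
  have hker := n13_kernel hq hr hx hx' hB hk h0
  have hGU := n13_GU hq hr hk h0
  have hGG0 : 0 ≤ GG (Bq γ x) * GG (Bq γ x') := by
    rw [GG_eq, GG_eq]
    exact mul_nonneg (inv_nonneg.mpr (pr_pos fun p hp => Nat.prime_of_mem_primeFactors hp).le)
      (inv_nonneg.mpr (pr_pos fun p hp => Nat.prime_of_mem_primeFactors hp).le)
  have hF0 := F0_pos γ x x' q r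
  obtain ⟨hFq, hFr⟩ := F0_le (γ := γ) (x := x) (x' := x') hq hr
  have ht1 := totient_ratio_pos hq
  have ht2 := totient_ratio_pos hr
  set a : ℝ := (q.totient : ℝ) / q with ha
  set b : ℝ := (r.totient : ℝ) / r with hb
  set P : ℝ := pr (F0 γ x x' q r) with hP
  set D : ℝ := DD q r x x' with hD
  set KR : ℝ := (((cofac q r : ℝ) * (cofac r q : ℝ)) ^ (-(1 / 4) : ℝ) *
      (min 1 ((Bq γ x' : ℝ) ^ (5 / 2 : ℝ) *
        Real.exp (-((gpB (Bq γ x) (cofac r q) : ℝ) - 2) / 4))) ^ (1 / 2 : ℝ)) with hKR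
  set G : ℝ := GG (Bq γ x) * GG (Bq γ x') with hG
  have hsP : Real.sqrt (a * b) ≤ P := by
    calc Real.sqrt (a * b) ≤ Real.sqrt (P * P) := by
          apply Real.sqrt_le_sqrt
          exact mul_le_mul hFq hFr ht2.le hF0.le
      _ = P := Real.sqrt_mul_self hF0.le
  have h2 : a * b * P⁻¹ ≤ Real.sqrt (a * b) := by
    rw [← div_eq_mul_inv, div_le_iff₀ hF0]
    calc a * b = Real.sqrt (a * b) * Real.sqrt (a * b) :=
          (Real.mul_self_sqrt (by positivity)).symm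
      _ ≤ Real.sqrt (a * b) * P := by gcongr
  have h3 : Real.sqrt (a * x * (b * x')) = Real.sqrt (a * b) * Real.sqrt (x * x') := by
    rw [← Real.sqrt_mul (by positivity)]
    congr 1
    ring
  have h4 : Real.sqrt (x * x') * Real.sqrt (x * x') = x * x' :=
    Real.mul_self_sqrt (by positivity)
  calc 16 * (a * x * (b * x') / D) * GU γ x x' q r * P⁻¹
      ≤ 16 * (a * x * (b * x') / D) * G * P⁻¹ := by gcongr
    _ = 16 * (x * x') * (a * b * P⁻¹) / D * G := by ring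
    _ ≤ 16 * (x * x') * Real.sqrt (a * b) / D * G := by gcongr
    _ = 16 * Real.sqrt (a * b) * (x * x' / D) * G := by ring
    _ = 16 * Real.sqrt (a * b) * (Real.sqrt (x * x') * (Real.sqrt (x * x') / D)) * G := by
        rw [← mul_div_assoc (Real.sqrt (x * x')), h4]
    _ ≤ 16 * Real.sqrt (a * b) * (Real.sqrt (x * x') * KR) * G := by gcongr
    _ = 16 * (Real.sqrt (a * b) * Real.sqrt (x * x') * (G * KR)) := by ring
    _ = 16 * (Real.sqrt (a * x * (b * x')) * (G * KR)) := by rw [h3]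

end Vale.P028
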