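import Vale.Agent.P028.NBasic
import Vale.Agent.P028.KSmall
import Vale.Agent.P028.KPair3
import Vale.Agent.P028.NPairDiff

/-!
# The final bound for one pair, with the kernel `KD`
-/

namespace Vale.P028

open Finset MeasureTheory

theorem n15_DD_comm (q r : ℕ) (x x' : ℝ) : DD r q x' x = DD q r x x' := by
  unfold DD
  rw [max_comm, Nat.gcd_comm]

theorem n15_GU_comm (γ x x' : ℝ) (q r : ℕ) : GU γ x' x r q = GU γ x x' q r := by
  unfold GU
  rw [mul_comm]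

theorem n15_F0_comm (γ x x' : ℝ) (q r : ℕ) : F0 γ x' x r q = F0 γ x x' q r := by
  unfold F0
  rw [inter_comm]
  apply filter_congr
  intro p _
  exact and_comm

theorem n15_Sh_comm {γ x x' : ℝ} {q r : ℕ} {k : ℤ} (h : Sh γ x x' q r k) :
    Sh γ x' x r q (-k) := by
  obtain ⟨h1, al, be, hal, hbe, hk⟩ := h
  refine ⟨?_, be, al, hbe, hal, ?_⟩
  · rw [n15_DD_comm]
    have e : (((-k : ℤ) : ℝ) - ((cofac r q : ℝ) - cofac q r) * γ) =
        -((k : ℝ) - ((cofac q r : ℝ) - cofac r q) * γ) := by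
      push_cast
      ring
    rw [e, abs_neg]
    exact h1
  · rw [hk]
    ring

theorem n15_nk_comm {γ x x' : ℝ} {u v : ℕ} {k : ℤ} (h : nk γ x x' u v k = 0) :
    nk γ x' x v u (-k) = 0 := by
  unfold nk at h ⊢
  linear_combination (-1 : ℤ) * h

theorem n15_KD_nonneg (B B' u v : ℕ) : 0 ≤ KD B B' u v := by
  unfold KD
  split_ifs
  · have h1 := GG_nonneg B
    have h2 := GG_nonneg B'
    have h3 : 0 ≤ min 1 ((B' : ℝ) ^ (5 / 2 : ℝ) * Real.exp (-((gpB B v : ℝ) - 2) / 4)) :=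
      le_min zero_le_one (by positivity)
    positivity
  · exact le_rfl

/-- the pair of denominators in the other order -/
theorem n15_pair_diff' {γ x x' : ℝ} {q r : ℕ} {k : ℤ} (hq : 0 < q) (hr : 0 < r) (hx : 0 < x)
    (hx' : 0 < x') (hx2 : x ≤ 1 / 2) (hx2' : x' ≤ 1 / 2) (hB : Bq γ x' < Bq γ x)
    (hk : Sh γ x x' q r k) (h0 : nk γ x x' (cofac q r) (cofac r q) k = 0) :
    16 * ((q.totient : ℝ) / q * x * ((r.totient : ℝ) / r * x') / DD q r x x') *
      GU γ x x' q r * (pr (F0 γ x x' q r))⁻¹ ≤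
      16 * (Real.sqrt (((q.totient : ℝ) / q * x) * ((r.totient : ℝ) / r * x')) *
        KD (Bq γ x') (Bq γ x) (cofac r q) (cofac q r)) := by
  have h := pair_diff (k := -k) hr hq hx' hx hx2' hx2 hB (n15_Sh_comm hk) (n15_nk_comm h0)
  rw [n15_DD_comm, n15_GU_comm, n15_F0_comm,
    mul_comm ((r.totient : ℝ) / r * x') ((q.totient : ℝ) / q * x)] at h
  exact h

open Classical in
/-- the final bound for one pair -/
theorem pair_four : ∃ C > 0, ∀ (γ : ℝ) (ψ : ℕ → ℝ) (q r : ℕ), 0 < q → 0 < r → 0 < ψ q →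
    0 < ψ r → ψ q ≤ 1 / 2 → ψ r ≤ 1 / 2 →
    wK γ (ψ q) q * wK γ (ψ r) r * volume.real (GK γ ψ q ∩ GK γ ψ r ∩ Set.Ioc 0 1) ≤
      C * ((q.totient : ℝ) / q * ψ q * ((r.totient : ℝ) / r * ψ r) *
          GT (max 2 (DD q r (ψ q) (ψ r))) (cofac q r * cofac r q)) +
      (if SmallRel γ ψ q r then
        C * ((q.totient : ℝ) / q * ψ q * ((r.totient : ℝ) / r * ψ r) *
          GG (cofac q r * cofac r q) / DD q r (ψ q) (ψ r)) else 0) +
      128 * (Real.sqrt (((q.totient : ℝ) / q * ψ q) * ((r.totient : ℝ) / r * ψ r)) *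
        resK q r) +
      16 * (Real.sqrt (((q.totient : ℝ) / q * ψ q) * ((r.totient : ℝ) / r * ψ r)) *
        KD (Bq γ (ψ q)) (Bq γ (ψ r)) (cofac q r) (cofac r q)) +
      16 * (Real.sqrt (((q.totient : ℝ) / q * ψ q) * ((r.totient : ℝ) / r * ψ r)) *
        KD (Bq γ (ψ r)) (Bq γ (ψ q)) (cofac r q) (cofac q r)) := by
  obtain ⟨C, hC, h2⟩ := pair_two
  refine ⟨C, hC, ?_⟩
  intro γ ψ q r hq hr hψq hψr hq2 hr2
  have hD0 : 0 < DD q r (ψ q) (ψ r) := DD_pos hq hr hψq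
  have hμ : 0 < (q.totient : ℝ) / q * ψ q := mul_pos (totient_ratio_pos hq) hψq
  have hμ' : 0 < (r.totient : ℝ) / r * ψ r := mul_pos (totient_ratio_pos hr) hψr
  have hGT0 : 0 ≤ GT (max 2 (DD q r (ψ q) (ψ r))) (cofac q r * cofac r q) := by
    rw [GT_eq]
    exact inv_nonneg.mpr (pr_pos fun p hp =>
      Nat.prime_of_mem_primeFactors (mem_filter.mp hp).1).le
  have hGG0 : 0 ≤ GG (cofac q r * cofac r q) := GG_nonneg _
  have hres := resK_nonneg q r
  refine (h2 γ q r (ψ q) (ψ r) hq hr hψq hψr hq2 hr2).trans ?_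
  have t1 : (if 1 / 1024 ≤ DD q r (ψ q) (ψ r) then
        C * ((q.totient : ℝ) / q * ψ q * ((r.totient : ℝ) / r * ψ r) *
          GT (max 2 (DD q r (ψ q) (ψ r))) (cofac q r * cofac r q)) else 0) ≤
      C * ((q.totient : ℝ) / q * ψ q * ((r.totient : ℝ) / r * ψ r) *
          GT (max 2 (DD q r (ψ q) (ψ r))) (cofac q r * cofac r q)) := by
    split_ifs
    · exact le_rfl
    · exact mul_nonneg hC.le (mul_nonneg (mul_nonneg hμ.le hμ'.le) hGT0)
  have t2 : (if DD q r (ψ q) (ψ r) < 1 / 1024 ∧ ∃ k, Sh γ (ψ q) (ψ r) q r k ∧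
          nk γ (ψ q) (ψ r) (cofac q r) (cofac r q) k ≠ 0 then
        C * ((q.totient : ℝ) / q * ψ q * ((r.totient : ℝ) / r * ψ r) *
          GG (cofac q r * cofac r q) / DD q r (ψ q) (ψ r)) else 0) ≤
      (if SmallRel γ ψ q r then
        C * ((q.totient : ℝ) / q * ψ q * ((r.totient : ℝ) / r * ψ r) *
          GG (cofac q r * cofac r q) / DD q r (ψ q) (ψ r)) else 0) := by
    by_cases h : DD q r (ψ q) (ψ r) < 1 / 1024 ∧ ∃ k, Sh γ (ψ q) (ψ r) q r k ∧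
          nk γ (ψ q) (ψ r) (cofac q r) (cofac r q) k ≠ 0
    · rw [if_pos h]
      obtain ⟨h3, k, hk, hk'⟩ := h
      have h4 : SmallRel γ ψ q r :=
        ⟨h3, fun s hs hs1 hs2 hs3 => far_or_unbal hq hr hs hs1 hs2 hs3 hk hk'⟩
      rw [if_pos h4]
    · rw [if_neg h]
      split_ifs
      · exact mul_nonneg hC.le (div_nonneg (mul_nonneg (mul_nonneg hμ.le hμ'.le) hGG0) hD0.le)
      · exact le_rfl
  have hs0 : 0 ≤ Real.sqrt (((q.totient : ℝ) / q * ψ q) * ((r.totient : ℝ) / r * ψ r)) :=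
    Real.sqrt_nonneg _
  have hd1 := mul_nonneg hs0 (n15_KD_nonneg (Bq γ (ψ q)) (Bq γ (ψ r)) (cofac q r) (cofac r q))
  have hd2 := mul_nonneg hs0 (n15_KD_nonneg (Bq γ (ψ r)) (Bq γ (ψ q)) (cofac r q) (cofac q r))
  have hsq := mul_nonneg hs0 hres
  have t3 : (if ∃ k, Sh γ (ψ q) (ψ r) q r k ∧
        nk γ (ψ q) (ψ r) (cofac q r) (cofac r q) k = 0 then
        16 * ((q.totient : ℝ) / q * ψ q * ((r.totient : ℝ) / r * ψ r) / DD q r (ψ q) (ψ r)) *
          GU γ (ψ q) (ψ r) q r * (pr (F0 γ (ψ q) (ψ r) q r))⁻¹ else 0) ≤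
      128 * (Real.sqrt (((q.totient : ℝ) / q * ψ q) * ((r.totient : ℝ) / r * ψ r)) *
        resK q r) +
      16 * (Real.sqrt (((q.totient : ℝ) / q * ψ q) * ((r.totient : ℝ) / r * ψ r)) *
        KD (Bq γ (ψ q)) (Bq γ (ψ r)) (cofac q r) (cofac r q)) +
      16 * (Real.sqrt (((q.totient : ℝ) / q * ψ q) * ((r.totient : ℝ) / r * ψ r)) *
        KD (Bq γ (ψ r)) (Bq γ (ψ q)) (cofac r q) (cofac q r)) := by
    by_cases h : ∃ k, Sh γ (ψ q) (ψ r) q r k ∧
        nk γ (ψ q) (ψ r) (cofac q r) (cofac r q) k = 0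
    · rw [if_pos h]
      obtain ⟨k, hk, hk0⟩ := h
      rcases lt_trichotomy (Bq γ (ψ q)) (Bq γ (ψ r)) with hlt | heq | hgt
      · have h4 := pair_diff hq hr hψq hψr hq2 hr2 hlt hk hk0
        linarith only [hd2, hsq, h4]
      · have h4 := term_same hq hr hψq hψr (fun h => by rw [h]) heq hk hk0
        linarith only [hd1, hd2, h4]
      · have h4 := n15_pair_diff' hq hr hψq hψr hq2 hr2 hgt hk hk0
        linarith only [hd1, hsq, h4]
    · rw [if_neg h]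
      linarith only [hd1, hd2, hsq]
  linarith only [t1, t2, t3]

end Vale.P028
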