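import Vale.Agent.P028.KMain
import Vale.Agent.P028.NMoment

/-!
# Theorem N: separated arcs, every real `γ`, no loss
-/

namespace Vale.P028

open Finset MeasureTheory Filter

/-- infinitely many full arcs -/
theorem n17_full (γ : ℝ) (ψ : ℕ → ℝ) (h : {q : ℕ | 1 / 2 < ψ q}.Infinite) :
    volume (W γ ψ)ᶜ = 0 := by
  have hW : W γ ψ = Set.univ := by
    rw [Set.eq_univ_iff_forall]
    intro x
    have h1 : {q : ℕ | 1 / 2 < ψ q} ⊆ {0} ∪ {q : ℕ | 0 < q ∧ distInt (q * x - γ) < ψ q} := by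
      intro q hq
      rcases Nat.eq_zero_or_pos q with h0 | h0
      · exact Or.inl h0
      · refine Or.inr ⟨h0, ?_⟩
        refine lt_of_le_of_lt ?_ hq
        unfold distInt
        exact abs_sub_round _
    have h2 : ({0} ∪ {q : ℕ | 0 < q ∧ distInt (q * x - γ) < ψ q}).Infinite := h.mono h1
    rcases Set.infinite_union.mp h2 with h3 | h3
    · exact absurd (Set.finite_singleton 0) h3
    · exact h3
  rw [hW, Set.compl_univ, measure_empty]

/-- **Theorem N.** -/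
theorem theoremN (γ : ℝ) (ψ : ℕ → ℝ) (hψ : ∀ q, 0 ≤ ψ q) {c₀ : ℝ} (hc₀ : 0 < c₀)
    (hsep : ∀ q r : ℕ, 0 < q → q < r → 0 < ψ q → 0 < ψ r → ArcSep c₀ ψ q r)
    (hdiv : ¬ Summable (fun q : ℕ => ((q.totient : ℝ) / q) * ψ q)) :
    volume (W γ ψ)ᶜ = 0 := by
  classical
  rcases Set.finite_or_infinite {q : ℕ | 1 / 2 < ψ q} with hfin | hinf
  swap
  · exact n17_full γ ψ hinf
  obtain ⟨N₁, hN₁⟩ : ∃ N₁ : ℕ, ∀ q : ℕ, N₁ ≤ q → ψ q ≤ 1 / 2 := by
    obtain ⟨M, hM⟩ := hfin.bddAbove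
    refine ⟨M + 1, fun q hq => ?_⟩
    by_contra hlt
    push Not at hlt
    have := hM (show q ∈ {q : ℕ | 1 / 2 < ψ q} from hlt)
    omega
  obtain ⟨C, hC, hmom⟩ := moment_N hc₀
  apply full_of_moment γ ψ (2 * C) (1 / 2) (by positivity) (by norm_num)
  intro N
  obtain ⟨Q₀, hQ₀⟩ := lower_count (1 / ((N : ℝ) + 1)) (by (clear * -; positivity))
  obtain ⟨S, hS, hF1⟩ := exists_finset_sum_ge (g := fun q : ℕ => ((q.totient : ℝ) / q) * ψ q)
    (fun q => mul_nonneg (by (clear * -; positivity)) (hψ q)) hdiv (N₁ + Q₀ + N + 1)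
  have hS1 : ∀ q ∈ S, N₁ + Q₀ + N + 1 ≤ q := fun q hq => (hS q hq).1
  have hq0 : ∀ q ∈ S, 0 < q := fun q hq => by have := hS1 q hq; omega
  have hhalf : ∀ q ∈ S, ψ q ≤ 1 / 2 := fun q hq => hN₁ q (by have := hS1 q hq; omega)
  have hpos : ∀ q ∈ S, 0 < ψ q := by
    intro q hq
    refine lt_of_le_of_ne (hψ q) ?_
    intro h0
    have h1 := (hS q hq).2
    rw [← h0, mul_zero] at h1
    exact h1 rfl
  refine ⟨S, fun q => wK γ (ψ q) q, fun q => AK γ (ψ q) q, ?_, ?_, ?_, ?_, ?_⟩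
  · intro q hq
    exact ⟨by have := hS1 q hq; omega, hpos q hq, hhalf q hq⟩
  · intro q _
    exact wK_nonneg _ _ _
  · linarith only [hF1]
  · intro q hq m n hmn
    have h1 := hQ₀ q (Bq γ (ψ q)) (Aq γ (ψ q)) (PK γ (ψ q) q)
      (by have := hS1 q hq; omega)
      (fun p hp => ⟨(mem_PK hp).1, (mem_PK hp).2.1, (mem_PK hp).2.2.2⟩) m n
      (by rw [one_div_mul_eq_div]; exact hmn)
    have h2 : ((((Ioc m n).filter (fun al : ℤ => ∀ p ∈ PK γ (ψ q) q,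
        ¬ (p : ℤ) ∣ al * (Bq γ (ψ q) : ℤ) + Aq γ (ψ q))).card : ℕ) : ℝ) =
        (((Finset.Ioc m n).filter (AK γ (ψ q) q)).card : ℝ) := by
      norm_cast
      congr 1
      ext al
      simp only [mem_filter]
      rfl
    rw [h2] at h1
    calc 1 / 2 * ((q.totient : ℝ) / q) * ((n : ℝ) - m)
        = wK γ (ψ q) q * (1 / 2 * ((n : ℝ) - m) * pr (PK γ (ψ q) q)) := by
          rw [← wK_mul_pr γ (ψ q) q]; ring
      _ ≤ _ := mul_le_mul_of_nonneg_left h1 (wK_nonneg _ _ _)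
  · have h1 := hmom γ ψ S (fun q hq => ⟨hq0 q hq, hpos q hq, hhalf q hq⟩)
      (fun q hq r hr hqr => hsep q r (hq0 q hq) hqr (hpos q hq) (hpos r hr))
    refine h1.trans ?_
    set F := ∑ q ∈ S, (q.totient : ℝ) / q * ψ q with hF
    have h2 : F ≤ F ^ 2 := by nlinarith only [hF1]
    calc C * (F + F ^ 2) ≤ C * (F ^ 2 + F ^ 2) := by (clear * - h2 hC; gcongr)
      _ = 2 * C * F ^ 2 := by ring

end Vale.P028
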