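import Mathlib
import Vale.Agent.P028.NBasic
import Vale.Agent.P028.NArith

/-!
# Small states (section N4)
-/

namespace Vale.P028

open Finset

theorem n4_pow {s V : ℝ} (h : NHyp (1 / 1000) s V) :
    V ^ (1 / 128 : ℝ) * s ^ (-(1 / 16) : ℝ) ≤ V ^ (1 / 3 : ℝ) ∧
      V ^ (1 / 128 : ℝ) * s ^ (-(1 / 64) : ℝ) < s ^ (1 / 32 : ℝ) * V := by
  have hsV := n3_V h
  have hV1 := n3_V1 h
  have hs : 0 < s := h.1
  have hV : 0 < V := h.2.2.1
  have hs1 : s < 1 := by linarith only [h.2.1]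
  have hls : Real.log s < 0 := Real.log_neg hs hs1
  have hl : 0 ≤ Real.log s + Real.log V := by
    rw [← Real.log_mul hs.ne' hV.ne']
    exact Real.log_nonneg hsV
  constructor
  · rw [Real.rpow_def_of_pos hV, Real.rpow_def_of_pos hs, Real.rpow_def_of_pos hV, ← Real.exp_add]
    apply Real.exp_le_exp.2
    linarith only [hl, hls]
  · calc V ^ (1 / 128 : ℝ) * s ^ (-(1 / 64) : ℝ)
        = Real.exp (Real.log V * (1 / 128) + Real.log s * (-(1 / 64))) := by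
          rw [Real.rpow_def_of_pos hV, Real.rpow_def_of_pos hs, ← Real.exp_add]
      _ < Real.exp (Real.log s * (1 / 32) + Real.log V) := by
          apply Real.exp_lt_exp.2
          linarith only [hl, hls]
      _ = s ^ (1 / 32 : ℝ) * V := by
          rw [Real.exp_add, Real.exp_log hV, Real.rpow_def_of_pos hs]

/-- the case of a bad cofactor -/
theorem n4_bad {γ s V : ℝ} (h0 : NHyp (1 / 1000) s V) (a b : ℕ) (ha : 0 < a)
    (hbr : ∀ a : ℕ, 0 < a → (a : ℝ) ≤ V * s ^ (-(3 / 16) : ℝ) → NBad γ s V a →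
      ∃ B h : ℕ, 0 < h ∧ (h : ℝ) ≤ s ^ (-(1 / 16) : ℝ) ∧ B ∣ h * a ∧ NB γ s V B)
    (hfe : ∀ B : ℕ, NB γ s V B → (B : ℝ) ≤ s ^ (-(1 / 4) : ℝ) → ∀ u v : ℕ, ¬ NWin γ s V u v)
    (haV : (a : ℝ) ≤ V ^ (1 / 128 : ℝ)) (hbad : NBad γ s V a) : NDead γ s V a b := by
  have hV1 := n3_V1 h0
  have hs : 0 < s := h0.1
  have hV : 0 < V := h0.2.2.1
  have hs1 : s ≤ 1 := by linarith only [h0.2.1]
  have h1 : V ^ (1 / 128 : ℝ) ≤ V := by
    calc V ^ (1 / 128 : ℝ) ≤ V ^ (1 : ℝ) := Real.rpow_le_rpow_of_exponent_le hV1 (by norm_num)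
      _ = V := Real.rpow_one V
  have h2 : 1 ≤ s ^ (-(3 / 16) : ℝ) :=
    Real.one_le_rpow_of_pos_of_le_one_of_nonpos hs hs1 (by norm_num)
  obtain ⟨B, h, hh, hhs, hBd, hNB⟩ := hbr a ha
    (haV.trans (h1.trans (le_mul_of_one_le_right hV.le h2))) hbad
  have hBV : (B : ℝ) ≤ V ^ (1 / 3 : ℝ) := by
    have h3 : B ≤ h * a := Nat.le_of_dvd (Nat.mul_pos hh ha) hBd
    have h4 : (B : ℝ) ≤ (h : ℝ) * a := by exact_mod_cast h3
    have h5 : (h : ℝ) * a ≤ s ^ (-(1 / 16) : ℝ) * V ^ (1 / 128 : ℝ) :=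
      mul_le_mul hhs haV (by positivity) (by positivity)
    have h6 := (n4_pow h0).1
    rw [mul_comm] at h6
    exact h4.trans (h5.trans h6)
  intro m n hm hn hΩ
  by_cases hB : (B : ℝ) ≤ s ^ (-(1 / 4) : ℝ)
  · exact hfe B hNB hB _ _ hΩ.1
  · refine hΩ.2.1 ⟨B, h, not_le.1 hB, hBV, hNB, hh, hhs, ?_⟩
    rw [← mul_assoc]
    exact hBd.mul_right m

theorem small_state : ∃ s₀ > 0, ∀ γ s V : ℝ, NHyp s₀ s V → ∀ a b : ℕ, 0 < a → 0 < b →
    (a : ℝ) ≤ V ^ (1 / 128 : ℝ) → (b : ℝ) ≤ V ^ (1 / 128 : ℝ) →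
    NDead γ s V a b ∨ ¬ NFin γ s V a b := by
  obtain ⟨s₁, hs₁, hbr⟩ := bad_reduce
  obtain ⟨s₂, hs₂, hfe⟩ := far_empty
  refine ⟨min (1 / 1000) (min s₁ s₂), by positivity, ?_⟩
  intro γ s V hN a b ha hb haV hbV
  have h0 : NHyp (1 / 1000) s V := hN.mono (min_le_left _ _)
  have h1 : NHyp s₁ s V := hN.mono ((min_le_right _ _).trans (min_le_left _ _))
  have h2 : NHyp s₂ s V := hN.mono ((min_le_right _ _).trans (min_le_right _ _))
  by_cases hfin : NFin γ s V a b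
  · left
    rcases hfin with ⟨m, n, hm, hn, hms, hns, hΩ⟩ | hbad | hbad
    · exfalso
      have hs : 0 < s := h0.1
      have h3 := hΩ.1.1
      have h4 := hΩ.1.2.2.1
      have h5 : s ^ (1 / 32 : ℝ) * V ≤ ((a * m : ℕ) : ℝ) := by
        have h6 : s ^ (1 / 32 : ℝ) * V ≤ s ^ (1 / 32 : ℝ) *
            max ((a * m : ℕ) : ℝ) ((b * n : ℕ) : ℝ) :=
          mul_le_mul_of_nonneg_left h3 (by positivity)
        exact h6.trans (h4.trans (min_le_left _ _))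
      have h7 : ((a * m : ℕ) : ℝ) ≤ V ^ (1 / 128 : ℝ) * s ^ (-(1 / 64) : ℝ) := by
        push_cast
        exact mul_le_mul haV hms (by positivity) (le_trans (by positivity) haV)
      have h8 := (n4_pow h0).2
      linarith only [h5, h7, h8]
    · exact n4_bad h0 a b ha (fun a => hbr γ s V h1 a) (hfe γ s V h2) haV hbad
    · exact NDead_comm (n4_bad h0 b a hb (fun a => hbr γ s V h1 a) (hfe γ s V h2) hbV hbad)
  · exact Or.inr hfin

end Vale.P028
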