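import Mathlib
import Vale.Agent.P028.NBasic
import Vale.Agent.P028.MT1
import Vale.Agent.P028.NArith
import Vale.Agent.P028.NOuter

/-!
# The sum over a window
-/

namespace Vale.P028

open Finset MeasureTheory Filter

/-- the allowed pairs of a window -/
theorem window_NOm : ∃ C > 0, ∃ s₀ > 0, ∀ γ s V : ℝ, NHyp s₀ s V →
    ∀ (N : ℕ) (ψ f : ℕ → ℝ), (∀ q, 0 ≤ ψ q) → (∀ q, 0 ≤ f q ∧ f q ≤ ψ q * (q.totient / q)) →
      psum (fun q r => NOm γ s V (cofac q r) (cofac r q) ∧ Szs ψ s q r) N f f ≤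
        C * s ^ (1 + 1 / 800 : ℝ) * (∑ q ∈ Icc 1 N, f q) ^ (501 / 500 : ℝ) := by
  classical
  obtain ⟨C, hC, s₀, hs₀, hout⟩ := outer_N
  refine ⟨C, hC, min s₀ 1, lt_min hs₀ one_pos, ?_⟩
  intro γ s V hH N ψ f hψ hf
  have hs : 0 < s := hH.1
  have hs1 : s ≤ 1 := hH.2.1.trans (min_le_right _ _)
  set P : Finset ℕ := (Icc 1 N).filter Nat.Prime with hPdef
  have hP : ∀ p ∈ P, p.Prime := fun p hp => (mem_filter.1 hp).2
  obtain ⟨K, hK0, hK1, hL⟩ := hout γ s V (hH.mono (min_le_left _ _)) P hP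
  have hf' : ∀ q, 0 ≤ f q ∧ f q ≤ ψ q * wt (fun p => 1 / (p : ℝ)) P q := fun q =>
    ⟨(hf q).1, (hf q).2.trans (mul_le_mul_of_nonneg_left (totient_weight_le P hP q) (hψ q))⟩
  have h1 := hL 1 1 one_pos one_pos ψ ψ f f s s N hs hs hψ hψ hf' hf'
  have hF : 0 ≤ ∑ q ∈ Icc 1 N, f q := sum_nonneg fun q _ => (hf q).1
  have hmono : psum (fun q r => NOm γ s V (cofac q r) (cofac r q) ∧ Szs ψ s q r) N f f ≤
      Lam (NOm γ s V) P 1 1 ψ ψ s s N f f := by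
    unfold Lam
    refine psum_mono _ _ N f f f f (fun q => (hf q).1) (fun q => (hf q).1) ?_
    intro q hq r hr hqr _
    obtain ⟨h2, h3, h4⟩ := hqr
    refine ⟨⟨?_, ?_, ?_, ?_⟩, le_rfl⟩
    · intro p hp hpd
      rw [mem_Icc] at hq
      have h5 : p ∣ q := hpd.trans (Nat.gcd_dvd_left q r)
      have h6 : p ≤ q := Nat.le_of_dvd (by omega) h5
      simp only [hPdef, mem_filter, mem_Icc]
      exact ⟨⟨hp.one_lt.le, by omega⟩, hp⟩
    · simpa only [one_mul] using h2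
    · simpa only [Nat.cast_one, one_mul] using h3
    · simpa only [Nat.cast_one, one_mul] using h4
  refine hmono.trans (h1.trans ?_)
  have e1 : (1 : ℝ) - 501 / 1000 = 499 / 1000 := by norm_num
  rw [e1, one_mul]
  have e2 : (s * s) ^ (499 / 1000 : ℝ) = s ^ (499 / 500 : ℝ) := by
    rw [← pow_two, ← Real.rpow_natCast, ← Real.rpow_mul hs.le]
    norm_num
  have e3 : (s ^ (1 / 150 : ℝ)) ^ (499 / 1000 : ℝ) = s ^ (499 / 150000 : ℝ) := by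
    rw [← Real.rpow_mul hs.le]
    norm_num
  have e4 : ((∑ q ∈ Icc 1 N, f q) * ∑ q ∈ Icc 1 N, f q) ^ (501 / 1000 : ℝ) =
      (∑ q ∈ Icc 1 N, f q) ^ (501 / 500 : ℝ) := by
    rw [← pow_two, ← Real.rpow_natCast, ← Real.rpow_mul hF]
    norm_num
  rw [e3] at hK1
  rw [e2, e4]
  have h5 : s ^ (499 / 500 : ℝ) * K 1 1 ≤ C * s ^ (1 + 1 / 800 : ℝ) := by
    calc s ^ (499 / 500 : ℝ) * K 1 1
        ≤ s ^ (499 / 500 : ℝ) * (C * s ^ (499 / 150000 : ℝ)) :=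
          mul_le_mul_of_nonneg_left hK1 (Real.rpow_nonneg hs.le _)
      _ = C * s ^ (499 / 500 + 499 / 150000 : ℝ) := by
          rw [Real.rpow_add hs]
          ring
      _ ≤ C * s ^ (1 + 1 / 800 : ℝ) := by
          refine mul_le_mul_of_nonneg_left ?_ hC.le
          exact Real.rpow_le_rpow_of_exponent_ge hs hs1 (by norm_num)
  exact mul_le_mul_of_nonneg_right h5 (Real.rpow_nonneg hF _)

/-- all pairs of a window -/
theorem window_N : ∃ C > 0, ∃ s₀ > 0, ∀ γ s V : ℝ, NHyp s₀ s V →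
    ∀ (N : ℕ) (ψ f : ℕ → ℝ), (∀ q, 0 ≤ ψ q) → (∀ q, 0 ≤ f q ∧ f q ≤ ψ q * (q.totient / q)) →
      psum (fun q r => NWin γ s V (cofac q r) (cofac r q) ∧ Szs ψ s q r) N f f ≤
        C * s ^ (1 + 1 / 800 : ℝ) * (∑ q ∈ Icc 1 N, f q) ^ (501 / 500 : ℝ) := by
  classical
  obtain ⟨C₁, hC₁, s₁, hs₁, h1⟩ := window_NOm
  obtain ⟨C₂, hC₂, s₂, hs₂, h2⟩ := star_sum
  refine ⟨C₁ + C₂, add_pos hC₁ hC₂, min (min s₁ s₂) 1, lt_min (lt_min hs₁ hs₂) one_pos, ?_⟩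
  intro γ s V hH N ψ f hψ hf
  have hs : 0 < s := hH.1
  have hs1 : s ≤ 1 := hH.2.1.trans (min_le_right _ _)
  have hF : 0 ≤ ∑ q ∈ Icc 1 N, f q := sum_nonneg fun q _ => (hf q).1
  have h3 := h1 γ s V (hH.mono ((min_le_left _ _).trans (min_le_left _ _))) N ψ f hψ hf
  have h4 := h2 γ s V (hH.mono ((min_le_left _ _).trans (min_le_right _ _))) N ψ f hψ hf
  have h5 := psum_or_le
    (fun q r => NWin γ s V (cofac q r) (cofac r q) ∧ Szs ψ s q r)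
    (fun q r => NOm γ s V (cofac q r) (cofac r q) ∧ Szs ψ s q r)
    (fun q r => (NStar γ s V (cofac q r) ∨ NStar γ s V (cofac r q)) ∧ Szs ψ s q r) N f f
    (fun q => (hf q).1) (fun q => (hf q).1) (by
      rintro q r ⟨h6, h7⟩
      by_cases h8 : NStar γ s V (cofac q r)
      · exact Or.inr ⟨Or.inl h8, h7⟩
      by_cases h9 : NStar γ s V (cofac r q)
      · exact Or.inr ⟨Or.inr h9, h7⟩
      exact Or.inl ⟨⟨h6, h8, h9⟩, h7⟩)
  have h6 : C₂ * s ^ (1 + 1 / 100 : ℝ) * (∑ q ∈ Icc 1 N, f q) ^ (501 / 500 : ℝ) ≤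
      C₂ * s ^ (1 + 1 / 800 : ℝ) * (∑ q ∈ Icc 1 N, f q) ^ (501 / 500 : ℝ) := by
    refine mul_le_mul_of_nonneg_right ?_ (Real.rpow_nonneg hF _)
    refine mul_le_mul_of_nonneg_left ?_ hC₂.le
    exact Real.rpow_le_rpow_of_exponent_ge hs hs1 (by norm_num)
  calc psum (fun q r => NWin γ s V (cofac q r) (cofac r q) ∧ Szs ψ s q r) N f f
      ≤ C₁ * s ^ (1 + 1 / 800 : ℝ) * (∑ q ∈ Icc 1 N, f q) ^ (501 / 500 : ℝ) +
        C₂ * s ^ (1 + 1 / 800 : ℝ) * (∑ q ∈ Icc 1 N, f q) ^ (501 / 500 : ℝ) := by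
        linarith only [h3, h4, h5, h6]
    _ = (C₁ + C₂) * s ^ (1 + 1 / 800 : ℝ) * (∑ q ∈ Icc 1 N, f q) ^ (501 / 500 : ℝ) := by
        ring

end Vale.P028
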