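import Vale.Agent.P028.NBasic
import Vale.Agent.P028.KNearA
import Vale.Agent.P028.NWindow

/-!
# Far pairs at one level, separated arcs
-/

namespace Vale.P028

open Finset

/-- the scale of `ψ q` -/
noncomputable def n11_j (ψ : ℕ → ℝ) (s : ℝ) (q : ℕ) : ℤ :=
  ⌊-Real.log (ψ q) / (3 / 64 * Real.log (1 / s))⌋

/-- the size of the cofactors at the scale `j` -/
noncomputable def n11_V (s : ℝ) (j : ℤ) : ℝ :=
  Real.exp (-(193 / 192) * Real.log (1 / s) + j * (3 / 64 * Real.log (1 / s)))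

theorem n11_log_V (s : ℝ) (j : ℤ) : Real.log (n11_V s j) =
    -(193 / 192) * Real.log (1 / s) + j * (3 / 64 * Real.log (1 / s)) := by
  rw [n11_V, Real.log_exp]

theorem n11_V_pos (s : ℝ) (j : ℤ) : 0 < n11_V s j := Real.exp_pos _

theorem n11_rpow {s : ℝ} (hs : 0 < s) (a : ℝ) : s ^ a = Real.exp (-a * Real.log (1 / s)) := by
  rw [Real.rpow_def_of_pos hs, one_div, Real.log_inv]
  congr 1
  ring

theorem n11_log_rpow {s : ℝ} (hs : 0 < s) (a : ℝ) :
    Real.log (s ^ a) = -a * Real.log (1 / s) := by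
  rw [n11_rpow hs, Real.log_exp]

/-- separation of the arcs in logarithmic form -/
theorem n11_sep {c₀ D : ℝ} (hc₀ : 0 < c₀) {ψ : ℕ → ℝ} {q r : ℕ} (hq : 0 < q) (hr : 0 < r)
    (hψq : 0 < ψ q) (hψr : 0 < ψ r) (h : ArcSep c₀ ψ q r)
    (h1 : (Real.log (ψ q) - Real.log q) - (Real.log (ψ r) - Real.log r) ≤ D)
    (h2 : (Real.log (ψ r) - Real.log r) - (Real.log (ψ q) - Real.log q) ≤ D) :
    Real.log c₀ + 1 / 4 * (Real.log r - Real.log q) ≤ D := by
  have hq' : (0 : ℝ) < q := by exact_mod_cast hq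
  have hr' : (0 : ℝ) < r := by exact_mod_cast hr
  have hpos : 0 < c₀ * ((r : ℝ) / q) ^ (1 / 4 : ℝ) := by positivity
  have e0 : Real.log (c₀ * ((r : ℝ) / q) ^ (1 / 4 : ℝ)) =
      Real.log c₀ + 1 / 4 * (Real.log r - Real.log q) := by
    rw [Real.log_mul hc₀.ne' (by positivity), Real.log_rpow (by positivity),
      Real.log_div hr'.ne' hq'.ne']
  have e1 : Real.log (ψ q / q / (ψ r / r)) =
      (Real.log (ψ q) - Real.log q) - (Real.log (ψ r) - Real.log r) := by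
    rw [Real.log_div (by positivity) (by positivity), Real.log_div hψq.ne' hq'.ne',
      Real.log_div hψr.ne' hr'.ne']
  have e2 : Real.log (ψ r / r / (ψ q / q)) =
      (Real.log (ψ r) - Real.log r) - (Real.log (ψ q) - Real.log q) := by
    rw [Real.log_div (by positivity) (by positivity), Real.log_div hψq.ne' hq'.ne',
      Real.log_div hψr.ne' hr'.ne']
  rw [← e0]
  rcases le_max_iff.1 h with h3 | h3
  · have h4 := Real.log_le_log hpos h3
    rw [e1] at h4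
    exact h4.trans h1
  · have h4 := Real.log_le_log hpos h3
    rw [e2] at h4
    exact h4.trans h2

/-- the pairs at a comparable scale lie in a window -/
theorem n11_pair {c₀ γ s : ℝ} (hc₀ : 0 < c₀) (hs : 0 < s) (hL0 : 0 < Real.log (1 / s))
    (hL : -(384 * Real.log c₀) ≤ Real.log (1 / s)) {ψ : ℕ → ℝ} {q r : ℕ} (hq : 0 < q)
    (hr : 0 < r) (hψq : 0 < ψ q) (hψr : 0 < ψ r) (hsep : q < r → ArcSep c₀ ψ q r)
    (hsep' : r < q → ArcSep c₀ ψ r q) (h : TA γ ψ s q r)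
    (h1 : s ^ (193 / 192 : ℝ) < (cofac r q : ℝ) * ψ q)
    (h2 : s ^ (193 / 192 : ℝ) < (cofac q r : ℝ) * ψ r) :
    (n11_j ψ s r ≤ n11_j ψ s q + 1 ∧ n11_j ψ s q ≤ n11_j ψ s r + 1) ∧
    NWin γ s (n11_V s (n11_j ψ s q)) (cofac q r) (cofac r q) ∧ Szs ψ s q r := by
  obtain ⟨⟨hne, h3, h4, h5⟩, hfar, -⟩ := h
  have hu : (0 : ℝ) < cofac q r := by exact_mod_cast cofac_pos r hq
  have hv : (0 : ℝ) < cofac r q := by exact_mod_cast cofac_pos q hr
  have hq' : (0 : ℝ) < q := by exact_mod_cast hq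
  have hr' : (0 : ℝ) < r := by exact_mod_cast hr
  obtain ⟨L, hLdef⟩ : ∃ L, L = Real.log (1 / s) := ⟨_, rfl⟩
  obtain ⟨a, ha⟩ : ∃ a, a = Real.log (cofac q r : ℝ) := ⟨_, rfl⟩
  obtain ⟨b, hb⟩ : ∃ b, b = Real.log (cofac r q : ℝ) := ⟨_, rfl⟩
  obtain ⟨p, hp⟩ : ∃ p, p = Real.log (ψ q) := ⟨_, rfl⟩
  obtain ⟨t, ht⟩ : ∃ t, t = Real.log (ψ r) := ⟨_, rfl⟩
  rw [← hLdef] at hL0 hL
  have hlogs : Real.log s = -L := by rw [hLdef, one_div, Real.log_inv, neg_neg]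
  have g1 : b + p ≤ -L := by
    have := Real.log_le_log (by positivity) h3
    rwa [Real.log_mul hv.ne' hψq.ne', ← hb, ← hp, hlogs] at this
  have g2 : a + t ≤ -L := by
    have := Real.log_le_log (by positivity) h4
    rwa [Real.log_mul hu.ne' hψr.ne', ← ha, ← ht, hlogs] at this
  have g3 : -(193 / 192) * L < b + p := by
    have := Real.log_lt_log (by positivity) h1
    rwa [Real.log_mul hv.ne' hψq.ne', ← hb, ← hp, n11_log_rpow hs, ← hLdef] at this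
  have g4 : -(193 / 192) * L < a + t := by
    have := Real.log_lt_log (by positivity) h2
    rwa [Real.log_mul hu.ne' hψr.ne', ← ha, ← ht, n11_log_rpow hs, ← hLdef] at this
  have g5 : a - b = Real.log q - Real.log r := by
    have e : (cofac q r : ℝ) * r = cofac r q * q := by
      have e1 := gcd_mul_cofac q r
      have e2 := gcd_mul_cofac r q
      rw [Nat.gcd_comm r q] at e2
      have e3 : cofac q r * r = cofac r q * q := by
        calc cofac q r * r = cofac q r * (Nat.gcd q r * cofac r q) := by rw [e2]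
          _ = cofac r q * (Nat.gcd q r * cofac q r) := by ring
          _ = cofac r q * q := by rw [e1]
      exact_mod_cast e3
    have e4 := congrArg Real.log e
    rw [Real.log_mul hu.ne' hr'.ne', Real.log_mul hv.ne' hq'.ne', ← ha, ← hb] at e4
    linarith only [e4]
  have g6 : |a - b| ≤ L / 32 := by
    rw [abs_le]
    rcases lt_trichotomy q r with hqr | hqr | hqr
    · have h6 := n11_sep (D := L / 192) hc₀ hq hr hψq hψr (hsep hqr)
        (by rw [← hp, ← ht]; linarith only [g1, g2, g3, g4, g5])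
        (by rw [← hp, ← ht]; linarith only [g1, g2, g3, g4, g5])
      have h7 : Real.log q ≤ Real.log r :=
        Real.log_le_log hq' (by exact_mod_cast hqr.le)
      constructor
      · linarith only [h6, g5, hL]
      · linarith only [h7, g5, hL0]
    · rw [hqr] at g5
      constructor <;> linarith only [g5, hL0]
    · have h6 := n11_sep (D := L / 192) hc₀ hr hq hψr hψq (hsep' hqr)
        (by rw [← hp, ← ht]; linarith only [g1, g2, g3, g4, g5])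
        (by rw [← hp, ← ht]; linarith only [g1, g2, g3, g4, g5])
      have h7 : Real.log r ≤ Real.log q :=
        Real.log_le_log hr' (by exact_mod_cast hqr.le)
      constructor
      · linarith only [h7, g5, hL0]
      · linarith only [h6, g5, hL]
  rw [abs_le] at g6
  obtain ⟨g7, g8⟩ := g6
  have hl : 0 < 3 / 64 * L := by linarith only [hL0]
  have g9 : -p / (3 / 64 * L) ≤ -t / (3 / 64 * L) + 1 := by
    rw [div_add_one hl.ne', div_le_div_iff_of_pos_right hl]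
    linarith only [g1, g2, g3, g4, g7, g8, hL0]
  have g10 : -t / (3 / 64 * L) ≤ -p / (3 / 64 * L) + 1 := by
    rw [div_add_one hl.ne', div_le_div_iff_of_pos_right hl]
    linarith only [g1, g2, g3, g4, g7, g8, hL0]
  have hjq : n11_j ψ s q = ⌊-p / (3 / 64 * L)⌋ := by rw [n11_j, ← hp, ← hLdef]
  have hjr : n11_j ψ s r = ⌊-t / (3 / 64 * L)⌋ := by rw [n11_j, ← ht, ← hLdef]
  have g11 : (n11_j ψ s q : ℝ) * (3 / 64 * L) ≤ -p := by
    rw [hjq, ← le_div_iff₀ hl]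
    exact Int.floor_le _
  have g12 : -p < ((n11_j ψ s q : ℝ) + 1) * (3 / 64 * L) := by
    rw [hjq, ← div_lt_iff₀ hl]
    exact Int.lt_floor_add_one _
  refine ⟨⟨?_, ?_⟩, ⟨?_, ?_, ?_, h5, hfar⟩, h3, h4⟩
  · rw [hjq, hjr, ← Int.floor_add_one]
    exact Int.floor_le_floor g10
  · rw [hjq, hjr, ← Int.floor_add_one]
    exact Int.floor_le_floor g9
  · refine le_trans ?_ (le_max_right _ _)
    rw [← Real.log_le_log_iff (n11_V_pos _ _) hv, n11_log_V, ← hb, ← hLdef]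
    linarith only [g11, g3]
  · have e : n11_V s (n11_j ψ s q) * s ^ (-(3 / 16) : ℝ) =
        Real.exp (-(193 / 192) * L + n11_j ψ s q * (3 / 64 * L) + 3 / 16 * L) := by
      rw [n11_V, n11_rpow hs, ← Real.exp_add, ← hLdef]
      congr 1
      ring
    rw [e]
    have k : ∀ x : ℝ, 0 < x → Real.log x ≤ -(193 / 192) * L + n11_j ψ s q * (3 / 64 * L) +
        3 / 16 * L → x ≤ Real.exp (-(193 / 192) * L + n11_j ψ s q * (3 / 64 * L) +
        3 / 16 * L) := fun x hx hx2 => (Real.log_le_iff_le_exp hx).1 hx2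
    refine max_le (k _ hu ?_) (k _ hv ?_)
    · rw [← ha]
      linarith only [g12, g1, g7, g8, hL0]
    · rw [← hb]
      linarith only [g12, g1, g7, g8, hL0]
  · rw [n11_rpow hs, ← hLdef]
    have e1 : (cofac q r : ℝ) = Real.exp a := by rw [ha, Real.exp_log hu]
    have e2 : (cofac r q : ℝ) = Real.exp b := by rw [hb, Real.exp_log hv]
    rw [e1, e2]
    have k : ∀ x y : ℝ, x ≤ y + L / 32 → Real.exp (-(1 / 32) * L) * Real.exp x ≤ Real.exp y := by
      intro x y hxy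
      rw [← Real.exp_add]
      apply Real.exp_le_exp.2
      linarith only [hxy]
    rcases le_total a b with hab | hab
    · rw [max_eq_right (Real.exp_le_exp.2 hab), min_eq_left (Real.exp_le_exp.2 hab)]
      exact k _ _ (by linarith only [g7])
    · rw [max_eq_left (Real.exp_le_exp.2 hab), min_eq_right (Real.exp_le_exp.2 hab)]
      exact k _ _ (by linarith only [g8])

/-- sums over finitely many relations -/
theorem n11_exists (J : Finset ℤ) (R : ℤ → ℕ → ℕ → Prop) (N : ℕ) (f : ℕ → ℝ)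
    (hf : ∀ q, 0 ≤ f q) :
    psum (fun q r => ∃ j ∈ J, R j q r) N f f ≤ ∑ j ∈ J, psum (R j) N f f := by
  classical
  induction J using Finset.induction_on with
  | empty =>
    have : psum (fun q r => ∃ j ∈ (∅ : Finset ℤ), R j q r) N f f = 0 := by
      unfold psum
      simp
    rw [this]
    simp
  | insert a J ha ih =>
    rw [sum_insert ha]
    refine (psum_or_le _ (R a) (fun q r => ∃ j ∈ J, R j q r) N f f hf hf ?_).trans
      (add_le_add le_rfl ih)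
    rintro q r ⟨j, hj, hR⟩
    rcases mem_insert.1 hj with rfl | hj
    · exact Or.inl hR
    · exact Or.inr ⟨j, hj, hR⟩

open Classical in
/-- the part of `f` near the scale `j` -/
noncomputable def n11_f (ψ f : ℕ → ℝ) (s : ℝ) (j : ℤ) (q : ℕ) : ℝ :=
  if n11_j ψ s q ≤ j + 1 ∧ j ≤ n11_j ψ s q + 1 then f q else 0

theorem n11_f_sum (ψ f : ℕ → ℝ) (s : ℝ) (J : Finset ℤ) (N : ℕ) (hf : ∀ q, 0 ≤ f q) :
    ∑ j ∈ J, ∑ q ∈ Icc 1 N, n11_f ψ f s j q ≤ 3 * ∑ q ∈ Icc 1 N, f q := by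
  classical
  rw [sum_comm, mul_sum]
  refine sum_le_sum fun q _ => ?_
  unfold n11_f
  rw [← sum_filter, sum_const, nsmul_eq_mul]
  apply mul_le_mul_of_nonneg_right _ (hf q)
  have h1 : J.filter (fun j => n11_j ψ s q ≤ j + 1 ∧ j ≤ n11_j ψ s q + 1) ⊆
      Icc (n11_j ψ s q - 1) (n11_j ψ s q + 1) := by
    intro j hj
    rw [mem_filter] at hj
    rw [mem_Icc]
    omega
  have h2 := card_le_card h1
  rw [Int.card_Icc] at h2
  have h3 : (J.filter (fun j => n11_j ψ s q ≤ j + 1 ∧ j ≤ n11_j ψ s q + 1)).card ≤ 3 := by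
    omega
  exact_mod_cast h3

/-- the numerical conditions on the level -/
theorem n11_num {c₀ s₀ ε₁ : ℝ} (hs₀ : 0 < s₀) (hε₁ : 0 < ε₁) :
    ∃ s₁ > 0, s₁ ≤ 1 / 1000 ∧ ∀ s : ℝ, 0 < s → s ≤ s₁ → s ≤ s₀ ∧
      -(384 * Real.log c₀) ≤ Real.log (1 / s) ∧
      100 * Real.log (1 / s) ^ 2 + Real.log (1 / s) ≤ s ^ (-ε₁) := by
  have h1 : (fun x : ℝ => Real.log x ^ (2 : ℝ)) =o[Filter.atTop] (fun x : ℝ => x ^ ε₁) :=
    isLittleO_log_rpow_rpow_atTop 2 hε₁
  have h2 : (fun x : ℝ => Real.log x) =o[Filter.atTop] (fun x : ℝ => x ^ ε₁) :=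
    isLittleO_log_rpow_atTop hε₁
  have h3 := ((h1.const_mul_left 100).add h2).bound one_pos
  have h4 : ∀ᶠ x : ℝ in Filter.atTop, -(384 * Real.log c₀) ≤ Real.log x :=
    Real.tendsto_log_atTop.eventually_ge_atTop _
  obtain ⟨X, hX⟩ := Filter.eventually_atTop.1
    ((h3.and h4).and (Filter.eventually_ge_atTop (1 / s₀)))
  obtain ⟨Y, hY⟩ : ∃ Y, Y = max X 1000 := ⟨_, rfl⟩
  have hY1 : 1000 ≤ Y := by rw [hY]; exact le_max_right _ _
  have hYX : X ≤ Y := by rw [hY]; exact le_max_left _ _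
  have hY0 : 0 < Y := by linarith only [hY1]
  refine ⟨1 / Y, by positivity, one_div_le_one_div_of_le (by norm_num) hY1, fun s hs hsY => ?_⟩
  have h5 : Y ≤ 1 / s := by
    rw [le_div_iff₀ hs]
    rw [le_div_iff₀ hY0] at hsY
    linarith only [hsY]
  obtain ⟨⟨h6, h7⟩, h8⟩ := hX (1 / s) (hYX.trans h5)
  refine ⟨?_, h7, ?_⟩
  · rw [one_div_le_one_div hs₀ hs] at h8
    exact h8
  · rw [one_mul, Real.norm_eq_abs, Real.norm_eq_abs, Real.rpow_two] at h6
    have h9 := (le_abs_self _).trans h6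
    rw [abs_of_nonneg (by positivity), one_div, Real.inv_rpow hs.le, ← Real.rpow_neg hs.le,
      ← one_div] at h9
    exact h9

/-- far pairs at one level for separated arcs, from the window theorem -/
theorem n11_typeA_of {c₀ : ℝ} (hc₀ : 0 < c₀)
    (hwin : ∃ C > 0, ∃ s₀ > 0, ∀ γ s V : ℝ, NHyp s₀ s V →
      ∀ (N : ℕ) (ψ f : ℕ → ℝ), (∀ q, 0 ≤ ψ q) → (∀ q, 0 ≤ f q ∧ f q ≤ ψ q * (q.totient / q)) →
      psum (fun q r => NWin γ s V (cofac q r) (cofac r q) ∧ Szs ψ s q r) N f f ≤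
        C * s ^ (1 + 1 / 800 : ℝ) * (∑ q ∈ Icc 1 N, f q) ^ (501 / 500 : ℝ)) :
    ∃ C > 0, ∃ c > (0 : ℝ), ∀ (γ s : ℝ), 0 < s → s ≤ 1 / 1000 →
    ∀ (N : ℕ) (ψ f : ℕ → ℝ), (∀ q, 0 ≤ ψ q) → (∀ q, 0 ≤ f q ∧ f q ≤ ψ q * (q.totient / q)) →
      (∀ q r : ℕ, 0 < q → q < r → f q ≠ 0 → f r ≠ 0 → ArcSep c₀ ψ q r) →
      psum (TA γ ψ s) N f f ≤
        C * s ^ (1 + c) * ((∑ q ∈ Icc 1 N, f q) + (∑ q ∈ Icc 1 N, f q) ^ 2) := by
  classical
  obtain ⟨C₁, hC₁, s₀, hs₀, hW⟩ := hwin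
  obtain ⟨C₂, ε₁, hC₂, hε₁, hnear⟩ := near_part
  obtain ⟨C₃, hC₃, hT⟩ := T1 (θ := 501 / 1000) (by norm_num) (by norm_num)
  obtain ⟨s₁, hs₁, hs₁3, hnum⟩ := n11_num (c₀ := c₀) hs₀ hε₁
  refine ⟨C₃ * s₁ ^ (-(1 / 400) : ℝ) + 2 * C₃ + C₂ + 3 * C₁, by positivity, 1 / 2000,
    by norm_num, ?_⟩
  intro γ s hs hs3 N ψ f hψ hf hsep
  set F := ∑ q ∈ Icc 1 N, f q with hF
  have hf0 : ∀ q, 0 ≤ f q := fun q => (hf q).1
  have hF0 : 0 ≤ F := sum_nonneg fun q _ => hf0 q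
  have hFF : 0 ≤ F + F ^ 2 := by positivity
  have hs1 : s ≤ 1 := by linarith only [hs3]
  have hsc : 0 < s ^ (1 + 1 / 2000 : ℝ) := Real.rpow_pos_of_pos hs _
  have e3 : (F * F) ^ (501 / 1000 : ℝ) ≤ F + F ^ 2 := by
    rw [show F * F = F ^ (2 : ℝ) by rw [Real.rpow_two]; ring, ← Real.rpow_mul hF0]
    exact rpow_le_add_sq hF0 (by norm_num) (by norm_num)
  have hfψ : ∀ q, f q ≤ ψ q := by
    intro q
    refine (hf q).2.trans ?_
    calc ψ q * (q.totient / q) ≤ ψ q * 1 := by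
          gcongr
          · exact hψ q
          · exact tot_le_one q
      _ = ψ q := mul_one _
  have hψpos : ∀ q, f q ≠ 0 → 0 < ψ q := fun q hq =>
    lt_of_lt_of_le (lt_of_le_of_ne (hf0 q) (Ne.symm hq)) (hfψ q)
  have hA0 : 0 ≤ C₃ * s₁ ^ (-(1 / 400) : ℝ) := by positivity
  rcases lt_or_ge s₁ s with hbig | hsmall
  · -- large levels
    have h1 := hT ψ ψ f f s s N hs hs hψ hψ hf hf
    have h2 : psum (TA γ ψ s) N f f ≤
        psum (fun q r => (cofac r q : ℝ) * ψ q ≤ s ∧ (cofac q r : ℝ) * ψ r ≤ s) N f f := by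
      apply psum_mono _ _ _ _ _ _ _ hf0 hf0
      rintro q _ r _ hR _
      exact ⟨⟨hR.1.2.1, hR.1.2.2.1⟩, le_rfl⟩
    have h3 : (s * s) ^ (1 - 501 / 1000 : ℝ) ≤ s₁ ^ (-(1 / 400) : ℝ) * s ^ (1 + 1 / 2000 : ℝ) := by
      have h4 : (s * s) ^ (1 - 501 / 1000 : ℝ) =
          s ^ (-(1 / 400) : ℝ) * s ^ (1 + 1 / 2000 : ℝ) := by
        rw [show s * s = s ^ (2 : ℝ) by rw [Real.rpow_two]; ring, ← Real.rpow_mul hs.le,
          ← Real.rpow_add hs]
        congr 1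
        norm_num
      rw [h4]
      apply mul_le_mul_of_nonneg_right _ hsc.le
      exact Real.rpow_le_rpow_of_nonpos hs₁ hbig.le (by norm_num)
    calc psum (TA γ ψ s) N f f ≤ _ := h2.trans h1
      _ ≤ C₃ * (s₁ ^ (-(1 / 400) : ℝ) * s ^ (1 + 1 / 2000 : ℝ)) * (F + F ^ 2) := by gcongr
      _ = (C₃ * s₁ ^ (-(1 / 400) : ℝ)) * (s ^ (1 + 1 / 2000 : ℝ) * (F + F ^ 2)) := by ring
      _ ≤ (C₃ * s₁ ^ (-(1 / 400) : ℝ) + 2 * C₃ + C₂ + 3 * C₁) *
          (s ^ (1 + 1 / 2000 : ℝ) * (F + F ^ 2)) := by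
        apply mul_le_mul_of_nonneg_right _ (by positivity)
        linarith only [hC₁, hC₂, hC₃]
      _ = _ := by ring
  · -- small levels
    obtain ⟨hss₀, hLc, hLε⟩ := hnum s hs hsmall
    have hL0 : 0 < Real.log (1 / s) := by
      apply Real.log_pos
      rw [lt_div_iff₀ hs]
      linarith only [hs3]
    have hs' : 0 < s ^ (193 / 192 : ℝ) := Real.rpow_pos_of_pos hs _
    -- the unbalanced parts
    have eT : ∀ x : ℝ, x = s ^ (193 / 192 : ℝ) * s → x ^ (1 - 501 / 1000 : ℝ) ≤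
        s ^ (1 + 1 / 2000 : ℝ) := by
      rintro x rfl
      rw [show s ^ (193 / 192 : ℝ) * s = s ^ (385 / 192 : ℝ) by
        nth_rewrite 2 [← Real.rpow_one s]
        rw [← Real.rpow_add hs]
        norm_num, ← Real.rpow_mul hs.le]
      exact Real.rpow_le_rpow_of_exponent_ge hs hs1 (by norm_num)
    have hU1 : psum (fun q r => (cofac r q : ℝ) * ψ q ≤ s ^ (193 / 192 : ℝ) ∧
        (cofac q r : ℝ) * ψ r ≤ s) N f f ≤ C₃ * s ^ (1 + 1 / 2000 : ℝ) * (F + F ^ 2) := by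
      refine (hT ψ ψ f f _ s N hs' hs hψ hψ hf hf).trans ?_
      have := eT _ rfl
      gcongr
    have hU2 : psum (fun q r => (cofac r q : ℝ) * ψ q ≤ s ∧
        (cofac q r : ℝ) * ψ r ≤ s ^ (193 / 192 : ℝ)) N f f ≤
        C₃ * s ^ (1 + 1 / 2000 : ℝ) * (F + F ^ 2) := by
      refine (hT ψ ψ f f s _ N hs hs' hψ hψ hf hf).trans ?_
      have := eT (s * s ^ (193 / 192 : ℝ)) (mul_comm _ _)
      gcongr
    -- the near part
    have hN := hnear γ s hs hs3 N ψ f (fun q => ⟨hf0 q, hfψ q⟩)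
    have hN2 : psum (fun q r => Rel γ ψ s q r ∧ Far γ s (cofac q r) (cofac r q) ∧
        cofac q r ≤ ⌊Real.exp (s ^ (-ε₁))⌋₊ ∧ cofac r q ≤ ⌊Real.exp (s ^ (-ε₁))⌋₊) N f f ≤
        C₂ * s ^ (1 + 1 / 2000 : ℝ) * (F + F ^ 2) := by
      refine hN.trans ?_
      have : s ^ (1 + 1 / 64 : ℝ) ≤ s ^ (1 + 1 / 2000 : ℝ) :=
        Real.rpow_le_rpow_of_exponent_ge hs hs1 (by norm_num)
      gcongr
    -- the windows
    obtain ⟨J, hJ⟩ : ∃ J : Finset ℤ, J = ((Icc 1 N).image (n11_j ψ s)).filter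
      (fun j => 100 * Real.log (1 / s) ^ 2 ≤ Real.log (n11_V s j)) := ⟨_, rfl⟩
    have hwj : ∀ j ∈ J, psum (fun q r => n11_j ψ s q = j ∧
        (n11_j ψ s r ≤ j + 1 ∧ j ≤ n11_j ψ s r + 1) ∧
        NWin γ s (n11_V s j) (cofac q r) (cofac r q) ∧ Szs ψ s q r) N f f ≤
        C₁ * s ^ (1 + 1 / 2000 : ℝ) * ((1 + F) * ∑ q ∈ Icc 1 N, n11_f ψ f s j q) := by
      intro j hj
      have hj2 : 100 * Real.log (1 / s) ^ 2 ≤ Real.log (n11_V s j) := by
        rw [hJ, mem_filter] at hj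
        exact hj.2
      have hfj : ∀ q, 0 ≤ n11_f ψ f s j q ∧ n11_f ψ f s j q ≤ f q := by
        intro q
        unfold n11_f
        split_ifs
        · exact ⟨hf0 q, le_rfl⟩
        · exact ⟨le_rfl, hf0 q⟩
      have h1 := hW γ s (n11_V s j) ⟨hs, hss₀, n11_V_pos s j, hj2⟩ N ψ (n11_f ψ f s j) hψ
        (fun q => ⟨(hfj q).1, (hfj q).2.trans (hf q).2⟩)
      have h2 : psum (fun q r => n11_j ψ s q = j ∧
          (n11_j ψ s r ≤ j + 1 ∧ j ≤ n11_j ψ s r + 1) ∧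
          NWin γ s (n11_V s j) (cofac q r) (cofac r q) ∧ Szs ψ s q r) N f f ≤
          psum (fun q r => NWin γ s (n11_V s j) (cofac q r) (cofac r q) ∧ Szs ψ s q r) N
            (n11_f ψ f s j) (n11_f ψ f s j) := by
        apply psum_mono _ _ _ _ _ _ _ (fun q => (hfj q).1) (fun q => (hfj q).1)
        rintro q _ r _ ⟨hq, hr, h3⟩ _
        refine ⟨h3, le_of_eq ?_⟩
        have e1 : n11_f ψ f s j q = f q := by
          unfold n11_f
          rw [if_pos ⟨by omega, by omega⟩]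
        have e2 : n11_f ψ f s j r = f r := by
          unfold n11_f
          rw [if_pos hr]
        rw [e1, e2]
      set Fj := ∑ q ∈ Icc 1 N, n11_f ψ f s j q with hFj
      have hFj0 : 0 ≤ Fj := sum_nonneg fun q _ => (hfj q).1
      have hFjF : Fj ≤ F := sum_le_sum fun q _ => (hfj q).2
      have h3 : Fj ^ (501 / 500 : ℝ) ≤ (1 + F) * Fj := by
        refine (rpow_le_add_sq hFj0 (by norm_num) (by norm_num)).trans ?_
        nlinarith only [hFj0, hFjF]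
      have h4 : s ^ (1 + 1 / 800 : ℝ) ≤ s ^ (1 + 1 / 2000 : ℝ) :=
        Real.rpow_le_rpow_of_exponent_ge hs hs1 (by norm_num)
      calc _ ≤ _ := h2.trans h1
        _ ≤ _ := by gcongr
    have hWall : psum (fun q r => ∃ j ∈ J, n11_j ψ s q = j ∧
        (n11_j ψ s r ≤ j + 1 ∧ j ≤ n11_j ψ s r + 1) ∧
        NWin γ s (n11_V s j) (cofac q r) (cofac r q) ∧ Szs ψ s q r) N f f ≤
        3 * C₁ * s ^ (1 + 1 / 2000 : ℝ) * (F + F ^ 2) := by
      refine (n11_exists J (fun j q r => n11_j ψ s q = j ∧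
        (n11_j ψ s r ≤ j + 1 ∧ j ≤ n11_j ψ s r + 1) ∧
        NWin γ s (n11_V s j) (cofac q r) (cofac r q) ∧ Szs ψ s q r) N f hf0).trans ?_
      refine (sum_le_sum hwj).trans ?_
      rw [← mul_sum, ← mul_sum]
      have h1 := n11_f_sum ψ f s J N hf0
      rw [← hF] at h1
      calc C₁ * s ^ (1 + 1 / 2000 : ℝ) * ((1 + F) * ∑ j ∈ J, ∑ q ∈ Icc 1 N, n11_f ψ f s j q)
          ≤ C₁ * s ^ (1 + 1 / 2000 : ℝ) * ((1 + F) * (3 * F)) := by gcongr
        _ = _ := by ring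
    -- the decomposition
    have hdec : psum (TA γ ψ s) N f f ≤
        psum (fun q r => (cofac r q : ℝ) * ψ q ≤ s ^ (193 / 192 : ℝ) ∧
          (cofac q r : ℝ) * ψ r ≤ s) N f f +
        (psum (fun q r => (cofac r q : ℝ) * ψ q ≤ s ∧
          (cofac q r : ℝ) * ψ r ≤ s ^ (193 / 192 : ℝ)) N f f +
        (psum (fun q r => Rel γ ψ s q r ∧ Far γ s (cofac q r) (cofac r q) ∧
          cofac q r ≤ ⌊Real.exp (s ^ (-ε₁))⌋₊ ∧ cofac r q ≤ ⌊Real.exp (s ^ (-ε₁))⌋₊) N f f +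
        psum (fun q r => ∃ j ∈ J, n11_j ψ s q = j ∧
          (n11_j ψ s r ≤ j + 1 ∧ j ≤ n11_j ψ s r + 1) ∧
          NWin γ s (n11_V s j) (cofac q r) (cofac r q) ∧ Szs ψ s q r) N f f)) := by
      have h1 : psum (TA γ ψ s) N f f ≤ psum (fun q r => TA γ ψ s q r ∧ f q ≠ 0 ∧ f r ≠ 0 ∧
          q ∈ Icc 1 N ∧ r ∈ Icc 1 N) N f f := by
        apply psum_mono _ _ _ _ _ _ _ hf0 hf0
        rintro q hq r hr hR hne
        exact ⟨⟨hR, left_ne_zero_of_mul hne, right_ne_zero_of_mul hne, hq, hr⟩, le_rfl⟩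
      refine h1.trans ?_
      refine (psum_or_le _ (fun q r => (cofac r q : ℝ) * ψ q ≤ s ^ (193 / 192 : ℝ) ∧
          (cofac q r : ℝ) * ψ r ≤ s) (fun q r => (TA γ ψ s q r ∧ f q ≠ 0 ∧ f r ≠ 0 ∧
          q ∈ Icc 1 N ∧ r ∈ Icc 1 N) ∧ s ^ (193 / 192 : ℝ) < (cofac r q : ℝ) * ψ q)
        N f f hf0 hf0 ?_).trans (add_le_add le_rfl ?_)
      · intro q r hR
        rcases le_or_gt ((cofac r q : ℝ) * ψ q) (s ^ (193 / 192 : ℝ)) with h2 | h2
        · exact Or.inl ⟨h2, hR.1.1.2.2.1⟩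
        · exact Or.inr ⟨hR, h2⟩
      refine (psum_or_le _ (fun q r => (cofac r q : ℝ) * ψ q ≤ s ∧
          (cofac q r : ℝ) * ψ r ≤ s ^ (193 / 192 : ℝ)) (fun q r => (TA γ ψ s q r ∧ f q ≠ 0 ∧
          f r ≠ 0 ∧ q ∈ Icc 1 N ∧ r ∈ Icc 1 N) ∧
          s ^ (193 / 192 : ℝ) < (cofac r q : ℝ) * ψ q ∧
          s ^ (193 / 192 : ℝ) < (cofac q r : ℝ) * ψ r)
        N f f hf0 hf0 ?_).trans (add_le_add le_rfl ?_)
      · rintro q r ⟨hR, h2⟩
        rcases le_or_gt ((cofac q r : ℝ) * ψ r) (s ^ (193 / 192 : ℝ)) with h3 | h3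
        · exact Or.inl ⟨hR.1.1.2.1, h3⟩
        · exact Or.inr ⟨hR, h2, h3⟩
      apply psum_or_le _ _ _ _ _ _ hf0 hf0
      rintro q r ⟨⟨hTA, hq, hr, hqN, hrN⟩, h2, h3⟩
      have hq0 : 0 < q := by
        have := (mem_Icc.1 hqN).1
        omega
      have hr0 : 0 < r := by
        have := (mem_Icc.1 hrN).1
        omega
      obtain ⟨h4, h5, h6⟩ := n11_pair hc₀ hs hL0 hLc hq0 hr0 (hψpos q hq) (hψpos r hr)
        (fun h => hsep q r hq0 h hq hr) (fun h => hsep r q hr0 h hr hq) hTA h2 h3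
      by_cases h7 : 100 * Real.log (1 / s) ^ 2 ≤ Real.log (n11_V s (n11_j ψ s q))
      · right
        refine ⟨n11_j ψ s q, ?_, rfl, ⟨h4.1, h4.2⟩, h5, h6⟩
        rw [hJ, mem_filter]
        exact ⟨mem_image_of_mem _ hqN, h7⟩
      · left
        rw [not_le] at h7
        have hVs : n11_V s (n11_j ψ s q) * s ^ (-(3 / 16) : ℝ) ≤ Real.exp (s ^ (-ε₁)) := by
          have e : n11_V s (n11_j ψ s q) * s ^ (-(3 / 16) : ℝ) =
              Real.exp (Real.log (n11_V s (n11_j ψ s q)) + 3 / 16 * Real.log (1 / s)) := by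
            rw [Real.exp_add, Real.exp_log (n11_V_pos _ _), n11_rpow hs]
            congr 2
            ring
          rw [e]
          apply Real.exp_le_exp.2
          linarith only [h7, hLε, hL0]
        refine ⟨hTA.1, hTA.2.1, Nat.le_floor ?_, Nat.le_floor ?_⟩
        · exact (le_max_left _ _).trans (h5.2.1.trans hVs)
        · exact (le_max_right _ _).trans (h5.2.1.trans hVs)
    calc psum (TA γ ψ s) N f f ≤ _ := hdec
      _ ≤ C₃ * s ^ (1 + 1 / 2000 : ℝ) * (F + F ^ 2) + (C₃ * s ^ (1 + 1 / 2000 : ℝ) * (F + F ^ 2) +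
          (C₂ * s ^ (1 + 1 / 2000 : ℝ) * (F + F ^ 2) +
          3 * C₁ * s ^ (1 + 1 / 2000 : ℝ) * (F + F ^ 2))) :=
        add_le_add hU1 (add_le_add hU2 (add_le_add hN2 hWall))
      _ = (2 * C₃ + C₂ + 3 * C₁) * (s ^ (1 + 1 / 2000 : ℝ) * (F + F ^ 2)) := by ring
      _ ≤ (C₃ * s₁ ^ (-(1 / 400) : ℝ) + 2 * C₃ + C₂ + 3 * C₁) *
          (s ^ (1 + 1 / 2000 : ℝ) * (F + F ^ 2)) := by
        apply mul_le_mul_of_nonneg_right _ (by positivity)
        linarith only [hA0]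
      _ = _ := by ring

/-- far pairs at one level for separated arcs -/
theorem typeA_sep {c₀ : ℝ} (hc₀ : 0 < c₀) :
    ∃ C > 0, ∃ c > (0 : ℝ), ∀ (γ s : ℝ), 0 < s → s ≤ 1 / 1000 →
    ∀ (N : ℕ) (ψ f : ℕ → ℝ), (∀ q, 0 ≤ ψ q) → (∀ q, 0 ≤ f q ∧ f q ≤ ψ q * (q.totient / q)) →
      (∀ q r : ℕ, 0 < q → q < r → f q ≠ 0 → f r ≠ 0 → ArcSep c₀ ψ q r) →
      psum (TA γ ψ s) N f f ≤
        C * s ^ (1 + c) * ((∑ q ∈ Icc 1 N, f q) + (∑ q ∈ Icc 1 N, f q) ^ 2) :=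
  n11_typeA_of hc₀ window_N

end Vale.P028
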