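import Vale.Agent.P028.MathlibUsed
import Mathlib.Analysis.SpecialFunctions.Pow.Real
import Mathlib.Data.Nat.PrimeFin

/-!
# The anatomical function `∑_{p ∣ q} p^{-σ}`
-/

namespace Vale.P028

open Finset

/-- `∑_{p ∣ q} p^{-σ}` -/
noncomputable def sg (σ : ℝ) (q : ℕ) : ℝ := ∑ p ∈ q.primeFactors, (p : ℝ) ^ (-σ)

end Vale.P028
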