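import Vale.Agent.P028.MathlibUsed
import Vale.Agent.P028.FO4
import Vale.Agent.P028.FDecomp
import Vale.Agent.P028.MSift
import Vale.Agent.P028.RDefs

/-!
# Definitions for Theorem Q (moduli with `∑_{p ∣ q} p^{-σ} ≤ C₀`, every real `γ`, no loss)
-/

namespace Vale.P028

open Finset MeasureTheory

/-- `A / B` (in lowest terms) is the fraction attached to arcs of size `x`. -/
def QFr (γ x : ℝ) (B : ℕ) (A : ℤ) : Prop :=
  0 < B ∧ IsCoprime A (B : ℤ) ∧ (B : ℝ) ≤ x ^ (-(7 / 32) : ℝ) ∧ |γ - A / B| ≤ x ^ (3 / 4 : ℝ)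

open Classical in
/-- The fraction used to sift the moduli with arcs of size `x`. -/
noncomputable def qF (γ x : ℝ) : ℕ × ℤ :=
  if h : ∃ p : ℕ × ℤ, QFr γ x p.1 p.2 then h.choose else (1, 0)

/-- Allowed centres of `q`. -/
def AQ (γ x : ℝ) (q : ℕ) (al : ℤ) : Prop :=
  ∀ p : ℕ, p.Prime → p ∣ q → ¬ p ∣ (qF γ x).1 →
    ¬ (p : ℤ) ∣ al * ((qF γ x).1 : ℤ) + (qF γ x).2

/-- The sifted sets. -/
def GQ (γ : ℝ) (ψ : ℕ → ℝ) (q : ℕ) : Set ℝ := GS γ q (ψ q) (AQ γ (ψ q) q)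

/-- Balanced pairs with structured cofactors at the level `s`; these do not meet. -/
def StrQ (γ s : ℝ) (ψ : ℕ → ℝ) (q r : ℕ) : Prop :=
  s ^ (65 / 64 : ℝ) < (cofac r q : ℝ) * ψ q ∧ s ^ (65 / 64 : ℝ) < (cofac q r : ℝ) * ψ r ∧
    FrS (s ^ (-(1 / 32) : ℝ)) s γ (cofac q r) ∧ FrS (s ^ (-(1 / 32) : ℝ)) s γ (cofac r q)

/-- The near pairs at the level `s` that may meet. -/
def NearQ (γ s : ℝ) (ψ : ℕ → ℝ) (q r : ℕ) : Prop :=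
  q ≠ r ∧ (cofac r q : ℝ) * ψ q ≤ s ∧ (cofac q r : ℝ) * ψ r ≤ s ∧
    distInt ((cofac q r : ℝ) * γ - (cofac r q : ℝ) * γ) < 2 * s ∧ ¬ StrQ γ s ψ q r

end Vale.P028
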