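import Vale.Agent.P028.MathlibUsed
import Vale.Agent.P028.QDefs
import Vale.Agent.P028.KLower

/-!
# Theorem Q: count of the allowed centres
-/

namespace Vale.P028

open Finset MeasureTheory

/-- `φ(q)/q ≥ exp (-2 C₀)` when `∑_{p ∣ q} p^{-σ} ≤ C₀`, `σ ≤ 1`. -/
theorem q_tot {σ C₀ : ℝ} (hσ : σ ≤ 1) {q : ℕ} (hq : 0 < q) (h : sg σ q ≤ C₀) :
    Real.exp (-(2 * C₀)) ≤ (q.totient : ℝ) / q := by
  rw [bt_totient_div_eq hq]
  have h1 : ∑ p ∈ q.primeFactors, 1 / (p : ℝ) ≤ C₀ := by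
    refine le_trans (Finset.sum_le_sum fun p hp => ?_) h
    have hp1 : (1 : ℝ) ≤ p := by exact_mod_cast (Nat.prime_of_mem_primeFactors hp).one_le
    calc 1 / (p : ℝ) = (p : ℝ) ^ (-1 : ℝ) := by rw [Real.rpow_neg_one, one_div]
      _ ≤ (p : ℝ) ^ (-σ) := Real.rpow_le_rpow_of_exponent_le hp1 (by linarith only [hσ])
  calc Real.exp (-(2 * C₀)) ≤ Real.exp (∑ p ∈ q.primeFactors, -(2 * (1 / (p : ℝ)))) := by
        apply Real.exp_le_exp.2
        rw [Finset.sum_neg_distrib, ← Finset.mul_sum]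
        linarith only [h1]
    _ = ∏ p ∈ q.primeFactors, Real.exp (-(2 * (1 / (p : ℝ)))) := Real.exp_sum _ _
    _ ≤ ∏ p ∈ q.primeFactors, (1 - 1 / (p : ℝ)) := by
        refine Finset.prod_le_prod (fun p _ => (Real.exp_pos _).le) fun p hp => ?_
        have hp2 : (2 : ℝ) ≤ p := by
          exact_mod_cast (Nat.prime_of_mem_primeFactors hp).two_le
        have h3 : 1 / (p : ℝ) ≤ 1 / 2 := one_div_le_one_div_of_le (by norm_num) hp2
        set x : ℝ := 1 / (p : ℝ) with hx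
        have hx0 : 0 < x := by positivity
        have h5 := Real.add_one_le_exp (2 * x)
        rw [Real.exp_neg, inv_le_comm₀ (Real.exp_pos _) (by linarith only [h3])]
        refine le_trans ?_ h5
        rw [inv_le_iff_one_le_mul₀ (by linarith only [h3])]
        nlinarith only [h3, hx0]

open Classical in
/-- From `lower_count` (KLower) with `Ps` the primes of `q` not dividing `B`
(`pr Ps ≥ φ(q)/q`). -/
theorem q_count (η : ℝ) (hη : 0 < η) : ∃ Q₀ : ℕ, ∀ (γ x : ℝ) (q : ℕ), Q₀ ≤ q → 0 < q →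
    ∀ m n : ℤ, η * q ≤ (n : ℝ) - m →
      1 / 2 * ((q.totient : ℝ) / q) * ((n : ℝ) - m) ≤
        (((Finset.Ioc m n).filter (AQ γ x q)).card : ℝ) := by
  obtain ⟨Q₀, h⟩ := lower_count η hη
  refine ⟨Q₀, fun γ x q hQ hq m n hmn => ?_⟩
  set B := (qF γ x).1 with hB
  set A := (qF γ x).2 with hA
  set Ps : Finset ℕ := q.primeFactors.filter (fun p => ¬ p ∣ B) with hPs
  have h1 := h q B A Ps hQ (fun p hp => by
    rw [hPs, Finset.mem_filter] at hp
    exact ⟨Nat.prime_of_mem_primeFactors hp.1, Nat.dvd_of_mem_primeFactors hp.1, hp.2⟩) m n hmn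
  have hq0 : (0 : ℝ) < q := by exact_mod_cast hq
  have hnm : 0 ≤ (n : ℝ) - m := le_trans (by positivity) hmn
  have h2 : (q.totient : ℝ) / q ≤ pr Ps := by
    rw [bt_totient_div_eq hq]
    unfold pr
    have hf : ∀ p ∈ q.primeFactors, 0 < 1 - 1 / (p : ℝ) ∧ 1 - 1 / (p : ℝ) ≤ 1 := fun p hp => by
      have hp2 : (2 : ℝ) ≤ p := by
        exact_mod_cast (Nat.prime_of_mem_primeFactors hp).two_le
      have h3 : 1 / (p : ℝ) ≤ 1 / 2 := one_div_le_one_div_of_le (by norm_num) hp2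
      have h4 : 0 < 1 / (p : ℝ) := by positivity
      constructor <;> linarith only [h3, h4]
    rw [← Finset.prod_filter_mul_prod_filter_not q.primeFactors (fun p => ¬ p ∣ B)
      (fun p => 1 - 1 / (p : ℝ)), ← hPs]
    have h5 : ∏ p ∈ q.primeFactors.filter (fun p => ¬ ¬ p ∣ B), (1 - 1 / (p : ℝ)) ≤ 1 :=
      Finset.prod_le_one (fun p hp => (hf p (Finset.mem_filter.1 hp).1).1.le)
        fun p hp => (hf p (Finset.mem_filter.1 hp).1).2
    have h6 : 0 ≤ ∏ p ∈ Ps, (1 - 1 / (p : ℝ)) :=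
      Finset.prod_nonneg fun p hp => (hf p (Finset.mem_filter.1 hp).1).1.le
    nlinarith only [h5, h6]
  have h3 : ((Finset.Ioc m n).filter (fun al : ℤ => ∀ p ∈ Ps, ¬ (p : ℤ) ∣ al * (B : ℤ) + A)) =
      (Finset.Ioc m n).filter (AQ γ x q) := by
    refine Finset.filter_congr fun al _ => ?_
    unfold AQ
    constructor
    · intro h4 p hp hpq hpB
      exact h4 p (Finset.mem_filter.2 ⟨Nat.mem_primeFactors.2 ⟨hp, hpq, hq.ne'⟩, hpB⟩)
    · intro h4 p hp
      rw [hPs, Finset.mem_filter, Nat.mem_primeFactors] at hp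
      exact h4 p hp.1.1 hp.1.2.1 hp.2
  rw [h3] at h1
  refine le_trans ?_ h1
  calc 1 / 2 * ((q.totient : ℝ) / q) * ((n : ℝ) - m)
      = 1 / 2 * ((n : ℝ) - m) * ((q.totient : ℝ) / q) := by ring
    _ ≤ 1 / 2 * ((n : ℝ) - m) * pr Ps := by gcongr

end Vale.P028
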