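import Vale.Agent.P028.MathlibUsed
import Vale.Agent.P028.QDefs

/-!
# Theorem Q: the inner bound inside the classes

Proof. For a class `a ∈ (Icc 1 N).image cl` let `h = ∏_{z < p ≤ N prime} p^(lev a p)`. A pair of the
relation in the class `a` has `h ∣ q`, `h ∣ r` (`q = h q'`, `r = h r'`), `cofac q' r' = cofac q r`,
`cofac r' q' = cofac r q`, and every prime `p ∣ gcd(q', r')` is `≤ z` (for `p > z` the minimum of
the exponents of `q`, `r` is exactly `lev a p`). So the class sum is at most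
`psum (EdI H s z γ γ 1 1 ψ' ψ' s₁ s₂) N f' f'` with `ψ' q' = ψ (h q')`,
`f' q' = if cl (h q') = a ∧ h q' ≤ N then f (h q') else 0`, and `fo_inner` applies with
`∑_{q' ≤ N} f' q' ≤ m_a = ∑_{q ≤ N, cl q = a} f q`. Finally `∑_a m_a^(2θ) ≤ F^(2θ)`.
-/

namespace Vale.P028

open Finset

theorem q_exists_h (N z : ℕ) (l : ℕ → ℕ) :
    ∃ h : ℕ, 0 < h ∧ ∀ p, h.factorization p =
      if p ∈ (Icc 1 N).filter (fun p => p.Prime ∧ z < p) then l p else 0 := by
  classical
  set P := (Icc 1 N).filter (fun p => p.Prime ∧ z < p) with hP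
  set L : ℕ →₀ ℕ := Finsupp.onFinset P (fun p => if p ∈ P then l p else 0)
    (by intro p hp; by_contra h; simp [h] at hp) with hL
  have hpr : ∀ p ∈ L.support, p.Prime := by
    intro p hp
    have : p ∈ P := Finsupp.support_onFinset_subset hp
    exact (mem_filter.1 this).2.1
  refine ⟨L.prod (· ^ ·), ?_, ?_⟩
  · refine Finset.prod_pos fun p hp => ?_
    exact pow_pos (hpr p hp).pos _
  · intro p
    rw [Nat.prod_pow_factorization_eq_self hpr]
    rfl

theorem q_cofac_mul {h q r : ℕ} (hh : 0 < h) : cofac (h * q) (h * r) = cofac q r := by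
  unfold cofac
  rw [Nat.gcd_mul_left, Nat.mul_div_mul_left _ _ hh]

theorem q_rpow_split {θ m : ℝ} (hθ : 1 / 2 < θ) (hm : 0 ≤ m) :
    m ^ (2 * θ) = m * m ^ (2 * θ - 1) := by
  rcases hm.eq_or_lt with h | h
  · rw [← h, Real.zero_rpow (by linarith), zero_mul]
  · have : 2 * θ = 1 + (2 * θ - 1) := by ring
    conv_lhs => rw [this, Real.rpow_add h, Real.rpow_one]

open Classical in
theorem q_inner {θ μ : ℝ} (hθ : 1 / 2 < θ) (hθ1 : θ < 1) (hμ : 0 < μ) (hμ1 : μ < 1 - θ) :
    ∃ C ≥ 1, ∃ k ≥ 0, ∀ (H s γ : ℝ) (z : ℕ), 4 ≤ H → H ≤ z → 0 < s → s * H ^ 16 ≤ 1 →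
      ∀ (N : ℕ) (ψ f : ℕ → ℝ) (cl : ℕ → ℕ) (lev : ℕ → ℕ → ℕ) (s₁ s₂ : ℝ), 0 < s₁ → 0 < s₂ →
      (∀ q, 0 ≤ f q ∧ f q ≤ ψ q) → (∀ a p, N < p → lev a p = 0) →
      psum (fun q r => cl q = cl r ∧ (∀ p : ℕ, p.Prime → z < p →
          lev (cl q) p ≤ q.factorization p ∧ lev (cl q) p ≤ r.factorization p ∧
            (q.factorization p = lev (cl q) p ∨ r.factorization p = lev (cl q) p)) ∧
          OmI H s z γ γ (cofac q r) (cofac r q) ∧
          (cofac r q : ℝ) * ψ q ≤ s₁ ∧ (cofac q r : ℝ) * ψ r ≤ s₂) N f f ≤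
        C * (1 / H) ^ μ * (1 + Real.log z) ^ (k : ℝ) * (s₁ * s₂) ^ (1 - θ) *
          (∑ q ∈ Icc 1 N, f q) ^ (2 * θ) := by
  obtain ⟨C, hC, k, hk, hI⟩ := fo_inner hθ hθ1 hμ hμ1
  refine ⟨C, hC, k, hk, ?_⟩
  intro H s γ z hH hHz hs hsH N ψ f cl lev s₁ s₂ hs₁ hs₂ hf hlev
  set R : ℕ → ℕ → Prop := fun q r => cl q = cl r ∧ (∀ p : ℕ, p.Prime → z < p →
          lev (cl q) p ≤ q.factorization p ∧ lev (cl q) p ≤ r.factorization p ∧
            (q.factorization p = lev (cl q) p ∨ r.factorization p = lev (cl q) p)) ∧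
          OmI H s z γ γ (cofac q r) (cofac r q) ∧
          (cofac r q : ℝ) * ψ q ≤ s₁ ∧ (cofac q r : ℝ) * ψ r ≤ s₂ with hR
  have hf0 : ∀ q, 0 ≤ f q := fun q => (hf q).1
  have hz4 : (4 : ℝ) ≤ z := hH.trans hHz
  have hlz : 0 ≤ Real.log z := Real.log_nonneg (by linarith)
  set B : ℝ := C * (1 / H) ^ μ * (1 + Real.log z) ^ (k : ℝ) * (s₁ * s₂) ^ (1 - θ) with hB
  have hH0 : 0 < H := by linarith
  have hC0 : 0 ≤ C := by linarith
  have hB0 : 0 ≤ B := by positivity
  set m : ℕ → ℝ := fun a => ∑ q ∈ Icc 1 N, if cl q = a then f q else 0 with hm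
  have hm0 : ∀ a, 0 ≤ m a := by
    intro a
    refine sum_nonneg fun q _ => ?_
    split_ifs
    · exact hf0 q
    · exact le_rfl
  set S := (Icc 1 N).image cl with hS
  set F := ∑ q ∈ Icc 1 N, f q with hF
  have hF0 : 0 ≤ F := sum_nonneg fun q _ => hf0 q
  -- split in classes
  have hsplit : psum R N f f = ∑ a ∈ S, psum (fun q r => cl q = a ∧ R q r) N f f := by
    unfold psum
    symm
    rw [sum_comm]
    refine sum_congr rfl fun q hq => ?_
    rw [sum_comm]
    refine sum_congr rfl fun r hr => ?_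
    rw [Finset.sum_eq_single (cl q)]
    · simp
    · intro b _ hb
      rw [if_neg]
      intro h
      exact hb h.1.symm
    · intro h
      exact absurd (mem_image_of_mem cl hq) h
  have hclass : ∀ a, psum (fun q r => cl q = a ∧ R q r) N f f ≤ B * (m a) ^ (2 * θ) := by
    intro a
    obtain ⟨h, hh, hfac⟩ := q_exists_h N z (lev a)
    have hdvd : ∀ q : ℕ, 0 < q → (∀ p : ℕ, p.Prime → z < p → lev a p ≤ q.factorization p) →
        h ∣ q := by
      intro q hq0 hq
      rw [← Nat.factorization_le_iff_dvd hh.ne' hq0.ne']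
      intro p
      rw [hfac p]
      split_ifs with hp
      · exact hq p (mem_filter.1 hp).2.1 (mem_filter.1 hp).2.2
      · exact Nat.zero_le _
    have hre := psum_reindex h 1 1 N hh (fun q r => cl q = a ∧ R q r) f f (by
      rintro q r hq0 hr0 ⟨h1, h2, h3, h4⟩
      rw [pow_one]
      constructor
      · refine hdvd q hq0 fun p hp hzp => ?_
        have := (h3 p hp hzp).1
        rwa [h1] at this
      · refine hdvd r hr0 fun p hp hzp => ?_
        have := (h3 p hp hzp).2.1
        rwa [h1] at this)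
    simp only [pow_one] at hre
    rw [hre]
    set f' : ℕ → ℝ := fun q => if cl (h * q) = a ∧ h * q ≤ N then f (h * q) else 0 with hf'
    set ψ' : ℕ → ℝ := fun q => max (ψ (h * q)) 0 with hψ'
    have hψ'e : ∀ q, ψ' q = ψ (h * q) := by
      intro q
      rw [hψ']
      exact max_eq_left ((hf _).1.trans (hf _).2)
    have hf'0 : ∀ q, 0 ≤ f' q := by
      intro q
      simp only [hf']
      split_ifs
      · exact hf0 _
      · exact le_rfl
    have hle : psum (fun q r => cl (h * q) = a ∧ R (h * q) (h * r)) N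
        (fun q => if h * q ≤ N then f (h * q) else 0)
        (fun r => if h * r ≤ N then f (h * r) else 0) ≤
        psum (EdI H s z γ γ 1 1 ψ' ψ' s₁ s₂) N f' f' := by
      refine psum_le_psum hf'0 hf'0 ?_
      rintro q r hq0 hr0 ⟨h1, h2, h3, h4, h5, h6⟩
      have h2' : cl (h * r) = a := by rw [← h2, h1]
      have e1 : (if h * q ≤ N then f (h * q) else 0) = f' q := by
        simp only [hf', h1, true_and]
      have e2 : (if h * r ≤ N then f (h * r) else 0) = f' r := by
        simp only [hf', h2', true_and]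
      refine ⟨by rw [e1, e2], ?_⟩
      by_cases hqN : h * q ≤ N
      swap
      · right
        rw [← e1, if_neg hqN, zero_mul]
      by_cases hrN : h * r ≤ N
      swap
      · right
        rw [← e2, if_neg hrN, mul_zero]
      left
      rw [q_cofac_mul hh, q_cofac_mul hh] at h4
      rw [q_cofac_mul hh] at h5 h6
      refine ⟨?_, h4, ?_, ?_⟩
      · intro p hp hpg
        by_contra hzp
        push Not at hzp
        have hpq : p ∣ q := hpg.trans (Nat.gcd_dvd_left q r)
        have hpr : p ∣ r := hpg.trans (Nat.gcd_dvd_right q r)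
        have hpN : p ≤ N := (Nat.le_of_dvd hq0 hpq).trans
          ((Nat.le_mul_of_pos_left q hh).trans hqN)
        have hpP : p ∈ (Icc 1 N).filter (fun p => p.Prime ∧ z < p) :=
          mem_filter.2 ⟨mem_Icc.2 ⟨hp.one_lt.le, hpN⟩, hp, hzp⟩
        have hhp : h.factorization p = lev a p := by rw [hfac p, if_pos hpP]
        have q1 : 0 < q.factorization p := hp.factorization_pos_of_dvd hq0.ne' hpq
        have r1 : 0 < r.factorization p := hp.factorization_pos_of_dvd hr0.ne' hpr
        have h7 := (h3 p hp hzp).2.2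
        rw [h1, Nat.factorization_mul hh.ne' hq0.ne', Nat.factorization_mul hh.ne' hr0.ne',
          Finsupp.add_apply, Finsupp.add_apply, hhp] at h7
        omega
      · rw [hψ'e, Nat.cast_one, one_mul]
        exact h5
      · rw [hψ'e, Nat.cast_one, one_mul]
        exact h6
    refine hle.trans ?_
    have hI' := hI H s γ γ z 1 1 hH hHz hs hsH one_pos one_pos ψ' ψ' f' f' s₁ s₂ N hs₁ hs₂
      (fun q => ⟨hf'0 q, by
        rw [hψ'e]
        simp only [hf']
        split_ifs
        · exact (hf _).2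
        · exact (hf _).1.trans (hf _).2⟩)
      (fun q => ⟨hf'0 q, by
        rw [hψ'e]
        simp only [hf']
        split_ifs
        · exact (hf _).2
        · exact (hf _).1.trans (hf _).2⟩)
    refine hI'.trans ?_
    have hsum : ∑ q ∈ Icc 1 N, f' q ≤ m a := by
      have h8 := sum_reindex h 1 N hh (fun q => if h ∣ q ∧ cl q = a then f q else 0) (by
        intro q hq
        rw [pow_one] at hq
        simp [hq])
      simp only [pow_one] at h8
      have h9 : ∑ q ∈ Icc 1 N, f' q = ∑ q ∈ Icc 1 N, if h ∣ q ∧ cl q = a then f q else 0 := by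
        rw [h8]
        refine sum_congr rfl fun q _ => ?_
        simp only [hf', dvd_mul_right, true_and]
        by_cases c1 : cl (h * q) = a <;> by_cases c2 : h * q ≤ N <;> simp [c1, c2]
      rw [h9]
      refine sum_le_sum fun q _ => ?_
      by_cases c1 : cl q = a
      · by_cases c2 : h ∣ q
        · simp [c1, c2]
        · simp [c1, c2, hf0 q]
      · simp [c1]
    have hs0 : 0 ≤ ∑ q ∈ Icc 1 N, f' q := sum_nonneg fun q _ => hf'0 q
    have h10 : ((∑ q ∈ Icc 1 N, f' q) * ∑ r ∈ Icc 1 N, f' r) ^ θ ≤ (m a) ^ (2 * θ) := by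
      have hθ0 : 0 ≤ θ := by linarith
      calc ((∑ q ∈ Icc 1 N, f' q) * ∑ r ∈ Icc 1 N, f' r) ^ θ ≤ (m a * m a) ^ θ :=
            Real.rpow_le_rpow (mul_nonneg hs0 hs0) (mul_le_mul hsum hsum hs0 (hm0 a)) hθ0
        _ = (m a) ^ (2 * θ) := by
            rw [← sq, ← Real.rpow_natCast, ← Real.rpow_mul (hm0 a)]
            norm_num
    have h11 : (s₁ * s₂ / (((1 : ℕ) : ℝ) * ((1 : ℕ) : ℝ))) = s₁ * s₂ := by norm_num
    rw [h11]
    exact mul_le_mul_of_nonneg_left h10 hB0
  rw [hsplit]
  calc ∑ a ∈ S, psum (fun q r => cl q = a ∧ R q r) N f f ≤ ∑ a ∈ S, B * (m a) ^ (2 * θ) :=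
        sum_le_sum fun a _ => hclass a
    _ = B * ∑ a ∈ S, (m a) ^ (2 * θ) := by rw [mul_sum]
    _ ≤ B * F ^ (2 * θ) := by
        refine mul_le_mul_of_nonneg_left ?_ hB0
        have hmF : ∀ a, m a ≤ F := by
          intro a
          refine sum_le_sum fun q _ => ?_
          split_ifs
          · exact le_rfl
          · exact hf0 q
        have htot : ∑ a ∈ S, m a = F := by
          simp only [hm]
          rw [sum_comm]
          refine sum_congr rfl fun q hq => ?_
          rw [Finset.sum_eq_single (cl q)]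
          · simp
          · intro b _ hb
            rw [if_neg]
            exact fun h => hb h.symm
          · intro h
            exact absurd (mem_image_of_mem cl hq) h
        calc ∑ a ∈ S, (m a) ^ (2 * θ) ≤ ∑ a ∈ S, m a * F ^ (2 * θ - 1) := by
              refine sum_le_sum fun a _ => ?_
              rw [q_rpow_split hθ (hm0 a)]
              exact mul_le_mul_of_nonneg_left
                (Real.rpow_le_rpow (hm0 a) (hmF a) (by linarith)) (hm0 a)
          _ = F * F ^ (2 * θ - 1) := by rw [← sum_mul, htot]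
          _ = F ^ (2 * θ) := (q_rpow_split hθ hF0).symm

end Vale.P028
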