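import Vale.Agent.P028.MathlibUsed
import Vale.Agent.P028.QDefs

/-!
# Theorem Q: pairs in one class with a deficient prime `> z`

Proof. Classes `a ∈ (Icc 1 N).image cl`, `m_a = cmass N f cl a`,
`P_a = {p ≤ N prime, p > z, 1 ≤ lev a p}`. A pair of the relation with the prime `p` (first case)
has `q ∈ A a p = {cl q = a, v_p(q) ≠ lev a p}`, `r ∈ B a = {cl r = a}` and `p ∣ cofac r q`
(`v_p(q) < v_p(r)`), so it is counted by `fd_sub` with `d₁ = 1`, `d₂ = p`:
`≤ C (s₁ s₂)^(1-θ) (τ/p m_a m_a)^θ p^(-(1-θ)) = C (s₁ s₂)^(1-θ) τ^θ m_a^(2θ) / p`.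
The second case is symmetric (`d₁ = p`, `d₂ = 1`). Sum over `p ∈ P_a`:
`∑_{P_a} 1/p ≤ z^(-(1-σ)) ∑_{P_a} p^(-σ)` and, since `τ / p ≤ 1/2` for `p > z ≥ 2 τ`,
`m_a/2 ≤ ∑_{q ∈ a, p ∣ q} f q` for `p ∈ P_a` (most of the class has `v_p(q) = lev a p ≥ 1`), so
`(m_a / 2) ∑_{P_a} p^(-σ) ≤ ∑_{q ∈ a} f q * sg σ q ≤ C₀ m_a`. Hence `∑_{P_a} 1/p ≤ 2 C₀ z^(-(1-σ))`
when `m_a > 0` (when `m_a = 0` the class contributes `0`). Finally `∑_a m_a^(2θ) ≤ F^(2θ)`
(see the proof of `decomp_double`, `fd_pow_sum`, `rpow_add` superadditivity).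
-/

namespace Vale.P028

open Finset

theorem qy_dvd {p q r : ℕ} (hq : 0 < q) (hr : 0 < r)
    (h : q.factorization p < r.factorization p) : p ∣ cofac r q := by
  by_contra hne
  have hg0 : 0 < Nat.gcd q r := Nat.gcd_pos_of_pos_left _ hq
  have e2 : Nat.gcd q r * cofac r q = r := by
    have := gcd_mul_cofac r q
    rwa [Nat.gcd_comm] at this
  have hc2 : cofac r q ≠ 0 := by
    intro h0; rw [h0, mul_zero] at e2; omega
  have f2 : r.factorization p = (Nat.gcd q r).factorization p := by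
    conv_lhs => rw [← e2]
    rw [Nat.factorization_mul hg0.ne' hc2]
    simp [Nat.factorization_eq_zero_of_not_dvd hne]
  have f3 : (Nat.gcd q r).factorization p ≤ q.factorization p :=
    (Nat.factorization_le_iff_dvd hg0.ne' hq.ne').2 (Nat.gcd_dvd_left q r) p
  omega

theorem qy_sum1 {N : ℕ} {D : Finset ℕ} (hD : D ⊆ Icc 1 N) (g : ℕ → ℝ) :
    ∑ q ∈ Icc 1 N, (if q ∈ D then g q else 0) = ∑ q ∈ D, g q := by
  rw [← Finset.sum_filter]
  congr 1
  ext q
  simp only [mem_filter]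
  exact ⟨fun h => h.2, fun h => ⟨hD h, h⟩⟩

theorem qy_sum2 {N : ℕ} {A B : Finset ℕ} (hA : A ⊆ Icc 1 N) (hB : B ⊆ Icc 1 N)
    (G : ℕ → ℕ → ℝ) :
    ∑ q ∈ Icc 1 N, ∑ r ∈ Icc 1 N, (if q ∈ A ∧ r ∈ B then G q r else 0) =
      ∑ q ∈ A, ∑ r ∈ B, G q r := by
  rw [← qy_sum1 hA]
  refine sum_congr rfl fun q _ => ?_
  by_cases h : q ∈ A
  · rw [if_pos h, ← qy_sum1 hB]
    refine sum_congr rfl fun r _ => ?_
    simp only [h, true_and]
  · rw [if_neg h]
    refine sum_eq_zero fun r _ => ?_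
    simp only [h, false_and, if_false]

theorem qy_primes {N : ℕ} {f : ℕ → ℝ} {τ : ℝ} {cl : ℕ → ℕ} {lev : ℕ → ℕ → ℕ}
    (hf : ∀ q, 0 ≤ f q) (hD : IsDecomp N f τ cl lev) {σ C₀ : ℝ} (hσ : σ ≤ 1)
    (hsg : ∀ q, f q ≠ 0 → sg σ q ≤ C₀) {z : ℝ} (hz : 1 ≤ z) (hτz : 2 * τ ≤ z)
    (a : ℕ) (P : Finset ℕ) (hP : ∀ p ∈ P, p.Prime ∧ z < (p : ℝ) ∧ 1 ≤ lev a p)
    (hm : 0 < cmass N f cl a) :
    ∑ p ∈ P, ((p : ℝ))⁻¹ ≤ 2 * C₀ * z ^ (-(1 - σ)) := by
  have hz0 : 0 < z := by linarith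
  have h1 : ∀ p ∈ P, (p : ℝ)⁻¹ ≤ (p : ℝ) ^ (-σ) * z ^ (-(1 - σ)) := by
    intro p hp
    obtain ⟨hpp, hzp, -⟩ := hP p hp
    have hp0 : (0 : ℝ) < p := by exact_mod_cast hpp.pos
    have e : (p : ℝ)⁻¹ = (p : ℝ) ^ (-σ) * (p : ℝ) ^ (-(1 - σ)) := by
      rw [← Real.rpow_add hp0, ← Real.rpow_neg_one]
      congr 1; ring
    rw [e]
    refine mul_le_mul_of_nonneg_left ?_ (by positivity)
    exact Real.rpow_le_rpow_of_nonpos hz0 hzp.le (by linarith)
  have h2 : ∀ p ∈ P, cmass N f cl a / 2 ≤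
      ∑ q ∈ Icc 1 N, (if cl q = a ∧ p ∣ q then f q else 0) := by
    intro p hp
    obtain ⟨hpp, hzp, hl⟩ := hP p hp
    have hp0 : (0 : ℝ) < p := by exact_mod_cast hpp.pos
    have hmin := hD.minor a p hpp
    have hτp : τ / p ≤ 1 / 2 := by
      rw [div_le_div_iff₀ hp0 (by norm_num)]
      linarith
    have h3 : cminor N f cl lev a p ≤ 1 / 2 * cmass N f cl a :=
      hmin.trans (mul_le_mul_of_nonneg_right hτp hm.le)
    have h4 : cmass N f cl a ≤ cminor N f cl lev a p +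
        ∑ q ∈ Icc 1 N, (if cl q = a ∧ p ∣ q then f q else 0) := by
      unfold cmass cminor
      rw [← sum_add_distrib]
      refine sum_le_sum fun q hq => ?_
      have hfq := hf q
      by_cases hc : cl q = a
      · by_cases hl' : q.factorization p = lev a p
        · have hpq : p ∣ q := by
            by_contra hne
            rw [Nat.factorization_eq_zero_of_not_dvd hne] at hl'
            omega
          rw [if_pos hc, if_neg (fun h => h.2 hl'), if_pos ⟨hc, hpq⟩, zero_add]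
        · rw [if_pos hc, if_pos ⟨hc, hl'⟩]
          split_ifs <;> linarith
      · rw [if_neg hc, if_neg (fun h => hc h.1), if_neg (fun h => hc h.1), zero_add]
    linarith
  have h3 : cmass N f cl a / 2 * ∑ p ∈ P, (p : ℝ) ^ (-σ) ≤ C₀ * cmass N f cl a := by
    calc _ = ∑ p ∈ P, cmass N f cl a / 2 * (p : ℝ) ^ (-σ) := by rw [mul_sum]
      _ ≤ ∑ p ∈ P, (∑ q ∈ Icc 1 N, (if cl q = a ∧ p ∣ q then f q else 0)) * (p : ℝ) ^ (-σ) :=
          sum_le_sum fun p hp => mul_le_mul_of_nonneg_right (h2 p hp) (by positivity)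
      _ = ∑ q ∈ Icc 1 N, ∑ p ∈ P, (if cl q = a ∧ p ∣ q then f q else 0) * (p : ℝ) ^ (-σ) := by
          simp only [sum_mul]
          rw [sum_comm]
      _ ≤ ∑ q ∈ Icc 1 N, C₀ * (if cl q = a then f q else 0) := by
          refine sum_le_sum fun q hq => ?_
          have hq0 : q ≠ 0 := by have := (mem_Icc.1 hq).1; omega
          by_cases hc : cl q = a
          · by_cases hfq : f q = 0
            · have h0 : ∑ p ∈ P, (if cl q = a ∧ p ∣ q then f q else 0) * (p : ℝ) ^ (-σ) = 0 := by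
                refine sum_eq_zero fun p _ => ?_
                rw [hfq, ite_self, zero_mul]
              rw [h0, hfq, ite_self, mul_zero]
            · have h5 : ∑ p ∈ P, (if cl q = a ∧ p ∣ q then f q else 0) * (p : ℝ) ^ (-σ) =
                f q * ∑ p ∈ P.filter (fun p => p ∣ q), (p : ℝ) ^ (-σ) := by
                rw [sum_filter, mul_sum]
                refine sum_congr rfl fun p _ => ?_
                by_cases hpq : p ∣ q
                · rw [if_pos ⟨hc, hpq⟩, if_pos hpq]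
                · rw [if_neg (fun h => hpq h.2), if_neg hpq, zero_mul, mul_zero]
              have h6 : ∑ p ∈ P.filter (fun p => p ∣ q), (p : ℝ) ^ (-σ) ≤ sg σ q := by
                unfold sg
                refine sum_le_sum_of_subset_of_nonneg ?_ (fun p _ _ => by positivity)
                intro p hp
                rw [mem_filter] at hp
                exact Nat.mem_primeFactors.2 ⟨(hP p hp.1).1, hp.2, hq0⟩
              rw [h5, if_pos hc, mul_comm C₀]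
              exact mul_le_mul_of_nonneg_left (h6.trans (hsg q hfq)) (hf q)
          · rw [if_neg hc, mul_zero]
            refine le_of_eq (sum_eq_zero fun p _ => ?_)
            rw [if_neg (fun h => hc h.1), zero_mul]
      _ = _ := by rw [← mul_sum]; rfl
  have h4 : ∑ p ∈ P, (p : ℝ) ^ (-σ) ≤ 2 * C₀ := by
    have : cmass N f cl a * (∑ p ∈ P, (p : ℝ) ^ (-σ)) ≤ cmass N f cl a * (2 * C₀) := by linarith
    exact le_of_mul_le_mul_left this hm
  calc ∑ p ∈ P, ((p : ℝ))⁻¹ ≤ ∑ p ∈ P, (p : ℝ) ^ (-σ) * z ^ (-(1 - σ)) := sum_le_sum h1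
    _ = (∑ p ∈ P, (p : ℝ) ^ (-σ)) * z ^ (-(1 - σ)) := by rw [sum_mul]
    _ ≤ _ := mul_le_mul_of_nonneg_right h4 (by positivity)

open Classical in
theorem q_y {θ : ℝ} (hθ : 1 / 2 < θ) (hθ1 : θ < 1) :
    ∃ C > 0, ∀ (N : ℕ) (ψ f : ℕ → ℝ) (τ : ℝ) (cl : ℕ → ℕ) (lev : ℕ → ℕ → ℕ), (∀ q, 0 ≤ ψ q) →
      (∀ q, 0 ≤ f q ∧ f q ≤ ψ q * (q.totient / q)) → 0 < τ → IsDecomp N f τ cl lev →
      ∀ σ C₀ : ℝ, σ ≤ 1 → 0 ≤ C₀ → (∀ q, f q ≠ 0 → sg σ q ≤ C₀) →
      ∀ z s₁ s₂ : ℝ, 1 ≤ z → 2 * τ ≤ z → 0 < s₁ → 0 < s₂ →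
      psum (fun q r => cl q = cl r ∧ (∃ p : ℕ, p.Prime ∧ z < p ∧
          ((q.factorization p < lev (cl q) p ∧ r.factorization p = lev (cl q) p) ∨
            (r.factorization p < lev (cl q) p ∧ q.factorization p = lev (cl q) p))) ∧
        (cofac r q : ℝ) * ψ q ≤ s₁ ∧ (cofac q r : ℝ) * ψ r ≤ s₂) N f f ≤
        C * C₀ * (s₁ * s₂) ^ (1 - θ) * τ ^ θ * z ^ (-(1 - σ)) *
          (∑ q ∈ Icc 1 N, f q) ^ (2 * θ) := by
  obtain ⟨C, hC, hT⟩ := fd_sub hθ hθ1
  refine ⟨4 * C, by positivity, ?_⟩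
  intro N ψ f τ cl lev hψ hf hτ hD σ C₀ hσ hC₀ hsg z s₁ s₂ hz hτz hs₁ hs₂
  set I := (Icc 1 N).image cl with hI
  set P : ℕ → Finset ℕ := fun a =>
    (Icc 1 N).filter (fun p : ℕ => p.Prime ∧ z < (p : ℝ) ∧ 1 ≤ lev a p) with hP
  set A : ℕ → ℕ → Finset ℕ := fun a p =>
    (Icc 1 N).filter (fun q => cl q = a ∧ q.factorization p ≠ lev a p) with hA
  set B : ℕ → Finset ℕ := fun a => (Icc 1 N).filter (fun q => cl q = a) with hB
  set G : ℕ → ℕ → ℕ → ℕ → ℝ := fun d₁ d₂ q r =>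
    if d₁ ∣ cofac q r ∧ d₂ ∣ cofac r q ∧ (cofac r q : ℝ) * ψ q ≤ s₁ ∧
        (cofac q r : ℝ) * ψ r ≤ s₂ then f q * f r else 0 with hG
  have hG0 : ∀ d₁ d₂ q r, 0 ≤ G d₁ d₂ q r := by
    intro d₁ d₂ q r
    simp only [hG]
    split_ifs
    · exact mul_nonneg (hf q).1 (hf r).1
    · exact le_rfl
  have hAs : ∀ a p, A a p ⊆ Icc 1 N := fun a p => filter_subset _ _
  have hBs : ∀ a, B a ⊆ Icc 1 N := fun a => filter_subset _ _
  set T : ℕ → ℕ → ℕ → ℕ → ℝ := fun a p q r =>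
    (if q ∈ A a p ∧ r ∈ B a then G 1 p q r else 0) +
      (if q ∈ B a ∧ r ∈ A a p then G p 1 q r else 0) with hTd
  have hT0 : ∀ a p q r, 0 ≤ T a p q r := by
    intro a p q r
    simp only [hTd]
    refine add_nonneg ?_ ?_
    · split_ifs
      · exact hG0 _ _ _ _
      · exact le_rfl
    · split_ifs
      · exact hG0 _ _ _ _
      · exact le_rfl
  -- pointwise bound
  have hpt : ∀ q ∈ Icc 1 N, ∀ r ∈ Icc 1 N, (if cl q = cl r ∧ (∃ p : ℕ, p.Prime ∧ z < p ∧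
          ((q.factorization p < lev (cl q) p ∧ r.factorization p = lev (cl q) p) ∨
            (r.factorization p < lev (cl q) p ∧ q.factorization p = lev (cl q) p))) ∧
        (cofac r q : ℝ) * ψ q ≤ s₁ ∧ (cofac q r : ℝ) * ψ r ≤ s₂ then f q * f r else 0) ≤
      ∑ a ∈ I, ∑ p ∈ P a, T a p q r := by
    intro q hq r hr
    have hq0 : 0 < q := (mem_Icc.1 hq).1
    have hr0 : 0 < r := (mem_Icc.1 hr).1
    by_cases hc : cl q = cl r ∧ (∃ p : ℕ, p.Prime ∧ z < p ∧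
          ((q.factorization p < lev (cl q) p ∧ r.factorization p = lev (cl q) p) ∨
            (r.factorization p < lev (cl q) p ∧ q.factorization p = lev (cl q) p))) ∧
        (cofac r q : ℝ) * ψ q ≤ s₁ ∧ (cofac q r : ℝ) * ψ r ≤ s₂
    · rw [if_pos hc]
      obtain ⟨h1, ⟨p, hp, hzp, h2⟩, h4, h5⟩ := hc
      have hlev : 1 ≤ lev (cl q) p := by
        rcases h2 with h2 | h2 <;> omega
      have hpN : p ≤ N := by
        by_contra h
        push Not at h
        rw [hD.lev0 _ _ h] at hlev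
        omega
      have hpP : p ∈ P (cl q) := mem_filter.2 ⟨mem_Icc.2 ⟨hp.one_le, hpN⟩, hp, hzp, hlev⟩
      have hqB : q ∈ B (cl q) := mem_filter.2 ⟨hq, rfl⟩
      have hrB : r ∈ B (cl q) := mem_filter.2 ⟨hr, h1.symm⟩
      have e1 : f q * f r ≤ T (cl q) p q r := by
        simp only [hTd]
        rcases h2 with h2 | h2
        · have hqA : q ∈ A (cl q) p := mem_filter.2 ⟨hq, rfl, by omega⟩
          have hd : p ∣ cofac r q := qy_dvd hq0 hr0 (by omega)
          have e2 : G 1 p q r = f q * f r := by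
            simp only [hG]
            rw [if_pos ⟨one_dvd _, hd, h4, h5⟩]
          rw [if_pos ⟨hqA, hrB⟩, e2]
          split_ifs
          · linarith [hG0 p 1 q r]
          · linarith
        · have hrA : r ∈ A (cl q) p := mem_filter.2 ⟨hr, h1.symm, by omega⟩
          have hd : p ∣ cofac q r := qy_dvd hr0 hq0 (by omega)
          have e2 : G p 1 q r = f q * f r := by
            simp only [hG]
            rw [if_pos ⟨hd, one_dvd _, h4, h5⟩]
          rw [if_pos (show q ∈ B (cl q) ∧ r ∈ A (cl q) p from ⟨hqB, hrA⟩), e2]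
          split_ifs
          · linarith [hG0 1 p q r]
          · linarith
      refine e1.trans ?_
      refine le_trans (single_le_sum (f := fun p => T (cl q) p q r)
        (fun p _ => hT0 _ p _ _) hpP) ?_
      exact single_le_sum (f := fun a => ∑ p ∈ P a, T a p q r)
        (fun a _ => sum_nonneg fun p _ => hT0 a p _ _) (mem_image_of_mem cl hq)
    · rw [if_neg hc]
      exact sum_nonneg fun a _ => sum_nonneg fun p _ => hT0 a p _ _
  have hc0 : ∀ a, 0 ≤ cmass N f cl a := by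
    intro a
    unfold cmass
    refine sum_nonneg fun q _ => ?_
    split_ifs
    · exact (hf q).1
    · exact le_rfl
  -- bound for one class and one prime
  have hone : ∀ a ∈ I, ∀ p ∈ P a, ∑ q ∈ Icc 1 N, ∑ r ∈ Icc 1 N, T a p q r ≤
      2 * C * (s₁ * s₂) ^ (1 - θ) * (τ ^ θ * cmass N f cl a ^ (2 * θ)) * (p : ℝ)⁻¹ := by
    intro a _ p hp
    have hpp : p.Prime := (mem_filter.1 hp).2.1
    have hp0 : (0 : ℝ) < p := by exact_mod_cast hpp.pos
    have e1 : ∑ q ∈ Icc 1 N, ∑ r ∈ Icc 1 N, T a p q r =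
        ∑ q ∈ A a p, ∑ r ∈ B a, G 1 p q r + ∑ q ∈ B a, ∑ r ∈ A a p, G p 1 q r := by
      simp only [hTd, sum_add_distrib]
      rw [qy_sum2 (hAs a p) (hBs a), qy_sum2 (hBs a) (hAs a p)]
    rw [e1]
    have h1 := hT N ψ f hψ hf (A a p) (B a) (hAs a p) (hBs a) 1 p one_pos hpp.pos s₁ s₂ hs₁ hs₂
    have h2 := hT N ψ f hψ hf (B a) (A a p) (hBs a) (hAs a p) p 1 hpp.pos one_pos s₁ s₂ hs₁ hs₂
    have hmA : ∑ q ∈ A a p, f q = cminor N f cl lev a p := by
      unfold cminor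
      rw [hA, sum_filter]
    have hmB : ∑ q ∈ B a, f q = cmass N f cl a := by
      unfold cmass
      rw [hB, sum_filter]
    rw [hmA, hmB] at h1 h2
    rw [mul_comm (cmass N f cl a) (cminor N f cl lev a p)] at h2
    simp only [Nat.cast_one, Real.one_rpow, one_mul, mul_one] at h1 h2
    have hm0 : 0 ≤ cminor N f cl lev a p := by
      rw [← hmA]; exact sum_nonneg fun q _ => (hf q).1
    have h3 := hD.minor a p hpp
    have h4 : (cminor N f cl lev a p * cmass N f cl a) ^ θ * (p : ℝ) ^ (-(1 - θ)) ≤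
        (τ ^ θ * cmass N f cl a ^ (2 * θ)) * (p : ℝ)⁻¹ := by
      have h5 : (cminor N f cl lev a p * cmass N f cl a) ^ θ ≤
          (τ / p * cmass N f cl a * cmass N f cl a) ^ θ :=
        Real.rpow_le_rpow (mul_nonneg hm0 (hc0 a))
          (mul_le_mul_of_nonneg_right h3 (hc0 a)) (by linarith)
      have h6 : (τ / p * cmass N f cl a * cmass N f cl a) ^ θ =
          τ ^ θ * (p : ℝ) ^ (-θ) * cmass N f cl a ^ (2 * θ) := by
        rw [mul_assoc, Real.mul_rpow (by positivity) (mul_nonneg (hc0 a) (hc0 a)),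
          Real.div_rpow hτ.le hp0.le, ← pow_two, ← Real.rpow_natCast (cmass N f cl a) 2,
          ← Real.rpow_mul (hc0 a), Real.rpow_neg hp0.le,
          show ((2 : ℕ) : ℝ) * θ = 2 * θ by norm_num]
        ring
      have h7 : (p : ℝ) ^ (-θ) * (p : ℝ) ^ (-(1 - θ)) = (p : ℝ)⁻¹ := by
        rw [← Real.rpow_add hp0, ← Real.rpow_neg_one]
        congr 1; ring
      calc (cminor N f cl lev a p * cmass N f cl a) ^ θ * (p : ℝ) ^ (-(1 - θ))
          ≤ (τ ^ θ * (p : ℝ) ^ (-θ) * cmass N f cl a ^ (2 * θ)) * (p : ℝ) ^ (-(1 - θ)) := by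
            rw [← h6]
            exact mul_le_mul_of_nonneg_right h5 (by positivity)
        _ = τ ^ θ * cmass N f cl a ^ (2 * θ) * ((p : ℝ) ^ (-θ) * (p : ℝ) ^ (-(1 - θ))) := by
            ring
        _ = _ := by rw [h7]
    have h8 : C * (s₁ * s₂) ^ (1 - θ) * ((cminor N f cl lev a p * cmass N f cl a) ^ θ *
        (p : ℝ) ^ (-(1 - θ))) ≤ C * (s₁ * s₂) ^ (1 - θ) *
        ((τ ^ θ * cmass N f cl a ^ (2 * θ)) * (p : ℝ)⁻¹) :=
      mul_le_mul_of_nonneg_left h4 (by positivity)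
    calc _ ≤ C * (s₁ * s₂) ^ (1 - θ) * (cminor N f cl lev a p * cmass N f cl a) ^ θ *
          (p : ℝ) ^ (-(1 - θ)) + C * (s₁ * s₂) ^ (1 - θ) *
          (cminor N f cl lev a p * cmass N f cl a) ^ θ * (p : ℝ) ^ (-(1 - θ)) := by
          refine add_le_add ?_ ?_
          · simp only [hG, one_dvd, true_and]
            simpa only [one_dvd, true_and] using h1
          · simp only [hG, one_dvd, true_and]
            simpa only [one_dvd, true_and] using h2
      _ ≤ _ := by linarith [h8]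
  have hmass : ∑ a ∈ I, cmass N f cl a = ∑ q ∈ Icc 1 N, f q := by
    unfold cmass
    rw [sum_comm]
    refine sum_congr rfl fun q hq => ?_
    rw [sum_ite_eq, if_pos (mem_image_of_mem cl hq)]
  have hM0 : 0 ≤ ∑ q ∈ Icc 1 N, f q := sum_nonneg fun q _ => (hf q).1
  have hpow : ∑ a ∈ I, cmass N f cl a ^ (2 * θ) ≤ (∑ q ∈ Icc 1 N, f q) ^ (2 * θ) := by
    rcases hM0.eq_or_lt with h | h
    · have h0 : ∀ a ∈ I, cmass N f cl a = 0 := by
        rw [← h] at hmass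
        exact (sum_eq_zero_iff_of_nonneg (fun a _ => hc0 a)).1 hmass
      rw [← h, Real.zero_rpow (by linarith)]
      refine le_of_eq (sum_eq_zero fun a ha => ?_)
      rw [h0 a ha, Real.zero_rpow (by linarith)]
    · have h1 := fd_pow_sum I (cmass N f cl) (fun a _ => hc0 a) hθ hθ1 hmass h le_rfl
        zero_le_one (by
        intro a ha
        rw [sub_zero, one_mul, ← hmass]
        exact single_le_sum (fun a _ => hc0 a) ha)
      simpa only [mul_zero, sub_zero, mul_one] using h1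
  have hs0 : 0 < (s₁ * s₂) ^ (1 - θ) := Real.rpow_pos_of_pos (mul_pos hs₁ hs₂) _
  have hz0 : 0 < z := by linarith
  have hcls : ∀ a ∈ I, ∑ p ∈ P a, 2 * C * (s₁ * s₂) ^ (1 - θ) *
      (τ ^ θ * cmass N f cl a ^ (2 * θ)) * (p : ℝ)⁻¹ ≤
      4 * C * C₀ * (s₁ * s₂) ^ (1 - θ) * τ ^ θ * z ^ (-(1 - σ)) * cmass N f cl a ^ (2 * θ) := by
    intro a ha
    rw [← mul_sum]
    rcases (hc0 a).eq_or_lt with h | h
    · rw [← h, Real.zero_rpow (by linarith)]
      simp
    · have h1 := qy_primes (fun q => (hf q).1) hD hσ hsg hz hτz a (P a)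
        (fun p hp => (mem_filter.1 hp).2) h
      calc _ ≤ 2 * C * (s₁ * s₂) ^ (1 - θ) * (τ ^ θ * cmass N f cl a ^ (2 * θ)) *
            (2 * C₀ * z ^ (-(1 - σ))) := mul_le_mul_of_nonneg_left h1 (by positivity)
        _ = _ := by ring
  calc psum (fun q r => cl q = cl r ∧ (∃ p : ℕ, p.Prime ∧ z < p ∧
          ((q.factorization p < lev (cl q) p ∧ r.factorization p = lev (cl q) p) ∨
            (r.factorization p < lev (cl q) p ∧ q.factorization p = lev (cl q) p))) ∧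
        (cofac r q : ℝ) * ψ q ≤ s₁ ∧ (cofac q r : ℝ) * ψ r ≤ s₂) N f f
      ≤ ∑ q ∈ Icc 1 N, ∑ r ∈ Icc 1 N, ∑ a ∈ I, ∑ p ∈ P a, T a p q r := by
        unfold psum
        refine sum_le_sum fun q hq => sum_le_sum fun r hr => ?_
        refine le_trans (le_of_eq ?_) (hpt q hq r hr)
        congr
    _ = ∑ a ∈ I, ∑ p ∈ P a, ∑ q ∈ Icc 1 N, ∑ r ∈ Icc 1 N, T a p q r := by
        have h1 : ∀ q, ∑ r ∈ Icc 1 N, ∑ a ∈ I, ∑ p ∈ P a, T a p q r =
            ∑ a ∈ I, ∑ p ∈ P a, ∑ r ∈ Icc 1 N, T a p q r := by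
          intro q
          rw [sum_comm]
          exact sum_congr rfl fun a _ => sum_comm
        simp only [h1]
        rw [sum_comm]
        exact sum_congr rfl fun a _ => sum_comm
    _ ≤ ∑ a ∈ I, ∑ p ∈ P a, 2 * C * (s₁ * s₂) ^ (1 - θ) *
          (τ ^ θ * cmass N f cl a ^ (2 * θ)) * (p : ℝ)⁻¹ :=
        sum_le_sum fun a ha => sum_le_sum fun p hp => hone a ha p hp
    _ ≤ ∑ a ∈ I, 4 * C * C₀ * (s₁ * s₂) ^ (1 - θ) * τ ^ θ * z ^ (-(1 - σ)) *
          cmass N f cl a ^ (2 * θ) := sum_le_sum fun a ha => hcls a ha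
    _ = 4 * C * C₀ * (s₁ * s₂) ^ (1 - θ) * τ ^ θ * z ^ (-(1 - σ)) *
          ∑ a ∈ I, cmass N f cl a ^ (2 * θ) := by rw [mul_sum]
    _ ≤ _ := mul_le_mul_of_nonneg_left hpow (by positivity)

end Vale.P028
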