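import Vale.Agent.P028.MathlibUsed
import Vale.Agent.P028.QY
import Vale.Agent.P028.QInner
import Vale.Agent.P028.MDyadic

/-!
# Theorem Q: energy of the near pairs at the level `s`

`θ = 513/1024`, `τ = s^(-1/64)`, `H = s^(-1/32)`, `μ = 1/4`, `z = ⌈(T/s)^K⌉₊` with
`K = max 16 (2 / (1 - σ))`.

Cases for a pair of `NearQ`: (1) `v ψ q ≤ s^(65/64)` or `u ψ r ≤ s^(65/64)`: `T1_dvd` with
`d₁ = d₂ = 1`, exponent `(129/64)(511/1024) > 1 + 1/256`; otherwise `¬ (FrS u ∧ FrS v)`;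
(2) different classes: `decomp_exists`, the same exponent; (3) same class, some prime `p > z` with
both exponents `≠ lev`: `decomp_double` (`z ≥ s^(-16)`), exponent `511/512 - (1/64)(513/512) +
16/512`; (4) otherwise some prime `p > z` with an exponent `< lev` (then the other is `= lev`):
`q_y` with `C₀ = T`, `T z^(-(1-σ)) ≤ T (T/s)^(-2) ≤ s^2`; (5) otherwise `q_inner`:
`OmI` holds: if `u, v ≤ H^2` then, as `u ≠ v` and `‖(u-v)γ‖ < 2 s`, both `FrS` hold with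
`d = |u - v|`; exponent `511/512 + 1/128`, and
`(1 + log z)^k ≤ C (1 + log T)^k (1 + log (1/s))^k ≤ C' (1 + log T)^k s^(-1/1024)`.
-/

namespace Vale.P028

open Finset

theorem qe_ite_nonneg (P : Prop) [Decidable P] {a : ℝ} (ha : 0 ≤ a) : 0 ≤ if P then a else 0 := by
  split_ifs
  · exact ha
  · exact le_rfl

theorem qe_psum6 (R R₁ R₂ R₃ R₄ R₅ R₆ : ℕ → ℕ → Prop) (N : ℕ) (f : ℕ → ℝ) (hf : ∀ q, 0 ≤ f q)
    (H : ∀ q ∈ Icc 1 N, ∀ r ∈ Icc 1 N, R q r →
      R₁ q r ∨ R₂ q r ∨ R₃ q r ∨ R₄ q r ∨ R₅ q r ∨ R₆ q r) :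
    psum R N f f ≤ psum R₁ N f f + psum R₂ N f f + psum R₃ N f f + psum R₄ N f f +
      psum R₅ N f f + psum R₆ N f f := by
  classical
  unfold psum
  simp only [← sum_add_distrib]
  refine sum_le_sum fun q hq => sum_le_sum fun r hr => ?_
  have h0 := mul_nonneg (hf q) (hf r)
  have n1 := qe_ite_nonneg (R₁ q r) h0
  have n2 := qe_ite_nonneg (R₂ q r) h0
  have n3 := qe_ite_nonneg (R₃ q r) h0
  have n4 := qe_ite_nonneg (R₄ q r) h0
  have n5 := qe_ite_nonneg (R₅ q r) h0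
  have n6 := qe_ite_nonneg (R₆ q r) h0
  by_cases hR : R q r
  · rcases H q hq r hr hR with h | h | h | h | h | h
    · have e : (if R₁ q r then f q * f r else 0) = f q * f r := if_pos h
      rw [if_pos hR]; linarith
    · have e : (if R₂ q r then f q * f r else 0) = f q * f r := if_pos h
      rw [if_pos hR]; linarith
    · have e : (if R₃ q r then f q * f r else 0) = f q * f r := if_pos h
      rw [if_pos hR]; linarith
    · have e : (if R₄ q r then f q * f r else 0) = f q * f r := if_pos h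
      rw [if_pos hR]; linarith
    · have e : (if R₅ q r then f q * f r else 0) = f q * f r := if_pos h
      rw [if_pos hR]; linarith
    · have e : (if R₆ q r then f q * f r else 0) = f q * f r := if_pos h
      rw [if_pos hR]; linarith
  · rw [if_neg hR]; linarith

theorem qe_frac {H s γ : ℝ} {u v : ℕ} (hs : 0 < s) (hH : 4 ≤ H) (huv : u < v)
    (hcol : distInt ((u : ℝ) * γ - (v : ℝ) * γ) < 2 * s) (hv : (v : ℝ) ≤ H ^ 2) :
    ∃ (d : ℕ) (k : ℤ), 0 < d ∧ (d : ℝ) ≤ H ^ 7 ∧ |γ - k / d| ≤ 2 * s := by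
  unfold distInt at hcol
  set m := round ((u : ℝ) * γ - (v : ℝ) * γ) with hm
  have hd0 : 0 < v - u := Nat.sub_pos_of_lt huv
  have hdR : (((v - u : ℕ)) : ℝ) = (v : ℝ) - u := Nat.cast_sub huv.le
  have hd1 : (1 : ℝ) ≤ ((v - u : ℕ) : ℝ) := by exact_mod_cast hd0
  refine ⟨v - u, -m, hd0, ?_, ?_⟩
  · rw [hdR]
    have h1 : (0 : ℝ) ≤ u := Nat.cast_nonneg _
    have h2 : H ^ 2 ≤ H ^ 7 := pow_le_pow_right₀ (by linarith) (by norm_num)
    linarith
  · have hdpos : (0 : ℝ) < ((v - u : ℕ) : ℝ) := by linarith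
    have e : γ - ((-m : ℤ) : ℝ) / ((v - u : ℕ) : ℝ) =
        -(((u : ℝ) * γ - (v : ℝ) * γ - m) / ((v - u : ℕ) : ℝ)) := by
      rw [hdR] at hdpos ⊢
      push_cast
      field_simp
      ring
    rw [e, abs_neg, abs_div, abs_of_pos hdpos, div_le_iff₀ hdpos]
    nlinarith

theorem qe_omI {γ s H : ℝ} {z q r : ℕ} (hs : 0 < s) (hH : 4 ≤ H) (hq : 0 < q) (hr : 0 < r)
    (hqr : q ≠ r) (hcol : distInt ((cofac q r : ℝ) * γ - (cofac r q : ℝ) * γ) < 2 * s)
    (hns : ¬ (FrS H s γ (cofac q r) ∧ FrS H s γ (cofac r q))) :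
    OmI H s z γ γ (cofac q r) (cofac r q) := by
  refine ⟨hcol, hns, ?_⟩
  rintro ⟨-, -, hu, hv⟩
  apply hns
  have hne : cofac q r ≠ cofac r q := by
    intro h
    apply hqr
    calc q = Nat.gcd q r * cofac q r := (gcd_mul_cofac q r).symm
      _ = Nat.gcd r q * cofac r q := by rw [h, Nat.gcd_comm]
      _ = r := gcd_mul_cofac r q
  have hH5 : 2 ≤ H ^ 5 := by
    have : (4 : ℝ) ^ 5 ≤ H ^ 5 := pow_le_pow_left₀ (by norm_num) hH 5
    linarith [show (4 : ℝ) ^ 5 = 1024 by norm_num]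
  have hH20 : 0 ≤ H ^ 2 := by positivity
  have key : ∀ w : ℕ, (w : ℝ) ≤ H ^ 2 → ∀ x : ℝ, |x| ≤ 2 * s → |x| * (w : ℝ) ≤ s * H ^ 7 := by
    intro w hw x hx
    have h0 : (0 : ℝ) ≤ w := Nat.cast_nonneg _
    calc |x| * (w : ℝ) ≤ (2 * s) * H ^ 2 := mul_le_mul hx hw h0 (by linarith)
      _ ≤ (s * H ^ 5) * H ^ 2 := by
          refine mul_le_mul_of_nonneg_right ?_ hH20
          nlinarith
      _ = s * H ^ 7 := by ring
  rcases lt_or_gt_of_ne hne with h | h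
  · obtain ⟨d, k, hd, hdH, hk⟩ := qe_frac hs hH h hcol hv
    exact ⟨⟨d, k, hd, hdH, key _ hu _ hk⟩, ⟨d, k, hd, hdH, key _ hv _ hk⟩⟩
  · have hcol' : distInt ((cofac r q : ℝ) * γ - (cofac q r : ℝ) * γ) < 2 * s := by
      have e : (cofac r q : ℝ) * γ - (cofac q r : ℝ) * γ =
          -((cofac q r : ℝ) * γ - (cofac r q : ℝ) * γ) := by ring
      rw [e]
      refine lt_of_le_of_lt ?_ hcol
      unfold distInt
      have := round_le (-((cofac q r : ℝ) * γ - (cofac r q : ℝ) * γ))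
        (-round ((cofac q r : ℝ) * γ - (cofac r q : ℝ) * γ))
      refine this.trans (le_of_eq ?_)
      push_cast
      rw [← abs_neg]
      congr 1
      ring
    obtain ⟨d, k, hd, hdH, hk⟩ := qe_frac hs hH h hcol' hu
    exact ⟨⟨d, k, hd, hdH, key _ hu _ hk⟩, ⟨d, k, hd, hdH, key _ hv _ hk⟩⟩

/-- `(1 + log y)^k ≤ C y^(1/1024)` for `y ≥ 1` -/
theorem qe_log_pow {k : ℝ} (hk : 0 ≤ k) {y : ℝ} (hy : 1 ≤ y) :
    (1 + Real.log y) ^ k ≤ (1 + 1024 * (k + 1)) ^ k * y ^ (1 / 1024 : ℝ) := by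
  set e : ℝ := 1 / (1024 * (k + 1)) with he
  have he0 : 0 < e := by rw [he]; positivity
  have hy0 : 0 < y := by linarith
  have h1 : Real.log y ≤ y ^ e / e := Real.log_le_rpow_div hy0.le he0
  have h2 : (1 : ℝ) ≤ y ^ e := Real.one_le_rpow hy he0.le
  have h3 : 1 + Real.log y ≤ (1 + 1024 * (k + 1)) * y ^ e := by
    have : y ^ e / e = 1024 * (k + 1) * y ^ e := by
      rw [he]; field_simp
    rw [this] at h1
    linarith
  have h0 : 0 ≤ 1 + Real.log y := by have := Real.log_nonneg hy; linarith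
  calc (1 + Real.log y) ^ k ≤ ((1 + 1024 * (k + 1)) * y ^ e) ^ k :=
        Real.rpow_le_rpow h0 h3 hk
    _ = (1 + 1024 * (k + 1)) ^ k * y ^ (e * k) := by
        rw [Real.mul_rpow (by positivity) (by positivity), ← Real.rpow_mul hy0.le]
    _ ≤ _ := by
        refine mul_le_mul_of_nonneg_left ?_ (by positivity)
        refine Real.rpow_le_rpow_of_exponent_le hy ?_
        rw [he, div_mul_eq_mul_div, one_mul, div_le_div_iff₀ (by positivity) (by norm_num)]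
        linarith

/-- properties of the sifting level -/
theorem qe_z {σ s T : ℝ} (hσ : σ < 1) (hs : 0 < s) (hs1 : s ≤ (1 / 2) ^ 64) (hT : 1 ≤ T) :
    ∃ z : ℕ, s ^ (-16 : ℝ) ≤ z ∧ T * (z : ℝ) ^ (-(1 - σ)) ≤ s ^ (2 : ℝ) ∧
      1 + Real.log z ≤ (max 16 (2 / (1 - σ))) * (1 + Real.log T) * (1 + Real.log (1 / s)) := by
  set K : ℝ := max 16 (2 / (1 - σ)) with hK
  have hK16 : 16 ≤ K := le_max_left _ _
  have hK2 : 2 ≤ K * (1 - σ) := by
    have h1 : 0 < 1 - σ := by linarith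
    have h2 : 2 / (1 - σ) ≤ K := le_max_right _ _
    calc 2 = 2 / (1 - σ) * (1 - σ) := by field_simp
      _ ≤ _ := mul_le_mul_of_nonneg_right h2 h1.le
  have hs1' : s ≤ 1 := hs1.trans (by norm_num)
  have hTs : 1 ≤ T / s := by
    rw [le_div_iff₀ hs]; linarith
  have hTs0 : 0 < T / s := by linarith
  have hx1 : 1 ≤ (T / s) ^ K := Real.one_le_rpow hTs (by linarith)
  have hx0 : 0 < (T / s) ^ K := by linarith
  have hle : (T / s) ^ K ≤ (⌈(T / s) ^ K⌉₊ : ℝ) := Nat.le_ceil _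
  have hz0 : (0 : ℝ) < (⌈(T / s) ^ K⌉₊ : ℝ) := by linarith
  refine ⟨⌈(T / s) ^ K⌉₊, ?_, ?_, ?_⟩
  · refine le_trans ?_ hle
    calc s ^ (-16 : ℝ) = (1 / s) ^ (16 : ℝ) := by
          rw [one_div, Real.inv_rpow hs.le, Real.rpow_neg hs.le]
      _ ≤ (T / s) ^ (16 : ℝ) := by
          refine Real.rpow_le_rpow (by positivity) ?_ (by norm_num)
          gcongr
      _ ≤ (T / s) ^ K := Real.rpow_le_rpow_of_exponent_le hTs hK16
  · calc T * (⌈(T / s) ^ K⌉₊ : ℝ) ^ (-(1 - σ)) ≤ T * ((T / s) ^ K) ^ (-(1 - σ)) := by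
          refine mul_le_mul_of_nonneg_left ?_ (by linarith)
          exact Real.rpow_le_rpow_of_nonpos hx0 hle (by linarith)
      _ = T * (T / s) ^ (-(K * (1 - σ))) := by
          rw [← Real.rpow_mul hTs0.le]
          congr 2; ring
      _ ≤ T * (T / s) ^ (-2 : ℝ) := by
          refine mul_le_mul_of_nonneg_left ?_ (by linarith)
          exact Real.rpow_le_rpow_of_exponent_le hTs (by linarith)
      _ = s ^ (2 : ℝ) / T := by
          rw [Real.rpow_neg hTs0.le, Real.rpow_two, Real.rpow_two]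
          field_simp
      _ ≤ s ^ (2 : ℝ) := div_le_self (by positivity) hT
  · have hlT : 0 ≤ Real.log T := Real.log_nonneg hT
    have hls : 0 ≤ Real.log (1 / s) := by
      refine Real.log_nonneg ?_
      rw [le_div_iff₀ hs]; linarith
    have h1 : (⌈(T / s) ^ K⌉₊ : ℝ) ≤ 2 * (T / s) ^ K := by
      have := (Nat.ceil_lt_add_one hx0.le).le
      linarith
    have h2 : Real.log (⌈(T / s) ^ K⌉₊ : ℝ) ≤ Real.log 2 + K * (Real.log T + Real.log (1 / s)) := by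
      calc Real.log (⌈(T / s) ^ K⌉₊ : ℝ) ≤ Real.log (2 * (T / s) ^ K) := Real.log_le_log hz0 h1
        _ = _ := by
            rw [Real.log_mul (by norm_num) hx0.ne', Real.log_rpow hTs0,
              show T / s = T * (1 / s) by ring, Real.log_mul (by linarith) (by positivity)]
    have h3 : Real.log 2 ≤ 1 := by
      have := Real.log_two_lt_d9; linarith
    have h4 : 0 ≤ K * (Real.log T * Real.log (1 / s)) := by positivity
    nlinarith

open Classical in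
theorem q_energy {σ : ℝ} (hσ : σ < 1) :
    ∃ C k : ℝ, 0 < C ∧ 0 ≤ k ∧ ∀ (γ s T : ℝ) (N : ℕ) (ψ f : ℕ → ℝ), 0 < s → s ≤ (1 / 2) ^ 64 →
      1 ≤ T → (∀ q, 0 ≤ ψ q) → (∀ q, 0 ≤ f q ∧ f q ≤ ψ q * (q.totient / q)) →
      (∀ q, f q ≠ 0 → sg σ q ≤ T) →
      psum (NearQ γ s ψ) N f f ≤
        C * s ^ (1 + 1 / 256 : ℝ) * (1 + Real.log T) ^ k *
          (∑ q ∈ Icc 1 N, f q) ^ (2 * (513 / 1024) : ℝ) := by
  have hθ : (1 : ℝ) / 2 < 513 / 1024 := by norm_num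
  have hθ1 : (513 / 1024 : ℝ) < 1 := by norm_num
  obtain ⟨C₁, hC₁, h1⟩ := T1_dvd hθ hθ1
  obtain ⟨C₂, hC₂, h2⟩ := decomp_exists hθ hθ1
  obtain ⟨C₃, hC₃, h3⟩ := decomp_double hθ hθ1
  obtain ⟨C₄, hC₄, h4⟩ := q_y hθ hθ1
  obtain ⟨C₅, hC₅, k, hk, h5⟩ := q_inner hθ hθ1 (μ := 1 / 4) (by norm_num) (by norm_num)
  set K : ℝ := max 16 (2 / (1 - σ)) with hK
  have hK16 : 16 ≤ K := le_max_left _ _
  set C₆ : ℝ := C₅ * K ^ k * (1 + 1024 * (k + 1)) ^ k with hC₆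
  have hC₆0 : 0 < C₆ := by rw [hC₆]; positivity
  refine ⟨2 * C₁ + C₂ + C₃ + C₄ + C₆, k, by positivity, hk, ?_⟩
  intro γ s T N ψ f hs hs1 hT hψ hf hsg
  have hs1' : s ≤ 1 := hs1.trans (by norm_num)
  set F := ∑ q ∈ Icc 1 N, f q with hF
  have hf0 : ∀ q, 0 ≤ f q := fun q => (hf q).1
  have hF0 : 0 ≤ F := sum_nonneg fun q _ => hf0 q
  set G := F ^ (2 * (513 / 1024) : ℝ) with hG
  have hG0 : 0 ≤ G := Real.rpow_nonneg hF0 _
  set X := s ^ (1 + 1 / 256 : ℝ) with hX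
  have hX0 : 0 < X := Real.rpow_pos_of_pos hs _
  have hlT : 0 ≤ Real.log T := Real.log_nonneg hT
  set L := (1 + Real.log T) ^ k with hL
  have hL1 : 1 ≤ L := Real.one_le_rpow (by linarith) hk
  set τ : ℝ := s ^ (-(1 / 64) : ℝ) with hτ
  set H : ℝ := s ^ (-(1 / 32) : ℝ) with hH
  have hτ1 : 1 ≤ τ := Real.one_le_rpow_of_pos_of_le_one_of_nonpos hs hs1' (by norm_num)
  have hτ0 : 0 < τ := by linarith
  have hH4 : 4 ≤ H := by
    have e : (4 : ℝ) = (((1 : ℝ) / 2) ^ 64) ^ (-(1 / 32) : ℝ) := by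
      rw [← Real.rpow_natCast, ← Real.rpow_mul (by norm_num)]
      rw [show ((64 : ℕ) : ℝ) * (-(1 / 32)) = -2 by norm_num, Real.rpow_neg (by norm_num),
        Real.rpow_two]
      norm_num
    rw [e]
    exact Real.rpow_le_rpow_of_nonpos hs hs1 (by norm_num)
  obtain ⟨z, hz16, hzT, hzl⟩ := qe_z hσ hs hs1 hT
  have hHz : H ≤ z :=
    (Real.rpow_le_rpow_of_exponent_ge hs hs1' (by norm_num : (-16 : ℝ) ≤ -(1 / 32))).trans hz16
  have hz1 : (1 : ℝ) ≤ z := by linarith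
  have hz0 : (0 : ℝ) < z := by linarith
  have hτz : 2 * τ ≤ z := by
    calc 2 * τ ≤ H * τ := mul_le_mul_of_nonneg_right (by linarith) hτ0.le
      _ = s ^ (-(3 / 64) : ℝ) := by
          rw [hH, hτ, ← Real.rpow_add hs]; norm_num
      _ ≤ s ^ (-16 : ℝ) := Real.rpow_le_rpow_of_exponent_ge hs hs1' (by norm_num)
      _ ≤ z := hz16
  have hsH : s * H ^ 16 ≤ 1 := by
    rw [hH, ← Real.rpow_natCast, ← Real.rpow_mul hs.le]
    nth_rewrite 1 [← Real.rpow_one s]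
    rw [← Real.rpow_add hs]
    exact Real.rpow_le_one hs.le hs1' (by norm_num)
  -- exponent comparison
  have hexp : ∀ a : ℝ, 1 + 1 / 256 ≤ a → s ^ a ≤ X := fun a ha =>
    Real.rpow_le_rpow_of_exponent_ge hs hs1' ha
  obtain ⟨cl, lev, hD, hout⟩ := h2 N ψ f τ hψ hf hτ1
  have hs65 : 0 < s ^ (65 / 64 : ℝ) := Real.rpow_pos_of_pos hs _
  -- the six bounds
  have hFF : (F * F) ^ (513 / 1024 : ℝ) = G := by
    rw [hG, ← pow_two, ← Real.rpow_natCast F 2, ← Real.rpow_mul hF0]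
    norm_num
  have b1 : psum (fun q r => 1 ∣ cofac q r ∧ 1 ∣ cofac r q ∧
      (cofac r q : ℝ) * ψ q ≤ s ^ (65 / 64 : ℝ) ∧ (cofac q r : ℝ) * ψ r ≤ s) N f f ≤
      C₁ * X * G := by
    have h := h1 1 1 one_pos one_pos ψ ψ f f (s ^ (65 / 64 : ℝ)) s N hs65 hs hψ hψ hf hf
    refine h.trans ?_
    rw [← hF, hFF]
    have e : (s ^ (65 / 64 : ℝ) * s) ^ (1 - 513 / 1024 : ℝ) ≤ X := by
      nth_rewrite 2 [← Real.rpow_one s]
      rw [← Real.rpow_add hs, ← Real.rpow_mul hs.le]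
      exact hexp _ (by norm_num)
    simp only [Nat.cast_one, Real.one_rpow, mul_one]
    gcongr
  have b2 : psum (fun q r => 1 ∣ cofac q r ∧ 1 ∣ cofac r q ∧
      (cofac r q : ℝ) * ψ q ≤ s ∧ (cofac q r : ℝ) * ψ r ≤ s ^ (65 / 64 : ℝ)) N f f ≤
      C₁ * X * G := by
    have h := h1 1 1 one_pos one_pos ψ ψ f f s (s ^ (65 / 64 : ℝ)) N hs hs65 hψ hψ hf hf
    refine h.trans ?_
    rw [← hF, hFF]
    have e : (s * s ^ (65 / 64 : ℝ)) ^ (1 - 513 / 1024 : ℝ) ≤ X := by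
      nth_rewrite 1 [← Real.rpow_one s]
      rw [← Real.rpow_add hs, ← Real.rpow_mul hs.le]
      exact hexp _ (by norm_num)
    simp only [Nat.cast_one, Real.one_rpow, mul_one]
    gcongr
  have hss : (s * s) ^ (1 - 513 / 1024 : ℝ) = s ^ (511 / 512 : ℝ) := by
    rw [← pow_two, ← Real.rpow_natCast s 2, ← Real.rpow_mul hs.le]
    norm_num
  have b3 : psum (fun q r => cl q ≠ cl r ∧ (cofac r q : ℝ) * ψ q ≤ s ∧
        (cofac q r : ℝ) * ψ r ≤ s) N f f ≤ C₂ * X * G := by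
    refine (hout s s hs hs).trans ?_
    rw [← hF, ← hG, hss]
    have e : s ^ (511 / 512 : ℝ) * τ ^ (-(1 - 513 / 1024) : ℝ) ≤ X := by
      rw [hτ, ← Real.rpow_mul hs.le, ← Real.rpow_add hs]
      exact hexp _ (by norm_num)
    calc C₂ * s ^ (511 / 512 : ℝ) * τ ^ (-(1 - 513 / 1024) : ℝ) * G =
        C₂ * (s ^ (511 / 512 : ℝ) * τ ^ (-(1 - 513 / 1024) : ℝ)) * G := by ring
      _ ≤ C₂ * X * G := by gcongr
  have b4 : psum (fun q r => cl q = cl r ∧ (∃ p : ℕ, p.Prime ∧ (z : ℝ) < p ∧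
          q.factorization p ≠ lev (cl q) p ∧ r.factorization p ≠ lev (cl q) p) ∧
        (cofac r q : ℝ) * ψ q ≤ s ∧ (cofac q r : ℝ) * ψ r ≤ s) N f f ≤ C₃ * X * G := by
    refine (h3 N ψ f τ cl lev hψ hf hτ0 hD z s s hz1 hs hs).trans ?_
    rw [← hF, ← hG, hss]
    have e1 : (z : ℝ) ^ (-(2 * (513 / 1024) - 1) : ℝ) ≤ s ^ (1 / 32 : ℝ) := by
      calc (z : ℝ) ^ (-(2 * (513 / 1024) - 1) : ℝ) ≤
          (s ^ (-16 : ℝ)) ^ (-(2 * (513 / 1024) - 1) : ℝ) :=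
            Real.rpow_le_rpow_of_nonpos (by positivity) hz16 (by norm_num)
        _ = s ^ (1 / 32 : ℝ) := by
            rw [← Real.rpow_mul hs.le]; norm_num
    have e : s ^ (511 / 512 : ℝ) * τ ^ (2 * (513 / 1024) : ℝ) *
        (z : ℝ) ^ (-(2 * (513 / 1024) - 1) : ℝ) ≤ X := by
      calc s ^ (511 / 512 : ℝ) * τ ^ (2 * (513 / 1024) : ℝ) *
          (z : ℝ) ^ (-(2 * (513 / 1024) - 1) : ℝ) ≤
          s ^ (511 / 512 : ℝ) * τ ^ (2 * (513 / 1024) : ℝ) * s ^ (1 / 32 : ℝ) := by gcongr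
        _ = s ^ (511 / 512 + -(1 / 64) * (2 * (513 / 1024)) + 1 / 32 : ℝ) := by
            rw [hτ, ← Real.rpow_mul hs.le, ← Real.rpow_add hs, ← Real.rpow_add hs]
        _ ≤ X := hexp _ (by norm_num)
    calc C₃ * s ^ (511 / 512 : ℝ) * τ ^ (2 * (513 / 1024) : ℝ) *
          (z : ℝ) ^ (-(2 * (513 / 1024) - 1) : ℝ) * G =
        C₃ * (s ^ (511 / 512 : ℝ) * τ ^ (2 * (513 / 1024) : ℝ) *
          (z : ℝ) ^ (-(2 * (513 / 1024) - 1) : ℝ)) * G := by ring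
      _ ≤ C₃ * X * G := by gcongr
  have b5 : psum (fun q r => cl q = cl r ∧ (∃ p : ℕ, p.Prime ∧ (z : ℝ) < p ∧
          ((q.factorization p < lev (cl q) p ∧ r.factorization p = lev (cl q) p) ∨
            (r.factorization p < lev (cl q) p ∧ q.factorization p = lev (cl q) p))) ∧
        (cofac r q : ℝ) * ψ q ≤ s ∧ (cofac q r : ℝ) * ψ r ≤ s) N f f ≤ C₄ * X * G := by
    refine (h4 N ψ f τ cl lev hψ hf hτ0 hD σ T hσ.le (by linarith) hsg z s s hz1 hτz hs hs).trans ?_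
    rw [← hF, ← hG, hss]
    have e : s ^ (511 / 512 : ℝ) * τ ^ (513 / 1024 : ℝ) * (T * (z : ℝ) ^ (-(1 - σ))) ≤ X := by
      calc s ^ (511 / 512 : ℝ) * τ ^ (513 / 1024 : ℝ) * (T * (z : ℝ) ^ (-(1 - σ))) ≤
          s ^ (511 / 512 : ℝ) * τ ^ (513 / 1024 : ℝ) * s ^ (2 : ℝ) := by gcongr
        _ = s ^ (511 / 512 + -(1 / 64) * (513 / 1024) + 2 : ℝ) := by
            rw [hτ, ← Real.rpow_mul hs.le, ← Real.rpow_add hs, ← Real.rpow_add hs]
        _ ≤ X := hexp _ (by norm_num)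
    calc C₄ * T * s ^ (511 / 512 : ℝ) * τ ^ (513 / 1024 : ℝ) * (z : ℝ) ^ (-(1 - σ)) * G =
        C₄ * (s ^ (511 / 512 : ℝ) * τ ^ (513 / 1024 : ℝ) * (T * (z : ℝ) ^ (-(1 - σ)))) * G := by
          ring
      _ ≤ C₄ * X * G := by gcongr
  have b6 : psum (fun q r => cl q = cl r ∧ (∀ p : ℕ, p.Prime → z < p →
          lev (cl q) p ≤ q.factorization p ∧ lev (cl q) p ≤ r.factorization p ∧
            (q.factorization p = lev (cl q) p ∨ r.factorization p = lev (cl q) p)) ∧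
          OmI H s z γ γ (cofac q r) (cofac r q) ∧
          (cofac r q : ℝ) * ψ q ≤ s ∧ (cofac q r : ℝ) * ψ r ≤ s) N f f ≤ C₆ * X * L * G := by
    have hf1 : ∀ q, 0 ≤ f q ∧ f q ≤ ψ q := by
      intro q
      refine ⟨hf0 q, (hf q).2.trans ?_⟩
      have h1 : (q.totient : ℝ) / q ≤ 1 := by
        rcases Nat.eq_zero_or_pos q with h | h
        · rw [h]; simp
        · rw [div_le_one (by exact_mod_cast h)]
          exact_mod_cast Nat.totient_le q
      calc ψ q * ((q.totient : ℝ) / q) ≤ ψ q * 1 := mul_le_mul_of_nonneg_left h1 (hψ q)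
        _ = ψ q := mul_one _
    refine (h5 H s γ z hH4 hHz hs hsH N ψ f cl lev s s hs hs hf1 hD.lev0).trans ?_
    rw [← hF, ← hG, hss]
    have hls : 0 ≤ Real.log (1 / s) := by
      refine Real.log_nonneg ?_
      rw [le_div_iff₀ hs]; linarith
    have hlz : 0 ≤ Real.log z := Real.log_nonneg hz1
    have hy1 : 1 ≤ 1 / s := by rw [le_div_iff₀ hs]; linarith
    have e1 : (1 + Real.log z) ^ k ≤
        K ^ k * L * ((1 + 1024 * (k + 1)) ^ k * s ^ (-(1 / 1024) : ℝ)) := by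
      calc (1 + Real.log z) ^ k ≤ (K * (1 + Real.log T) * (1 + Real.log (1 / s))) ^ k :=
            Real.rpow_le_rpow (by linarith) hzl hk
        _ = K ^ k * L * (1 + Real.log (1 / s)) ^ k := by
            rw [Real.mul_rpow (by positivity) (by positivity),
              Real.mul_rpow (by positivity) (by positivity)]
        _ ≤ K ^ k * L * ((1 + 1024 * (k + 1)) ^ k * s ^ (-(1 / 1024) : ℝ)) := by
            have e0 := qe_log_pow hk hy1
            have e00 : (1 / s) ^ (1 / 1024 : ℝ) = s ^ (-(1 / 1024) : ℝ) := by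
              rw [one_div s, Real.inv_rpow hs.le, Real.rpow_neg hs.le]
            rw [e00] at e0
            gcongr
    have e2 : (1 / H) ^ (1 / 4 : ℝ) = s ^ (1 / 128 : ℝ) := by
      rw [one_div H, hH, ← Real.rpow_neg hs.le, ← Real.rpow_mul hs.le]
      norm_num
    rw [e2]
    have e : s ^ (1 / 128 : ℝ) * s ^ (-(1 / 1024) : ℝ) * s ^ (511 / 512 : ℝ) ≤ X := by
      rw [← Real.rpow_add hs, ← Real.rpow_add hs]
      exact hexp _ (by norm_num)
    have hC₅0 : 0 < C₅ := by linarith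
    calc C₅ * s ^ (1 / 128 : ℝ) * (1 + Real.log z) ^ k * s ^ (511 / 512 : ℝ) * G ≤
        C₅ * s ^ (1 / 128 : ℝ) * (K ^ k * L * ((1 + 1024 * (k + 1)) ^ k *
          s ^ (-(1 / 1024) : ℝ))) * s ^ (511 / 512 : ℝ) * G := by gcongr
      _ = C₆ * (s ^ (1 / 128 : ℝ) * s ^ (-(1 / 1024) : ℝ) * s ^ (511 / 512 : ℝ)) * L * G := by
          rw [hC₆]; ring
      _ ≤ C₆ * X * L * G := by gcongr
  -- case distinction
  have hcase : ∀ q ∈ Icc 1 N, ∀ r ∈ Icc 1 N, NearQ γ s ψ q r →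
      (1 ∣ cofac q r ∧ 1 ∣ cofac r q ∧
      (cofac r q : ℝ) * ψ q ≤ s ^ (65 / 64 : ℝ) ∧ (cofac q r : ℝ) * ψ r ≤ s) ∨
      (1 ∣ cofac q r ∧ 1 ∣ cofac r q ∧
      (cofac r q : ℝ) * ψ q ≤ s ∧ (cofac q r : ℝ) * ψ r ≤ s ^ (65 / 64 : ℝ)) ∨
      (cl q ≠ cl r ∧ (cofac r q : ℝ) * ψ q ≤ s ∧ (cofac q r : ℝ) * ψ r ≤ s) ∨
      (cl q = cl r ∧ (∃ p : ℕ, p.Prime ∧ (z : ℝ) < p ∧
          q.factorization p ≠ lev (cl q) p ∧ r.factorization p ≠ lev (cl q) p) ∧
        (cofac r q : ℝ) * ψ q ≤ s ∧ (cofac q r : ℝ) * ψ r ≤ s) ∨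
      (cl q = cl r ∧ (∃ p : ℕ, p.Prime ∧ (z : ℝ) < p ∧
          ((q.factorization p < lev (cl q) p ∧ r.factorization p = lev (cl q) p) ∨
            (r.factorization p < lev (cl q) p ∧ q.factorization p = lev (cl q) p))) ∧
        (cofac r q : ℝ) * ψ q ≤ s ∧ (cofac q r : ℝ) * ψ r ≤ s) ∨
      (cl q = cl r ∧ (∀ p : ℕ, p.Prime → z < p →
          lev (cl q) p ≤ q.factorization p ∧ lev (cl q) p ≤ r.factorization p ∧
            (q.factorization p = lev (cl q) p ∨ r.factorization p = lev (cl q) p)) ∧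
          OmI H s z γ γ (cofac q r) (cofac r q) ∧
          (cofac r q : ℝ) * ψ q ≤ s ∧ (cofac q r : ℝ) * ψ r ≤ s) := by
    intro q hq r hr hn
    obtain ⟨hqr, hvq, hur, hcol, hstr⟩ := hn
    have hq0 : 0 < q := (mem_Icc.1 hq).1
    have hr0 : 0 < r := (mem_Icc.1 hr).1
    by_cases c1 : (cofac r q : ℝ) * ψ q ≤ s ^ (65 / 64 : ℝ)
    · exact Or.inl ⟨one_dvd _, one_dvd _, c1, hur⟩
    by_cases c2 : (cofac q r : ℝ) * ψ r ≤ s ^ (65 / 64 : ℝ)
    · exact Or.inr (Or.inl ⟨one_dvd _, one_dvd _, hvq, c2⟩)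
    push Not at c1 c2
    have hns : ¬ (FrS H s γ (cofac q r) ∧ FrS H s γ (cofac r q)) := by
      intro h
      exact hstr ⟨c1, c2, h.1, h.2⟩
    by_cases c3 : cl q = cl r
    swap
    · exact Or.inr (Or.inr (Or.inl ⟨c3, hvq, hur⟩))
    by_cases c4 : ∃ p : ℕ, p.Prime ∧ (z : ℝ) < p ∧
          q.factorization p ≠ lev (cl q) p ∧ r.factorization p ≠ lev (cl q) p
    · exact Or.inr (Or.inr (Or.inr (Or.inl ⟨c3, c4, hvq, hur⟩)))
    by_cases c5 : ∃ p : ℕ, p.Prime ∧ (z : ℝ) < p ∧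
          ((q.factorization p < lev (cl q) p ∧ r.factorization p = lev (cl q) p) ∨
            (r.factorization p < lev (cl q) p ∧ q.factorization p = lev (cl q) p))
    · exact Or.inr (Or.inr (Or.inr (Or.inr (Or.inl ⟨c3, c5, hvq, hur⟩))))
    refine Or.inr (Or.inr (Or.inr (Or.inr (Or.inr ⟨c3, ?_, ?_, hvq, hur⟩))))
    · intro p hp hzp
      have hzp' : (z : ℝ) < p := by exact_mod_cast hzp
      have d4 : q.factorization p = lev (cl q) p ∨ r.factorization p = lev (cl q) p := by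
        by_contra h
        push Not at h
        exact c4 ⟨p, hp, hzp', h.1, h.2⟩
      have d5 : ¬ ((q.factorization p < lev (cl q) p ∧ r.factorization p = lev (cl q) p) ∨
            (r.factorization p < lev (cl q) p ∧ q.factorization p = lev (cl q) p)) :=
        fun h => c5 ⟨p, hp, hzp', h⟩
      omega
    · exact qe_omI hs hH4 hq0 hr0 hqr hcol hns
  have hXL : X ≤ X * L := le_mul_of_one_le_right hX0.le hL1
  have hfin : ∀ c : ℝ, 0 < c → c * X * G ≤ c * X * L * G := by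
    intro c hc
    have : c * X ≤ c * X * L := by
      rw [mul_assoc]; exact mul_le_mul_of_nonneg_left hXL hc.le
    exact mul_le_mul_of_nonneg_right this hG0
  have f1 := hfin C₁ hC₁
  have f2 := hfin C₂ hC₂
  have f3 := hfin C₃ hC₃
  have f4 := hfin C₄ hC₄
  have hgoal : (2 * C₁ + C₂ + C₃ + C₄ + C₆) * X * L * G =
      C₁ * X * L * G + C₁ * X * L * G + C₂ * X * L * G + C₃ * X * L * G + C₄ * X * L * G +
        C₆ * X * L * G := by ring
  rw [hgoal]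
  refine le_trans (le_trans (qe_psum6 (NearQ γ s ψ) _ _ _ _ _ _ N f hf0 hcase)
    (add_le_add (add_le_add (add_le_add (add_le_add (add_le_add b1 b2) b3) b4) b5) b6)) ?_
  linarith

end Vale.P028
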