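import Vale.Agent.P028.MathlibUsed
import Vale.Agent.P028.QDefs
import Vale.Agent.P028.ADefs

/-!
# Theorem Q: far pairs of cofactors are not both structured
-/

namespace Vale.P028

open Finset

/-- two fractions with denominators `d`, `d'` closer than `1 / (d d')` are equal -/
theorem qf_frac_eq {d d' : ℕ} {k k' : ℤ} (hd : 0 < d) (hd' : 0 < d') {γ e e' : ℝ}
    (h1 : |γ - k / d| ≤ e) (h2 : |γ - k' / d'| ≤ e')
    (h3 : (e + e') * ((d : ℝ) * (d' : ℝ)) < 1) :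
    k * d' = k' * d := by
  have hdR : (0 : ℝ) < d := by exact_mod_cast hd
  have hdR' : (0 : ℝ) < d' := by exact_mod_cast hd'
  have h4 : |(k : ℝ) / d - k' / d'| ≤ e + e' := by
    have h := abs_sub_le ((k : ℝ) / d) γ ((k' : ℝ) / d')
    rw [abs_sub_comm ((k : ℝ) / d) γ] at h
    linarith
  have h5 : |((k * d' - k' * d : ℤ) : ℝ)| < 1 := by
    have e1 : ((k * d' - k' * d : ℤ) : ℝ) = ((k : ℝ) / d - k' / d') * (d * d') := by
      push_cast
      field_simp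
    rw [e1, abs_mul, abs_of_pos (mul_pos hdR hdR')]
    exact lt_of_le_of_lt (mul_le_mul_of_nonneg_right h4 (mul_pos hdR hdR').le) h3
  have h6 : |k * d' - k' * d| < 1 := by exact_mod_cast h5
  have h7 := Int.abs_lt_one_iff.1 h6
  linarith

/-- the 64th root of `s` -/
theorem qf_root {x : ℝ} (hx : 0 < x) (hx1 : x ≤ (1 / 2) ^ 64) :
    ∃ t : ℝ, 0 < t ∧ t ≤ 1 / 2 ∧ x = t ^ 64 ∧ x ^ (-(1 / 32) : ℝ) = (t ^ 2)⁻¹ := by
  refine ⟨x ^ (1 / 64 : ℝ), Real.rpow_pos_of_pos hx _, ?_, ?_, ?_⟩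
  · calc x ^ (1 / 64 : ℝ) ≤ ((1 / 2) ^ 64) ^ (1 / 64 : ℝ) :=
          Real.rpow_le_rpow hx.le hx1 (by norm_num)
      _ = 1 / 2 := by
          rw [← Real.rpow_natCast, ← Real.rpow_mul (by norm_num)]
          norm_num
  · rw [← Real.rpow_natCast, ← Real.rpow_mul hx.le]; norm_num
  · rw [← Real.rpow_natCast, ← Real.rpow_mul hx.le, Real.rpow_neg hx.le]; norm_num

/-- the common reduced fraction of two structured cofactors -/
theorem qf_common {γ t : ℝ} {u v : ℕ} (ht : 0 < t) (ht2 : t ≤ 1 / 2) (hu : 0 < u) (hv : 0 < v)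
    (h6 : FrS (t ^ 2)⁻¹ (t ^ 64) γ u) (h7 : FrS (t ^ 2)⁻¹ (t ^ 64) γ v) :
    ∃ (A : ℤ) (D : ℕ), 0 < D ∧ IsCoprime A (D : ℤ) ∧ (D : ℝ) ≤ (t ^ 14)⁻¹ ∧
      |γ - A / D| * max (u : ℝ) v ≤ t ^ 50 := by
  have huR : (1 : ℝ) ≤ u := by exact_mod_cast hu
  have hvR : (1 : ℝ) ≤ v := by exact_mod_cast hv
  have p1 : ((t ^ 2)⁻¹) ^ 7 = (t ^ 14)⁻¹ := by rw [inv_pow]; ring_nf
  have p2 : t ^ 64 * ((t ^ 2)⁻¹) ^ 7 = t ^ 50 := by rw [p1]; field_simp
  obtain ⟨d, k, hd, hdH, hk⟩ := h6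
  obtain ⟨d', k', hd', hdH', hk'⟩ := h7
  rw [p2] at hk hk'
  rw [p1] at hdH hdH'
  have hk1 : |γ - k / d| ≤ t ^ 50 := by
    calc |γ - k / d| = |γ - k / d| * 1 := (mul_one _).symm
      _ ≤ |γ - k / d| * u := mul_le_mul_of_nonneg_left huR (abs_nonneg _)
      _ ≤ t ^ 50 := hk
  have hk1' : |γ - k' / d'| ≤ t ^ 50 := by
    calc |γ - k' / d'| = |γ - k' / d'| * 1 := (mul_one _).symm
      _ ≤ |γ - k' / d'| * v := mul_le_mul_of_nonneg_left hvR (abs_nonneg _)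
      _ ≤ t ^ 50 := hk'
  have hdR : (0 : ℝ) < d := by exact_mod_cast hd
  have hdR' : (0 : ℝ) < d' := by exact_mod_cast hd'
  have hi : (0 : ℝ) ≤ (t ^ 14)⁻¹ := by positivity
  have heq : k * d' = k' * d := by
    apply qf_frac_eq hd hd' hk1 hk1'
    calc (t ^ 50 + t ^ 50) * ((d : ℝ) * (d' : ℝ))
        ≤ (t ^ 50 + t ^ 50) * ((t ^ 14)⁻¹ * (t ^ 14)⁻¹) := by
          apply mul_le_mul_of_nonneg_left _ (by positivity)
          exact mul_le_mul hdH hdH' hdR'.le hi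
      _ = 2 * t ^ 22 := by field_simp; ring
      _ ≤ 2 * (1 / 2) ^ 22 := by
          apply mul_le_mul_of_nonneg_left _ (by norm_num)
          exact pow_le_pow_left₀ ht.le ht2 22
      _ < 1 := by norm_num
  have hfrac : (k : ℝ) / d = k' / d' := by
    rw [div_eq_div_iff hdR.ne' hdR'.ne']
    exact_mod_cast heq
  obtain ⟨A, B, hB, hc, hBd, hAB⟩ : ∃ (A : ℤ) (B : ℕ), 0 < B ∧ IsCoprime A (B : ℤ) ∧ B ≤ d ∧
      (k : ℝ) / d = A / B := by
    refine ⟨(Rat.divInt k d).num, (Rat.divInt k d).den, (Rat.divInt k d).den_pos, ?_, ?_, ?_⟩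
    · exact Int.isCoprime_iff_gcd_eq_one.2 (Rat.divInt k d).reduced
    · have := Rat.den_dvd k d
      exact Nat.le_of_dvd hd (by exact_mod_cast this)
    · have a1 : ((Rat.divInt k d : ℚ) : ℝ) = (k : ℝ) / d := by
        rw [Rat.divInt_eq_div]
        push_cast
        rfl
      rw [← a1]
      exact Rat.cast_def _
  refine ⟨A, B, hB, hc, le_trans (by exact_mod_cast hBd) hdH, ?_⟩
  rcases max_choice (u : ℝ) v with h | h
  · rw [h, ← hAB]; exact hk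
  · rw [h, ← hAB, hfrac]; exact hk'

/-- an integer `b` with `|b γ - m| ≤ e`, `D e + |b| (D |γ - A / D|) < 1` satisfies `b A = m D` -/
theorem qf_int {γ e : ℝ} {A m b : ℤ} {D : ℕ} (hD : 0 < D) (h1 : |(b : ℝ) * γ - m| ≤ e)
    (h2 : D * (e + |(b : ℝ) * (γ - A / D)|) < 1) : b * A = m * D := by
  have hDR : (0 : ℝ) < D := by exact_mod_cast hD
  have h5 : |((b * A - m * D : ℤ) : ℝ)| < 1 := by
    have e1 : ((b * A - m * D : ℤ) : ℝ) = D * (((b : ℝ) * γ - m) - (b : ℝ) * (γ - A / D)) := by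
      push_cast
      field_simp
      ring
    rw [e1, abs_mul, abs_of_pos hDR]
    refine lt_of_le_of_lt (mul_le_mul_of_nonneg_left ((abs_sub _ _).trans ?_) hDR.le) h2
    linarith
  have h6 : |b * A - m * D| < 1 := by exact_mod_cast h5
  have h7 := Int.abs_lt_one_iff.1 h6
  linarith

/-- Proof: let `γ = k/d + δ` with `d ≤ s^(-7/32)` (reduced), `|δ| u, |δ| v ≤ s^(25/32)` (the two
fractions of the two `FrS` agree since distinct ones are `≥ s^(14/32)` apart). Then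
`‖(u-v) k/d‖ ≤ 2 s + s^(25/32) < 1/d`, so `d ∣ u - v`, and `|u - v| |δ| < 2 s`, so
`‖d γ‖ ≤ d |δ| ≤ |u - v| |δ| < 2 s`. Hence the first `B ≥ 1` with `‖B γ‖ ≤ 4 s` has `B ≤ d`,
`B ^ 4 s ≤ 1`: `BadAt γ s B`. `‖B k/d‖ ≤ 4 s + B |δ| < 1/d`, so `d ∣ B`, `B = d` and
`‖B γ‖ max(u,v) ≤ d |δ| max(u,v) ≤ s^(18/32) < 1/4`: this contradicts `Far`. -/
theorem q_far_not_str {γ s : ℝ} {u v : ℕ} (hs : 0 < s) (hs1 : s ≤ (1 / 2) ^ 64) (hu : 0 < u)
    (hv : 0 < v) (huv : u ≠ v) (hcol : distInt (((u : ℝ) - v) * γ) < 2 * s)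
    (hfar : Far γ s u v) :
    ¬ (FrS (s ^ (-(1 / 32) : ℝ)) s γ u ∧ FrS (s ^ (-(1 / 32) : ℝ)) s γ v) := by
  rintro ⟨h6, h7⟩
  obtain ⟨t, ht, ht2, e1, e2⟩ := qf_root hs hs1
  rw [e2] at h6 h7
  rw [e1] at h6 h7 hcol hfar
  clear e1 e2 hs hs1
  obtain ⟨A, D, hD, hc, hDt, hA⟩ := qf_common ht ht2 hu hv h6 h7
  have hDR : (0 : ℝ) < D := by exact_mod_cast hD
  have hi : (0 : ℝ) ≤ (t ^ 14)⁻¹ := by positivity
  have hmax : |(u : ℝ) - v| ≤ max (u : ℝ) v := by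
    have b1 := le_max_left (u : ℝ) v
    have b2 := le_max_right (u : ℝ) v
    have b3 : (0 : ℝ) ≤ u := Nat.cast_nonneg _
    have b4 : (0 : ℝ) ≤ v := Nat.cast_nonneg _
    rw [abs_le]
    constructor <;> linarith
  have hδ : |((u : ℝ) - v) * (γ - A / D)| ≤ t ^ 50 := by
    rw [abs_mul, mul_comm]
    exact (mul_le_mul_of_nonneg_left hmax (abs_nonneg _)).trans hA
  have hcast : (((u : ℤ) - (v : ℤ) : ℤ) : ℝ) = (u : ℝ) - v := by push_cast; rfl
  -- `D ∣ u - v`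
  have hm : ((u : ℤ) - v) * A = round (((u : ℝ) - v) * γ) * D := by
    apply qf_int (γ := γ) (e := 2 * t ^ 64) hD
    · rw [hcast]; exact hcol.le
    · rw [hcast]
      calc (D : ℝ) * (2 * t ^ 64 + |((u : ℝ) - v) * (γ - A / D)|)
          ≤ (t ^ 14)⁻¹ * (2 * t ^ 64 + t ^ 50) :=
            mul_le_mul hDt (by linarith) (by positivity) hi
        _ = 2 * t ^ 50 + t ^ 36 := by field_simp
        _ ≤ 2 * (1 / 2) ^ 50 + (1 / 2) ^ 36 := by
            have b1 := pow_le_pow_left₀ ht.le ht2 50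
            have b2 := pow_le_pow_left₀ ht.le ht2 36
            linarith
        _ < 1 := by norm_num
  have hdvd : (D : ℤ) ∣ (u : ℤ) - v := by
    have h1 : (D : ℤ) ∣ ((u : ℤ) - v) * A := by rw [hm]; exact dvd_mul_left _ _
    exact hc.symm.dvd_of_dvd_mul_right h1
  have hDle : (D : ℝ) ≤ |(u : ℝ) - v| := by
    have h1 : (u : ℤ) - v ≠ 0 := by
      intro h
      apply huv
      omega
    have h2 : (D : ℤ) ≤ |(u : ℤ) - v| := Int.le_of_dvd (abs_pos.2 h1) ((dvd_abs _ _).2 hdvd)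
    have h3 : ((D : ℤ) : ℝ) ≤ ((|(u : ℤ) - v| : ℤ) : ℝ) := by exact_mod_cast h2
    rw [Int.cast_abs, hcast] at h3
    exact_mod_cast h3
  have hδ2 : |((u : ℝ) - v) * (γ - A / D)| < 2 * t ^ 64 := by
    have h1 : ((u : ℝ) - v) * (γ - A / D) =
        ((u : ℝ) - v) * γ - round (((u : ℝ) - v) * γ) := by
      have h2 : ((u : ℝ) - v) * A = round (((u : ℝ) - v) * γ) * D := by
        have h3 : ((((u : ℤ) - v) * A : ℤ) : ℝ) = ((round (((u : ℝ) - v) * γ) * D : ℤ) : ℝ) := by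
          rw [hm]
        push_cast at h3
        exact h3
      have h4 : ((u : ℝ) - v) * (A / D) = round (((u : ℝ) - v) * γ) := by
        rw [← mul_div_assoc, h2]
        field_simp
      rw [mul_sub, h4]
    rw [h1]
    exact hcol
  have hDδ : |(D : ℝ) * (γ - A / D)| < 2 * t ^ 64 := by
    rw [abs_mul, abs_of_pos hDR]
    rw [abs_mul] at hδ2
    exact lt_of_le_of_lt (mul_le_mul_of_nonneg_right hDle (abs_nonneg _)) hδ2
  have hDγ : distInt ((D : ℝ) * γ) ≤ |(D : ℝ) * (γ - A / D)| := by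
    have h1 : (D : ℝ) * (γ - A / D) = (D : ℝ) * γ - A := by field_simp
    rw [h1]
    exact round_le _ A
  -- the first `B`
  have hex : ∃ B : ℕ, 0 < B ∧ distInt ((B : ℝ) * γ) ≤ 4 * t ^ 64 :=
    ⟨D, hD, by have : (0 : ℝ) ≤ t ^ 64 := by positivity
               linarith⟩
  classical
  have hB0 := Nat.find_spec hex
  have hBmin : ∀ h : ℕ, 0 < h → h < Nat.find hex → 4 * t ^ 64 < distInt ((h : ℝ) * γ) := by
    intro h h0 h1
    by_contra hcon
    exact Nat.find_min hex h1 ⟨h0, not_lt.1 hcon⟩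
  have hBD : Nat.find hex ≤ D := Nat.find_min' hex ⟨hD, by
    have : (0 : ℝ) ≤ t ^ 64 := by positivity
    linarith⟩
  generalize Nat.find hex = B at hB0 hBmin hBD
  obtain ⟨hBpos, hBγ⟩ := hB0
  have hBDR : (B : ℝ) ≤ D := by exact_mod_cast hBD
  have hBt : (B : ℝ) ≤ (t ^ 14)⁻¹ := hBDR.trans hDt
  have hBR : (0 : ℝ) < B := by exact_mod_cast hBpos
  have hbad : BadAt γ (t ^ 64) B := by
    refine ⟨⟨hBpos, hBγ, hBmin⟩, ?_⟩
    calc (B : ℝ) ^ 4 * t ^ 64 ≤ ((t ^ 14)⁻¹) ^ 4 * t ^ 64 :=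
          mul_le_mul_of_nonneg_right (pow_le_pow_left₀ hBR.le hBt 4) (by positivity)
      _ = t ^ 8 := by field_simp
      _ ≤ 1 := pow_le_one₀ ht.le (by linarith)
  have hfB := hfar B hbad
  -- `D ∣ B`
  have hm2 : (B : ℤ) * A = round ((B : ℝ) * γ) * D := by
    apply qf_int (γ := γ) (e := 4 * t ^ 64) hD
    · rw [Int.cast_natCast]; exact hBγ
    · rw [Int.cast_natCast]
      have h1 : |(B : ℝ) * (γ - A / D)| ≤ 2 * t ^ 64 := by
        refine le_trans ?_ hDδ.le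
        rw [abs_mul, abs_mul, abs_of_pos hDR, abs_of_pos hBR]
        exact mul_le_mul_of_nonneg_right hBDR (abs_nonneg _)
      calc (D : ℝ) * (4 * t ^ 64 + |(B : ℝ) * (γ - A / D)|)
          ≤ (t ^ 14)⁻¹ * (6 * t ^ 64) :=
            mul_le_mul hDt (by linarith) (by positivity) hi
        _ = 6 * t ^ 50 := by field_simp
        _ ≤ 6 * (1 / 2) ^ 50 := by
            have b1 := pow_le_pow_left₀ ht.le ht2 50
            linarith
        _ < 1 := by norm_num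
  have hdvd2 : (D : ℤ) ∣ (B : ℤ) := by
    have h1 : (D : ℤ) ∣ (B : ℤ) * A := by rw [hm2]; exact dvd_mul_left _ _
    exact hc.symm.dvd_of_dvd_mul_right h1
  have hBeq : B = D := le_antisymm hBD (Nat.le_of_dvd hBpos (by exact_mod_cast hdvd2))
  rw [hBeq] at hfB
  have hmx : (0 : ℝ) ≤ max (u : ℝ) v := le_trans (Nat.cast_nonneg u) (le_max_left _ _)
  have hfin : (1 : ℝ) ≤ 4 * ((t ^ 14)⁻¹ * t ^ 50) := by
    calc (1 : ℝ) ≤ 4 * distInt ((D : ℝ) * γ) * max (u : ℝ) v := hfB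
      _ ≤ 4 * |(D : ℝ) * (γ - A / D)| * max (u : ℝ) v :=
          mul_le_mul_of_nonneg_right (by linarith) hmx
      _ = 4 * (D * (|γ - A / D| * max (u : ℝ) v)) := by
          rw [abs_mul, abs_of_pos hDR]; ring
      _ ≤ 4 * ((t ^ 14)⁻¹ * t ^ 50) := by
          apply mul_le_mul_of_nonneg_left _ (by norm_num)
          exact mul_le_mul hDt hA (mul_nonneg (abs_nonneg _) hmx) hi
  have hfin2 : 4 * ((t ^ 14)⁻¹ * t ^ 50) < 1 := by
    calc 4 * ((t ^ 14)⁻¹ * t ^ 50) = 4 * t ^ 36 := by field_simp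
      _ ≤ 4 * (1 / 2) ^ 36 := by
          have b2 := pow_le_pow_left₀ ht.le ht2 36
          linarith
      _ < 1 := by norm_num
  linarith

end Vale.P028
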