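import Vale.Agent.P028.MathlibUsed
import Vale.Agent.P028.QDefs

/-!
# Theorem Q: structured balanced pairs do not meet

Proof. `x := ψ q ≤ s` etc., `H = s^(-1/32)`, `H^7 = s^(-7/32)`. From `FrS` for `u = cofac q r` and
`v = cofac r q`: fractions `k/d`, `k'/d'` with `d, d' ≤ s^(-7/32)`, `|γ - k/d| u ≤ s^(25/32)`,
`|γ - k'/d'| v ≤ s^(25/32)`. As `2 s^(25/32) < s^(14/32)`, `k/d = k'/d'` (distinct fractions are
`≥ 1/(d d')` apart); let `A/B` be the reduced form, so `|γ - A/B| max(u,v) ≤ s^(25/32)`.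
`QFr γ (ψ q) B A`: `B ≤ s^(-7/32) ≤ (ψ q)^(-7/32)`, and `|γ - A/B| ≤ s^(25/32) / v`
`≤ (s^(65/64)/v)^(3/4) ≤ (ψ q)^(3/4)`. The same for `ψ r`. Uniqueness: two different reduced
fractions satisfying `QFr γ x` would give `x^(7/16) ≤ 2 x^(3/4)`, impossible for `x ≤ 2^(-64)`.
So `qF γ (ψ q) = (B, A) = qF γ (ψ r)`.
If `x` is in both sets with the centres `a`, `b`: `|v (a + γ) - u (b + γ)| < 2 s` (as `v q = u r`),
so `|v (a B + A) - u (b B + A)| < B (2 s + |u - v| |γ - A/B|) ≤ 3 s^(18/32) < 1`, hence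
`v (a B + A) = u (b B + A)`. `gcd(u,v) = 1`: `u ∣ a B + A` and `v ∣ b B + A`. A prime `p ∣ u`
divides `q` and `a B + A`; `AQ` gives `p ∣ B`, then `p ∣ A`, contradiction. So `u = 1`, and `v = 1`
in the same way: `q = r`.
-/

namespace Vale.P028

open Finset MeasureTheory

/-- two fractions with denominators `d`, `d'` closer than `1 / (d d')` are equal -/
theorem qk_frac_eq {d d' : ℕ} {k k' : ℤ} (hd : 0 < d) (hd' : 0 < d') {γ e e' : ℝ}
    (h1 : |γ - k / d| ≤ e) (h2 : |γ - k' / d'| ≤ e')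
    (h3 : (e + e') * ((d : ℝ) * (d' : ℝ)) < 1) :
    k * d' = k' * d := by
  have hdR : (0 : ℝ) < d := by exact_mod_cast hd
  have hdR' : (0 : ℝ) < d' := by exact_mod_cast hd'
  have h4 : |(k : ℝ) / d - k' / d'| ≤ e + e' := by
    have h := abs_sub_le ((k : ℝ) / d) γ ((k' : ℝ) / d')
    rw [abs_sub_comm ((k : ℝ) / d) γ] at h
    linarith
  have h5 : |((k * d' - k' * d : ℤ) : ℝ)| < 1 := by
    have e1 : ((k * d' - k' * d : ℤ) : ℝ) = ((k : ℝ) / d - k' / d') * (d * d') := by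
      push_cast
      field_simp
    rw [e1, abs_mul, abs_of_pos (mul_pos hdR hdR')]
    exact lt_of_le_of_lt (mul_le_mul_of_nonneg_right h4 (mul_pos hdR hdR').le) h3
  have h6 : |k * d' - k' * d| < 1 := by exact_mod_cast h5
  have h7 := Int.abs_lt_one_iff.1 h6
  linarith

/-- the 64th root of `x` and the powers of `x` used below -/
theorem qk_root {x : ℝ} (hx : 0 < x) (hx1 : x ≤ (1 / 2) ^ 64) :
    ∃ t : ℝ, 0 < t ∧ t ≤ 1 / 2 ∧ x = t ^ 64 ∧ x ^ (3 / 4 : ℝ) = t ^ 48 ∧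
      x ^ (-(7 / 32) : ℝ) = (t ^ 14)⁻¹ ∧ x ^ (65 / 64 : ℝ) = t ^ 65 ∧
      x ^ (-(1 / 32) : ℝ) = (t ^ 2)⁻¹ := by
  refine ⟨x ^ (1 / 64 : ℝ), Real.rpow_pos_of_pos hx _, ?_, ?_, ?_, ?_, ?_, ?_⟩
  · calc x ^ (1 / 64 : ℝ) ≤ ((1 / 2) ^ 64) ^ (1 / 64 : ℝ) :=
          Real.rpow_le_rpow hx.le hx1 (by norm_num)
      _ = 1 / 2 := by
          rw [← Real.rpow_natCast, ← Real.rpow_mul (by norm_num)]
          norm_num
  · rw [← Real.rpow_natCast, ← Real.rpow_mul hx.le]; norm_num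
  · rw [← Real.rpow_natCast, ← Real.rpow_mul hx.le]; norm_num
  · rw [← Real.rpow_natCast, ← Real.rpow_mul hx.le, Real.rpow_neg hx.le]; norm_num
  · rw [← Real.rpow_natCast, ← Real.rpow_mul hx.le]; norm_num
  · rw [← Real.rpow_natCast, ← Real.rpow_mul hx.le, Real.rpow_neg hx.le]; norm_num

/-- two reduced fractions with the same value are the same -/
theorem qk_reduced_unique {B B' : ℕ} {A A' : ℤ} (hB' : 0 < B')
    (hc : IsCoprime A (B : ℤ)) (hc' : IsCoprime A' (B' : ℤ)) (key : A * B' = A' * B) :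
    B = B' ∧ A = A' := by
  have hBB : B = B' := by
    apply Nat.dvd_antisymm
    · have h1 : (B : ℤ) ∣ A * B' := by rw [key]; exact dvd_mul_left _ _
      exact_mod_cast hc.symm.dvd_of_dvd_mul_left h1
    · have h1 : (B' : ℤ) ∣ A' * B := by rw [← key]; exact dvd_mul_left _ _
      exact_mod_cast hc'.symm.dvd_of_dvd_mul_left h1
  refine ⟨hBB, ?_⟩
  rw [hBB] at key
  have hB0 : (B' : ℤ) ≠ 0 := by exact_mod_cast hB'.ne'
  exact mul_right_cancel₀ hB0 key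

/-- uniqueness of the fraction attached to `x` -/
theorem qk_unique {γ x : ℝ} (hx : 0 < x) (hx1 : x ≤ (1 / 2) ^ 64) {B B' : ℕ} {A A' : ℤ}
    (h : QFr γ x B A) (h' : QFr γ x B' A') : B = B' ∧ A = A' := by
  obtain ⟨hB, hc, hBx, hAx⟩ := h
  obtain ⟨hB', hc', hBx', hAx'⟩ := h'
  apply qk_reduced_unique hB' hc hc'
  apply qk_frac_eq hB hB' hAx hAx'
  obtain ⟨y, hy, hy2, e1, e2, e3, e4, e5⟩ := qk_root hx hx1
  rw [e3] at hBx hBx'
  rw [e2]
  have hB0 : (0 : ℝ) ≤ B := Nat.cast_nonneg _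
  have hB0' : (0 : ℝ) ≤ B' := Nat.cast_nonneg _
  have hi : (0 : ℝ) ≤ (y ^ 14)⁻¹ := by positivity
  calc (y ^ 48 + y ^ 48) * ((B : ℝ) * (B' : ℝ))
      ≤ (y ^ 48 + y ^ 48) * ((y ^ 14)⁻¹ * (y ^ 14)⁻¹) := by
        apply mul_le_mul_of_nonneg_left _ (by positivity)
        exact mul_le_mul hBx hBx' hB0' hi
    _ = 2 * y ^ 20 := by field_simp; ring
    _ ≤ 2 * (1 / 2) ^ 20 := by
        apply mul_le_mul_of_nonneg_left _ (by norm_num)
        exact pow_le_pow_left₀ hy.le hy2 20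
    _ < 1 := by norm_num

theorem qk_qF {γ x : ℝ} (hx : 0 < x) (hx1 : x ≤ (1 / 2) ^ 64) {B : ℕ} {A : ℤ}
    (h : QFr γ x B A) : qF γ x = (B, A) := by
  have hex : ∃ p : ℕ × ℤ, QFr γ x p.1 p.2 := ⟨(B, A), h⟩
  have h1 : qF γ x = hex.choose := by
    unfold qF
    rw [dif_pos hex]
  have h2 := hex.choose_spec
  obtain ⟨e1, e2⟩ := qk_unique hx hx1 h2 h
  rw [h1]
  exact Prod.ext e1 e2

theorem qk_qfr {γ x t : ℝ} {v B : ℕ} {A : ℤ} (ht : 0 < t) (ht2 : t ≤ 1 / 2) (hx : 0 < x)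
    (hv : 0 < v) (h1 : (v : ℝ) * x ≤ t ^ 64) (h2 : t ^ 65 < (v : ℝ) * x) (hB : 0 < B)
    (hc : IsCoprime A (B : ℤ)) (hBt : (B : ℝ) ≤ (t ^ 14)⁻¹) (hA : |γ - A / B| * v ≤ t ^ 50) :
    x ≤ (1 / 2) ^ 64 ∧ QFr γ x B A := by
  have hvR : (1 : ℝ) ≤ v := by exact_mod_cast hv
  have hxt : x ≤ t ^ 64 := by
    calc x = 1 * x := (one_mul _).symm
      _ ≤ v * x := mul_le_mul_of_nonneg_right hvR hx.le
      _ ≤ t ^ 64 := h1
  have hx1 : x ≤ (1 / 2) ^ 64 := hxt.trans (pow_le_pow_left₀ ht.le ht2 64)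
  obtain ⟨y, hy, hy2, e1, e2, e3, e4, e5⟩ := qk_root hx hx1
  have hyt : y ≤ t := by
    rw [e1] at hxt
    exact le_of_pow_le_pow_left₀ (by norm_num) ht.le hxt
  refine ⟨hx1, hB, hc, ?_, ?_⟩
  · rw [e3]
    refine hBt.trans ?_
    exact inv_anti₀ (pow_pos hy _) (pow_le_pow_left₀ hy.le hyt 14)
  · rw [e2]
    have h3 : t ^ 50 ≤ v * y ^ 48 := by
      apply le_of_lt
      apply lt_of_pow_lt_pow_left₀ 4 (by positivity)
      calc (t ^ 50) ^ 4 = t ^ 195 * t ^ 5 := by ring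
        _ ≤ t ^ 195 * 1 := by
            apply mul_le_mul_of_nonneg_left _ (by positivity)
            exact pow_le_one₀ ht.le (by linarith)
        _ = (t ^ 65) ^ 3 := by ring
        _ < (v * x) ^ 3 := pow_lt_pow_left₀ h2 (by positivity) (by norm_num)
        _ = v ^ 3 * 1 * y ^ 192 := by rw [e1]; ring
        _ ≤ v ^ 3 * v * y ^ 192 := by
            apply mul_le_mul_of_nonneg_right _ (by positivity)
            apply mul_le_mul_of_nonneg_left hvR (by positivity)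
        _ = (v * y ^ 48) ^ 4 := by ring
    have h4 : |γ - A / B| * v ≤ y ^ 48 * v := by linarith
    exact le_of_mul_le_mul_right h4 (by linarith)

/-- the prime step: if `v (a B + A) = u (b B + A)` with `gcd(u,v) = 1`, `u ∣ q` and `a` is allowed
for the fraction `A / B`, then `u = 1` -/
theorem qk_one {u v q : ℕ} {a b A : ℤ} {B : ℕ} (huv : Nat.Coprime u v) (huq : u ∣ q)
    (hc : IsCoprime A (B : ℤ)) (h : (v : ℤ) * (a * B + A) = u * (b * B + A))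
    (ha : ∀ p : ℕ, p.Prime → p ∣ q → ¬ p ∣ B → ¬ (p : ℤ) ∣ a * (B : ℤ) + A) : u = 1 := by
  by_contra hu
  obtain ⟨p, hp, hpu⟩ := Nat.exists_prime_and_dvd hu
  have h1 : (u : ℤ) ∣ v * (a * B + A) := by rw [h]; exact dvd_mul_right _ _
  have h2 : (u : ℤ) ∣ a * B + A :=
    (Nat.isCoprime_iff_coprime.2 huv).dvd_of_dvd_mul_left h1
  have h3 : (p : ℤ) ∣ a * B + A := (Int.natCast_dvd_natCast.2 hpu).trans h2
  have h4 : p ∣ B := by
    by_contra hpB
    exact ha p hp (hpu.trans huq) hpB h3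
  have h5 : (p : ℤ) ∣ (B : ℤ) := Int.natCast_dvd_natCast.2 h4
  have h6 : (p : ℤ) ∣ A := (dvd_add_right (h5.mul_left a)).1 h3
  have h7 : IsUnit (p : ℤ) := hc.isUnit_of_dvd' h6 h5
  rw [Int.isUnit_iff_natAbs_eq, Int.natAbs_natCast] at h7
  exact hp.one_lt.ne' h7

theorem q_kill {γ s : ℝ} {ψ : ℕ → ℝ} {q r : ℕ} (hs : 0 < s) (hs1 : s ≤ (1 / 2) ^ 64)
    (hq : 0 < q) (hr : 0 < r) (hqr : q ≠ r) (hψq : 0 < ψ q) (hψr : 0 < ψ r)
    (h1 : (cofac r q : ℝ) * ψ q ≤ s) (h2 : (cofac q r : ℝ) * ψ r ≤ s) (h3 : StrQ γ s ψ q r) :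
    GQ γ ψ q ∩ GQ γ ψ r = ∅ := by
  obtain ⟨h4, h5, h6, h7⟩ := h3
  obtain ⟨t, ht, ht2, e1, e2, e3, e4, e5⟩ := qk_root hs hs1
  rw [e4] at h4 h5
  rw [e5] at h6 h7
  rw [e1] at h1 h2 h6 h7
  have hu : 0 < cofac q r := cofac_pos r hq
  have hv : 0 < cofac r q := cofac_pos q hr
  have hcop : Nat.Coprime (cofac q r) (cofac r q) := cofac_coprime hq
  have hvq : cofac r q * q = cofac q r * r := by
    have a1 := gcd_mul_cofac q r
    have a2 := gcd_mul_cofac r q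
    rw [Nat.gcd_comm] at a2
    calc cofac r q * q = cofac r q * (q.gcd r * cofac q r) := by rw [a1]
      _ = cofac q r * (q.gcd r * cofac r q) := by ring
      _ = cofac q r * r := by rw [a2]
  have hne : ¬ (cofac q r = 1 ∧ cofac r q = 1) := fun h => hqr (eq_of_cofac_eq_one h.1 h.2)
  have huq : cofac q r ∣ q := cofac_dvd q r
  have hvr : cofac r q ∣ r := cofac_dvd r q
  generalize hU : cofac q r = u at *
  generalize hV : cofac r q = v at *
  have huR : (1 : ℝ) ≤ u := by exact_mod_cast hu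
  have hvR : (1 : ℝ) ≤ v := by exact_mod_cast hv
  have p1 : ((t ^ 2)⁻¹) ^ 7 = (t ^ 14)⁻¹ := by rw [inv_pow]; ring_nf
  have p2 : t ^ 64 * ((t ^ 2)⁻¹) ^ 7 = t ^ 50 := by rw [p1]; field_simp
  obtain ⟨d, k, hd, hdH, hk⟩ := h6
  obtain ⟨d', k', hd', hdH', hk'⟩ := h7
  rw [p2] at hk hk'
  rw [p1] at hdH hdH'
  have hk1 : |γ - k / d| ≤ t ^ 50 := by
    calc |γ - k / d| = |γ - k / d| * 1 := (mul_one _).symm
      _ ≤ |γ - k / d| * u := mul_le_mul_of_nonneg_left huR (abs_nonneg _)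
      _ ≤ t ^ 50 := hk
  have hk1' : |γ - k' / d'| ≤ t ^ 50 := by
    calc |γ - k' / d'| = |γ - k' / d'| * 1 := (mul_one _).symm
      _ ≤ |γ - k' / d'| * v := mul_le_mul_of_nonneg_left hvR (abs_nonneg _)
      _ ≤ t ^ 50 := hk'
  have hdR : (0 : ℝ) < d := by exact_mod_cast hd
  have hdR' : (0 : ℝ) < d' := by exact_mod_cast hd'
  have hi : (0 : ℝ) ≤ (t ^ 14)⁻¹ := by positivity
  -- the two fractions coincide
  have heq : k * d' = k' * d := by
    apply qk_frac_eq hd hd' hk1 hk1'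
    calc (t ^ 50 + t ^ 50) * ((d : ℝ) * (d' : ℝ))
        ≤ (t ^ 50 + t ^ 50) * ((t ^ 14)⁻¹ * (t ^ 14)⁻¹) := by
          apply mul_le_mul_of_nonneg_left _ (by positivity)
          exact mul_le_mul hdH hdH' hdR'.le hi
      _ = 2 * t ^ 22 := by field_simp; ring
      _ ≤ 2 * (1 / 2) ^ 22 := by
          apply mul_le_mul_of_nonneg_left _ (by norm_num)
          exact pow_le_pow_left₀ ht.le ht2 22
      _ < 1 := by norm_num
  have hfrac : (k : ℝ) / d = k' / d' := by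
    rw [div_eq_div_iff hdR.ne' hdR'.ne']
    exact_mod_cast heq
  -- the reduced form
  obtain ⟨A, B, hB, hc, hBd, hAB⟩ : ∃ (A : ℤ) (B : ℕ), 0 < B ∧ IsCoprime A (B : ℤ) ∧ B ≤ d ∧
      (k : ℝ) / d = A / B := by
    refine ⟨(Rat.divInt k d).num, (Rat.divInt k d).den, (Rat.divInt k d).den_pos, ?_, ?_, ?_⟩
    · exact Int.isCoprime_iff_gcd_eq_one.2 (Rat.divInt k d).reduced
    · have := Rat.den_dvd k d
      exact Nat.le_of_dvd hd (by exact_mod_cast this)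
    · have a1 : ((Rat.divInt k d : ℚ) : ℝ) = (k : ℝ) / d := by
        rw [Rat.divInt_eq_div]
        push_cast
        rfl
      rw [← a1]
      exact Rat.cast_def _
  have hBt : (B : ℝ) ≤ (t ^ 14)⁻¹ := le_trans (by exact_mod_cast hBd) hdH
  have hAu : |γ - A / B| * u ≤ t ^ 50 := by rw [← hAB]; exact hk
  have hAv : |γ - A / B| * v ≤ t ^ 50 := by rw [← hAB, hfrac]; exact hk'
  obtain ⟨hq1, hQq⟩ := qk_qfr ht ht2 hψq hv h1 h4 hB hc hBt hAv
  obtain ⟨hr1, hQr⟩ := qk_qfr ht ht2 hψr hu h2 h5 hB hc hBt hAu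
  have hFq : qF γ (ψ q) = (B, A) := qk_qF hψq hq1 hQq
  have hFr : qF γ (ψ r) = (B, A) := qk_qF hψr hr1 hQr
  apply Set.eq_empty_of_forall_notMem
  rintro x ⟨⟨a, ha, hxa⟩, ⟨b, hb, hxb⟩⟩
  unfold AQ at ha hb
  rw [hFq] at ha
  rw [hFr] at hb
  have hBR : (0 : ℝ) < B := by exact_mod_cast hB
  have hu0 : (0 : ℝ) < u := by linarith
  have hv0 : (0 : ℝ) < v := by linarith
  have hvqR : (v : ℝ) * q = u * r := by exact_mod_cast hvq
  -- the common point
  have m1 : |(v : ℝ) * (a + γ) - u * (b + γ)| ≤ 2 * t ^ 64 := by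
    have a1 : (v : ℝ) * (a + γ) - u * (b + γ) =
        u * ((r : ℝ) * x - γ - b) - v * ((q : ℝ) * x - γ - a) := by
      have : (v : ℝ) * q * x = u * r * x := by rw [hvqR]
      linear_combination this
    rw [a1]
    calc |(u : ℝ) * ((r : ℝ) * x - γ - b) - v * ((q : ℝ) * x - γ - a)|
        ≤ |(u : ℝ) * ((r : ℝ) * x - γ - b)| + |v * ((q : ℝ) * x - γ - a)| := abs_sub _ _
      _ = u * |(r : ℝ) * x - γ - b| + v * |(q : ℝ) * x - γ - a| := by
          rw [abs_mul, abs_mul, abs_of_pos hu0, abs_of_pos hv0]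
      _ ≤ u * ψ r + v * ψ q :=
          add_le_add (mul_le_mul_of_nonneg_left hxb.le hu0.le)
            (mul_le_mul_of_nonneg_left hxa.le hv0.le)
      _ ≤ 2 * t ^ 64 := by linarith
  have m2 : |((v : ℝ) - u) * (γ - A / B)| ≤ t ^ 50 := by
    rw [abs_mul, mul_comm]
    have a1 : |(v : ℝ) - u| ≤ max (u : ℝ) v := by
      rw [abs_le]
      constructor
      · have := le_max_left (u : ℝ) v
        linarith
      · have := le_max_right (u : ℝ) v
        linarith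
    refine (mul_le_mul_of_nonneg_left a1 (abs_nonneg _)).trans ?_
    rcases max_choice (u : ℝ) v with h | h
    · rw [h]; exact hAu
    · rw [h]; exact hAv
  have m3 : |((v * (a * B + A) - u * (b * B + A) : ℤ) : ℝ)| < 1 := by
    have a1 : ((v * (a * B + A) - u * (b * B + A) : ℤ) : ℝ) =
        B * (((v : ℝ) * (a + γ) - u * (b + γ)) - ((v : ℝ) - u) * (γ - A / B)) := by
      push_cast
      field_simp
      ring
    rw [a1, abs_mul, abs_of_pos hBR]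
    have a2 : |((v : ℝ) * (a + γ) - u * (b + γ)) - ((v : ℝ) - u) * (γ - A / B)| ≤
        2 * t ^ 64 + t ^ 50 := (abs_sub _ _).trans (add_le_add m1 m2)
    calc (B : ℝ) * |((v : ℝ) * (a + γ) - u * (b + γ)) - ((v : ℝ) - u) * (γ - A / B)|
        ≤ (t ^ 14)⁻¹ * (2 * t ^ 64 + t ^ 50) := mul_le_mul hBt a2 (abs_nonneg _) hi
      _ = 2 * t ^ 50 + t ^ 36 := by field_simp
      _ ≤ 2 * (1 / 2) ^ 50 + (1 / 2) ^ 36 := by
          have b1 := pow_le_pow_left₀ ht.le ht2 50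
          have b2 := pow_le_pow_left₀ ht.le ht2 36
          linarith
      _ < 1 := by norm_num
  have m4 : |((v : ℤ) * (a * B + A) - u * (b * B + A) : ℤ)| < 1 := by exact_mod_cast m3
  have m5 : (v : ℤ) * (a * B + A) = u * (b * B + A) := by
    have := Int.abs_lt_one_iff.1 m4
    linarith
  apply hne
  exact ⟨qk_one hcop huq hc m5 ha, qk_one hcop.symm hvr hc m5.symm hb⟩

end Vale.P028
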