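import Vale.Agent.P028.MathlibUsed
import Vale.Agent.P028.QMoment
import Vale.Agent.P028.NMain

/-!
# Theorem Q: every real `γ`, no loss, moduli with `∑_{p ∣ q} p^{-σ} ≤ C₀`
-/

namespace Vale.P028

open Finset MeasureTheory Filter

open Classical in
/-- **Theorem Q.** -/
theorem theoremQ (γ : ℝ) (ψ : ℕ → ℝ) (hψ : ∀ q, 0 ≤ ψ q) {σ C₀ : ℝ} (hσ : σ < 1)
    (hdiv : ¬ Summable (fun q : ℕ => if ∑ p ∈ q.primeFactors, (p : ℝ) ^ (-σ) ≤ C₀ then
      ((q.totient : ℝ) / q) * ψ q else 0)) :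
    volume (W γ ψ)ᶜ = 0 := by
  rcases Set.finite_or_infinite {q : ℕ | 1 / 2 < ψ q} with hfin | hinf
  swap
  · exact n17_full γ ψ hinf
  obtain ⟨N₁, hN₁⟩ : ∃ N₁ : ℕ, ∀ q : ℕ, N₁ ≤ q → ψ q ≤ 1 / 2 := by
    obtain ⟨M, hM⟩ := hfin.bddAbove
    refine ⟨M + 1, fun q hq => ?_⟩
    by_contra hlt
    push Not at hlt
    have := hM (show q ∈ {q : ℕ | 1 / 2 < ψ q} from hlt)
    omega
  obtain ⟨C, hC, hmom⟩ := q_moment hσ (le_max_right C₀ 0)
  apply full_of_moment γ ψ (2 * C) (1 / 2) (by positivity) (by norm_num)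
  intro N
  obtain ⟨Q₀, hQ₀⟩ := q_count (1 / ((N : ℝ) + 1)) (by (clear * -; positivity))
  obtain ⟨S, hS, hF1⟩ := exists_finset_sum_ge (g := fun q : ℕ =>
      if ∑ p ∈ q.primeFactors, (p : ℝ) ^ (-σ) ≤ C₀ then ((q.totient : ℝ) / q) * ψ q else 0)
    (fun q => by
      have := mul_nonneg (show (0 : ℝ) ≤ (q.totient : ℝ) / q by (clear * -; positivity)) (hψ q)
      split_ifs
      · exact this
      · exact le_rfl) hdiv (N₁ + Q₀ + N + 1)
  have hS1 : ∀ q ∈ S, N₁ + Q₀ + N + 1 ≤ q := fun q hq => (hS q hq).1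
  have hq0 : ∀ q ∈ S, 0 < q := fun q hq => by have := hS1 q hq; omega
  have hhalf : ∀ q ∈ S, ψ q ≤ 1 / 2 := fun q hq => hN₁ q (by have := hS1 q hq; omega)
  have hcl : ∀ q ∈ S, ∑ p ∈ q.primeFactors, (p : ℝ) ^ (-σ) ≤ C₀ := by
    intro q hq
    by_contra hc
    exact (hS q hq).2 (if_neg hc)
  have hpos : ∀ q ∈ S, 0 < ψ q := by
    intro q hq
    refine lt_of_le_of_ne (hψ q) ?_
    intro h0
    have h1 := (hS q hq).2
    simp only [← h0, mul_zero, ite_self, ne_eq, not_true_eq_false] at h1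
  have hsum : ∑ q ∈ S, (if ∑ p ∈ q.primeFactors, (p : ℝ) ^ (-σ) ≤ C₀ then
      ((q.totient : ℝ) / q) * ψ q else 0) = ∑ q ∈ S, (q.totient : ℝ) / q * ψ q :=
    sum_congr rfl fun q hq => if_pos (hcl q hq)
  rw [hsum] at hF1
  refine ⟨S, fun _ => 1, fun q => AQ γ (ψ q) q, ?_, ?_, ?_, ?_, ?_⟩
  · intro q hq
    exact ⟨by have := hS1 q hq; omega, hpos q hq, hhalf q hq⟩
  · intro q _
    exact zero_le_one
  · linarith only [hF1]
  · intro q hq m n hmn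
    have h1 := hQ₀ γ (ψ q) q (by have := hS1 q hq; omega) (hq0 q hq) m n
      (by rw [one_div_mul_eq_div]; exact hmn)
    rw [one_mul]
    exact h1
  · have h1 := hmom γ ψ S (fun q hq => ⟨hq0 q hq, hpos q hq, hhalf q hq,
      (hcl q hq).trans (le_max_left _ _)⟩)
    have h0 : ∑ q ∈ S, ∑ r ∈ S, (1 : ℝ) * 1 *
        volume.real (GS γ q (ψ q) (AQ γ (ψ q) q) ∩ GS γ r (ψ r) (AQ γ (ψ r) r) ∩
          Set.Ioc 0 1) = ∑ q ∈ S, ∑ r ∈ S, volume.real (GQ γ ψ q ∩ GQ γ ψ r ∩ Set.Ioc 0 1) := by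
      refine sum_congr rfl fun q _ => sum_congr rfl fun r _ => ?_
      rw [one_mul, one_mul]
      rfl
    refine (le_of_eq h0).trans (h1.trans ?_)
    set F := ∑ q ∈ S, (q.totient : ℝ) / q * ψ q with hF
    have h2 : F ≤ F ^ 2 := by nlinarith only [hF1]
    calc C * (F + F ^ 2) ≤ C * (F ^ 2 + F ^ 2) := by (clear * - h2 hC; gcongr)
      _ = 2 * C * F ^ 2 := by ring

end Vale.P028
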