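import Vale.Agent.P028.MathlibUsed
import Vale.Agent.P028.QEnergy
import Vale.Agent.P028.NTypeA
import Vale.Agent.P028.QFarStr

/-!
# Theorem Q: the far pairs at the level `s` (type (a))
-/

namespace Vale.P028

open Finset

/-- far pairs are near pairs in the sense of `NearQ` -/
theorem qt_TA_near {γ s : ℝ} {ψ : ℕ → ℝ} {q r : ℕ} (hs : 0 < s) (hs1 : s ≤ (1 / 2) ^ 64)
    (hq : 0 < q) (hr : 0 < r) (h : TA γ ψ s q r) : NearQ γ s ψ q r := by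
  obtain ⟨⟨h1, h2, h3, h4⟩, h5, _⟩ := h
  refine ⟨fun e => h1 (by rw [e]), h2, h3, ?_, ?_⟩
  · rw [← sub_mul]; exact h4
  · rintro ⟨_, _, h6, h7⟩
    exact q_far_not_str hs hs1 (cofac_pos r hq) (cofac_pos q hr) h1 h4 h5 ⟨h6, h7⟩

/-- `F^(1+1/512) ≤ F + F^2` -/
theorem qt_pow_le {F : ℝ} (hF : 0 ≤ F) : F ^ (2 * (513 / 1024) : ℝ) ≤ F + F ^ 2 := by
  rcases le_total F 1 with h | h
  · have h1 : F ^ (2 * (513 / 1024) : ℝ) ≤ F ^ (1 : ℝ) := by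
      rcases hF.eq_or_lt with h0 | h0
      · rw [← h0, Real.zero_rpow (by norm_num), Real.zero_rpow (by norm_num)]
      · exact Real.rpow_le_rpow_of_exponent_ge h0 h (by norm_num)
    rw [Real.rpow_one] at h1
    have h2 : 0 ≤ F ^ 2 := sq_nonneg F
    linarith
  · have h1 : F ^ (2 * (513 / 1024) : ℝ) ≤ F ^ (2 : ℝ) :=
      Real.rpow_le_rpow_of_exponent_le h (by norm_num)
    rw [Real.rpow_two] at h1
    linarith

/-- the numerics of the second case -/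
theorem qt_num {s x F k ε δ : ℝ} (hs : 0 < s) (hs1 : s ≤ 1) (hx : 1 ≤ x) (hk : 0 ≤ k)
    (hε : 0 < ε) (hδ : 0 < δ) (hδ1 : δ ≤ 1 / 512) (hδ2 : δ ≤ ε / (2048 * k + 1))
    (hF : x ^ ε ≤ F) (h : (1 / 2 : ℝ) ^ 64 < s ∨ s ^ (-(1 / 512) : ℝ) < x ^ k) :
    s ^ (-(2 * δ)) ≤ 2 ^ 64 * F ^ (1 - δ) := by
  have hx0 : 0 < x := by linarith
  have hF1 : 1 ≤ F := le_trans (Real.one_le_rpow hx hε.le) hF
  have hF2 : 1 ≤ F ^ (1 - δ) := Real.one_le_rpow hF1 (by linarith)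
  rcases h with h | h
  · have h1 : s ^ (-(2 * δ)) ≤ s ^ (-1 : ℝ) :=
      Real.rpow_le_rpow_of_exponent_ge hs hs1 (by linarith)
    have h2 : s ^ (-1 : ℝ) ≤ 2 ^ 64 := by
      rw [Real.rpow_neg_one]
      rw [inv_le_comm₀ hs (by norm_num)]
      refine le_trans (le_of_eq ?_) h.le
      norm_num
    calc s ^ (-(2 * δ)) ≤ 2 ^ 64 := h1.trans h2
      _ = 2 ^ 64 * 1 := (mul_one _).symm
      _ ≤ 2 ^ 64 * F ^ (1 - δ) := mul_le_mul_of_nonneg_left hF2 (by norm_num)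
  · have h1 : s ^ (-(2 * δ)) = (s ^ (-(1 / 512) : ℝ)) ^ (1024 * δ) := by
      rw [← Real.rpow_mul hs.le]
      congr 1
      ring
    have h2 : (s ^ (-(1 / 512) : ℝ)) ^ (1024 * δ) ≤ (x ^ k) ^ (1024 * δ) :=
      Real.rpow_le_rpow (Real.rpow_nonneg hs.le _) h.le (by linarith)
    have h3 : (x ^ k) ^ (1024 * δ) = x ^ (1024 * k * δ) := by
      rw [← Real.rpow_mul hx0.le]
      congr 1
      ring
    have h4 : 1024 * k * δ ≤ ε * (1 - δ) := by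
      have a1 : (0 : ℝ) < 2048 * k + 1 := by linarith
      rw [le_div_iff₀ a1] at hδ2
      have a2 : ε * δ ≤ ε * (1 / 512) := mul_le_mul_of_nonneg_left hδ1 hε.le
      nlinarith
    have h5 : x ^ (1024 * k * δ) ≤ x ^ (ε * (1 - δ)) := Real.rpow_le_rpow_of_exponent_le hx h4
    have h6 : x ^ (ε * (1 - δ)) = (x ^ ε) ^ (1 - δ) := Real.rpow_mul hx0.le _ _
    have h7 : (x ^ ε) ^ (1 - δ) ≤ F ^ (1 - δ) :=
      Real.rpow_le_rpow (Real.rpow_nonneg hx0.le _) hF (by linarith)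
    calc s ^ (-(2 * δ)) ≤ F ^ (1 - δ) := by
          rw [h1]
          refine h2.trans ?_
          rw [h3]
          refine h5.trans ?_
          rw [h6]
          exact h7
      _ = 1 * F ^ (1 - δ) := (one_mul _).symm
      _ ≤ 2 ^ 64 * F ^ (1 - δ) := mul_le_mul_of_nonneg_right (by norm_num) (by linarith)

/-- Proof. Let `C₁, k` be the constants of `q_energy`, `x = 1 + log T ≥ 1`.
`TA γ ψ s q r → NearQ γ s ψ q r` for `s ≤ (1/2)^64` by `q_far_not_str`.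
Case 1: `s ≤ (1/2)^64` and `x^k ≤ s^(-1/512)`: `q_energy` gives `≤ C₁ s^(1+1/512) F^(513/512)` and
`F^(513/512) ≤ F + F^2`.
Case 2: otherwise; let `δ = min (1/2) (ε/(2048 k + 1))`, `2 θ' - 1 = δ`, `c = δ`; `T1_dvd` with
`d₁ = d₂ = 1` gives `psum ≤ C s^(2(1-θ')) F^(2θ') = C s^(1+δ) F^2 (s^(-2δ) F^(-(1-δ)))`; if
`s > (1/2)^64` then `s^(-2δ) ≤ 2^64` and `F ≥ 1`; if `s > x^(-512 k)` then
`s^(-2δ) ≤ x^(1024 k δ) ≤ x^(ε/2) ≤ x^(ε (1-δ)) ≤ F^(1-δ)`. -/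
theorem typeA_L {σ : ℝ} (hσ : σ < 1) {ε : ℝ} (hε : 0 < ε) :
    ∃ C c : ℝ, 0 < C ∧ 0 < c ∧
      ∀ γ s T : ℝ, 0 < s → s ≤ 1 / 1000 → 1 ≤ T →
      ∀ (N : ℕ) (ψ f : ℕ → ℝ), (∀ q, 0 ≤ ψ q) →
        (∀ q, 0 ≤ f q ∧ f q ≤ ψ q * (q.totient / q)) →
        (∀ q, f q ≠ 0 → sg σ q ≤ T) → (1 + Real.log T) ^ ε ≤ ∑ q ∈ Icc 1 N, f q →
        psum (TA γ ψ s) N f f ≤
          C * s ^ (1 + c) * ((∑ q ∈ Icc 1 N, f q) + (∑ q ∈ Icc 1 N, f q) ^ 2) := by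
  obtain ⟨C₁, k, hC₁, hk, hE⟩ := q_energy hσ
  set δ : ℝ := min (1 / 512) (ε / (2048 * k + 1)) with hδdef
  have hδ : 0 < δ := lt_min (by norm_num) (div_pos hε (by linarith))
  have hδ1 : δ ≤ 1 / 512 := min_le_left _ _
  have hδ2 : δ ≤ ε / (2048 * k + 1) := min_le_right _ _
  obtain ⟨C₂, hC₂, hT⟩ := T1 (θ := (1 + δ) / 2) (by linarith) (by linarith)
  refine ⟨C₁ + C₂ * 2 ^ 64, δ, by positivity, hδ, ?_⟩
  intro γ s T hs hs1 hT1 N ψ f hψ hf hsg hFx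
  set F : ℝ := ∑ q ∈ Icc 1 N, f q with hF
  have hf0 : ∀ q, 0 ≤ f q := fun q => (hf q).1
  have hF0 : 0 ≤ F := sum_nonneg fun q _ => hf0 q
  have hx : 1 ≤ 1 + Real.log T := by
    have := Real.log_nonneg hT1
    linarith
  have hx0 : 0 < 1 + Real.log T := by linarith
  have hs2 : s ≤ 1 := by linarith
  have hsδ : 0 ≤ s ^ (1 + δ) := Real.rpow_nonneg hs.le _
  by_cases hcase : s ≤ (1 / 2) ^ 64 ∧ (1 + Real.log T) ^ k ≤ s ^ (-(1 / 512) : ℝ)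
  · obtain ⟨hc1, hc2⟩ := hcase
    have h1 : psum (TA γ ψ s) N f f ≤ psum (NearQ γ s ψ) N f f := by
      apply psum_mono _ _ _ _ _ _ _ hf0 hf0
      intro q hq r hr hR _
      exact ⟨qt_TA_near hs hc1 (mem_Icc.1 hq).1 (mem_Icc.1 hr).1 hR, le_rfl⟩
    have h2 := hE γ s T N ψ f hs hc1 hT1 hψ hf hsg
    have h3 : s ^ (1 + 1 / 256 : ℝ) * (1 + Real.log T) ^ k ≤ s ^ (1 + δ) := by
      calc s ^ (1 + 1 / 256 : ℝ) * (1 + Real.log T) ^ k
          ≤ s ^ (1 + 1 / 256 : ℝ) * s ^ (-(1 / 512) : ℝ) :=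
            mul_le_mul_of_nonneg_left hc2 (Real.rpow_nonneg hs.le _)
        _ = s ^ (1 + 1 / 512 : ℝ) := by
            rw [← Real.rpow_add hs]
            congr 1
            norm_num
        _ ≤ s ^ (1 + δ) := Real.rpow_le_rpow_of_exponent_ge hs hs2 (by linarith)
    calc psum (TA γ ψ s) N f f
        ≤ C₁ * s ^ (1 + 1 / 256 : ℝ) * (1 + Real.log T) ^ k * F ^ (2 * (513 / 1024) : ℝ) :=
          h1.trans h2
      _ = C₁ * (s ^ (1 + 1 / 256 : ℝ) * (1 + Real.log T) ^ k) * F ^ (2 * (513 / 1024) : ℝ) := by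
          ring
      _ ≤ C₁ * s ^ (1 + δ) * (F + F ^ 2) := by
          apply mul_le_mul (mul_le_mul_of_nonneg_left h3 hC₁.le) (qt_pow_le hF0)
            (Real.rpow_nonneg hF0 _) (mul_nonneg hC₁.le hsδ)
      _ ≤ (C₁ + C₂ * 2 ^ 64) * s ^ (1 + δ) * (F + F ^ 2) := by
          apply mul_le_mul_of_nonneg_right _ (by positivity)
          apply mul_le_mul_of_nonneg_right _ hsδ
          have : 0 ≤ C₂ * 2 ^ 64 := by positivity
          linarith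
  · have hcase' : (1 / 2 : ℝ) ^ 64 < s ∨ s ^ (-(1 / 512) : ℝ) < (1 + Real.log T) ^ k := by
      by_contra hcon
      rw [not_or, not_lt, not_lt] at hcon
      exact hcase hcon
    have hF1 : 1 ≤ F := le_trans (Real.one_le_rpow hx hε.le) hFx
    have hFp : 0 < F := by linarith
    have h1 : psum (TA γ ψ s) N f f ≤
        psum (fun q r => (cofac r q : ℝ) * ψ q ≤ s ∧ (cofac q r : ℝ) * ψ r ≤ s) N f f := by
      apply psum_mono _ _ _ _ _ _ _ hf0 hf0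
      intro q _ r _ hR _
      exact ⟨⟨hR.1.2.1, hR.1.2.2.1⟩, le_rfl⟩
    have h2 := hT ψ ψ f f s s N hs hs hψ hψ hf hf
    have h3 := qt_num hs hs2 hx hk hε hδ hδ1 hδ2 hFx hcase'
    have e1 : (s * s) ^ (1 - (1 + δ) / 2) = s ^ (1 + δ) * s ^ (-(2 * δ)) := by
      rw [← Real.rpow_add hs, ← pow_two, ← Real.rpow_natCast, ← Real.rpow_mul hs.le]
      congr 1
      push_cast
      ring
    have e2 : (F * F) ^ ((1 + δ) / 2) * F ^ (1 - δ) = F ^ 2 := by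
      rw [← pow_two, ← Real.rpow_natCast, ← Real.rpow_mul hFp.le, ← Real.rpow_add hFp]
      congr 1
      push_cast
      ring
    calc psum (TA γ ψ s) N f f
        ≤ C₂ * (s * s) ^ (1 - (1 + δ) / 2) * (F * F) ^ ((1 + δ) / 2) := h1.trans h2
      _ = C₂ * s ^ (1 + δ) * ((F * F) ^ ((1 + δ) / 2) * s ^ (-(2 * δ))) := by rw [e1]; ring
      _ ≤ C₂ * s ^ (1 + δ) * ((F * F) ^ ((1 + δ) / 2) * (2 ^ 64 * F ^ (1 - δ))) := by
          apply mul_le_mul_of_nonneg_left _ (mul_nonneg hC₂.le hsδ)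
          exact mul_le_mul_of_nonneg_left h3 (Real.rpow_nonneg (by positivity) _)
      _ = C₂ * 2 ^ 64 * s ^ (1 + δ) * ((F * F) ^ ((1 + δ) / 2) * F ^ (1 - δ)) := by ring
      _ = C₂ * 2 ^ 64 * s ^ (1 + δ) * F ^ 2 := by rw [e2]
      _ ≤ (C₁ + C₂ * 2 ^ 64) * s ^ (1 + δ) * (F + F ^ 2) := by
          apply mul_le_mul _ _ (by positivity) (by positivity)
          · apply mul_le_mul_of_nonneg_right _ hsδ
            linarith
          · linarith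

end Vale.P028
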