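import Vale.Agent.P028.MathlibUsed
import Vale.Agent.P028.QSmall
import Vale.Agent.P028.NMain

/-!
# Theorem L: second moment, from a bound for the small sum under a side condition `P`
-/

namespace Vale.P028

open Finset MeasureTheory Filter

open Classical in
/-- the moment for a function vanishing outside of `S` -/
theorem ql_aux (P : ℕ → (ℕ → ℝ) → Prop)
    (hsmall : ∃ C > 0, ∀ (γ : ℝ) (N : ℕ) (ψ f : ℕ → ℝ),
      (∀ q, 0 ≤ ψ q) → (∀ q, 0 ≤ f q ∧ f q ≤ ψ q * (q.totient / q)) → P N f →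
        wsum (SmallRel γ ψ) N f f
          (fun q r => GG (cofac q r * cofac r q) / DD q r (ψ q) (ψ r)) ≤
          C * ((∑ q ∈ Icc 1 N, f q) + (∑ q ∈ Icc 1 N, f q) ^ 2)) :
    ∃ C > 0, ∀ (γ : ℝ) (ψ : ℕ → ℝ) (S : Finset ℕ) (N : ℕ), S ⊆ Icc 1 N →
      (∀ q, q ∉ S → ψ q = 0) → (∀ q ∈ S, 0 < ψ q ∧ ψ q ≤ 1 / 2) →
      P N (fun q => (q.totient : ℝ) / q * ψ q) →
      ∑ q ∈ S, ∑ r ∈ S, wK γ (ψ q) q * wK γ (ψ r) r *
        volume.real (GK γ ψ q ∩ GK γ ψ r ∩ Set.Ioc 0 1) ≤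
      C * ((∑ q ∈ Icc 1 N, (q.totient : ℝ) / q * ψ q) +
        (∑ q ∈ Icc 1 N, (q.totient : ℝ) / q * ψ q) ^ 2) := by
  obtain ⟨C₀, hC₀, hpair⟩ := pair_four
  obtain ⟨C₁, hC₁, hanat⟩ := anat_sum
  obtain ⟨C₂, hC₂, hsmall⟩ := hsmall
  obtain ⟨C₃, hC₃, hres⟩ := resid
  obtain ⟨C₄, hC₄, hdiff⟩ := diff_sum
  refine ⟨C₀ * C₁ + C₀ * C₂ + 128 * C₃ + 32 * C₄,
    by (clear * - hC₀ hC₁ hC₂ hC₃ hC₄; positivity), ?_⟩
  intro γ ψ S N hSN hψ0 hS hsep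
  have hψ : ∀ q, 0 ≤ ψ q := by
    intro q
    by_cases h : q ∈ S
    · exact (hS q h).1.le
    · rw [hψ0 q h]
  set f : ℕ → ℝ := fun q => (q.totient : ℝ) / q * ψ q with hf
  have hf0 : ∀ q, 0 ≤ f q := fun q => mul_nonneg (by (clear * -; positivity)) (hψ q)
  have hfψ : ∀ q, 0 ≤ f q ∧ f q ≤ ψ q * (q.totient / q) :=
    fun q => ⟨hf0 q, le_of_eq (mul_comm _ _)⟩
  set F : ℝ := ∑ q ∈ Icc 1 N, f q with hF
  have hF0 : 0 ≤ F := sum_nonneg fun q _ => hf0 q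
  have hpos : ∀ q ∈ S, 0 < q := by
    intro q hq
    have := hSN hq
    rw [mem_Icc] at this
    omega
  -- pointwise bound, everything expressed by `f`
  have hpt : ∀ q ∈ S, ∀ r ∈ S, wK γ (ψ q) q * wK γ (ψ r) r *
        volume.real (GK γ ψ q ∩ GK γ ψ r ∩ Set.Ioc 0 1) ≤
      C₀ * (f q * f r * GT (max 2 (DD q r (ψ q) (ψ r))) (cofac q r * cofac r q)) +
      C₀ * (if SmallRel γ ψ q r then
        f q * f r * (GG (cofac q r * cofac r q) / DD q r (ψ q) (ψ r)) else 0) +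
      128 * (Real.sqrt (f q * f r) * resK q r) +
      16 * (Real.sqrt (f q * f r) *
        KD (Bq γ (ψ q)) (Bq γ (ψ r)) (cofac q r) (cofac r q)) +
      16 * (Real.sqrt (f r * f q) *
        KD (Bq γ (ψ r)) (Bq γ (ψ q)) (cofac r q) (cofac q r)) := by
    intro q hq r hr
    obtain ⟨hq3, hq4⟩ := hS q hq
    obtain ⟨hr3, hr4⟩ := hS r hr
    have h1 := hpair γ ψ q r (hpos q hq) (hpos r hr) hq3 hr3 hq4 hr4
    refine h1.trans ?_
    refine add_le_add (add_le_add (add_le_add (add_le_add le_rfl ?_) le_rfl) le_rfl) ?_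
    · split_ifs with h
      · apply le_of_eq
        simp only [hf]
        ring
      · simp
    · rw [mul_comm (f r) (f q)]
  -- the sums
  have hGT0 : ∀ (D : ℝ) (n : ℕ), 0 ≤ GT D n := by
    intro D n
    rw [GT_eq]
    exact inv_nonneg.mpr (pr_pos fun p hp =>
      Nat.prime_of_mem_primeFactors (mem_filter.mp hp).1).le
  have hDn : ∀ q r, 0 ≤ DD q r (ψ q) (ψ r) := by
    intro q r
    unfold DD
    exact div_nonneg (le_trans (mul_nonneg (Nat.cast_nonneg _) (hψ q)) (le_max_left _ _))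
      (Nat.cast_nonneg _)
  have hext : ∀ G : ℕ → ℕ → ℝ, (∀ q r, 0 ≤ G q r) →
      ∑ q ∈ S, ∑ r ∈ S, G q r ≤ ∑ q ∈ Icc 1 N, ∑ r ∈ Icc 1 N, G q r := by
    intro G hG
    calc ∑ q ∈ S, ∑ r ∈ S, G q r ≤ ∑ q ∈ S, ∑ r ∈ Icc 1 N, G q r :=
          sum_le_sum fun q _ => sum_le_sum_of_subset_of_nonneg hSN fun r _ _ => hG q r
      _ ≤ _ := sum_le_sum_of_subset_of_nonneg hSN fun q _ _ => sum_nonneg fun r _ => hG q r
  have hff : ∀ q r, 0 ≤ f q * f r := fun q r => mul_nonneg (hf0 q) (hf0 r)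
  have s1 : ∑ q ∈ S, ∑ r ∈ S,
      f q * f r * GT (max 2 (DD q r (ψ q) (ψ r))) (cofac q r * cofac r q) ≤
      C₁ * (F + F ^ 2) :=
    (hext _ fun q r => mul_nonneg (hff q r) (hGT0 _ _)).trans (hanat N ψ f hψ hfψ)
  have s2 : ∑ q ∈ S, ∑ r ∈ S,
      (if SmallRel γ ψ q r then
        f q * f r * (GG (cofac q r * cofac r q) / DD q r (ψ q) (ψ r)) else 0) ≤
      C₂ * (F + F ^ 2) := by
    refine (hext _ fun q r => ?_).trans (hsmall γ N ψ f hψ hfψ hsep)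
    split_ifs
    · exact mul_nonneg (hff q r) (div_nonneg (GG_nonneg _) (hDn q r))
    · exact le_rfl
  have s3 : ∑ q ∈ S, ∑ r ∈ S, Real.sqrt (f q * f r) * resK q r ≤ C₃ * F :=
    (hext _ fun q r => mul_nonneg (Real.sqrt_nonneg _) (resK_nonneg q r)).trans (hres N f hf0)
  have s4 : ∑ q ∈ S, ∑ r ∈ S, Real.sqrt (f q * f r) *
      KD (Bq γ (ψ q)) (Bq γ (ψ r)) (cofac q r) (cofac r q) ≤ C₄ * F :=
    (hext _ fun q r => mul_nonneg (Real.sqrt_nonneg _) (n16_KD_nonneg _ _ _ _)).trans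
      (hdiff N f (fun q => Bq γ (ψ q)) hf0 (fun q => Bsel_pos _ _ _) fun q r h => n16_gap h)
  have s5 : ∑ q ∈ S, ∑ r ∈ S, Real.sqrt (f r * f q) *
      KD (Bq γ (ψ r)) (Bq γ (ψ q)) (cofac r q) (cofac q r) ≤ C₄ * F := by
    rw [sum_comm]
    exact s4
  have hsum : ∑ q ∈ S, ∑ r ∈ S, wK γ (ψ q) q * wK γ (ψ r) r *
        volume.real (GK γ ψ q ∩ GK γ ψ r ∩ Set.Ioc 0 1) ≤
      C₀ * (C₁ * (F + F ^ 2)) + C₀ * (C₂ * (F + F ^ 2)) + 128 * (C₃ * F) +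
        16 * (C₄ * F) + 16 * (C₄ * F) := by
    refine (sum_le_sum fun q hq => sum_le_sum fun r hr => hpt q hq r hr).trans ?_
    simp_rw [sum_add_distrib, ← mul_sum]
    (clear * - s1 hC₀ s2 s3 s4 s5; gcongr)
  refine hsum.trans ?_
  have h6 : F ≤ F + F ^ 2 := by nlinarith only []
  have h7 : 128 * (C₃ * F) ≤ 128 * (C₃ * (F + F ^ 2)) := by
    (clear * - h6 hC₃; gcongr)
  have h9 : 16 * (C₄ * F) ≤ 16 * (C₄ * (F + F ^ 2)) := by
    (clear * - h6 hC₄; gcongr)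
  have h8 : (C₀ * C₁ + C₀ * C₂ + 128 * C₃ + 32 * C₄) * (F + F ^ 2) =
      C₀ * (C₁ * (F + F ^ 2)) + C₀ * (C₂ * (F + F ^ 2)) + 128 * (C₃ * (F + F ^ 2)) +
        16 * (C₄ * (F + F ^ 2)) + 16 * (C₄ * (F + F ^ 2)) := by ring
  rw [h8]
  linarith only [h7, h9]

/-- the second moment -/
theorem ql_moment (P : ℕ → (ℕ → ℝ) → Prop)
    (hsmall : ∃ C > 0, ∀ (γ : ℝ) (N : ℕ) (ψ f : ℕ → ℝ),
      (∀ q, 0 ≤ ψ q) → (∀ q, 0 ≤ f q ∧ f q ≤ ψ q * (q.totient / q)) → P N f →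
        wsum (SmallRel γ ψ) N f f
          (fun q r => GG (cofac q r * cofac r q) / DD q r (ψ q) (ψ r)) ≤
          C * ((∑ q ∈ Icc 1 N, f q) + (∑ q ∈ Icc 1 N, f q) ^ 2)) :
    open Classical in ∃ C > 0, ∀ (γ : ℝ) (ψ : ℕ → ℝ) (S : Finset ℕ),
    (∀ q ∈ S, 0 < q ∧ 0 < ψ q ∧ ψ q ≤ 1 / 2) →
    P (S.sup id) (fun q => if q ∈ S then (q.totient : ℝ) / q * ψ q else 0) →
      ∑ q ∈ S, ∑ r ∈ S, wK γ (ψ q) q * wK γ (ψ r) r *
        volume.real (GK γ ψ q ∩ GK γ ψ r ∩ Set.Ioc 0 1) ≤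
      C * ((∑ q ∈ S, (q.totient : ℝ) / q * ψ q) + (∑ q ∈ S, (q.totient : ℝ) / q * ψ q) ^ 2) := by
  classical
  obtain ⟨C, hC, h⟩ := ql_aux P hsmall
  refine ⟨C, hC, ?_⟩
  intro γ ψ S hS hP
  set ψ' : ℕ → ℝ := fun q => if q ∈ S then ψ q else 0 with hψ'
  have he : ∀ q ∈ S, ψ' q = ψ q := fun q hq => by simp only [hψ', if_pos hq]
  have hSN : S ⊆ Icc 1 (S.sup id) := by
    intro q hq
    rw [mem_Icc]
    exact ⟨(hS q hq).1, Finset.le_sup (f := id) hq⟩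
  have hPe : (fun q : ℕ => (q.totient : ℝ) / q * ψ' q) =
      fun q => if q ∈ S then (q.totient : ℝ) / q * ψ q else 0 := by
    funext q
    simp only [hψ']
    split_ifs
    · rfl
    · rw [mul_zero]
  have h1 := h γ ψ' S (S.sup id) hSN (fun q hq => by simp only [hψ', if_neg hq])
    (fun q hq => by rw [he q hq]; exact (hS q hq).2) (by rw [hPe]; exact hP)
  have h2 : ∑ q ∈ Icc 1 (S.sup id), (q.totient : ℝ) / q * ψ' q =
      ∑ q ∈ S, (q.totient : ℝ) / q * ψ q := by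
    rw [← sum_subset hSN]
    · exact sum_congr rfl fun q hq => by rw [he q hq]
    · intro q _ hq
      simp only [hψ', if_neg hq, mul_zero]
  rw [h2] at h1
  refine (le_of_eq ?_).trans h1
  refine sum_congr rfl fun q hq => sum_congr rfl fun r hr => ?_
  unfold GK
  rw [he q hq, he r hr]

end Vale.P028
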