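import Vale.Agent.P028.MathlibUsed
import Mathlib.Analysis.SpecialFunctions.Pow.Real

/-!
# Theorem L: selection of a class with large mass
-/

namespace Vale.P028

open Finset

/-- `log (2 + t)` is at least a quarter of `2 ^ k` when `k` is the first with `t ≤ exp (2 ^ k)`. -/
theorem ql_class (t : ℝ) (_ht : 0 ≤ t) : ∃ k : ℕ, t ≤ Real.exp (2 ^ k) ∧
    (2 : ℝ) ^ k / 4 ≤ Real.log (2 + t) := by
  classical
  have hex : ∃ k : ℕ, t ≤ Real.exp (2 ^ k) := by
    obtain ⟨n, hn⟩ := exists_nat_gt t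
    refine ⟨n, hn.le.trans ?_⟩
    have h1 : (n : ℝ) ≤ 2 ^ n := by exact_mod_cast Nat.lt_two_pow_self.le
    exact h1.trans ((by linarith [Real.add_one_le_exp ((2 : ℝ) ^ n)]))
  refine ⟨Nat.find hex, Nat.find_spec hex, ?_⟩
  rcases Nat.eq_zero_or_pos (Nat.find hex) with h0 | h0
  · rw [h0, pow_zero]
    have h1 : Real.log 2 ≤ Real.log (2 + t) := Real.log_le_log (by norm_num) (by linarith)
    have h2 := Real.log_two_gt_d9
    linarith
  · have h1 : ¬ t ≤ Real.exp (2 ^ (Nat.find hex - 1)) := Nat.find_min hex (by omega)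
    push Not at h1
    have h2 : (2 : ℝ) ^ (Nat.find hex - 1) ≤ Real.log (2 + t) := by
      rw [Real.le_log_iff_exp_le (by linarith)]
      linarith
    have h3 : (2 : ℝ) ^ (Nat.find hex) = 2 ^ (Nat.find hex - 1) * 2 := by
      rw [← pow_succ]
      congr 1
      omega
    have h4 : (0 : ℝ) < 2 ^ (Nat.find hex - 1) := by positivity
    rw [h3]
    linarith

theorem ql_select {g t : ℕ → ℝ} (hg : ∀ q, 0 ≤ g q) (ht : ∀ q, 0 ≤ t q) {ε : ℝ} (hε : 0 < ε)
    (hdiv : ¬ Summable (fun q : ℕ => g q / (Real.log (2 + t q)) ^ ε)) (N : ℕ) :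
    ∃ (T : ℝ) (S : Finset ℕ), 1 ≤ T ∧ (∀ q ∈ S, N ≤ q ∧ g q ≠ 0 ∧ t q ≤ T) ∧
      (1 + Real.log T) ^ (ε / 2) ≤ ∑ q ∈ S, g q := by
  classical
  by_contra hcon
  push Not at hcon
  apply hdiv
  choose k hk1 hk2 using fun q => ql_class (t q) (ht q)
  have hlog : ∀ q, 0 < Real.log (2 + t q) := fun q =>
    Real.log_pos (by linarith [ht q])
  have hterm0 : ∀ q, 0 ≤ g q / (Real.log (2 + t q)) ^ ε := fun q =>
    div_nonneg (hg q) (Real.rpow_nonneg (hlog q).le _)
  set r : ℝ := (2 : ℝ) ^ (-(ε / 2)) with hr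
  have hr0 : 0 < r := Real.rpow_pos_of_pos (by norm_num) _
  have hr1 : r < 1 := Real.rpow_lt_one_of_one_lt_of_neg (by norm_num) (by linarith)
  set A : ℝ := (4 : ℝ) ^ ε * 2 ^ (ε / 2) with hA
  have hA0 : 0 < A := by positivity
  refine summable_of_sum_le (c := ∑ q ∈ range N, g q / (Real.log (2 + t q)) ^ ε + A / (1 - r))
    hterm0 ?_
  intro u
  rw [← sum_filter_add_sum_filter_not u (fun q => q < N)]
  refine add_le_add ?_ ?_
  · apply sum_le_sum_of_subset_of_nonneg
    · intro q hq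
      rw [mem_filter] at hq
      exact mem_range.mpr hq.2
    · exact fun q _ _ => hterm0 q
  · set v := u.filter (fun q => ¬ q < N) with hv
    obtain ⟨K, hK⟩ : ∃ K : ℕ, ∀ q ∈ v, k q < K := by
      refine ⟨v.sup k + 1, fun q hq => ?_⟩
      have := le_sup (f := k) hq
      omega
    have h1 : ∑ q ∈ v, g q / (Real.log (2 + t q)) ^ ε =
        ∑ j ∈ range K, ∑ q ∈ v with k q = j, g q / (Real.log (2 + t q)) ^ ε :=
      (sum_fiberwise_of_maps_to (fun q hq => mem_range.mpr (hK q hq)) _).symm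
    have h2 : ∀ j ∈ range K, ∑ q ∈ v with k q = j, g q / (Real.log (2 + t q)) ^ ε ≤
        A * r ^ j := by
      intro j _
      have hj : ∀ q ∈ v.filter (fun q => k q = j), g q / (Real.log (2 + t q)) ^ ε ≤
          (4 / 2 ^ j) ^ ε * g q := by
        intro q hq
        rw [mem_filter] at hq
        have h3 := hk2 q
        rw [hq.2] at h3
        have h4 : (0 : ℝ) < 2 ^ j / 4 := by positivity
        rw [div_le_iff₀ (Real.rpow_pos_of_pos (hlog q) _)]
        have h5 : (1 : ℝ) ≤ (4 / 2 ^ j) ^ ε * (Real.log (2 + t q)) ^ ε := by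
          rw [← Real.mul_rpow (by positivity) (hlog q).le]
          apply Real.one_le_rpow _ hε.le
          have h6 : (0 : ℝ) < 4 / 2 ^ j := by positivity
          calc (1 : ℝ) = 4 / 2 ^ j * (2 ^ j / 4) := by field_simp
            _ ≤ 4 / 2 ^ j * Real.log (2 + t q) := mul_le_mul_of_nonneg_left h3 h6.le
        calc g q = 1 * g q := (one_mul _).symm
          _ ≤ ((4 / 2 ^ j) ^ ε * (Real.log (2 + t q)) ^ ε) * g q :=
            mul_le_mul_of_nonneg_right h5 (hg q)
          _ = _ := by ring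
      have hS : ∑ q ∈ (v.filter (fun q => k q = j)).filter (fun q => g q ≠ 0), g q ≤
          (1 + Real.log (Real.exp (2 ^ j))) ^ (ε / 2) := by
        apply le_of_lt
        apply hcon (Real.exp (2 ^ j)) _ (Real.one_le_exp (by positivity))
        intro q hq
        rw [mem_filter, mem_filter, hv, mem_filter] at hq
        refine ⟨by have := hq.1.1.2; omega, hq.2, ?_⟩
        have := hk1 q
        rw [hq.1.2] at this
        exact this
      have hS2 : ∑ q ∈ (v.filter (fun q => k q = j)).filter (fun q => g q ≠ 0), g q =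
          ∑ q ∈ v.filter (fun q => k q = j), g q := sum_filter_ne_zero _
      rw [hS2, Real.log_exp] at hS
      have h7 : ((4 : ℝ) / 2 ^ j) ^ ε * (1 + 2 ^ j) ^ (ε / 2) ≤ A * r ^ j := by
        have h8 : (1 + (2 : ℝ) ^ j) ^ (ε / 2) ≤ (2 * 2 ^ j) ^ (ε / 2) := by
          apply Real.rpow_le_rpow (by positivity) _ (by linarith)
          have : (1 : ℝ) ≤ 2 ^ j := one_le_pow₀ (by norm_num)
          linarith
        have h9 : (0 : ℝ) < 2 ^ j := by positivity
        have e1 : ((4 : ℝ) / 2 ^ j) ^ ε = 4 ^ ε * ((2 : ℝ) ^ j) ^ (-ε) := by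
          rw [Real.div_rpow (by norm_num) h9.le, Real.rpow_neg h9.le]
          rfl
        have e2 : (2 * (2 : ℝ) ^ j) ^ (ε / 2) = 2 ^ (ε / 2) * ((2 : ℝ) ^ j) ^ (ε / 2) :=
          Real.mul_rpow (by norm_num) h9.le
        have e3 : ((2 : ℝ) ^ j) ^ (-ε) * ((2 : ℝ) ^ j) ^ (ε / 2) = r ^ j := by
          rw [← Real.rpow_add h9, hr, ← Real.rpow_natCast, ← Real.rpow_natCast,
            ← Real.rpow_mul (by norm_num), ← Real.rpow_mul (by norm_num)]
          congr 1
          ring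
        calc ((4 : ℝ) / 2 ^ j) ^ ε * (1 + 2 ^ j) ^ (ε / 2)
            ≤ ((4 : ℝ) / 2 ^ j) ^ ε * (2 * 2 ^ j) ^ (ε / 2) :=
              mul_le_mul_of_nonneg_left h8 (Real.rpow_nonneg (by positivity) _)
          _ = A * (((2 : ℝ) ^ j) ^ (-ε) * ((2 : ℝ) ^ j) ^ (ε / 2)) := by
              rw [e1, e2, hA]; ring
          _ = A * r ^ j := by rw [e3]
      calc ∑ q ∈ v with k q = j, g q / (Real.log (2 + t q)) ^ ε
          ≤ ∑ q ∈ v with k q = j, (4 / 2 ^ j) ^ ε * g q := sum_le_sum hj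
        _ = (4 / 2 ^ j) ^ ε * ∑ q ∈ v with k q = j, g q := by rw [mul_sum]
        _ ≤ (4 / 2 ^ j) ^ ε * (1 + 2 ^ j) ^ (ε / 2) :=
          mul_le_mul_of_nonneg_left hS (Real.rpow_nonneg (by positivity) _)
        _ ≤ A * r ^ j := h7
    rw [h1]
    calc ∑ j ∈ range K, ∑ q ∈ v with k q = j, g q / (Real.log (2 + t q)) ^ ε
        ≤ ∑ j ∈ range K, A * r ^ j := sum_le_sum h2
      _ = A * ∑ j ∈ range K, r ^ j := by rw [mul_sum]
      _ ≤ A * (1 - r)⁻¹ := by
          apply mul_le_mul_of_nonneg_left _ hA0.le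
          rw [← tsum_geometric_of_lt_one hr0.le hr1]
          exact (summable_geometric_of_lt_one hr0.le hr1).sum_le_tsum _
            (fun i _ => by positivity)
      _ = A / (1 - r) := by rw [div_eq_mul_inv]

end Vale.P028
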