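import Vale.Agent.P028.MathlibUsed
import Vale.Agent.P028.QMomL
import Vale.Agent.P028.QSelect

/-!
# Theorem L: every real `γ`, loss `(log (2 + ∑_{p ∣ q} p^{-σ}))^ε`
-/

namespace Vale.P028

open Finset MeasureTheory Filter

theorem sg_nonneg' (σ : ℝ) (q : ℕ) : 0 ≤ ∑ p ∈ q.primeFactors, (p : ℝ) ^ (-σ) :=
  sum_nonneg fun p _ => Real.rpow_nonneg (Nat.cast_nonneg _) _

/-- **Theorem L.** -/
theorem theoremQL (γ : ℝ) (ψ : ℕ → ℝ) (hψ : ∀ q, 0 ≤ ψ q) {σ ε : ℝ} (hσ : σ < 1) (hε : 0 < ε)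
    (hdiv : ¬ Summable (fun q : ℕ => ((q.totient : ℝ) / q) * ψ q /
      (Real.log (2 + ∑ p ∈ q.primeFactors, (p : ℝ) ^ (-σ))) ^ ε)) :
    volume (W γ ψ)ᶜ = 0 := by
  classical
  rcases Set.finite_or_infinite {q : ℕ | 1 / 2 < ψ q} with hfin | hinf
  swap
  · exact n17_full γ ψ hinf
  obtain ⟨N₁, hN₁⟩ : ∃ N₁ : ℕ, ∀ q : ℕ, N₁ ≤ q → ψ q ≤ 1 / 2 := by
    obtain ⟨M, hM⟩ := hfin.bddAbove
    refine ⟨M + 1, fun q hq => ?_⟩
    by_contra hlt
    push Not at hlt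
    have := hM (show q ∈ {q : ℕ | 1 / 2 < ψ q} from hlt)
    omega
  have hε2 : 0 < ε / 2 := by linarith
  obtain ⟨C, hC, hmom⟩ := ql_moment (fun N f => ∃ T : ℝ, 1 ≤ T ∧ (∀ q, f q ≠ 0 → sg σ q ≤ T) ∧
    (1 + Real.log T) ^ (ε / 2) ≤ ∑ q ∈ Icc 1 N, f q) (by
    obtain ⟨C, hC, h⟩ := small_sum_L hσ hε2
    refine ⟨C, hC, ?_⟩
    rintro γ N ψ f hψ hf ⟨T, hT, h1, h2⟩
    exact h γ T N ψ f hT hψ hf h1 h2)
  apply full_of_moment γ ψ (2 * C) (1 / 2) (by positivity) (by norm_num)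
  intro N
  obtain ⟨Q₀, hQ₀⟩ := lower_count (1 / ((N : ℝ) + 1)) (by (clear * -; positivity))
  obtain ⟨T, S, hT, hS, hF⟩ := ql_select (g := fun q : ℕ => ((q.totient : ℝ) / q) * ψ q)
    (t := fun q : ℕ => ∑ p ∈ q.primeFactors, (p : ℝ) ^ (-σ))
    (fun q => mul_nonneg (by (clear * -; positivity)) (hψ q)) (fun q => sg_nonneg' σ q) hε hdiv
    (N₁ + Q₀ + N + 1)
  have hS1 : ∀ q ∈ S, N₁ + Q₀ + N + 1 ≤ q := fun q hq => (hS q hq).1
  have hq0 : ∀ q ∈ S, 0 < q := fun q hq => by have := hS1 q hq; omega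
  have hhalf : ∀ q ∈ S, ψ q ≤ 1 / 2 := fun q hq => hN₁ q (by have := hS1 q hq; omega)
  have hpos : ∀ q ∈ S, 0 < ψ q := by
    intro q hq
    refine lt_of_le_of_ne (hψ q) ?_
    intro h0
    have h1 := (hS q hq).2.1
    simp only [← h0, mul_zero] at h1
    exact h1 rfl
  have hlogT : 0 ≤ Real.log T := Real.log_nonneg hT
  have hF1 : 1 ≤ ∑ q ∈ S, ((q.totient : ℝ) / q) * ψ q :=
    (Real.one_le_rpow (by linarith) hε2.le).trans hF
  refine ⟨S, fun q => wK γ (ψ q) q, fun q => AK γ (ψ q) q, ?_, ?_, ?_, ?_, ?_⟩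
  · intro q hq
    exact ⟨by have := hS1 q hq; omega, hpos q hq, hhalf q hq⟩
  · intro q _
    exact wK_nonneg _ _ _
  · linarith only [hF1]
  · intro q hq m n hmn
    have h1 := hQ₀ q (Bq γ (ψ q)) (Aq γ (ψ q)) (PK γ (ψ q) q)
      (by have := hS1 q hq; omega)
      (fun p hp => ⟨(mem_PK hp).1, (mem_PK hp).2.1, (mem_PK hp).2.2.2⟩) m n
      (by rw [one_div_mul_eq_div]; exact hmn)
    have h2 : ((((Ioc m n).filter (fun al : ℤ => ∀ p ∈ PK γ (ψ q) q,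
        ¬ (p : ℤ) ∣ al * (Bq γ (ψ q) : ℤ) + Aq γ (ψ q))).card : ℕ) : ℝ) =
        (((Finset.Ioc m n).filter (AK γ (ψ q) q)).card : ℝ) := by
      norm_cast
      congr 1
      ext al
      simp only [mem_filter]
      rfl
    rw [h2] at h1
    calc 1 / 2 * ((q.totient : ℝ) / q) * ((n : ℝ) - m)
        = wK γ (ψ q) q * (1 / 2 * ((n : ℝ) - m) * pr (PK γ (ψ q) q)) := by
          rw [← wK_mul_pr γ (ψ q) q]; ring
      _ ≤ _ := mul_le_mul_of_nonneg_left h1 (wK_nonneg _ _ _)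
  · have h1 := hmom γ ψ S (fun q hq => ⟨hq0 q hq, hpos q hq, hhalf q hq⟩) (by
      refine ⟨T, hT, ?_, ?_⟩
      · intro q hq
        by_cases h : q ∈ S
        · exact (hS q h).2.2
        · simp only [if_neg h, ne_eq, not_true_eq_false] at hq
      · refine hF.trans (le_of_eq ?_)
        have hSN : S ⊆ Icc 1 (S.sup id) := by
          intro q hq
          rw [mem_Icc]
          exact ⟨hq0 q hq, Finset.le_sup (f := id) hq⟩
        rw [← sum_subset hSN]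
        · exact sum_congr rfl fun q hq => by rw [if_pos hq]
        · intro q _ hq
          rw [if_neg hq])
    refine h1.trans ?_
    set F := ∑ q ∈ S, (q.totient : ℝ) / q * ψ q with hF'
    have h2 : F ≤ F ^ 2 := by nlinarith only [hF1]
    calc C * (F + F ^ 2) ≤ C * (F ^ 2 + F ^ 2) := by (clear * - h2 hC; gcongr)
      _ = 2 * C * F ^ 2 := by ring

end Vale.P028
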