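import Vale.Agent.P028.MathlibUsed
import Vale.Agent.P028.QSmall
import Vale.Agent.P028.NMain

/-!
# Theorem Q: weighted second moment
-/

namespace Vale.P028

open Finset MeasureTheory Filter

/-- weights pass through the square roots -/
theorem qw_sqrt {a b x y : ℝ} (ha : 0 ≤ a) (ha1 : a ≤ 1) (hb : 0 ≤ b) (hb1 : b ≤ 1) (_hx : 0 ≤ x)
    (_hy : 0 ≤ y) : a * b * Real.sqrt (x * y) ≤ Real.sqrt (a * x * (b * y)) := by
  have hab : 0 ≤ a * b := mul_nonneg ha hb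
  have hab1 : a * b ≤ 1 := by nlinarith only [ha, ha1, hb, hb1]
  have e : a * x * (b * y) = (a * b) * (x * y) := by ring
  rw [e, Real.sqrt_mul hab]
  apply mul_le_mul_of_nonneg_right _ (Real.sqrt_nonneg _)
  apply Real.le_sqrt_of_sq_le
  nlinarith only [hab, hab1]

open Classical in
/-- the moment for a function vanishing outside of `S` -/
theorem qw_aux (ρ : ℕ → ℝ) (hρ : ∀ q, 0 ≤ ρ q ∧ ρ q ≤ 1)
    (hsmall : ∃ C > 0, ∀ (γ : ℝ) (N : ℕ) (ψ f : ℕ → ℝ), (∀ q, 0 ≤ ψ q) →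
      (∀ q, 0 ≤ f q ∧ f q ≤ ρ q * (ψ q * (q.totient / q))) →
      wsum (SmallRel γ ψ) N f f
        (fun q r => GG (cofac q r * cofac r q) / DD q r (ψ q) (ψ r)) ≤
        C * ((∑ q ∈ Icc 1 N, f q) + (∑ q ∈ Icc 1 N, f q) ^ 2)) :
    ∃ C > 0, ∀ (γ : ℝ) (ψ : ℕ → ℝ) (S : Finset ℕ) (N : ℕ), S ⊆ Icc 1 N →
      (∀ q, q ∉ S → ψ q = 0) → (∀ q ∈ S, 0 < ψ q ∧ ψ q ≤ 1 / 2) →
      ∑ q ∈ S, ∑ r ∈ S, (ρ q * wK γ (ψ q) q) * (ρ r * wK γ (ψ r) r) *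
        volume.real (GK γ ψ q ∩ GK γ ψ r ∩ Set.Ioc 0 1) ≤
      C * ((∑ q ∈ Icc 1 N, ρ q * ((q.totient : ℝ) / q * ψ q)) +
        (∑ q ∈ Icc 1 N, ρ q * ((q.totient : ℝ) / q * ψ q)) ^ 2) := by
  obtain ⟨C₀, hC₀, hpair⟩ := pair_four
  obtain ⟨C₁, hC₁, hanat⟩ := anat_sum
  obtain ⟨C₂, hC₂, hsmall⟩ := hsmall
  obtain ⟨C₃, hC₃, hres⟩ := resid
  obtain ⟨C₄, hC₄, hdiff⟩ := diff_sum
  refine ⟨C₀ * C₁ + C₀ * C₂ + 128 * C₃ + 32 * C₄,
    by (clear * - hC₀ hC₁ hC₂ hC₃ hC₄; positivity), ?_⟩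
  intro γ ψ S N hSN hψ0 hS
  have hψ : ∀ q, 0 ≤ ψ q := by
    intro q
    by_cases h : q ∈ S
    · exact (hS q h).1.le
    · rw [hψ0 q h]
  set g : ℕ → ℝ := fun q => (q.totient : ℝ) / q * ψ q with hg
  have hg0 : ∀ q, 0 ≤ g q := fun q => mul_nonneg (by (clear * -; positivity)) (hψ q)
  set f : ℕ → ℝ := fun q => ρ q * ((q.totient : ℝ) / q * ψ q) with hf
  have hfg : ∀ q, f q = ρ q * g q := fun q => rfl
  have hf0 : ∀ q, 0 ≤ f q := fun q => mul_nonneg (hρ q).1 (hg0 q)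
  have hfψ : ∀ q, 0 ≤ f q ∧ f q ≤ ρ q * (ψ q * (q.totient / q)) := by
    intro q
    refine ⟨hf0 q, le_of_eq ?_⟩
    simp only [hf]
    ring
  have hfψ' : ∀ q, 0 ≤ f q ∧ f q ≤ ψ q * (q.totient / q) := by
    intro q
    refine ⟨hf0 q, ?_⟩
    calc f q = ρ q * g q := rfl
      _ ≤ 1 * g q := mul_le_mul_of_nonneg_right (hρ q).2 (hg0 q)
      _ = _ := by simp only [hg]; ring
  set F : ℝ := ∑ q ∈ Icc 1 N, f q with hF
  have hF0 : 0 ≤ F := sum_nonneg fun q _ => hf0 q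
  have hpos : ∀ q ∈ S, 0 < q := by
    intro q hq
    have := hSN hq
    rw [mem_Icc] at this
    omega
  -- pointwise bound, everything expressed by `f`
  have hpt : ∀ q ∈ S, ∀ r ∈ S, (ρ q * wK γ (ψ q) q) * (ρ r * wK γ (ψ r) r) *
        volume.real (GK γ ψ q ∩ GK γ ψ r ∩ Set.Ioc 0 1) ≤
      C₀ * (f q * f r * GT (max 2 (DD q r (ψ q) (ψ r))) (cofac q r * cofac r q)) +
      C₀ * (if SmallRel γ ψ q r then
        f q * f r * (GG (cofac q r * cofac r q) / DD q r (ψ q) (ψ r)) else 0) +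
      128 * (Real.sqrt (f q * f r) * resK q r) +
      16 * (Real.sqrt (f q * f r) *
        KD (Bq γ (ψ q)) (Bq γ (ψ r)) (cofac q r) (cofac r q)) +
      16 * (Real.sqrt (f r * f q) *
        KD (Bq γ (ψ r)) (Bq γ (ψ q)) (cofac r q) (cofac q r)) := by
    intro q hq r hr
    obtain ⟨hq3, hq4⟩ := hS q hq
    obtain ⟨hr3, hr4⟩ := hS r hr
    have h1 := hpair γ ψ q r (hpos q hq) (hpos r hr) hq3 hr3 hq4 hr4
    have hρρ : 0 ≤ ρ q * ρ r := mul_nonneg (hρ q).1 (hρ r).1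
    have h2 := mul_le_mul_of_nonneg_left h1 hρρ
    have hsq : ρ q * ρ r * Real.sqrt (g q * g r) ≤ Real.sqrt (f q * f r) :=
      qw_sqrt (hρ q).1 (hρ q).2 (hρ r).1 (hρ r).2 (hg0 q) (hg0 r)
    have hsq' : ρ q * ρ r * Real.sqrt (g q * g r) ≤ Real.sqrt (f r * f q) := by
      rw [mul_comm (f r)]; exact hsq
    have hres0 := resK_nonneg q r
    have hk1 := n16_KD_nonneg (Bq γ (ψ q)) (Bq γ (ψ r)) (cofac q r) (cofac r q)
    have hk2 := n16_KD_nonneg (Bq γ (ψ r)) (Bq γ (ψ q)) (cofac r q) (cofac q r)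
    calc (ρ q * wK γ (ψ q) q) * (ρ r * wK γ (ψ r) r) *
          volume.real (GK γ ψ q ∩ GK γ ψ r ∩ Set.Ioc 0 1)
        = ρ q * ρ r * (wK γ (ψ q) q * wK γ (ψ r) r *
          volume.real (GK γ ψ q ∩ GK γ ψ r ∩ Set.Ioc 0 1)) := by ring
      _ ≤ _ := h2
      _ = C₀ * (f q * f r * GT (max 2 (DD q r (ψ q) (ψ r))) (cofac q r * cofac r q)) +
          C₀ * (if SmallRel γ ψ q r then
            f q * f r * (GG (cofac q r * cofac r q) / DD q r (ψ q) (ψ r)) else 0) +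
          128 * ((ρ q * ρ r * Real.sqrt (g q * g r)) * resK q r) +
          16 * ((ρ q * ρ r * Real.sqrt (g q * g r)) *
            KD (Bq γ (ψ q)) (Bq γ (ψ r)) (cofac q r) (cofac r q)) +
          16 * ((ρ q * ρ r * Real.sqrt (g q * g r)) *
            KD (Bq γ (ψ r)) (Bq γ (ψ q)) (cofac r q) (cofac q r)) := by
          simp only [hf, hg]
          split_ifs
          · ring
          · ring
      _ ≤ _ := by
          refine add_le_add (add_le_add (add_le_add le_rfl ?_) ?_) ?_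
          · exact mul_le_mul_of_nonneg_left (mul_le_mul_of_nonneg_right hsq hres0) (by norm_num)
          · exact mul_le_mul_of_nonneg_left (mul_le_mul_of_nonneg_right hsq hk1) (by norm_num)
          · exact mul_le_mul_of_nonneg_left (mul_le_mul_of_nonneg_right hsq' hk2) (by norm_num)
  -- the sums
  have hGT0 : ∀ (D : ℝ) (n : ℕ), 0 ≤ GT D n := by
    intro D n
    rw [GT_eq]
    exact inv_nonneg.mpr (pr_pos fun p hp =>
      Nat.prime_of_mem_primeFactors (mem_filter.mp hp).1).le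
  have hDn : ∀ q r, 0 ≤ DD q r (ψ q) (ψ r) := by
    intro q r
    unfold DD
    exact div_nonneg (le_trans (mul_nonneg (Nat.cast_nonneg _) (hψ q)) (le_max_left _ _))
      (Nat.cast_nonneg _)
  have hext : ∀ G : ℕ → ℕ → ℝ, (∀ q r, 0 ≤ G q r) →
      ∑ q ∈ S, ∑ r ∈ S, G q r ≤ ∑ q ∈ Icc 1 N, ∑ r ∈ Icc 1 N, G q r := by
    intro G hG
    calc ∑ q ∈ S, ∑ r ∈ S, G q r ≤ ∑ q ∈ S, ∑ r ∈ Icc 1 N, G q r :=
          sum_le_sum fun q _ => sum_le_sum_of_subset_of_nonneg hSN fun r _ _ => hG q r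
      _ ≤ _ := sum_le_sum_of_subset_of_nonneg hSN fun q _ _ => sum_nonneg fun r _ => hG q r
  have hff : ∀ q r, 0 ≤ f q * f r := fun q r => mul_nonneg (hf0 q) (hf0 r)
  have s1 : ∑ q ∈ S, ∑ r ∈ S,
      f q * f r * GT (max 2 (DD q r (ψ q) (ψ r))) (cofac q r * cofac r q) ≤
      C₁ * (F + F ^ 2) :=
    (hext _ fun q r => mul_nonneg (hff q r) (hGT0 _ _)).trans (hanat N ψ f hψ hfψ')
  have s2 : ∑ q ∈ S, ∑ r ∈ S,
      (if SmallRel γ ψ q r then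
        f q * f r * (GG (cofac q r * cofac r q) / DD q r (ψ q) (ψ r)) else 0) ≤
      C₂ * (F + F ^ 2) := by
    refine (hext _ fun q r => ?_).trans (hsmall γ N ψ f hψ hfψ)
    split_ifs
    · exact mul_nonneg (hff q r) (div_nonneg (GG_nonneg _) (hDn q r))
    · exact le_rfl
  have s3 : ∑ q ∈ S, ∑ r ∈ S, Real.sqrt (f q * f r) * resK q r ≤ C₃ * F :=
    (hext _ fun q r => mul_nonneg (Real.sqrt_nonneg _) (resK_nonneg q r)).trans (hres N f hf0)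
  have s4 : ∑ q ∈ S, ∑ r ∈ S, Real.sqrt (f q * f r) *
      KD (Bq γ (ψ q)) (Bq γ (ψ r)) (cofac q r) (cofac r q) ≤ C₄ * F :=
    (hext _ fun q r => mul_nonneg (Real.sqrt_nonneg _) (n16_KD_nonneg _ _ _ _)).trans
      (hdiff N f (fun q => Bq γ (ψ q)) hf0 (fun q => Bsel_pos _ _ _) fun q r h => n16_gap h)
  have s5 : ∑ q ∈ S, ∑ r ∈ S, Real.sqrt (f r * f q) *
      KD (Bq γ (ψ r)) (Bq γ (ψ q)) (cofac r q) (cofac q r) ≤ C₄ * F := by
    rw [sum_comm]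
    exact s4
  have hsum : ∑ q ∈ S, ∑ r ∈ S, (ρ q * wK γ (ψ q) q) * (ρ r * wK γ (ψ r) r) *
        volume.real (GK γ ψ q ∩ GK γ ψ r ∩ Set.Ioc 0 1) ≤
      C₀ * (C₁ * (F + F ^ 2)) + C₀ * (C₂ * (F + F ^ 2)) + 128 * (C₃ * F) +
        16 * (C₄ * F) + 16 * (C₄ * F) := by
    refine (sum_le_sum fun q hq => sum_le_sum fun r hr => hpt q hq r hr).trans ?_
    simp_rw [sum_add_distrib, ← mul_sum]
    (clear * - s1 hC₀ s2 s3 s4 s5; gcongr)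
  refine hsum.trans ?_
  have h6 : F ≤ F + F ^ 2 := by nlinarith only []
  have h7 : 128 * (C₃ * F) ≤ 128 * (C₃ * (F + F ^ 2)) := by
    (clear * - h6 hC₃; gcongr)
  have h9 : 16 * (C₄ * F) ≤ 16 * (C₄ * (F + F ^ 2)) := by
    (clear * - h6 hC₄; gcongr)
  have h8 : (C₀ * C₁ + C₀ * C₂ + 128 * C₃ + 32 * C₄) * (F + F ^ 2) =
      C₀ * (C₁ * (F + F ^ 2)) + C₀ * (C₂ * (F + F ^ 2)) + 128 * (C₃ * (F + F ^ 2)) +
        16 * (C₄ * (F + F ^ 2)) + 16 * (C₄ * (F + F ^ 2)) := by ring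
  rw [h8]
  linarith only [h7, h9]

/-- the weighted second moment -/
theorem qw_moment (ρ : ℕ → ℝ) (hρ : ∀ q, 0 ≤ ρ q ∧ ρ q ≤ 1)
    (hsmall : ∃ C > 0, ∀ (γ : ℝ) (N : ℕ) (ψ f : ℕ → ℝ), (∀ q, 0 ≤ ψ q) →
      (∀ q, 0 ≤ f q ∧ f q ≤ ρ q * (ψ q * (q.totient / q))) →
      wsum (SmallRel γ ψ) N f f
        (fun q r => GG (cofac q r * cofac r q) / DD q r (ψ q) (ψ r)) ≤
        C * ((∑ q ∈ Icc 1 N, f q) + (∑ q ∈ Icc 1 N, f q) ^ 2)) :
    ∃ C > 0, ∀ (γ : ℝ) (ψ : ℕ → ℝ) (S : Finset ℕ),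
      (∀ q ∈ S, 0 < q ∧ 0 < ψ q ∧ ψ q ≤ 1 / 2) →
      ∑ q ∈ S, ∑ r ∈ S, (ρ q * wK γ (ψ q) q) * (ρ r * wK γ (ψ r) r) *
        volume.real (GK γ ψ q ∩ GK γ ψ r ∩ Set.Ioc 0 1) ≤
      C * ((∑ q ∈ S, ρ q * ((q.totient : ℝ) / q * ψ q)) +
        (∑ q ∈ S, ρ q * ((q.totient : ℝ) / q * ψ q)) ^ 2) := by
  classical
  obtain ⟨C, hC, h⟩ := qw_aux ρ hρ hsmall
  refine ⟨C, hC, ?_⟩
  intro γ ψ S hS
  set ψ' : ℕ → ℝ := fun q => if q ∈ S then ψ q else 0 with hψ'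
  have he : ∀ q ∈ S, ψ' q = ψ q := fun q hq => by simp only [hψ', if_pos hq]
  set N : ℕ := S.sup id with hN
  have hSN : S ⊆ Icc 1 N := by
    intro q hq
    rw [mem_Icc]
    exact ⟨(hS q hq).1, Finset.le_sup (f := id) hq⟩
  have h1 := h γ ψ' S N hSN (fun q hq => by simp only [hψ', if_neg hq])
    (fun q hq => by rw [he q hq]; exact (hS q hq).2)
  have h2 : ∑ q ∈ Icc 1 N, ρ q * ((q.totient : ℝ) / q * ψ' q) =
      ∑ q ∈ S, ρ q * ((q.totient : ℝ) / q * ψ q) := by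
    rw [← sum_subset hSN]
    · exact sum_congr rfl fun q hq => by rw [he q hq]
    · intro q _ hq
      simp only [hψ', if_neg hq, mul_zero]
  rw [h2] at h1
  refine (le_of_eq ?_).trans h1
  refine sum_congr rfl fun q hq => sum_congr rfl fun r hr => ?_
  unfold GK
  rw [he q hq, he r hr]

end Vale.P028
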