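import Vale.Agent.P028.MathlibUsed
import Vale.Agent.P028.QMomW
import Vale.Agent.P028.FFull

/-!
# Theorem Q, weighted form: every real `γ`, weights `(1 + ∑_{p ∣ q} p^{-σ})^{-ε}`
-/

namespace Vale.P028

open Finset MeasureTheory Filter

theorem sg_nonneg (σ : ℝ) (q : ℕ) : 0 ≤ sg σ q := by
  unfold sg
  exact sum_nonneg fun p _ => Real.rpow_nonneg (Nat.cast_nonneg _) _

/-- **Theorem Q, weighted.** -/
theorem theoremQW (γ : ℝ) (ψ : ℕ → ℝ) (hψ : ∀ q, 0 ≤ ψ q) {σ ε : ℝ} (hσ : σ < 1) (hε : 0 < ε)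
    (hdiv : ¬ Summable (fun q : ℕ => (1 + ∑ p ∈ q.primeFactors, (p : ℝ) ^ (-σ)) ^ (-ε) *
      (((q.totient : ℝ) / q) * ψ q))) :
    volume (W γ ψ)ᶜ = 0 := by
  classical
  rcases Set.finite_or_infinite {q : ℕ | 1 / 2 < ψ q} with hfin | hinf
  swap
  · exact n17_full γ ψ hinf
  obtain ⟨N₁, hN₁⟩ : ∃ N₁ : ℕ, ∀ q : ℕ, N₁ ≤ q → ψ q ≤ 1 / 2 := by
    obtain ⟨M, hM⟩ := hfin.bddAbove
    refine ⟨M + 1, fun q hq => ?_⟩
    by_contra hlt
    push Not at hlt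
    have := hM (show q ∈ {q : ℕ | 1 / 2 < ψ q} from hlt)
    omega
  obtain ⟨ρ, hρdef⟩ : ∃ ρ : ℕ → ℝ, ρ = fun q => (1 + sg σ q) ^ (-ε) := ⟨_, rfl⟩
  have hρ0 : ∀ q, 0 ≤ ρ q := by
    intro q
    rw [hρdef]
    exact Real.rpow_nonneg (by have := sg_nonneg σ q; linarith) _
  have hρ1 : ∀ q, ρ q ≤ 1 := by
    intro q
    rw [hρdef]
    exact Real.rpow_le_one_of_one_le_of_nonpos (by have := sg_nonneg σ q; linarith)
      (by linarith)
  obtain ⟨C, hC, hmom⟩ := qw_moment ρ (fun q => ⟨hρ0 q, hρ1 q⟩) (by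
    rw [hρdef]
    exact small_sum_Q hσ hε)
  have hg0 : ∀ q : ℕ, 0 ≤ ρ q * (((q.totient : ℝ) / q) * ψ q) := fun q =>
    mul_nonneg (hρ0 q) (mul_nonneg (by (clear * -; positivity)) (hψ q))
  have hdiv' : ¬ Summable (fun q : ℕ => ρ q * (((q.totient : ℝ) / q) * ψ q)) := by
    rw [hρdef]
    exact hdiv
  apply full_of_mass γ ψ (2 * C) (1 / 2) (by positivity) (by norm_num)
  intro N
  obtain ⟨Q₀, hQ₀⟩ := lower_count (1 / ((N : ℝ) + 1)) (by (clear * -; positivity))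
  obtain ⟨S, hS, hF1⟩ := exists_finset_sum_ge (g := fun q : ℕ =>
    ρ q * (((q.totient : ℝ) / q) * ψ q)) hg0 hdiv' (N₁ + Q₀ + N + 1)
  have hS1 : ∀ q ∈ S, N₁ + Q₀ + N + 1 ≤ q := fun q hq => (hS q hq).1
  have hq0 : ∀ q ∈ S, 0 < q := fun q hq => by have := hS1 q hq; omega
  have hhalf : ∀ q ∈ S, ψ q ≤ 1 / 2 := fun q hq => hN₁ q (by have := hS1 q hq; omega)
  have hpos : ∀ q ∈ S, 0 < ψ q := by
    intro q hq
    refine lt_of_le_of_ne (hψ q) ?_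
    intro h0
    have h1 := (hS q hq).2
    rw [← h0, mul_zero, mul_zero] at h1
    exact h1 rfl
  have hmass : ∑ q ∈ S, ρ q * ((q.totient : ℝ) / q) * ψ q =
      ∑ q ∈ S, ρ q * (((q.totient : ℝ) / q) * ψ q) :=
    sum_congr rfl fun q _ => by ring
  refine ⟨S, fun q => ρ q * wK γ (ψ q) q, fun q => ρ q * ((q.totient : ℝ) / q),
    fun q => AK γ (ψ q) q, ?_, ?_, ?_, ?_, ?_, ?_⟩
  · intro q hq
    exact ⟨by have := hS1 q hq; omega, hpos q hq, hhalf q hq⟩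
  · intro q _
    exact mul_nonneg (hρ0 q) (wK_nonneg _ _ _)
  · intro q _
    exact mul_nonneg (hρ0 q) (by (clear * -; positivity))
  · rw [hmass]
    linarith only [hF1]
  · intro q hq m n hmn
    have h1 := hQ₀ q (Bq γ (ψ q)) (Aq γ (ψ q)) (PK γ (ψ q) q)
      (by have := hS1 q hq; omega)
      (fun p hp => ⟨(mem_PK hp).1, (mem_PK hp).2.1, (mem_PK hp).2.2.2⟩) m n
      (by rw [one_div_mul_eq_div]; exact hmn)
    have h2 : ((((Ioc m n).filter (fun al : ℤ => ∀ p ∈ PK γ (ψ q) q,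
        ¬ (p : ℤ) ∣ al * (Bq γ (ψ q) : ℤ) + Aq γ (ψ q))).card : ℕ) : ℝ) =
        (((Finset.Ioc m n).filter (AK γ (ψ q) q)).card : ℝ) := by
      norm_cast
      congr 1
      ext al
      simp only [mem_filter]
      rfl
    rw [h2] at h1
    calc 1 / 2 * (ρ q * ((q.totient : ℝ) / q)) * ((n : ℝ) - m)
        = ρ q * wK γ (ψ q) q * (1 / 2 * ((n : ℝ) - m) * pr (PK γ (ψ q) q)) := by
          rw [← wK_mul_pr γ (ψ q) q]; ring
      _ ≤ _ := mul_le_mul_of_nonneg_left h1 (mul_nonneg (hρ0 q) (wK_nonneg _ _ _))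
  · have h1 := hmom γ ψ S (fun q hq => ⟨hq0 q hq, hpos q hq, hhalf q hq⟩)
    rw [hmass]
    refine h1.trans ?_
    set F := ∑ q ∈ S, ρ q * (((q.totient : ℝ) / q) * ψ q) with hF
    have h2 : F ≤ F ^ 2 := by nlinarith only [hF1]
    calc C * (F + F ^ 2) ≤ C * (F ^ 2 + F ^ 2) := by (clear * - h2 hC; gcongr)
      _ = 2 * C * F ^ 2 := by ring

end Vale.P028
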