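import Vale.Agent.P028.MathlibUsed
import Vale.Agent.P028.QDefs

/-!
# Numerics of the exponents in `q_energy`
-/

namespace Vale.P028

theorem qn_le_one {s : ℝ} (hs1 : s ≤ (1 / 2) ^ 64) : s ≤ 1 := hs1.trans (by norm_num)

theorem qn1 {s : ℝ} (hs : 0 < s) (hs1 : s ≤ (1 / 2) ^ 64) :
    (s ^ (65 / 64 : ℝ) * s) ^ (1 - 513 / 1024 : ℝ) ≤ s ^ (1 + 1 / 256 : ℝ) := by
  have h0 := qn_le_one hs1
  have e1 : s ^ (65 / 64 : ℝ) * s = s ^ (129 / 64 : ℝ) := by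
    nth_rewrite 2 [← Real.rpow_one s]
    rw [← Real.rpow_add hs]
    norm_num
  rw [e1, ← Real.rpow_mul hs.le]
  exact Real.rpow_le_rpow_of_exponent_ge hs h0 (by norm_num)

theorem qn_ss {s : ℝ} (hs : 0 < s) :
    (s * s) ^ (1 - 513 / 1024 : ℝ) = s ^ (511 / 512 : ℝ) := by
  rw [← pow_two, ← Real.rpow_natCast, ← Real.rpow_mul hs.le]
  norm_num

theorem qn2 {s : ℝ} (hs : 0 < s) (hs1 : s ≤ (1 / 2) ^ 64) :
    (s * s) ^ (1 - 513 / 1024 : ℝ) * (s ^ (-(1 / 64) : ℝ)) ^ (-(1 - 513 / 1024) : ℝ) ≤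
      s ^ (1 + 1 / 256 : ℝ) := by
  have h0 := qn_le_one hs1
  rw [qn_ss hs, ← Real.rpow_mul hs.le, ← Real.rpow_add hs]
  exact Real.rpow_le_rpow_of_exponent_ge hs h0 (by norm_num)

theorem qn3 {s z : ℝ} (hs : 0 < s) (hs1 : s ≤ (1 / 2) ^ 64) (hz : s ^ (-16 : ℝ) ≤ z) :
    (s * s) ^ (1 - 513 / 1024 : ℝ) * (s ^ (-(1 / 64) : ℝ)) ^ (2 * (513 / 1024) : ℝ) *
      z ^ (-(2 * (513 / 1024) - 1) : ℝ) ≤ s ^ (1 + 1 / 256 : ℝ) := by
  have h0 := qn_le_one hs1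
  have h1 : z ^ (-(2 * (513 / 1024) - 1) : ℝ) ≤ s ^ (16 / 512 : ℝ) := by
    calc z ^ (-(2 * (513 / 1024) - 1) : ℝ) ≤ (s ^ (-16 : ℝ)) ^ (-(2 * (513 / 1024) - 1) : ℝ) :=
          Real.rpow_le_rpow_of_nonpos (Real.rpow_pos_of_pos hs _) hz (by norm_num)
      _ = s ^ (16 / 512 : ℝ) := by
          rw [← Real.rpow_mul hs.le]
          norm_num
  calc (s * s) ^ (1 - 513 / 1024 : ℝ) * (s ^ (-(1 / 64) : ℝ)) ^ (2 * (513 / 1024) : ℝ) *
        z ^ (-(2 * (513 / 1024) - 1) : ℝ)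
      ≤ (s * s) ^ (1 - 513 / 1024 : ℝ) * (s ^ (-(1 / 64) : ℝ)) ^ (2 * (513 / 1024) : ℝ) *
        s ^ (16 / 512 : ℝ) := mul_le_mul_of_nonneg_left h1 (by positivity)
    _ ≤ s ^ (1 + 1 / 256 : ℝ) := by
        rw [qn_ss hs, ← Real.rpow_mul hs.le, ← Real.rpow_add hs, ← Real.rpow_add hs]
        exact Real.rpow_le_rpow_of_exponent_ge hs h0 (by norm_num)

theorem qn4 {s T z σ : ℝ} (hs : 0 < s) (hs1 : s ≤ (1 / 2) ^ 64) (hT : 1 ≤ T) (hσ : σ < 1)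
    (hz : (T / s) ^ (2 / (1 - σ)) ≤ z) :
    T * (s * s) ^ (1 - 513 / 1024 : ℝ) * (s ^ (-(1 / 64) : ℝ)) ^ (513 / 1024 : ℝ) *
      z ^ (-(1 - σ)) ≤ s ^ (1 + 1 / 256 : ℝ) := by
  have h0 := qn_le_one hs1
  have hT0 : 0 < T := by linarith
  have hσ' : 0 < 1 - σ := by linarith
  have hTs : 0 < T / s := div_pos hT0 hs
  have h1 : T * z ^ (-(1 - σ)) ≤ s ^ (2 : ℝ) := by
    have h2 : z ^ (-(1 - σ)) ≤ (s / T) ^ 2 := by
      calc z ^ (-(1 - σ)) ≤ ((T / s) ^ (2 / (1 - σ))) ^ (-(1 - σ)) :=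
            Real.rpow_le_rpow_of_nonpos (Real.rpow_pos_of_pos hTs _) hz (by linarith)
        _ = (T / s) ^ (-(2 : ℝ)) := by
            rw [← Real.rpow_mul hTs.le]
            congr 1
            field_simp
        _ = (s / T) ^ 2 := by
            rw [Real.rpow_neg hTs.le, Real.rpow_two, ← inv_pow, inv_div]
    calc T * z ^ (-(1 - σ)) ≤ T * (s / T) ^ 2 := mul_le_mul_of_nonneg_left h2 hT0.le
      _ = s ^ 2 * (1 / T) := by field_simp
      _ ≤ s ^ 2 * 1 := by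
          apply mul_le_mul_of_nonneg_left _ (by positivity)
          rw [div_le_one hT0]
          exact hT
      _ = s ^ (2 : ℝ) := by rw [mul_one, Real.rpow_two]
  calc T * (s * s) ^ (1 - 513 / 1024 : ℝ) * (s ^ (-(1 / 64) : ℝ)) ^ (513 / 1024 : ℝ) *
        z ^ (-(1 - σ))
      = (s * s) ^ (1 - 513 / 1024 : ℝ) * (s ^ (-(1 / 64) : ℝ)) ^ (513 / 1024 : ℝ) *
        (T * z ^ (-(1 - σ))) := by ring
    _ ≤ (s * s) ^ (1 - 513 / 1024 : ℝ) * (s ^ (-(1 / 64) : ℝ)) ^ (513 / 1024 : ℝ) *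
        s ^ (2 : ℝ) := mul_le_mul_of_nonneg_left h1 (by positivity)
    _ ≤ s ^ (1 + 1 / 256 : ℝ) := by
        rw [qn_ss hs, ← Real.rpow_mul hs.le, ← Real.rpow_add hs, ← Real.rpow_add hs]
        exact Real.rpow_le_rpow_of_exponent_ge hs h0 (by norm_num)

/-- `(1 + x)^k ≤ C exp(x / 1024)` -/
theorem qn_poly_exp {k : ℝ} (hk : 0 ≤ k) :
    ∃ C > 0, ∀ x : ℝ, 0 ≤ x → (1 + x) ^ k ≤ C * Real.exp (x / 1024) := by
  refine ⟨(1024 * (k + 1)) ^ k, by positivity, fun x hx => ?_⟩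
  have h1 : 1 + x ≤ 1024 * (k + 1) * Real.exp (x / (1024 * (k + 1))) := by
    have h2 := Real.add_one_le_exp (x / (1024 * (k + 1)))
    have h3 : 1024 * (k + 1) * (x / (1024 * (k + 1)) + 1) = x + 1024 * (k + 1) := by
      field_simp
    have h4 : x + 1024 * (k + 1) ≤ 1024 * (k + 1) * Real.exp (x / (1024 * (k + 1))) := by
      rw [← h3]
      exact mul_le_mul_of_nonneg_left h2 (by positivity)
    linarith
  calc (1 + x) ^ k ≤ (1024 * (k + 1) * Real.exp (x / (1024 * (k + 1)))) ^ k :=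
        Real.rpow_le_rpow (by linarith) h1 hk
    _ = (1024 * (k + 1)) ^ k * Real.exp (x / (1024 * (k + 1)) * k) := by
        rw [Real.mul_rpow (by positivity) (Real.exp_pos _).le, ← Real.exp_mul]
    _ ≤ (1024 * (k + 1)) ^ k * Real.exp (x / 1024) := by
        apply mul_le_mul_of_nonneg_left _ (by positivity)
        apply Real.exp_le_exp.2
        have h5 : x / (1024 * (k + 1)) * k = x / 1024 * (k / (k + 1)) := by field_simp
        rw [h5]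
        have h6 : k / (k + 1) ≤ 1 := by rw [div_le_one (by linarith)]; linarith
        have h7 : 0 ≤ x / 1024 := by positivity
        calc x / 1024 * (k / (k + 1)) ≤ x / 1024 * 1 := mul_le_mul_of_nonneg_left h6 h7
          _ = x / 1024 := mul_one _

theorem qn5 {k K : ℝ} (hk : 0 ≤ k) (hK : 0 ≤ K) :
    ∃ C > 0, ∀ (s T : ℝ) (z : ℕ), 0 < s → s ≤ (1 / 2) ^ 64 → 1 ≤ T → 1 ≤ z →
      (z : ℝ) ≤ (T / s) ^ K + 1 →
      (1 / (s ^ (-(1 / 32) : ℝ))) ^ (1 / 4 : ℝ) * (1 + Real.log z) ^ k *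
        (s * s) ^ (1 - 513 / 1024 : ℝ) ≤ C * s ^ (1 + 1 / 256 : ℝ) * (1 + Real.log T) ^ k := by
  obtain ⟨C₀, hC₀, hP⟩ := qn_poly_exp hk
  refine ⟨(2 + K) ^ k * C₀, by positivity, ?_⟩
  intro s T z hs hs1 hT hz hzT
  have h0 := qn_le_one hs1
  have hT0 : 0 < T := by linarith
  have hz1 : (1 : ℝ) ≤ z := by exact_mod_cast hz
  have hz0 : (0 : ℝ) < z := by linarith
  have hTs : 1 ≤ T / s := by rw [le_div_iff₀ hs]; linarith
  have hTs0 : 0 < T / s := by linarith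
  have hlT : 0 ≤ Real.log T := Real.log_nonneg hT
  have hls : 0 ≤ Real.log (1 / s) := Real.log_nonneg (by rw [le_div_iff₀ hs]; linarith)
  have hlz : 0 ≤ Real.log z := Real.log_nonneg hz1
  have h1 : Real.log z ≤ 1 + K * (Real.log T + Real.log (1 / s)) := by
    have h2 : (z : ℝ) ≤ 2 * (T / s) ^ K := by
      have := Real.one_le_rpow hTs hK
      linarith
    have h3 : Real.log z ≤ Real.log (2 * (T / s) ^ K) := Real.log_le_log hz0 h2
    have h4 : Real.log (2 * (T / s) ^ K) = Real.log 2 + K * Real.log (T / s) := by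
      rw [Real.log_mul (by norm_num) (Real.rpow_pos_of_pos hTs0 _).ne', Real.log_rpow hTs0]
    have h5 : Real.log (T / s) = Real.log T + Real.log (1 / s) := by
      rw [← Real.log_mul hT0.ne' (by positivity)]
      congr 1
      ring
    have h6 : Real.log 2 ≤ 1 := by
      have := Real.log_two_lt_d9
      linarith
    rw [h4, h5] at h3
    linarith
  have h2 : 1 + Real.log z ≤ (2 + K) * (1 + Real.log T) * (1 + Real.log (1 / s)) := by
    have a1 : 0 ≤ Real.log T * Real.log (1 / s) := mul_nonneg hlT hls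
    have a2 : 0 ≤ K * (Real.log T * Real.log (1 / s)) := mul_nonneg hK a1
    nlinarith
  have h3 : (1 + Real.log z) ^ k ≤
      (2 + K) ^ k * (1 + Real.log T) ^ k * (1 + Real.log (1 / s)) ^ k := by
    calc (1 + Real.log z) ^ k ≤ ((2 + K) * (1 + Real.log T) * (1 + Real.log (1 / s))) ^ k :=
          Real.rpow_le_rpow (by linarith) h2 hk
      _ = (2 + K) ^ k * (1 + Real.log T) ^ k * (1 + Real.log (1 / s)) ^ k := by
          rw [Real.mul_rpow (by positivity) (by linarith), Real.mul_rpow (by linarith)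
            (by linarith)]
  have h4 : (1 + Real.log (1 / s)) ^ k ≤ C₀ * s ^ (-(1 / 1024) : ℝ) := by
    refine (hP _ hls).trans (le_of_eq ?_)
    congr 1
    rw [Real.rpow_def_of_pos hs]
    congr 1
    rw [one_div, Real.log_inv]
    ring
  have h5 : (1 / (s ^ (-(1 / 32) : ℝ))) ^ (1 / 4 : ℝ) = s ^ (1 / 128 : ℝ) := by
    rw [one_div (s ^ (-(1 / 32) : ℝ)), ← Real.rpow_neg hs.le, ← Real.rpow_mul hs.le]
    norm_num
  have h6 : s ^ (1 / 128 : ℝ) * s ^ (-(1 / 1024) : ℝ) * s ^ (511 / 512 : ℝ) ≤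
      s ^ (1 + 1 / 256 : ℝ) := by
    rw [← Real.rpow_add hs, ← Real.rpow_add hs]
    exact Real.rpow_le_rpow_of_exponent_ge hs h0 (by norm_num)
  rw [h5, qn_ss hs]
  have hTk : 0 ≤ (1 + Real.log T) ^ k := Real.rpow_nonneg (by linarith) _
  have hKk : 0 ≤ (2 + K) ^ k := Real.rpow_nonneg (by linarith) _
  calc s ^ (1 / 128 : ℝ) * (1 + Real.log z) ^ k * s ^ (511 / 512 : ℝ)
      ≤ s ^ (1 / 128 : ℝ) * ((2 + K) ^ k * (1 + Real.log T) ^ k *
          (C₀ * s ^ (-(1 / 1024) : ℝ))) * s ^ (511 / 512 : ℝ) := by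
        apply mul_le_mul_of_nonneg_right _ (by positivity)
        apply mul_le_mul_of_nonneg_left _ (by positivity)
        exact h3.trans (mul_le_mul_of_nonneg_left h4 (mul_nonneg hKk hTk))
    _ = (2 + K) ^ k * C₀ * (s ^ (1 / 128 : ℝ) * s ^ (-(1 / 1024) : ℝ) * s ^ (511 / 512 : ℝ)) *
          (1 + Real.log T) ^ k := by ring
    _ ≤ (2 + K) ^ k * C₀ * s ^ (1 + 1 / 256 : ℝ) * (1 + Real.log T) ^ k := by
        apply mul_le_mul_of_nonneg_right _ hTk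
        exact mul_le_mul_of_nonneg_left h6 (mul_nonneg hKk hC₀.le)

theorem qn_two_le {s : ℝ} (hs : 0 < s) (hs1 : s ≤ (1 / 2) ^ 64) {a : ℝ} (ha : 0 ≤ a) :
    (2 : ℝ) ^ (64 * a) ≤ s ^ (-a) := by
  have h1 : ((1 / 2 : ℝ) ^ 64) ^ (-a) ≤ s ^ (-a) :=
    Real.rpow_le_rpow_of_nonpos hs hs1 (by linarith)
  refine le_trans (le_of_eq ?_) h1
  rw [← Real.rpow_natCast, ← Real.rpow_mul (by norm_num), one_div, Real.inv_rpow (by norm_num),
    ← Real.rpow_neg (by norm_num)]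
  congr 1
  push_cast
  ring

theorem qn6 {s T : ℝ} (hs : 0 < s) (hs1 : s ≤ (1 / 2) ^ 64) (hT : 1 ≤ T) :
    4 ≤ s ^ (-(1 / 32) : ℝ) ∧ s * (s ^ (-(1 / 32) : ℝ)) ^ 16 ≤ 1 ∧ 1 ≤ s ^ (-(1 / 64) : ℝ) ∧
      2 * s ^ (-(1 / 64) : ℝ) ≤ s ^ (-16 : ℝ) ∧ s ^ (-(1 / 32) : ℝ) ≤ s ^ (-16 : ℝ) ∧
      s ^ (-16 : ℝ) ≤ (T / s) ^ (16 : ℝ) ∧ 1 ≤ T / s := by
  have h0 := qn_le_one hs1
  have h2 : (2 : ℝ) ≤ s ^ (-(1 / 64) : ℝ) := by
    have h := qn_two_le hs hs1 (a := 1 / 64) (by norm_num)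
    have e : (2 : ℝ) ^ (64 * (1 / 64) : ℝ) = 2 := by norm_num
    rw [e] at h
    exact h
  have e2 : s ^ (-(1 / 32) : ℝ) = s ^ (-(1 / 64) : ℝ) * s ^ (-(1 / 64) : ℝ) := by
    rw [← Real.rpow_add hs]
    norm_num
  have hTs : 1 ≤ T / s := by rw [le_div_iff₀ hs]; linarith
  refine ⟨?_, ?_, by linarith, ?_, ?_, ?_, hTs⟩
  · rw [e2]; nlinarith
  · have h1 : (s ^ (-(1 / 32) : ℝ)) ^ 16 = s ^ (-(1 / 2) : ℝ) := by
      rw [← Real.rpow_natCast, ← Real.rpow_mul hs.le]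
      norm_num
    rw [h1]
    nth_rewrite 1 [← Real.rpow_one s]
    rw [← Real.rpow_add hs]
    exact Real.rpow_le_one hs.le h0 (by norm_num)
  · calc 2 * s ^ (-(1 / 64) : ℝ) ≤ s ^ (-(1 / 64) : ℝ) * s ^ (-(1 / 64) : ℝ) :=
          mul_le_mul_of_nonneg_right h2 (by positivity)
      _ = s ^ (-(1 / 32) : ℝ) := e2.symm
      _ ≤ s ^ (-16 : ℝ) := Real.rpow_le_rpow_of_exponent_ge hs h0 (by norm_num)
  · exact Real.rpow_le_rpow_of_exponent_ge hs h0 (by norm_num)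
  · have h3 : s ^ (-16 : ℝ) = (1 / s) ^ (16 : ℝ) := by
      rw [one_div, Real.inv_rpow hs.le, Real.rpow_neg hs.le]
    rw [h3]
    apply Real.rpow_le_rpow (by positivity) _ (by norm_num)
    exact div_le_div_of_nonneg_right hT hs.le

end Vale.P028
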