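import Vale.Agent.P028.MathlibUsed
import Vale.Agent.P028.QEnergy
import Vale.Agent.P028.QKill
import Vale.Agent.P028.QCount
import Vale.Agent.P028.Overlap

/-!
# Theorem Q: second moment
-/

namespace Vale.P028

open Finset MeasureTheory

/-- dyadic summation over the distances -/
theorem q_dyadic {ι : Type*} (T : Finset ι) (D w : ι → ℝ) {X C c : ℝ} (hC : 0 ≤ C)
    (hX : 0 ≤ X) (hc : 0 < c) (hD : ∀ p ∈ T, 0 < D p ∧ D p < (1 / 2) ^ 64)
    (hw : ∀ p ∈ T, 0 ≤ w p)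
    (h : ∀ s : ℝ, 0 < s → s ≤ (1 / 2) ^ 64 →
      ∑ p ∈ T.filter (fun p => s / 2 < D p ∧ D p ≤ s), w p ≤ C * s ^ (1 + c) * X) :
    ∑ p ∈ T, w p / D p ≤ 2 * C / (1 - (1 / 2 : ℝ) ^ c) * X := by
  classical
  have hj : ∀ p ∈ T, ∃ j : ℕ, 64 ≤ j ∧ (1 / 2 : ℝ) ^ (j + 1) < D p ∧
      D p ≤ (1 / 2 : ℝ) ^ j := by
    intro p hp
    obtain ⟨h1, h2⟩ := hD p hp
    obtain ⟨j, hj1, hj2⟩ := exists_nat_pow_near_of_lt_one h1
      (h2.le.trans (pow_le_one₀ (by norm_num) (by norm_num)))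
      (by norm_num : (0 : ℝ) < 1 / 2) (by norm_num : (1 / 2 : ℝ) < 1)
    refine ⟨j, ?_, hj1, hj2⟩
    by_contra hlt
    push Not at hlt
    have h4 : (1 / 2 : ℝ) ^ 64 ≤ (1 / 2 : ℝ) ^ (j + 1) :=
      pow_le_pow_of_le_one (by norm_num) (by norm_num) (by omega)
    exact absurd (h4.trans_lt (hj1.trans h2)) (lt_irrefl _)
  choose! jj hjj2 hjj3 hjj4 using hj
  obtain ⟨J, hJ⟩ : ∃ J : ℕ, ∀ p ∈ T, jj p < J := by
    refine ⟨(T.sup jj) + 1, fun p hp => ?_⟩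
    have := le_sup (f := jj) hp
    omega
  have h1 : ∑ p ∈ T, w p / D p = ∑ j ∈ range J, ∑ p ∈ T with jj p = j, w p / D p :=
    (sum_fiberwise_of_maps_to (fun p hp => mem_range.mpr (hJ p hp)) _).symm
  have hc1 : (1 / 2 : ℝ) ^ c < 1 := Real.rpow_lt_one (by norm_num) (by norm_num) hc
  have hc0 : 0 < (1 / 2 : ℝ) ^ c := Real.rpow_pos_of_pos (by norm_num) _
  have h2 : ∀ j ∈ range J, ∑ p ∈ T with jj p = j, w p / D p ≤
      2 * C * X * ((1 / 2 : ℝ) ^ c) ^ j := by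
    intro j _
    by_cases hj2 : 64 ≤ j
    · set s : ℝ := (1 / 2 : ℝ) ^ j with hs
      have hs0 : 0 < s := by positivity
      have hs4 : s ≤ (1 / 2) ^ 64 := pow_le_pow_of_le_one (by norm_num) (by norm_num) hj2
      have h3 : ∑ p ∈ T with jj p = j, w p / D p ≤ (2 / s) * ∑ p ∈ T with jj p = j, w p := by
        rw [mul_sum]
        refine sum_le_sum fun p hp => ?_
        rw [mem_filter] at hp
        have h4 := hjj3 p hp.1
        rw [hp.2, pow_succ, ← hs] at h4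
        have h5 := hw p hp.1
        rw [div_le_iff₀ (hD p hp.1).1]
        calc w p = 2 / s * w p * (s * (1 / 2)) := by (clear * - hs0; field_simp)
          _ ≤ 2 / s * w p * D p := by (clear * - h4 h5 hs0; gcongr)
      have h6 : ∑ p ∈ T with jj p = j, w p ≤ C * s ^ (1 + c) * X := by
        refine le_trans ?_ (h s hs0 hs4)
        refine sum_le_sum_of_subset_of_nonneg ?_ fun p hp _ => hw p (mem_filter.mp hp).1
        intro p hp
        rw [mem_filter] at hp ⊢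
        obtain ⟨hp1, hp2⟩ := hp
        have hD1 := hjj3 p hp1
        have hD2 := hjj4 p hp1
        rw [hp2] at hD1 hD2
        rw [← hs] at hD2
        rw [pow_succ, ← hs] at hD1
        exact ⟨hp1, by linarith only [hD1], hD2⟩
      have h11 : s ^ (1 + c) = s * ((1 / 2 : ℝ) ^ c) ^ j := by
        rw [Real.rpow_add hs0, Real.rpow_one, hs, ← Real.rpow_natCast, ← Real.rpow_natCast,
          ← Real.rpow_mul (by norm_num), ← Real.rpow_mul (by norm_num), mul_comm (j : ℝ) c]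
      calc ∑ p ∈ T with jj p = j, w p / D p
          ≤ (2 / s) * ∑ p ∈ T with jj p = j, w p := h3
        _ ≤ (2 / s) * (C * s ^ (1 + c) * X) := by (clear * - h6 hs0; gcongr)
        _ = 2 * C * X * ((1 / 2 : ℝ) ^ c) ^ j := by
            rw [h11]; (clear * - hs0; field_simp)
    · have h3 : (T.filter (fun p => jj p = j)) = ∅ := by
        rw [filter_eq_empty_iff]
        intro p hp he
        exact hj2 (he ▸ hjj2 p hp)
      rw [h3, sum_empty]
      (clear * - hC hX hc0; positivity)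
  rw [h1]
  calc ∑ j ∈ range J, ∑ p ∈ T with jj p = j, w p / D p
      ≤ ∑ j ∈ range J, 2 * C * X * ((1 / 2 : ℝ) ^ c) ^ j := sum_le_sum h2
    _ = 2 * C * X * ∑ j ∈ range J, ((1 / 2 : ℝ) ^ c) ^ j := (mul_sum _ _ _).symm
    _ ≤ 2 * C * X * (1 - (1 / 2 : ℝ) ^ c)⁻¹ := by
        have h12 : ∑ j ∈ range J, ((1 / 2 : ℝ) ^ c) ^ j ≤ (1 - (1 / 2 : ℝ) ^ c)⁻¹ := by
          rw [← tsum_geometric_of_lt_one hc0.le hc1]
          exact (summable_geometric_of_lt_one hc0.le hc1).sum_le_tsum _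
            (fun j _ => by positivity)
        (clear * - h12 hC hX; gcongr)
    _ = 2 * C / (1 - (1 / 2 : ℝ) ^ c) * X := by ring

theorem qm_le (γ : ℝ) (ψ : ℕ → ℝ) (q r : ℕ) :
    volume (GQ γ ψ q ∩ GQ γ ψ r ∩ Set.Ioc (0 : ℝ) 1) ≤
      volume (arcSet q γ (ψ q) ∩ arcSet r γ (ψ r)) :=
  GS_inter_le γ q r (ψ q) (ψ r) _ _

theorem qm_DD_pos {q r : ℕ} (hq : 0 < q) (hr : 0 < r) {x y : ℝ} (hx : 0 < x) :
    0 < DD q r x y := by
  rw [DD_eq _ _ hq]
  apply lt_max_of_lt_left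
  apply mul_pos _ hx
  have : 0 < r / Nat.gcd q r :=
    Nat.div_pos (Nat.gcd_le_right _ hr) (Nat.gcd_pos_of_pos_left _ hq)
  exact_mod_cast this

/-- pointwise bound for one pair -/
theorem qm_pair (γ : ℝ) (ψ : ℕ → ℝ) {q r : ℕ} (hq : 0 < q) (hr : 0 < r)
    (hψq : 0 < ψ q) (hψr : 0 < ψ r) :
    volume.real (GQ γ ψ q ∩ GQ γ ψ r ∩ Set.Ioc (0 : ℝ) 1) ≤ 16 * ψ q * ψ r ∨
    (DD q r (ψ q) (ψ r) < 1 / 4 ∧
      volume.real (GQ γ ψ q ∩ GQ γ ψ r ∩ Set.Ioc (0 : ℝ) 1) ≤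
        2 * ψ q * ψ r / DD q r (ψ q) (ψ r)) := by
  have hD0 : 0 < DD q r (ψ q) (ψ r) := qm_DD_pos hq hr hψq
  rcases lt_or_ge (DD q r (ψ q) (ψ r)) (1 / 4) with hD | hD
  · right
    refine ⟨hD, ?_⟩
    rw [Measure.real]
    refine ENNReal.toReal_le_of_le_ofReal (by positivity) ?_
    exact (qm_le γ ψ q r).trans
      (volume_inter_le_of_lt_quarter q r hq hr γ γ (ψ q) (ψ r) hψq.le hψr.le hD0 hD)
  · left
    rw [Measure.real]
    refine ENNReal.toReal_le_of_le_ofReal (by positivity) ?_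
    exact (qm_le γ ψ q r).trans
      (volume_inter_le_of_quarter_le q r hq hr γ γ (ψ q) (ψ r) hψq.le hψr.le hD)

theorem qm_diag (γ : ℝ) (ψ : ℕ → ℝ) {q : ℕ} (hq : 0 < q) (hψ : 0 < ψ q) (hψ2 : ψ q ≤ 1 / 2) :
    volume.real (GQ γ ψ q ∩ GQ γ ψ q ∩ Set.Ioc (0 : ℝ) 1) ≤ 8 * ψ q := by
  rcases qm_pair γ ψ hq hq hψ hψ with h | ⟨_, h⟩
  · refine h.trans ?_
    nlinarith
  · refine h.trans ?_
    have e : DD q q (ψ q) (ψ q) = ψ q := by
      rw [DD_eq _ _ hq, Nat.gcd_self, Nat.div_self hq]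
      simp
    rw [e, div_le_iff₀ hψ]
    nlinarith

/-- if the sets meet, the pair is near at the level `s` -/
theorem qm_near (γ : ℝ) (ψ : ℕ → ℝ) {q r : ℕ} (hq : 0 < q) (hr : 0 < r)
    (hψq : 0 < ψ q) (hψr : 0 < ψ r) (hqr : q ≠ r) {s : ℝ} (hs : 0 < s) (hs1 : s ≤ (1 / 2) ^ 64)
    (hD : DD q r (ψ q) (ψ r) ≤ s)
    (hv : volume.real (GQ γ ψ q ∩ GQ γ ψ r ∩ Set.Ioc (0 : ℝ) 1) ≠ 0) :
    NearQ γ s ψ q r := by
  have hDe := DD_eq q r hq (ψ q) (ψ r)
  have hcv : cofac r q = r / Nat.gcd q r := by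
    unfold cofac; rw [Nat.gcd_comm]
  have hcu : cofac q r = q / Nat.gcd q r := rfl
  rw [← hcv, ← hcu] at hDe
  have h1 : (cofac r q : ℝ) * ψ q ≤ s := (le_max_left _ _).trans (hDe ▸ hD)
  have h2 : (cofac q r : ℝ) * ψ r ≤ s := (le_max_right _ _).trans (hDe ▸ hD)
  have hne : volume (arcSet q γ (ψ q) ∩ arcSet r γ (ψ r)) ≠ 0 := by
    intro h0
    apply hv
    have h3 := qm_le γ ψ q r
    rw [h0] at h3
    have h4 : volume (GQ γ ψ q ∩ GQ γ ψ r ∩ Set.Ioc (0 : ℝ) 1) = 0 := le_antisymm h3 bot_le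
    rw [Measure.real, h4, ENNReal.toReal_zero]
  obtain ⟨m, hm⟩ := exists_int_of_inter_nonempty q r hq γ γ (ψ q) (ψ r) hne
  rw [← hcv, ← hcu] at hm
  refine ⟨hqr, h1, h2, ?_, ?_⟩
  · have h5 := distInt_le_of_int m hm
    have e : (cofac q r : ℝ) * γ - (cofac r q : ℝ) * γ
        = -((cofac r q : ℝ) * γ - (cofac q r : ℝ) * γ) := by ring
    rw [e, distInt_neg]
    linarith
  · intro hS
    apply hv
    rw [q_kill hs hs1 hq hr hqr hψq hψr h1 h2 hS, Set.empty_inter, Measure.real, measure_empty,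
      ENNReal.toReal_zero]

theorem q_moment {σ : ℝ} (hσ : σ < 1) {C₀ : ℝ} (hC₀ : 0 ≤ C₀) :
    ∃ C > 0, ∀ (γ : ℝ) (ψ : ℕ → ℝ) (S : Finset ℕ),
      (∀ q ∈ S, 0 < q ∧ 0 < ψ q ∧ ψ q ≤ 1 / 2 ∧ sg σ q ≤ C₀) →
      ∑ q ∈ S, ∑ r ∈ S, volume.real (GQ γ ψ q ∩ GQ γ ψ r ∩ Set.Ioc 0 1) ≤
        C * ((∑ q ∈ S, (q.totient : ℝ) / q * ψ q) +
          (∑ q ∈ S, (q.totient : ℝ) / q * ψ q) ^ 2) := by
  classical
  obtain ⟨CE, hCE, hE⟩ := q_energy hσ hC₀
  set E : ℝ := Real.exp (2 * C₀) with hEdef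
  have hE0 : 0 < E := Real.exp_pos _
  set K : ℝ := 2 * CE / (1 - (1 / 2 : ℝ) ^ (1 / 256 : ℝ)) with hK
  have hhalf : (1 / 2 : ℝ) ^ (1 / 256 : ℝ) < 1 :=
    Real.rpow_lt_one (by norm_num) (by norm_num) (by norm_num)
  have hK0 : 0 ≤ K := by
    rw [hK]
    apply div_nonneg (by positivity)
    linarith
  refine ⟨8 * E + 2 ^ 65 * E ^ 2 + 2 * E ^ 2 * K, by positivity, ?_⟩
  intro γ ψ S hS
  set W : ℝ := ∑ q ∈ S, (q.totient : ℝ) / q * ψ q with hW
  have hψE : ∀ q ∈ S, ψ q ≤ E * ((q.totient : ℝ) / q * ψ q) := by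
    intro q hq
    obtain ⟨h1, h2, h3, h4⟩ := hS q hq
    have h5 := q_tot hσ.le h1 h4
    have h6 : 1 ≤ E * ((q.totient : ℝ) / q) := by
      calc (1 : ℝ) = E * Real.exp (-(2 * C₀)) := by
            rw [hEdef, ← Real.exp_add, add_neg_cancel, Real.exp_zero]
        _ ≤ _ := by gcongr
    calc ψ q = 1 * ψ q := (one_mul _).symm
      _ ≤ (E * ((q.totient : ℝ) / q)) * ψ q := by gcongr
      _ = _ := by ring
  have hw0 : ∀ q ∈ S, 0 ≤ (q.totient : ℝ) / q * ψ q := by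
    intro q hq
    have := (hS q hq).2.1
    positivity
  have hW0 : 0 ≤ W := sum_nonneg hw0
  set ψ' : ℕ → ℝ := fun q => if q ∈ S then ψ q else 0 with hψ'
  set f : ℕ → ℝ := fun q => if q ∈ S then (q.totient : ℝ) / q * ψ q else 0 with hf
  have hfS : ∀ q ∈ S, f q = (q.totient : ℝ) / q * ψ q := fun q hq => by
    simp only [hf, if_pos hq]
  have hf0 : ∀ q, 0 ≤ f q := by
    intro q
    by_cases hq : q ∈ S
    · rw [hfS q hq]; exact hw0 q hq
    · simp only [hf, if_neg hq, le_refl]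
  obtain ⟨N, hN⟩ : ∃ N : ℕ, ∀ q ∈ S, q ≤ N := ⟨S.sup id, fun q hq => le_sup (f := id) hq⟩
  have hsumf : ∑ q ∈ Icc 1 N, f q = W := by
    rw [hW]
    have hsub : S ⊆ Icc 1 N := fun q hq => mem_Icc.mpr ⟨(hS q hq).1, hN q hq⟩
    rw [← sum_subset hsub (f := f) (fun q _ hq => by simp only [hf, if_neg hq])]
    exact sum_congr rfl hfS
  -- the near pairs
  set vol : ℕ × ℕ → ℝ := fun p => volume.real (GQ γ ψ p.1 ∩ GQ γ ψ p.2 ∩ Set.Ioc (0 : ℝ) 1)
    with hvol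
  set D : ℕ × ℕ → ℝ := fun p => DD p.1 p.2 (ψ p.1) (ψ p.2) with hDdef
  set T : Finset (ℕ × ℕ) := (S ×ˢ S).filter
    (fun p => p.1 ≠ p.2 ∧ D p < (1 / 2) ^ 64 ∧ vol p ≠ 0) with hT
  have hTm : ∀ p ∈ T, p.1 ∈ S ∧ p.2 ∈ S ∧ p.1 ≠ p.2 ∧ D p < (1 / 2) ^ 64 ∧ vol p ≠ 0 := by
    intro p hp
    rw [hT, mem_filter, mem_product] at hp
    exact ⟨hp.1.1, hp.1.2, hp.2⟩
  have hDpos : ∀ p : ℕ × ℕ, p.1 ∈ S → p.2 ∈ S → 0 < D p := fun p h1 h2 =>
    qm_DD_pos (hS _ h1).1 (hS _ h2).1 (hS _ h1).2.1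
  set X : ℝ := W ^ (2 * (513 / 1024) : ℝ) with hX
  have hX0 : 0 ≤ X := Real.rpow_nonneg hW0 _
  have hXle : X ≤ W + W ^ 2 := by
    rcases hW0.eq_or_lt with h0 | hpos
    · rw [hX, ← h0, Real.zero_rpow (by norm_num)]
      norm_num
    · rcases le_total W 1 with h1 | h1
      · have h2 : X ≤ W := by
          calc X ≤ W ^ (1 : ℝ) := Real.rpow_le_rpow_of_exponent_ge hpos h1 (by norm_num)
            _ = W := Real.rpow_one W
        nlinarith [sq_nonneg W]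
      · have h2 : X ≤ W ^ 2 := by
          calc X ≤ W ^ (2 : ℝ) := Real.rpow_le_rpow_of_exponent_le h1 (by norm_num)
            _ = W ^ 2 := by norm_cast
        linarith
  have hdy : ∑ p ∈ T, (f p.1 * f p.2) / D p ≤ K * X := by
    rw [hK]
    refine q_dyadic T D (fun p => f p.1 * f p.2) hCE.le hX0 (by norm_num)
      (fun p hp => ⟨hDpos p (hTm p hp).1 (hTm p hp).2.1, (hTm p hp).2.2.2.1⟩)
      (fun p _ => mul_nonneg (hf0 _) (hf0 _)) ?_
    intro s hs hs1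
    have h1 := hE γ s N ψ' f hs hs1
      (fun q => by
        simp only [hψ']
        split_ifs with h
        · exact (hS q h).2.1.le
        · exact le_rfl)
      (fun q => ⟨hf0 q, by
        simp only [hψ', hf]
        split_ifs with h
        · rw [mul_comm]
        · simp⟩)
      (fun q hq => by
        by_cases h : q ∈ S
        · exact (hS q h).2.2.2
        · exact absurd (by simp only [hf, if_neg h]) hq)
    rw [hsumf] at h1
    refine le_trans ?_ h1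
    refine sum_le_psum _ N f f hf0 hf0 _ ?_
    intro p hp
    rw [mem_filter] at hp
    obtain ⟨hpT, _, hps⟩ := hp
    obtain ⟨h2, h3, h4, h5, h6⟩ := hTm p hpT
    obtain ⟨hq, hψq, -, -⟩ := hS _ h2
    obtain ⟨hr, hψr, -, -⟩ := hS _ h3
    refine ⟨mem_Icc.mpr ⟨hq, hN _ h2⟩, mem_Icc.mpr ⟨hr, hN _ h3⟩, ?_⟩
    have h7 := qm_near γ ψ hq hr hψq hψr h4 hs hs1 hps h6
    have e1 : ψ' p.1 = ψ p.1 := by simp only [hψ', if_pos h2]
    have e2 : ψ' p.2 = ψ p.2 := by simp only [hψ', if_pos h3]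
    unfold NearQ StrQ at h7 ⊢
    rw [e1, e2]
    exact h7
  -- pointwise bound
  have hpt : ∀ p ∈ S ×ˢ S, vol p ≤ (if p.1 = p.2 then 8 * ψ p.1 else 0) +
      2 ^ 65 * (ψ p.1 * ψ p.2) +
      (if p ∈ T then 2 * E ^ 2 * ((f p.1 * f p.2) / D p) else 0) := by
    intro p hp
    rw [mem_product] at hp
    obtain ⟨h2, h3⟩ := hp
    obtain ⟨hq, hψq, hψq2, -⟩ := hS _ h2
    obtain ⟨hr, hψr, hψr2, -⟩ := hS _ h3
    have hD0 := hDpos p h2 h3
    have hψψ : 0 < ψ p.1 * ψ p.2 := mul_pos hψq hψr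
    have hb0 : 0 ≤ 2 ^ 65 * (ψ p.1 * ψ p.2) := by positivity
    have hc0 : 0 ≤ (if p ∈ T then 2 * E ^ 2 * ((f p.1 * f p.2) / D p) else 0) := by
      split_ifs
      · have := mul_nonneg (hf0 p.1) (hf0 p.2)
        positivity
      · exact le_rfl
    by_cases he : p.1 = p.2
    · rw [if_pos he]
      have h4 : vol p ≤ 8 * ψ p.1 := by
        have h5 := qm_diag γ ψ hq hψq hψq2
        simp only [hvol]
        rw [← he]
        exact h5
      linarith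
    · rw [if_neg he]
      by_cases hv0 : vol p = 0
      · rw [hv0]; linarith
      rcases qm_pair γ ψ hq hr hψq hψr with h4 | ⟨_, h4⟩
      · have h5 : vol p ≤ 16 * (ψ p.1 * ψ p.2) := by
          simp only [hvol]; linarith
        have h6 : 16 * (ψ p.1 * ψ p.2) ≤ 2 ^ 65 * (ψ p.1 * ψ p.2) := by
          apply mul_le_mul_of_nonneg_right (by norm_num) hψψ.le
        linarith
      · have h4' : vol p ≤ 2 * (ψ p.1 * ψ p.2) / D p := by
          simp only [hvol, hDdef]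
          rw [← mul_assoc]
          exact h4
        by_cases hDs : D p < (1 / 2) ^ 64
        · have hpT : p ∈ T := by
            rw [hT, mem_filter, mem_product]
            exact ⟨⟨h2, h3⟩, he, hDs, hv0⟩
          rw [if_pos hpT]
          have h7 : 2 * (ψ p.1 * ψ p.2) / D p ≤ 2 * E ^ 2 * ((f p.1 * f p.2) / D p) := by
            have h8 : ψ p.1 * ψ p.2 ≤ (E * f p.1) * (E * f p.2) := by
              rw [hfS _ h2, hfS _ h3]
              exact mul_le_mul (hψE _ h2) (hψE _ h3) hψr.le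
                (mul_nonneg hE0.le (hw0 _ h2))
            calc 2 * (ψ p.1 * ψ p.2) / D p ≤ 2 * ((E * f p.1) * (E * f p.2)) / D p := by gcongr
              _ = _ := by ring
          linarith
        · have h9 : 2 * (ψ p.1 * ψ p.2) / D p ≤ 2 ^ 65 * (ψ p.1 * ψ p.2) := by
            rw [div_le_iff₀ hD0]
            push Not at hDs
            have h10 : (1 : ℝ) ≤ 2 ^ 64 * D p := by
              calc (1 : ℝ) = 2 ^ 64 * (1 / 2) ^ 64 := by norm_num
                _ ≤ 2 ^ 64 * D p := by gcongr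
            nlinarith
          linarith
  have hsum1 : ∑ q ∈ S, ψ q ≤ E * W := by
    rw [hW, mul_sum]
    exact sum_le_sum hψE
  have hsum0 : 0 ≤ ∑ q ∈ S, ψ q := sum_nonneg fun q hq => (hS q hq).2.1.le
  calc ∑ q ∈ S, ∑ r ∈ S, volume.real (GQ γ ψ q ∩ GQ γ ψ r ∩ Set.Ioc 0 1)
      = ∑ p ∈ S ×ˢ S, vol p := by rw [sum_product]
    _ ≤ ∑ p ∈ S ×ˢ S, ((if p.1 = p.2 then 8 * ψ p.1 else 0) + 2 ^ 65 * (ψ p.1 * ψ p.2) +
          (if p ∈ T then 2 * E ^ 2 * ((f p.1 * f p.2) / D p) else 0)) := sum_le_sum hpt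
    _ = 8 * (∑ q ∈ S, ψ q) + 2 ^ 65 * (∑ q ∈ S, ψ q) ^ 2 +
          2 * E ^ 2 * ∑ p ∈ T, (f p.1 * f p.2) / D p := by
        rw [sum_add_distrib, sum_add_distrib]
        congr 1
        · congr 1
          · rw [sum_product, mul_sum]
            refine sum_congr rfl fun q hq => ?_
            rw [sum_ite_eq, if_pos hq]
          · rw [← mul_sum, sum_product, sq, sum_mul_sum]
        · rw [← sum_filter, mul_sum]
          refine sum_congr ?_ fun _ _ => rfl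
          rw [filter_mem_eq_inter, inter_eq_right]
          exact filter_subset _ _
    _ ≤ 8 * (E * W) + 2 ^ 65 * (E * W) ^ 2 + 2 * E ^ 2 * (K * (W + W ^ 2)) := by
        have h1 : K * X ≤ K * (W + W ^ 2) := mul_le_mul_of_nonneg_left hXle hK0
        have h2 := hdy.trans h1
        gcongr
    _ ≤ (8 * E + 2 ^ 65 * E ^ 2 + 2 * E ^ 2 * K) * (W + W ^ 2) := by
        have h1 : 0 ≤ 8 * E * W ^ 2 := by positivity
        have h2 : 0 ≤ 2 ^ 65 * E ^ 2 * W := by positivity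
        nlinarith

end Vale.P028
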