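import Vale.Agent.P028.MathlibUsed
import Vale.Agent.P028.QChain
import Vale.Agent.P028.KNearA

/-!
# Far pairs for large arcs: loss `(log (3 / ψ))^ε`
-/

namespace Vale.P028

open Finset

/-- the numerics of the second case -/
theorem qz_num {s x F k ε δ : ℝ} (hs : 0 < s) (hs1 : s ≤ 1) (hx : 1 ≤ x) (hk : 0 ≤ k)
    (hε : 0 < ε) (hδ : 0 < δ) (hδ1 : δ ≤ 1 / 512) (hδ2 : δ ≤ ε / (2048 * k + 1))
    (hF : x ^ ε ≤ F) (h : (1 / 2 : ℝ) ^ 64 < s ∨ s ^ (-(1 / 512) : ℝ) < x ^ k) :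
    s ^ (-(2 * δ)) ≤ 2 ^ 64 * F ^ (1 - δ) := by
  have hx0 : 0 < x := by linarith
  have hF1 : 1 ≤ F := le_trans (Real.one_le_rpow hx hε.le) hF
  have hF2 : 1 ≤ F ^ (1 - δ) := Real.one_le_rpow hF1 (by linarith)
  rcases h with h | h
  · have h1 : s ^ (-(2 * δ)) ≤ s ^ (-1 : ℝ) :=
      Real.rpow_le_rpow_of_exponent_ge hs hs1 (by linarith)
    have h2 : s ^ (-1 : ℝ) ≤ 2 ^ 64 := by
      rw [Real.rpow_neg_one]
      rw [inv_le_comm₀ hs (by norm_num)]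
      refine le_trans (le_of_eq ?_) h.le
      norm_num
    calc s ^ (-(2 * δ)) ≤ 2 ^ 64 := h1.trans h2
      _ = 2 ^ 64 * 1 := (mul_one _).symm
      _ ≤ 2 ^ 64 * F ^ (1 - δ) := mul_le_mul_of_nonneg_left hF2 (by norm_num)
  · have h1 : s ^ (-(2 * δ)) = (s ^ (-(1 / 512) : ℝ)) ^ (1024 * δ) := by
      rw [← Real.rpow_mul hs.le]
      congr 1
      ring
    have h2 : (s ^ (-(1 / 512) : ℝ)) ^ (1024 * δ) ≤ (x ^ k) ^ (1024 * δ) :=
      Real.rpow_le_rpow (Real.rpow_nonneg hs.le _) h.le (by linarith)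
    have h3 : (x ^ k) ^ (1024 * δ) = x ^ (1024 * k * δ) := by
      rw [← Real.rpow_mul hx0.le]
      congr 1
      ring
    have h4 : 1024 * k * δ ≤ ε * (1 - δ) := by
      have a1 : (0 : ℝ) < 2048 * k + 1 := by linarith
      rw [le_div_iff₀ a1] at hδ2
      have a2 : ε * δ ≤ ε * (1 / 512) := mul_le_mul_of_nonneg_left hδ1 hε.le
      nlinarith
    have h5 : x ^ (1024 * k * δ) ≤ x ^ (ε * (1 - δ)) := Real.rpow_le_rpow_of_exponent_le hx h4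
    have h6 : x ^ (ε * (1 - δ)) = (x ^ ε) ^ (1 - δ) := Real.rpow_mul hx0.le _ _
    have h7 : (x ^ ε) ^ (1 - δ) ≤ F ^ (1 - δ) :=
      Real.rpow_le_rpow (Real.rpow_nonneg hx0.le _) hF (by linarith)
    calc s ^ (-(2 * δ)) ≤ F ^ (1 - δ) := by
          rw [h1]
          refine h2.trans ?_
          rw [h3]
          refine h5.trans ?_
          rw [h6]
          exact h7
      _ = 1 * F ^ (1 - δ) := (one_mul _).symm
      _ ≤ 2 ^ 64 * F ^ (1 - δ) := mul_le_mul_of_nonneg_right (by norm_num) (by linarith)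

/-- the pairs of type (a) at a large level, when the mass is large -/
theorem qs_case2 {k ε : ℝ} (hk : 0 ≤ k) (hε : 0 < ε) :
    ∃ C δ : ℝ, 0 < C ∧ 0 < δ ∧ δ ≤ 1 / 512 ∧ ∀ (γ s x : ℝ) (N : ℕ) (ψ f : ℕ → ℝ), 0 < s →
      s ≤ 1 → 1 ≤ x → (∀ q, 0 ≤ ψ q) → (∀ q, 0 ≤ f q ∧ f q ≤ ψ q * (q.totient / q)) →
      x ^ ε ≤ ∑ q ∈ Icc 1 N, f q → s ^ (-(1 / 512) : ℝ) < x ^ k →
      psum (TA γ ψ s) N f f ≤
        C * s ^ (1 + δ) * ((∑ q ∈ Icc 1 N, f q) + (∑ q ∈ Icc 1 N, f q) ^ 2) := by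
  set δ : ℝ := min (1 / 512) (ε / (2048 * k + 1)) with hδdef
  have hδ : 0 < δ := lt_min (by norm_num) (div_pos hε (by linarith))
  have hδ1 : δ ≤ 1 / 512 := min_le_left _ _
  have hδ2 : δ ≤ ε / (2048 * k + 1) := min_le_right _ _
  obtain ⟨C₂, hC₂, hT⟩ := T1 (θ := (1 + δ) / 2) (by linarith) (by linarith)
  refine ⟨C₂ * 2 ^ 64, δ, by positivity, hδ, hδ1, ?_⟩
  intro γ s x N ψ f hs hs2 hx hψ hf hFx hcase
  set F : ℝ := ∑ q ∈ Icc 1 N, f q with hF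
  have hf0 : ∀ q, 0 ≤ f q := fun q => (hf q).1
  have hF0 : 0 ≤ F := sum_nonneg fun q _ => hf0 q
  have hsδ : 0 ≤ s ^ (1 + δ) := Real.rpow_nonneg hs.le _
  have hF1 : 1 ≤ F := le_trans (Real.one_le_rpow hx hε.le) hFx
  have hFp : 0 < F := by linarith
  have h1 : psum (TA γ ψ s) N f f ≤
      psum (fun q r => (cofac r q : ℝ) * ψ q ≤ s ∧ (cofac q r : ℝ) * ψ r ≤ s) N f f := by
    apply psum_mono _ _ _ _ _ _ _ hf0 hf0
    intro q _ r _ hR _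
    exact ⟨⟨hR.1.2.1, hR.1.2.2.1⟩, le_rfl⟩
  have h2 := hT ψ ψ f f s s N hs hs hψ hψ hf hf
  have h3 := qz_num hs hs2 hx hk hε hδ hδ1 hδ2 hFx (Or.inr hcase)
  have e1 : (s * s) ^ (1 - (1 + δ) / 2) = s ^ (1 + δ) * s ^ (-(2 * δ)) := by
    rw [← Real.rpow_add hs, ← pow_two, ← Real.rpow_natCast, ← Real.rpow_mul hs.le]
    congr 1
    push_cast
    ring
  have e2 : (F * F) ^ ((1 + δ) / 2) * F ^ (1 - δ) = F ^ 2 := by
    rw [← pow_two, ← Real.rpow_natCast, ← Real.rpow_mul hFp.le, ← Real.rpow_add hFp]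
    congr 1
    push_cast
    ring
  calc psum (TA γ ψ s) N f f
      ≤ C₂ * (s * s) ^ (1 - (1 + δ) / 2) * (F * F) ^ ((1 + δ) / 2) := h1.trans h2
    _ = C₂ * s ^ (1 + δ) * ((F * F) ^ ((1 + δ) / 2) * s ^ (-(2 * δ))) := by rw [e1]; ring
    _ ≤ C₂ * s ^ (1 + δ) * ((F * F) ^ ((1 + δ) / 2) * (2 ^ 64 * F ^ (1 - δ))) := by
        apply mul_le_mul_of_nonneg_left _ (mul_nonneg hC₂.le hsδ)
        exact mul_le_mul_of_nonneg_left h3 (Real.rpow_nonneg (by positivity) _)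
    _ = C₂ * 2 ^ 64 * s ^ (1 + δ) * ((F * F) ^ ((1 + δ) / 2) * F ^ (1 - δ)) := by ring
    _ = C₂ * 2 ^ 64 * s ^ (1 + δ) * F ^ 2 := by rw [e2]
    _ ≤ C₂ * 2 ^ 64 * s ^ (1 + δ) * (F + F ^ 2) := by
        apply mul_le_mul_of_nonneg_left _ (by positivity)
        linarith

/-- large arcs: `ψ ≥ e^{-Λ}` on the support and mass at least `(1 + Λ)^ε` -/
def PSize (ε : ℝ) (N : ℕ) (ψ f : ℕ → ℝ) : Prop :=
  ∃ Λ : ℝ, 0 ≤ Λ ∧ (∀ q, f q ≠ 0 → Real.exp (-Λ) ≤ ψ q) ∧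
    (1 + Λ) ^ ε ≤ ∑ q ∈ Icc 1 N, f q

theorem typeA_size {ε : ℝ} (hε : 0 < ε) : TypeAP (PSize ε) := by
  obtain ⟨C₁, ε₁, hC₁, hε₁, hnear⟩ := near_part
  set k : ℝ := 1 / (512 * ε₁) with hk
  have hk0 : 0 < k := by positivity
  obtain ⟨C₂, δ, hC₂, hδ, hδ1, hbig⟩ := qs_case2 hk0.le hε
  refine ⟨C₁ + C₂, δ, by positivity, hδ, ?_⟩
  rintro γ s hs hs1 N ψ f hψ hf ⟨Λ, hΛ, hsupp, hFx⟩
  set F : ℝ := ∑ q ∈ Icc 1 N, f q with hF
  have hf0 : ∀ q, 0 ≤ f q := fun q => (hf q).1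
  have hF0 : 0 ≤ F := sum_nonneg fun q _ => hf0 q
  have hs2 : s ≤ 1 := by linarith
  have hsδ : 0 ≤ s ^ (1 + δ) := Real.rpow_nonneg hs.le _
  have hFF : 0 ≤ F + F ^ 2 := by positivity
  have hfψ : ∀ q, 0 ≤ f q ∧ f q ≤ ψ q := by
    intro q
    refine ⟨hf0 q, (hf q).2.trans ?_⟩
    calc ψ q * ((q.totient : ℝ) / q) ≤ ψ q * 1 :=
          mul_le_mul_of_nonneg_left (tot_le_one q) (hψ q)
      _ = ψ q := mul_one _
  by_cases hcase : s ^ (-(1 / 512) : ℝ) < (1 + Λ) ^ k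
  · have h1 := hbig γ s (1 + Λ) N ψ f hs hs2 (by linarith) hψ hf hFx hcase
    refine h1.trans ?_
    apply mul_le_mul_of_nonneg_right _ hFF
    apply mul_le_mul_of_nonneg_right _ hsδ
    linarith
  · push Not at hcase
    have hΛ1 : 1 + Λ ≤ s ^ (-ε₁) := by
      have h1 : ((1 + Λ) ^ k) ^ (512 * ε₁) ≤ (s ^ (-(1 / 512) : ℝ)) ^ (512 * ε₁) :=
        Real.rpow_le_rpow (Real.rpow_nonneg (by linarith) _) hcase (by positivity)
      rw [← Real.rpow_mul (by linarith), ← Real.rpow_mul hs.le] at h1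
      have e1 : k * (512 * ε₁) = 1 := by
        rw [hk]
        field_simp
      have e2 : (-(1 / 512) : ℝ) * (512 * ε₁) = -ε₁ := by ring
      rw [e1, e2, Real.rpow_one] at h1
      exact h1
    have hsize : ∀ (w : ℕ) (x : ℝ), Real.exp (-Λ) ≤ x → (w : ℝ) * x ≤ s →
        w ≤ ⌊Real.exp (s ^ (-ε₁))⌋₊ := by
      intro w x hx hw
      apply Nat.le_floor
      have h1 : (w : ℝ) * Real.exp (-Λ) ≤ 1 :=
        (mul_le_mul_of_nonneg_left hx (Nat.cast_nonneg _)).trans (hw.trans hs2)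
      have h2 : (w : ℝ) ≤ Real.exp Λ := by
        have h3 : (w : ℝ) = (w : ℝ) * Real.exp (-Λ) * Real.exp Λ := by
          rw [mul_assoc, ← Real.exp_add]
          simp
        rw [h3]
        calc (w : ℝ) * Real.exp (-Λ) * Real.exp Λ ≤ 1 * Real.exp Λ :=
              mul_le_mul_of_nonneg_right h1 (Real.exp_pos _).le
          _ = Real.exp Λ := one_mul _
      refine h2.trans (Real.exp_le_exp.mpr ?_)
      linarith
    have h1 : psum (TA γ ψ s) N f f ≤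
        psum (fun q r => Rel γ ψ s q r ∧ Far γ s (cofac q r) (cofac r q) ∧
          cofac q r ≤ ⌊Real.exp (s ^ (-ε₁))⌋₊ ∧ cofac r q ≤ ⌊Real.exp (s ^ (-ε₁))⌋₊) N f f := by
      apply psum_mono _ _ _ _ _ _ _ hf0 hf0
      intro q _ r _ hR hne
      have hq : f q ≠ 0 := left_ne_zero_of_mul hne
      have hr : f r ≠ 0 := right_ne_zero_of_mul hne
      exact ⟨⟨hR.1, hR.2.1, hsize _ _ (hsupp r hr) hR.1.2.2.1,
        hsize _ _ (hsupp q hq) hR.1.2.1⟩, le_rfl⟩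
    have h2 := hnear γ s hs hs1 N ψ f hfψ
    have h3 : s ^ (1 + 1 / 64 : ℝ) ≤ s ^ (1 + δ) :=
      Real.rpow_le_rpow_of_exponent_ge hs hs2 (by linarith)
    calc psum (TA γ ψ s) N f f ≤ C₁ * s ^ (1 + 1 / 64 : ℝ) * (F + F ^ 2) := h1.trans h2
      _ ≤ C₁ * s ^ (1 + δ) * (F + F ^ 2) := by
          apply mul_le_mul_of_nonneg_right _ hFF
          exact mul_le_mul_of_nonneg_left h3 hC₁.le
      _ ≤ (C₁ + C₂) * s ^ (1 + δ) * (F + F ^ 2) := by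
          apply mul_le_mul_of_nonneg_right _ hFF
          apply mul_le_mul_of_nonneg_right _ hsδ
          linarith

end Vale.P028
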