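import Vale.Agent.P028.MathlibUsed
import Vale.Agent.P028.QDefs
import Vale.Agent.P028.BT1

/-!
# Pairs whose cofactor has a large `∑ p^{-σ}`
-/

namespace Vale.P028

open Finset

theorem sg_cofac {σ : ℝ} {q r : ℕ} (hq : 0 < q) (hr : 0 < r) :
    sg σ r ≤ sg σ q + sg σ (cofac r q) := by
  unfold sg
  have hg : 0 < Nat.gcd r q := Nat.gcd_pos_of_pos_left _ hr
  have hc : cofac r q ≠ 0 := by
    unfold cofac
    exact (Nat.div_pos (Nat.le_of_dvd hr (Nat.gcd_dvd_left r q)) hg).ne'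
  have hsub : r.primeFactors ⊆ q.primeFactors ∪ (cofac r q).primeFactors := by
    intro p hp
    rw [Nat.mem_primeFactors] at hp
    rw [mem_union, Nat.mem_primeFactors, Nat.mem_primeFactors]
    by_cases h : p ∣ q
    · exact Or.inl ⟨hp.1, h, hq.ne'⟩
    · refine Or.inr ⟨hp.1, ?_, hc⟩
      have h1 : p ∣ cofac r q * Nat.gcd r q := by
        unfold cofac
        rw [Nat.div_mul_cancel (Nat.gcd_dvd_left r q)]
        exact hp.2.1
      rcases hp.1.dvd_mul.1 h1 with h2 | h2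
      · exact h2
      · exact absurd (h2.trans (Nat.gcd_dvd_right r q)) h
  have hnn : ∀ p : ℕ, 0 ≤ (p : ℝ) ^ (-σ) := fun p => Real.rpow_nonneg (Nat.cast_nonneg p) _
  calc ∑ p ∈ r.primeFactors, (p : ℝ) ^ (-σ)
      ≤ ∑ p ∈ q.primeFactors ∪ (cofac r q).primeFactors, (p : ℝ) ^ (-σ) :=
        sum_le_sum_of_subset_of_nonneg hsub fun p _ _ => hnn p
    _ ≤ _ := by
        rw [← sum_union_inter]
        have : 0 ≤ ∑ p ∈ q.primeFactors ∩ (cofac r q).primeFactors, (p : ℝ) ^ (-σ) :=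
          sum_nonneg fun p _ => hnn p
        linarith

theorem anat_sg {σ : ℝ} (hσ : 3 / 4 ≤ σ) :
    ∃ C > 0, ∀ (Y s : ℝ) (N : ℕ) (ψ f : ℕ → ℝ), 0 < Y → 0 < s → (∀ q, 0 ≤ ψ q) →
      (∀ q, 0 ≤ f q ∧ f q ≤ ψ q * (q.totient / q)) →
      psum (fun q r => Y ≤ sg σ (cofac q r) ∧ (cofac r q : ℝ) * ψ q ≤ s ∧
        (cofac q r : ℝ) * ψ r ≤ s) N f f ≤
        C / Y * (s * s) ^ (1 - 501 / 1000 : ℝ) *
          (∑ q ∈ Icc 1 N, f q) ^ (2 * (501 / 1000) : ℝ) := by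
  classical
  obtain ⟨C, hC, hT⟩ := T1_dvd (θ := 501 / 1000) (by norm_num) (by norm_num)
  have hsm : Summable (fun n : ℕ => (n : ℝ) ^ (-(1249 / 1000) : ℝ)) :=
    Real.summable_nat_rpow.2 (by norm_num)
  have hnn : ∀ n : ℕ, 0 ≤ (n : ℝ) ^ (-(1249 / 1000) : ℝ) :=
    fun n => Real.rpow_nonneg (Nat.cast_nonneg n) _
  refine ⟨C * (1 + ∑' n : ℕ, (n : ℝ) ^ (-(1249 / 1000) : ℝ)), ?_, ?_⟩
  · have : 0 ≤ ∑' n : ℕ, (n : ℝ) ^ (-(1249 / 1000) : ℝ) := tsum_nonneg hnn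
    positivity
  intro Y s N ψ f hY hs hψ hf
  set F : ℝ := ∑ q ∈ Icc 1 N, f q with hF
  have hF0 : 0 ≤ F := sum_nonneg fun q _ => (hf q).1
  have hFF : (F * F) ^ (501 / 1000 : ℝ) = F ^ (2 * (501 / 1000) : ℝ) := by
    rw [← pow_two, ← Real.rpow_natCast, ← Real.rpow_mul hF0]
    norm_num
  set P : Finset ℕ := (Icc 1 N).filter Nat.Prime with hP
  have hpt : psum (fun q r => Y ≤ sg σ (cofac q r) ∧ (cofac r q : ℝ) * ψ q ≤ s ∧
        (cofac q r : ℝ) * ψ r ≤ s) N f f ≤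
      ∑ p ∈ P, Y⁻¹ * (p : ℝ) ^ (-σ) * psum (fun q r => p ∣ cofac q r ∧ 1 ∣ cofac r q ∧
        (cofac r q : ℝ) * ψ q ≤ s ∧ (cofac q r : ℝ) * ψ r ≤ s) N f f := by
    unfold psum
    simp only [mul_sum]
    rw [sum_comm (s := P)]
    refine sum_le_sum fun q hq => ?_
    rw [sum_comm (s := P)]
    refine sum_le_sum fun r hr => ?_
    have hff : 0 ≤ f q * f r := mul_nonneg (hf q).1 (hf r).1
    have hw : ∀ p : ℕ, 0 ≤ Y⁻¹ * (p : ℝ) ^ (-σ) := fun p => by positivity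
    by_cases hc : Y ≤ sg σ (cofac q r) ∧ (cofac r q : ℝ) * ψ q ≤ s ∧ (cofac q r : ℝ) * ψ r ≤ s
    · rw [if_pos hc]
      have hsub : (cofac q r).primeFactors ⊆ P := by
        intro p hp
        rw [Nat.mem_primeFactors] at hp
        rw [hP, mem_filter, mem_Icc]
        refine ⟨⟨hp.1.one_lt.le, ?_⟩, hp.1⟩
        calc p ≤ cofac q r := Nat.le_of_dvd (Nat.pos_of_ne_zero hp.2.2) hp.2.1
          _ ≤ q := Nat.div_le_self _ _
          _ ≤ N := (mem_Icc.1 hq).2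
      calc f q * f r = Y⁻¹ * Y * (f q * f r) := by rw [inv_mul_cancel₀ hY.ne', one_mul]
        _ ≤ Y⁻¹ * sg σ (cofac q r) * (f q * f r) := by
            apply mul_le_mul_of_nonneg_right _ hff
            exact mul_le_mul_of_nonneg_left hc.1 (inv_nonneg.2 hY.le)
        _ = ∑ p ∈ (cofac q r).primeFactors, Y⁻¹ * (p : ℝ) ^ (-σ) * (f q * f r) := by
            unfold sg
            rw [mul_sum, sum_mul]
        _ ≤ _ := by
            refine le_trans ?_ (sum_le_sum_of_subset_of_nonneg hsub ?_)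
            · refine sum_le_sum fun p hp => ?_
              rw [if_pos ⟨Nat.dvd_of_mem_primeFactors hp, one_dvd _, hc.2.1, hc.2.2⟩]
            · intro p _ _
              apply mul_nonneg (hw p)
              split_ifs
              · exact hff
              · exact le_rfl
    · rw [if_neg hc]
      apply sum_nonneg
      intro p _
      apply mul_nonneg (hw p)
      split_ifs
      · exact hff
      · exact le_rfl
  refine hpt.trans ?_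
  have hX0 : 0 ≤ C * (s * s) ^ (1 - 501 / 1000 : ℝ) * F ^ (2 * (501 / 1000) : ℝ) := by positivity
  have h1 : ∀ p ∈ P, Y⁻¹ * (p : ℝ) ^ (-σ) * psum (fun q r => p ∣ cofac q r ∧ 1 ∣ cofac r q ∧
        (cofac r q : ℝ) * ψ q ≤ s ∧ (cofac q r : ℝ) * ψ r ≤ s) N f f ≤
      Y⁻¹ * (C * (s * s) ^ (1 - 501 / 1000 : ℝ) * F ^ (2 * (501 / 1000) : ℝ)) *
        (p : ℝ) ^ (-(1249 / 1000) : ℝ) := by
    intro p hp
    rw [hP, mem_filter] at hp
    have hp1 : (1 : ℝ) ≤ p := by exact_mod_cast hp.2.one_lt.le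
    have hp0 : (0 : ℝ) < p := by linarith
    have h2 := hT p 1 hp.2.pos one_pos ψ ψ f f s s N hs hs hψ hψ hf hf
    rw [Nat.cast_one, Real.one_rpow, mul_one, hFF] at h2
    have h3 : (p : ℝ) ^ (-σ) * (p : ℝ) ^ (-(1 - 501 / 1000) : ℝ) ≤
        (p : ℝ) ^ (-(1249 / 1000) : ℝ) := by
      rw [← Real.rpow_add hp0]
      exact Real.rpow_le_rpow_of_exponent_le hp1 (by norm_num; linarith)
    calc Y⁻¹ * (p : ℝ) ^ (-σ) * psum (fun q r => p ∣ cofac q r ∧ 1 ∣ cofac r q ∧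
        (cofac r q : ℝ) * ψ q ≤ s ∧ (cofac q r : ℝ) * ψ r ≤ s) N f f
        ≤ Y⁻¹ * (p : ℝ) ^ (-σ) * (C * (s * s) ^ (1 - 501 / 1000 : ℝ) *
          F ^ (2 * (501 / 1000) : ℝ) * (p : ℝ) ^ (-(1 - 501 / 1000) : ℝ)) :=
          mul_le_mul_of_nonneg_left h2 (by positivity)
      _ = Y⁻¹ * (C * (s * s) ^ (1 - 501 / 1000 : ℝ) * F ^ (2 * (501 / 1000) : ℝ)) *
          ((p : ℝ) ^ (-σ) * (p : ℝ) ^ (-(1 - 501 / 1000) : ℝ)) := by ring
      _ ≤ _ := mul_le_mul_of_nonneg_left h3 (by positivity)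
  have h4 : ∑ p ∈ P, (p : ℝ) ^ (-(1249 / 1000) : ℝ) ≤
      1 + ∑' n : ℕ, (n : ℝ) ^ (-(1249 / 1000) : ℝ) := by
    have := hsm.sum_le_tsum P fun n _ => hnn n
    linarith
  calc _ ≤ ∑ p ∈ P, Y⁻¹ * (C * (s * s) ^ (1 - 501 / 1000 : ℝ) *
          F ^ (2 * (501 / 1000) : ℝ)) * (p : ℝ) ^ (-(1249 / 1000) : ℝ) := sum_le_sum h1
    _ = Y⁻¹ * (C * (s * s) ^ (1 - 501 / 1000 : ℝ) * F ^ (2 * (501 / 1000) : ℝ)) *
        ∑ p ∈ P, (p : ℝ) ^ (-(1249 / 1000) : ℝ) := by rw [mul_sum]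
    _ ≤ Y⁻¹ * (C * (s * s) ^ (1 - 501 / 1000 : ℝ) * F ^ (2 * (501 / 1000) : ℝ)) *
        (1 + ∑' n : ℕ, (n : ℝ) ^ (-(1249 / 1000) : ℝ)) :=
        mul_le_mul_of_nonneg_left h4 (by positivity)
    _ = _ := by
        rw [div_eq_mul_inv]
        ring

end Vale.P028
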