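import Vale.Agent.P028.MathlibUsed
import Vale.Agent.P028.KCore
import Vale.Agent.P028.QDefs

/-!
# Numerical conditions of the core estimate `coreT`
-/

namespace Vale.P028

open Finset

theorem rcore_num_LL {σ : ℝ} (hσ : σ < 1) {y : ℝ} (hy : 0 < y) (q : ℕ) :
    LL y q ≤ y ^ (-(1 - σ)) * sg σ q := by
  unfold LL sg
  rw [mul_sum]
  refine (sum_le_sum (g := fun p : ℕ => y ^ (-(1 - σ)) * (p : ℝ) ^ (-σ)) ?_).trans ?_
  · intro p hp
    have hyp : y < p := (mem_filter.1 hp).2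
    have hp0 : (0 : ℝ) < p := hy.trans hyp
    have h1 : 1 / (p : ℝ) = (p : ℝ) ^ (-(1 - σ)) * (p : ℝ) ^ (-σ) := by
      rw [← Real.rpow_add hp0, one_div, ← Real.rpow_neg_one]
      congr 1
      ring
    rw [h1]
    refine mul_le_mul_of_nonneg_right ?_ (Real.rpow_nonneg hp0.le _)
    exact Real.rpow_le_rpow_of_nonpos hy hyp.le (by linarith)
  · refine sum_le_sum_of_subset_of_nonneg (filter_subset _ _) ?_
    intro p _ _
    exact mul_nonneg (Real.rpow_nonneg hy.le _) (Real.rpow_nonneg (Nat.cast_nonneg _) _)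

/-- numerical conditions of the core estimate -/
theorem rcore_num' {B₀ σ : ℝ} (hB₀ : 0 < B₀) (hσ : σ < 1) :
    ∃ A : ℝ, 0 < A ∧ ∀ T s : ℝ, 1 ≤ T → 0 < s → s ≤ 1 / 1000 →
      ∃ y : ℝ, 0 < y ∧ 2 ≤ Real.log y ∧ ∀ S : ℝ, s ≤ S → S ≤ 1 →
        1 ≤ S * y * B₀ ∧ 1 ≤ S * y ∧
        S ^ (-(2 * (501 / 1000 : ℝ))) ≤ y ^ ((501 / 1000 : ℝ) - 1 / 2) ∧
        (∀ q : ℕ, 0 < q → sg σ q ≤ T → LL y q ≤ S / 4) ∧
        1 ≤ S ^ (-Real.log y) ∧
        ∀ V₀ : ℝ, Real.exp (A * (1 + Real.log T + Real.log (1 / s)) * Real.log (1 / s)) ≤ V₀ →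
        (S ^ (-Real.log y) / s) ^ 16 ≤ V₀ := by
  have hσ' : 0 < 1 - σ := by linarith
  obtain ⟨K, hK⟩ : ∃ K, K = max 1002 (1 / (1 - σ)) := ⟨_, rfl⟩
  have hK1 : 1002 ≤ K := by rw [hK]; exact le_max_left _ _
  have hK2 : 1 ≤ (1 - σ) * K := by
    have h1 : 1 / (1 - σ) ≤ K := by rw [hK]; exact le_max_right _ _
    rw [div_le_iff₀ hσ'] at h1
    linarith
  obtain ⟨a, ha⟩ : ∃ a, a = |Real.log B₀| + 2 := ⟨_, rfl⟩
  have ha2 : 2 ≤ a := by rw [ha]; linarith [abs_nonneg (Real.log B₀)]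
  refine ⟨16 * (K * (a + 1) + 1), by positivity, fun T s hT hs hs' => ?_⟩
  obtain ⟨L, hL⟩ : ∃ L, L = Real.log T := ⟨_, rfl⟩
  have hL0 : 0 ≤ L := by rw [hL]; exact Real.log_nonneg hT
  obtain ⟨t, ht⟩ : ∃ t, t = Real.log (1 / s) := ⟨_, rfl⟩
  have hts : Real.log s = -t := by rw [ht, one_div, Real.log_inv, neg_neg]
  have ht0 : 0 ≤ t := by
    have : Real.log s ≤ 0 := Real.log_nonpos hs.le (by linarith)
    linarith
  obtain ⟨w, hw⟩ : ∃ w, w = a + L + t := ⟨_, rfl⟩
  have hw2 : 2 ≤ w := by rw [hw]; linarith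
  have hKw : w ≤ K * w := by nlinarith
  have hly : Real.log (Real.exp (K * w)) = K * w := Real.log_exp _
  refine ⟨Real.exp (K * w), Real.exp_pos _, by rw [hly]; linarith, fun S hSs hS1 => ?_⟩
  have hS0 : 0 < S := lt_of_lt_of_le hs hSs
  have hlogS : -t ≤ Real.log S := by
    rw [← hts]
    exact Real.log_le_log hs hSs
  have hlogS0 : Real.log S ≤ 0 := Real.log_nonpos hS0.le hS1
  have hZ : S ^ (-Real.log (Real.exp (K * w))) = Real.exp (-Real.log S * (K * w)) := by
    rw [Real.rpow_def_of_pos hS0, hly]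
    congr 1
    ring
  refine ⟨?_, ?_, ?_, ?_, ?_, ?_⟩
  · calc (1 : ℝ) ≤ Real.exp (Real.log S + K * w + Real.log B₀) := by
          apply Real.one_le_exp
          have := neg_abs_le (Real.log B₀)
          linarith
      _ = S * Real.exp (K * w) * B₀ := by
          rw [Real.exp_add, Real.exp_add, Real.exp_log hS0, Real.exp_log hB₀]
  · calc (1 : ℝ) ≤ Real.exp (Real.log S + K * w) := by
          apply Real.one_le_exp
          linarith
      _ = S * Real.exp (K * w) := by rw [Real.exp_add, Real.exp_log hS0]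
  · rw [Real.rpow_def_of_pos hS0, Real.rpow_def_of_pos (Real.exp_pos _), hly]
    apply Real.exp_le_exp.2
    nlinarith
  · intro q _ hq
    refine (rcore_num_LL hσ (Real.exp_pos _) q).trans ?_
    have h0 : 0 ≤ (Real.exp (K * w)) ^ (-(1 - σ)) := Real.rpow_nonneg (Real.exp_pos _).le _
    refine (mul_le_mul_of_nonneg_left hq h0).trans ?_
    have hT0 : 0 < T := by linarith
    have h1 : (Real.exp (K * w)) ^ (-(1 - σ)) * T = Real.exp (-((1 - σ) * K * w) + L) := by
      rw [Real.rpow_def_of_pos (Real.exp_pos _), hly, Real.exp_add, hL, Real.exp_log hT0]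
      congr 2
      ring
    rw [h1]
    have h4 : Real.log 4 ≤ 2 := by
      have h5 : Real.log 4 = 2 * Real.log 2 := by
        rw [show (4 : ℝ) = 2 ^ 2 by norm_num, Real.log_pow]
        norm_num
      have := Real.log_two_lt_d9
      linarith
    calc Real.exp (-((1 - σ) * K * w) + L) ≤ Real.exp (Real.log S - Real.log 4) := by
          apply Real.exp_le_exp.2
          have h6 : w ≤ (1 - σ) * K * w := by nlinarith
          linarith
      _ = S / 4 := by
          rw [Real.exp_sub, Real.exp_log hS0, Real.exp_log (by norm_num)]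
  · rw [hZ]
    apply Real.one_le_exp
    have : 0 ≤ K * w := by linarith
    nlinarith
  · intro V₀ hV₀
    refine le_trans ?_ hV₀
    have hZs : Real.exp (-Real.log S * (K * w)) / s =
        Real.exp (-Real.log S * (K * w) + t) := by
      rw [← sub_neg_eq_add, ← hts, Real.exp_sub, Real.exp_log hs]
    rw [hZ, hZs, ← Real.exp_nat_mul, ← hL, ← ht]
    apply Real.exp_le_exp.2
    have hKw0 : 0 ≤ K * w := by linarith
    have h1 : -Real.log S * (K * w) ≤ t * (K * w) :=
      mul_le_mul_of_nonneg_right (by linarith) hKw0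
    have hK0 : 0 < K := by linarith
    have h2 : K * w + 1 ≤ (K * (a + 1) + 1) * (1 + L + t) := by
      have h3 : w ≤ (a + 1) * (1 + L + t) := by nlinarith
      have h4 : K * w ≤ K * ((a + 1) * (1 + L + t)) := mul_le_mul_of_nonneg_left h3 hK0.le
      nlinarith
    have h5 : t * (K * w + 1) ≤ t * ((K * (a + 1) + 1) * (1 + L + t)) :=
      mul_le_mul_of_nonneg_left h2 ht0
    push_cast
    nlinarith

end Vale.P028
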