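import Vale.Agent.P028.MathlibUsed
import Vale.Agent.P028.QDefs
import Vale.Agent.P028.MDyadic

/-!
# Numerics and splitting for the combination of the classes (`typeA_R`)
-/

namespace Vale.P028

open Finset

/-- `(1 + 4 y)^(1+δ/2) ≤ y^(1+δ)` for large `y` -/
theorem class_num {δ : ℝ} (hδ : 0 < δ) :
    ∃ y₀ : ℝ, 1 ≤ y₀ ∧ ∀ y : ℝ, y₀ ≤ y → (1 + 4 * y) ^ (1 + δ / 2) ≤ y ^ (1 + δ) := by
  refine ⟨max 1 ((5 ^ (1 + δ / 2)) ^ (2 / δ)), le_max_left _ _, fun y hy => ?_⟩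
  have h1 : 1 ≤ y := (le_max_left _ _).trans hy
  have h2 : ((5 : ℝ) ^ (1 + δ / 2)) ^ (2 / δ) ≤ y := (le_max_right _ _).trans hy
  have h0 : (0 : ℝ) ≤ 5 ^ (1 + δ / 2) := Real.rpow_nonneg (by norm_num) _
  have h3 : (5 : ℝ) ^ (1 + δ / 2) ≤ y ^ (δ / 2) := by
    have h4 := Real.rpow_le_rpow (Real.rpow_nonneg h0 _) h2 (by linarith : 0 ≤ δ / 2)
    rw [← Real.rpow_mul h0, show 2 / δ * (δ / 2) = 1 by field_simp, Real.rpow_one] at h4
    exact h4
  calc (1 + 4 * y) ^ (1 + δ / 2) ≤ (5 * y) ^ (1 + δ / 2) :=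
        Real.rpow_le_rpow (by linarith) (by linarith) (by linarith)
    _ = 5 ^ (1 + δ / 2) * y ^ (1 + δ / 2) := Real.mul_rpow (by norm_num) (by linarith)
    _ ≤ y ^ (δ / 2) * y ^ (1 + δ / 2) :=
        mul_le_mul_of_nonneg_right h3 (Real.rpow_nonneg (by linarith) _)
    _ = y ^ (1 + δ) := by
        rw [← Real.rpow_add (by linarith)]
        congr 1
        ring

/-- `exp (-x/2) ≤ K s^2` for `x = exp (e t)`, `s = exp (-t)` -/
theorem class_num2 {e : ℝ} (he : 0 < e) (t : ℝ) (ht : 0 ≤ t) :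
    2 * Real.exp (-(Real.exp (e * t) / 2)) ≤ 2 * Real.exp (4 / e ^ 2) * Real.exp (-(2 * t)) := by
  rw [mul_assoc, ← Real.exp_add]
  apply mul_le_mul_of_nonneg_left _ (by norm_num)
  apply Real.exp_le_exp.2
  have h1 := Real.quadratic_le_exp_of_nonneg (x := e * t) (by positivity)
  have h2 : 2 * t ≤ e ^ 2 * t ^ 2 / 4 + 4 / e ^ 2 := by
    have h3 : 0 ≤ (e * t / 2 - 2 / e) ^ 2 := sq_nonneg _
    have h4 : (e * t / 2 - 2 / e) ^ 2 = e ^ 2 * t ^ 2 / 4 + 4 / e ^ 2 - 2 * t := by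
      field_simp
      ring
    linarith
  have h5 : 0 ≤ e * t := by positivity
  nlinarith

/-- the scale `k₀`: `2^k₀ ≤ x < 2^(k₀+1)` -/
theorem exists_k0 {x : ℝ} (hx : 1 ≤ x) : ∃ k₀ : ℕ, (2 : ℝ) ^ k₀ ≤ x ∧ x < 2 ^ (k₀ + 1) := by
  refine ⟨Nat.log 2 ⌊x⌋₊, ?_, ?_⟩
  · have h1 : 2 ^ Nat.log 2 ⌊x⌋₊ ≤ ⌊x⌋₊ := Nat.pow_log_le_self 2 (Nat.floor_pos.2 hx).ne'
    calc (2 : ℝ) ^ Nat.log 2 ⌊x⌋₊ = ((2 ^ Nat.log 2 ⌊x⌋₊ : ℕ) : ℝ) := by push_cast; rfl
      _ ≤ (⌊x⌋₊ : ℝ) := by exact_mod_cast h1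
      _ ≤ x := Nat.floor_le (by linarith)
  · have h1 : ⌊x⌋₊ < 2 ^ (Nat.log 2 ⌊x⌋₊ + 1) := Nat.lt_pow_succ_log_self (by norm_num) _
    have h2 : ⌊x⌋₊ + 1 ≤ 2 ^ (Nat.log 2 ⌊x⌋₊ + 1) := h1
    calc x < (⌊x⌋₊ : ℝ) + 1 := Nat.lt_floor_add_one x
      _ ≤ 2 ^ (Nat.log 2 ⌊x⌋₊ + 1) := by exact_mod_cast h2

theorem exists_class (σ : ℝ) (q : ℕ) : ∃ k : ℕ, sg σ q ≤ Real.exp (2 ^ k) := by
  obtain ⟨k, hk⟩ := pow_unbounded_of_one_lt (sg σ q) (by norm_num : (1 : ℝ) < 2)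
  refine ⟨k, hk.le.trans ?_⟩
  have := Real.add_one_le_exp ((2 : ℝ) ^ k)
  linarith

open Classical in
/-- the class of `q` -/
noncomputable def kq (σ : ℝ) (q : ℕ) : ℕ := Nat.find (exists_class σ q)

theorem kq_spec (σ : ℝ) (q : ℕ) : sg σ q ≤ Real.exp (2 ^ kq σ q) := by
  classical
  exact Nat.find_spec (exists_class σ q)

theorem lt_of_lt_kq {σ : ℝ} {q j : ℕ} (h : j < kq σ q) : Real.exp (2 ^ j) < sg σ q := by
  classical
  exact not_le.1 (Nat.find_min (exists_class σ q) h)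

theorem sg_le_of_kq_le {σ : ℝ} {q k : ℕ} (h : kq σ q ≤ k) : sg σ q ≤ Real.exp (2 ^ k) :=
  (kq_spec σ q).trans (Real.exp_le_exp.2 (pow_le_pow_right₀ (by norm_num) h))

theorem psum_swapR (R : ℕ → ℕ → Prop) (N : ℕ) (f h : ℕ → ℝ) :
    psum R N f h = psum (fun q r => R r q) N h f := by
  classical
  unfold psum
  rw [sum_comm]
  refine sum_congr rfl fun q _ => sum_congr rfl fun r _ => ?_
  simp only [mul_comm]

/-- splitting of a bilinear sum into a low part, classes, and two exceptional relations -/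
theorem psum_split4 (R Rc : ℕ → ℕ → Prop) (N : ℕ) (f fa : ℕ → ℝ) (S : Finset ℕ)
    (fk : ℕ → ℕ → ℝ) (hf : ∀ q, 0 ≤ f q) (hfa : ∀ q, 0 ≤ fa q) (hfk : ∀ k q, 0 ≤ fk k q)
    (H : ∀ q ∈ Icc 1 N, ∀ r ∈ Icc 1 N, R q r → f q * f r ≠ 0 →
      (fa q = f q ∧ fa r = f r) ∨ (∃ k ∈ S, fk k q = f q ∧ fk k r = f r) ∨ Rc q r ∨ Rc r q) :
    psum R N f f ≤ psum R N fa fa + ∑ k ∈ S, psum R N (fk k) (fk k) + psum Rc N f f
      + psum (fun q r => Rc r q) N f f := by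
  classical
  unfold psum
  have e : ∑ k ∈ S, ∑ q ∈ Icc 1 N, ∑ r ∈ Icc 1 N, (if R q r then fk k q * fk k r else 0)
      = ∑ q ∈ Icc 1 N, ∑ r ∈ Icc 1 N, ∑ k ∈ S, (if R q r then fk k q * fk k r else 0) := by
    rw [sum_comm]
    refine sum_congr rfl fun q _ => ?_
    rw [sum_comm]
  rw [e, ← sum_add_distrib, ← sum_add_distrib, ← sum_add_distrib]
  refine sum_le_sum fun q hq => ?_
  rw [← sum_add_distrib, ← sum_add_distrib, ← sum_add_distrib]
  refine sum_le_sum fun r hr => ?_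
  have p0 : 0 ≤ f q * f r := mul_nonneg (hf q) (hf r)
  have p1 : 0 ≤ (if R q r then fa q * fa r else 0) := by
    split_ifs
    · exact mul_nonneg (hfa q) (hfa r)
    · exact le_rfl
  have p2 : 0 ≤ ∑ k ∈ S, (if R q r then fk k q * fk k r else 0) := by
    refine sum_nonneg fun k _ => ?_
    split_ifs
    · exact mul_nonneg (hfk k q) (hfk k r)
    · exact le_rfl
  have p3 : 0 ≤ (if Rc q r then f q * f r else 0) := by
    split_ifs
    · exact p0
    · exact le_rfl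
  have p4 : 0 ≤ (if Rc r q then f q * f r else 0) := by
    split_ifs
    · exact p0
    · exact le_rfl
  change _ ≤ (if R q r then fa q * fa r else 0)
    + (∑ k ∈ S, (if R q r then fk k q * fk k r else 0)) + (if Rc q r then f q * f r else 0)
    + (if Rc r q then f q * f r else 0)
  by_cases hR : R q r
  · by_cases h0 : f q * f r = 0
    · rw [if_pos hR]
      linarith
    · rcases H q hq r hr hR h0 with ⟨h1, h2⟩ | ⟨k, hk, h1, h2⟩ | h1 | h1
      · rw [if_pos hR] at p1 ⊢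
        rw [if_pos hR, h1, h2]
        linarith
      · have p5 : f q * f r ≤ ∑ k ∈ S, (if R q r then fk k q * fk k r else 0) := by
          have := single_le_sum (f := fun k => (if R q r then fk k q * fk k r else 0))
            (fun k _ => by
              show 0 ≤ (if R q r then fk k q * fk k r else 0)
              rw [if_pos hR]
              exact mul_nonneg (hfk k q) (hfk k r)) hk
          simp only [if_pos hR, h1, h2] at this ⊢
          exact this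
        rw [if_pos hR]
        rw [if_pos hR] at p1
        simp only [if_pos hR] at p5 p2 ⊢
        linarith
      · rw [if_pos h1, if_pos hR]
        linarith
      · have p6 : (if Rc r q then f q * f r else 0) = f q * f r := if_pos h1
        rw [p6]
        rw [if_pos hR]
        linarith
  · rw [if_neg hR]
    linarith

end Vale.P028
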