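import Vale.Agent.P028.MathlibUsed
import Vale.Agent.P028.KDefs
import Vale.Agent.P028.QDefs

/-!
# Numerical conditions of the core estimate for far pairs
-/

namespace Vale.P028

open Finset

/-- numerical conditions of the core estimate -/
theorem rcore_num {B₀ σ : ℝ} (hB₀ : 0 < B₀) (hσ : σ < 1) :
    ∃ A : ℝ, 0 < A ∧ ∀ T s : ℝ, 1 ≤ T → 0 < s → s ≤ 1 / 1000 →
      ∃ y : ℝ, 0 < y ∧ 2 ≤ Real.log y ∧ ∀ S : ℝ, s ≤ S → S ≤ 1 →
        1 ≤ S * y * B₀ ∧ 1 ≤ S * y ∧
        S ^ (-(2 * (501 / 1000 : ℝ))) ≤ y ^ ((501 / 1000 : ℝ) - 1 / 2) ∧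
        (∀ q : ℕ, 0 < q → sg σ q ≤ T → LL y q ≤ S / 4) ∧
        1 ≤ S ^ (-Real.log y) ∧
        ∀ V₀ : ℝ, Real.exp (A * (1 + Real.log T + Real.log (1 / s)) * Real.log (1 / s)) ≤ V₀ →
        (S ^ (-Real.log y) / s) ^ 16 ≤ V₀ := by
  obtain ⟨E, hE⟩ : ∃ E : ℝ, E = Real.exp 2 * (4 / B₀ + 4) := ⟨_, rfl⟩
  obtain ⟨K, hK⟩ : ∃ K : ℝ, K = max 1002 (1 / (1 - σ)) := ⟨_, rfl⟩
  have h1σ : 0 < 1 - σ := by linarith only [hσ]
  have hK1 : 1002 ≤ K := by rw [hK]; exact le_max_left _ _
  have hK0 : 0 < K := by linarith only [hK1]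
  have hK2 : 1 ≤ K * (1 - σ) := by
    have : 1 / (1 - σ) ≤ K := by rw [hK]; exact le_max_right _ _
    rwa [div_le_iff₀ h1σ] at this
  have he1 : (1 : ℝ) ≤ Real.exp 2 := Real.one_le_exp (by norm_num)
  have hB4 : 0 < 4 / B₀ := by positivity
  have hE4 : 4 ≤ E := by
    rw [hE]
    calc (4 : ℝ) ≤ 4 / B₀ + 4 := by linarith only [hB4]
      _ = 1 * (4 / B₀ + 4) := by ring
      _ ≤ Real.exp 2 * (4 / B₀ + 4) :=
        mul_le_mul_of_nonneg_right he1 (by linarith only [hB4])
  have hEB : 1 ≤ E * B₀ := by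
    have h1 : 4 / B₀ ≤ E := by
      rw [hE]
      calc 4 / B₀ ≤ 4 / B₀ + 4 := by linarith
        _ = 1 * (4 / B₀ + 4) := by ring
        _ ≤ Real.exp 2 * (4 / B₀ + 4) :=
          mul_le_mul_of_nonneg_right he1 (by linarith only [hB4])
    have h2 : 4 / B₀ * B₀ ≤ E * B₀ := mul_le_mul_of_nonneg_right h1 hB₀.le
    rw [div_mul_cancel₀ _ hB₀.ne'] at h2
    linarith only [h2]
  have hEe : Real.exp 2 ≤ E := by
    rw [hE]
    calc Real.exp 2 = Real.exp 2 * 1 := by ring
      _ ≤ Real.exp 2 * (4 / B₀ + 4) :=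
        mul_le_mul_of_nonneg_left (by linarith only [hB4]) (Real.exp_pos 2).le
  have hE0 : 0 < E := by linarith only [hE4]
  have hlogE : 2 ≤ Real.log E := (Real.le_log_iff_exp_le hE0).2 hEe
  have hKE : 0 < K * Real.log E := mul_pos hK0 (by linarith only [hlogE])
  refine ⟨16 * (K * Real.log E + K + 1), by positivity, ?_⟩
  intro T s hT hs hs3
  have hT0 : 0 < T := by linarith only [hT]
  have hs1 : s ≤ 1 := by linarith only [hs3]
  obtain ⟨X, hX⟩ : ∃ X : ℝ, X = E * T / s := ⟨_, rfl⟩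
  have hET : E ≤ E * T := by
    calc E = E * 1 := by ring
      _ ≤ E * T := mul_le_mul_of_nonneg_left hT hE0.le
  have hX0 : 0 < X := by rw [hX]; positivity
  have hXs : X * s = E * T := by rw [hX]; field_simp
  have hXE : E ≤ X := by
    rw [hX, le_div_iff₀ hs]
    calc E * s ≤ E * 1 := mul_le_mul_of_nonneg_left hs1 hE0.le
      _ = E := by ring
      _ ≤ E * T := hET
  have hX1 : 1 ≤ X := by linarith only [hXE, hE4]
  have hXinv : 1 / s ≤ X := by
    rw [hX]
    apply div_le_div_of_nonneg_right _ hs.le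
    linarith only [hET, hE4]
  obtain ⟨y, hy⟩ : ∃ y : ℝ, y = X ^ K := ⟨_, rfl⟩
  have hy0 : 0 < y := by rw [hy]; exact Real.rpow_pos_of_pos hX0 _
  have hXy : X ≤ y := by
    calc X = X ^ (1 : ℝ) := (Real.rpow_one X).symm
      _ ≤ X ^ K := Real.rpow_le_rpow_of_exponent_le hX1 (by linarith only [hK1])
      _ = y := hy.symm
  have hlogX : Real.log X = Real.log E + Real.log T + Real.log (1 / s) := by
    rw [hX, div_eq_mul_one_div, Real.log_mul (by positivity) (by positivity),
      Real.log_mul hE0.ne' hT0.ne']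
  have hlogy : Real.log y = K * Real.log X := by rw [hy, Real.log_rpow hX0]
  have hlT : 0 ≤ Real.log T := Real.log_nonneg hT
  have hls : 0 ≤ Real.log (1 / s) := by
    apply Real.log_nonneg
    rw [le_div_iff₀ hs]
    linarith only [hs1]
  have hlX2 : 2 ≤ Real.log X := by linarith only [hlogX, hlogE, hlT, hls]
  have hly2 : 2 ≤ Real.log y := by
    rw [hlogy]
    nlinarith only [hlX2, hK1]
  refine ⟨y, hy0, hly2, ?_⟩
  intro S hsS hS1
  have hS0 : 0 < S := lt_of_lt_of_le hs hsS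
  have hSy : E ≤ S * y := by
    calc E ≤ E * T := hET
      _ = s * X := by rw [← hXs]; ring
      _ ≤ S * y := mul_le_mul hsS hXy hX0.le hS0.le
  refine ⟨?_, ?_, ?_, ?_, ?_, ?_⟩
  · calc (1 : ℝ) ≤ E * B₀ := hEB
      _ ≤ S * y * B₀ := mul_le_mul_of_nonneg_right hSy hB₀.le
  · linarith only [hSy, hE4]
  · have h1 : S ^ (-(2 * (501 / 1000 : ℝ))) ≤ s ^ (-(2 * (501 / 1000 : ℝ))) :=
      Real.rpow_le_rpow_of_nonpos hs hsS (by norm_num)
    have h2 : s ^ (-(2 * (501 / 1000 : ℝ))) = (1 / s) ^ ((1002 / 1000 : ℝ)) := by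
      rw [one_div, Real.inv_rpow hs.le, ← Real.rpow_neg hs.le]
      congr 1
      norm_num
    have h3 : (1 / s) ^ ((1002 / 1000 : ℝ)) ≤ X ^ ((1002 / 1000 : ℝ)) :=
      Real.rpow_le_rpow (by positivity) hXinv (by norm_num)
    have h4 : X ^ ((1002 / 1000 : ℝ)) ≤ X ^ (K * ((501 / 1000 : ℝ) - 1 / 2)) := by
      apply Real.rpow_le_rpow_of_exponent_le hX1
      linarith only [hK1]
    have h5 : y ^ ((501 / 1000 : ℝ) - 1 / 2) = X ^ (K * ((501 / 1000 : ℝ) - 1 / 2)) := by
      rw [hy, ← Real.rpow_mul hX0.le]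
    rw [h5]
    exact h1.trans (h2.le.trans (h3.trans h4))
  · intro q hq hsg
    have h1 : LL y q ≤ y ^ (-(1 - σ)) * sg σ q := by
      unfold LL sg
      rw [mul_sum]
      calc ∑ p ∈ q.primeFactors.filter (fun p : ℕ => y < (p : ℝ)), 1 / (p : ℝ)
          ≤ ∑ p ∈ q.primeFactors.filter (fun p : ℕ => y < (p : ℝ)),
            y ^ (-(1 - σ)) * (p : ℝ) ^ (-σ) := by
            refine sum_le_sum fun p hp => ?_
            have hp1 : y < (p : ℝ) := (mem_filter.1 hp).2
            have hp0 : (0 : ℝ) < p := hy0.trans hp1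
            have e1 : 1 / (p : ℝ) = (p : ℝ) ^ (-(1 - σ)) * (p : ℝ) ^ (-σ) := by
              rw [← Real.rpow_add hp0, one_div, ← Real.rpow_neg_one]
              congr 1
              ring
            rw [e1]
            apply mul_le_mul_of_nonneg_right _ (Real.rpow_nonneg hp0.le _)
            exact Real.rpow_le_rpow_of_nonpos hy0 hp1.le (by linarith only [h1σ])
        _ ≤ ∑ p ∈ q.primeFactors, y ^ (-(1 - σ)) * (p : ℝ) ^ (-σ) := by
            apply sum_le_sum_of_subset_of_nonneg (filter_subset _ _)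
            intro p _ _
            exact mul_nonneg (Real.rpow_nonneg hy0.le _) (Real.rpow_nonneg (Nat.cast_nonneg p) _)
    have h2 : y ^ (-(1 - σ)) ≤ 1 / X := by
      have e1 : y ^ (-(1 - σ)) = X ^ (-(K * (1 - σ))) := by
        rw [hy, ← Real.rpow_mul hX0.le]
        congr 1
        ring
      rw [e1, one_div, ← Real.rpow_neg_one]
      exact Real.rpow_le_rpow_of_exponent_le hX1 (by linarith only [hK2])
    have h3 : (1 / X) * T ≤ s / 4 := by
      rw [one_div, inv_mul_le_iff₀ hX0]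
      have e2 : X * (s / 4) = E * T / 4 := by rw [← hXs]; ring
      rw [e2]
      nlinarith only [hE4, hT0]
    calc LL y q ≤ y ^ (-(1 - σ)) * sg σ q := h1
      _ ≤ y ^ (-(1 - σ)) * T := mul_le_mul_of_nonneg_left hsg (Real.rpow_nonneg hy0.le _)
      _ ≤ (1 / X) * T := mul_le_mul_of_nonneg_right h2 hT0.le
      _ ≤ s / 4 := h3
      _ ≤ S / 4 := by linarith only [hsS]
  · exact Real.one_le_rpow_of_pos_of_le_one_of_nonpos hS0 hS1 (by linarith only [hly2])
  · intro V₀ hV
    refine le_trans ?_ hV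
    have h1 : S ^ (-Real.log y) ≤ s ^ (-Real.log y) :=
      Real.rpow_le_rpow_of_nonpos hs hsS (by linarith only [hly2])
    have h2 : s ^ (-Real.log y) = Real.exp (Real.log y * Real.log (1 / s)) := by
      rw [Real.rpow_def_of_pos hs, one_div, Real.log_inv]
      congr 1
      ring
    have h3 : 1 / s = Real.exp (Real.log (1 / s)) := by
      rw [Real.exp_log (by positivity)]
    have h4 : S ^ (-Real.log y) / s ≤ Real.exp (Real.log y * Real.log (1 / s) + Real.log (1 / s)) := by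
      calc S ^ (-Real.log y) / s = S ^ (-Real.log y) * (1 / s) := by ring
        _ ≤ Real.exp (Real.log y * Real.log (1 / s)) * (1 / s) := by
          rw [← h2]
          exact mul_le_mul_of_nonneg_right h1 (by positivity)
        _ = Real.exp (Real.log y * Real.log (1 / s) + Real.log (1 / s)) := by
          rw [Real.exp_add, ← h3]
    have h5 : 0 ≤ S ^ (-Real.log y) / s := div_nonneg (Real.rpow_nonneg hS0.le _) hs.le
    calc (S ^ (-Real.log y) / s) ^ 16
        ≤ (Real.exp (Real.log y * Real.log (1 / s) + Real.log (1 / s))) ^ 16 :=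
          pow_le_pow_left₀ h5 h4 16
      _ = Real.exp (16 * (Real.log y * Real.log (1 / s) + Real.log (1 / s))) := by
          rw [← Real.exp_nat_mul]
          norm_num
      _ ≤ _ := by
          apply Real.exp_le_exp.2
          have e1 : 16 * (Real.log y * Real.log (1 / s) + Real.log (1 / s)) =
              16 * (Real.log y + 1) * Real.log (1 / s) := by ring
          rw [e1]
          apply mul_le_mul_of_nonneg_right _ hls
          rw [hlogy, hlogX]
          have hK' : 0 ≤ K := hK0.le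
          have a1 : 0 ≤ K * Real.log E * Real.log T := by positivity
          have a2 : 0 ≤ K * Real.log E * Real.log (1 / s) := by positivity
          nlinarith only [a1, a2, hlT, hls, hK', hKE]

end Vale.P028
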