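import Vale.Agent.P028.MathlibUsed
import Vale.Agent.P028.KGen
import Vale.Agent.P028.KDefs

/-!
# `T1gen` with an anatomical hypothesis on the moduli

Copy of `T1gen` (KGen.lean); the hypothesis `4 * log q ≤ S * y` is only used in `weightB`
(MCaseB.lean); here it is replaced by `LL y q ≤ S / 4` (`LL y q = ∑_{p ∣ q, p > y} 1/p`):
`∏_{p ∣ q, p > y} (1 - 1/(S p)) ≥ 1 - LL y q / S ≥ 3/4`.
-/

namespace Vale.P028

open Finset

/-- `weightB` with the anatomical hypothesis -/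
theorem weightT {S y : ℝ} (hS : 0 < S) (hy0 : 0 < y) (hS1 : 1 ≤ S * y) {q : ℕ} (hq : 0 < q)
    (hSy : LL y q ≤ S / 4) (P : Finset ℕ) (hP : ∀ p ∈ P, p.Prime) :
    ((q.totient : ℝ) / q) ≤ 2 * ∏ p ∈ P with p ∣ q, (1 - xB S y p) := by
  refine (totient_weight_le P hP q).trans ?_
  set Q : Finset ℕ := P.filter (fun p => p ∣ q) with hQ
  have hQp : ∀ p ∈ Q, p.Prime := fun p hp => hP p (mem_filter.1 hp).1
  have hQd : ∀ p ∈ Q, p ∣ q := fun p hp => (mem_filter.1 hp).2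
  rw [← prod_filter_mul_prod_filter_not Q (fun p : ℕ => (p : ℝ) ≤ y) (fun p => 1 - 1 / (p : ℝ)),
    ← prod_filter_mul_prod_filter_not Q (fun p : ℕ => (p : ℝ) ≤ y) (fun p => 1 - xB S y p)]
  have h1 : ∏ p ∈ Q.filter (fun p : ℕ => (p : ℝ) ≤ y), (1 - 1 / (p : ℝ)) =
      ∏ p ∈ Q.filter (fun p : ℕ => (p : ℝ) ≤ y), (1 - xB S y p) := by
    refine prod_congr rfl fun p hp => ?_
    unfold xB
    rw [if_pos (mem_filter.1 hp).2]
  have hinv : ∀ p ∈ Q, 0 ≤ 1 / (p : ℝ) ∧ 1 / (p : ℝ) ≤ 1 := by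
    intro p hp
    have hp1 : (1 : ℝ) ≤ p := by exact_mod_cast (hQp p hp).one_lt.le
    refine ⟨by (clear * - hp1; positivity), ?_⟩
    rw [div_le_one (by linarith only [hp1])]
    exact hp1
  have h2 : ∏ p ∈ Q.filter (fun p : ℕ => ¬ (p : ℝ) ≤ y), (1 - 1 / (p : ℝ)) ≤ 1 := by
    refine prod_le_one ?_ ?_
    · intro p hp
      have := hinv p (mem_filter.1 hp).1
      linarith only [this]
    · intro p hp
      have := hinv p (mem_filter.1 hp).1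
      linarith only [this]
  have h3 : 0 ≤ ∏ p ∈ Q.filter (fun p : ℕ => (p : ℝ) ≤ y), (1 - xB S y p) := by
    rw [← h1]
    refine prod_nonneg fun p hp => ?_
    have := hinv p (mem_filter.1 hp).1
    linarith only [this]
  have hx : ∀ p ∈ Q.filter (fun p : ℕ => ¬ (p : ℝ) ≤ y), 0 ≤ xB S y p ∧ xB S y p ≤ 1 / (S * y) := by
    intro p hp
    have h4 := (mem_filter.1 hp).2
    unfold xB
    rw [if_neg h4]
    push Not at h4
    have hp0 : (0 : ℝ) < p := hy0.trans h4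
    refine ⟨by (clear * - hS hp0; positivity), ?_⟩
    apply one_div_le_one_div_of_le (by positivity)
    (clear * - h4 hS; gcongr)
  have hone : 1 / (S * y) ≤ 1 := by
    rw [div_le_one (by positivity)]
    exact hS1
  have h4 := one_sub_sum_le_prod (Q.filter (fun p : ℕ => ¬ (p : ℝ) ≤ y)) (xB S y)
    (fun p hp => ⟨(hx p hp).1, (hx p hp).2.trans hone⟩)
  have h5 : ∑ p ∈ Q.filter (fun p : ℕ => ¬ (p : ℝ) ≤ y), xB S y p ≤ 1 / 2 := by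
    calc ∑ p ∈ Q.filter (fun p : ℕ => ¬ (p : ℝ) ≤ y), xB S y p
        = ∑ p ∈ Q.filter (fun p : ℕ => ¬ (p : ℝ) ≤ y), 1 / S * (1 / (p : ℝ)) := by
          refine sum_congr rfl fun p hp => ?_
          unfold xB
          rw [if_neg (mem_filter.1 hp).2, one_div_mul_one_div]
      _ = 1 / S * ∑ p ∈ Q.filter (fun p : ℕ => ¬ (p : ℝ) ≤ y), 1 / (p : ℝ) := by rw [mul_sum]
      _ ≤ 1 / S * LL y q := by
          refine mul_le_mul_of_nonneg_left ?_ (by positivity)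
          unfold LL
          refine sum_le_sum_of_subset_of_nonneg ?_ fun p _ _ => by positivity
          intro p hp
          have h6 := (mem_filter.1 hp).1
          exact mem_filter.2 ⟨Nat.mem_primeFactors.2 ⟨hQp p h6, hQd p h6, hq.ne'⟩,
            not_le.1 (mem_filter.1 hp).2⟩
      _ ≤ 1 / S * (S / 4) := mul_le_mul_of_nonneg_left hSy (by positivity)
      _ = 1 / 4 := by field_simp
      _ ≤ 1 / 2 := by norm_num
  rw [h1]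
  have h6 : 1 / 2 ≤ ∏ p ∈ Q.filter (fun p : ℕ => ¬ (p : ℝ) ≤ y), (1 - xB S y p) := by linarith only [h4, h5]
  calc (∏ p ∈ Q.filter (fun p : ℕ => (p : ℝ) ≤ y), (1 - xB S y p)) *
        ∏ p ∈ Q.filter (fun p : ℕ => ¬ (p : ℝ) ≤ y), (1 - 1 / (p : ℝ))
      ≤ (∏ p ∈ Q.filter (fun p : ℕ => (p : ℝ) ≤ y), (1 - xB S y p)) * 1 :=
        mul_le_mul_of_nonneg_left h2 h3
    _ ≤ (∏ p ∈ Q.filter (fun p : ℕ => (p : ℝ) ≤ y), (1 - xB S y p)) *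
        (2 * ∏ p ∈ Q.filter (fun p : ℕ => ¬ (p : ℝ) ≤ y), (1 - xB S y p)) :=
        mul_le_mul_of_nonneg_left (by linarith only [h4, h5]) h3
    _ = _ := by ring

open Classical in
theorem T1genT {θ : ℝ} (hθ : 1 / 2 < θ) (hθ1 : θ < 1) :
    ∃ B₀ > 0, ∃ C > 0, ∀ (Ω : ℕ → ℕ → Prop) (S y : ℝ), 0 < S → S ≤ 1 → 0 < y →
      2 ≤ Real.log y → 1 ≤ S * y * B₀ → 1 ≤ S * y → S ^ (-(2 * θ)) ≤ y ^ (θ - 1 / 2) →
      (∀ a b : ℕ, 0 < a → 0 < b → (a : ℝ) ≤ S ^ (-Real.log y) →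
        (b : ℝ) ≤ S ^ (-Real.log y) → ∀ q₀ r₀ : ℕ, 0 < q₀ → 0 < r₀ → Ω (a * q₀) (b * r₀) →
        (((Icc 1 q₀).filter (fun m => Ω (a * m) (b * r₀))).card : ℝ) *
          (((Icc 1 r₀).filter (fun n => Ω (a * q₀) (b * n))).card : ℝ) ≤ S * q₀ * r₀) →
      ∀ (ψ₁ ψ₂ f h : ℕ → ℝ) (s₁ s₂ : ℝ) (N : ℕ), 0 < s₁ → 0 < s₂ →
        (∀ q, 0 ≤ ψ₁ q) → (∀ q, 0 ≤ ψ₂ q) →
        (∀ q, 0 ≤ f q ∧ f q ≤ ψ₁ q * (q.totient / q)) →
        (∀ r, 0 ≤ h r ∧ h r ≤ ψ₂ r * (r.totient / r)) →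
        (∀ q : ℕ, f q ≠ 0 → 0 < q ∧ LL y q ≤ S / 4) →
        (∀ q : ℕ, h q ≠ 0 → 0 < q ∧ LL y q ≤ S / 4) →
        psum (fun q r => Ω (cofac q r) (cofac r q) ∧ (cofac r q : ℝ) * ψ₁ q ≤ s₁ ∧
          (cofac q r : ℝ) * ψ₂ r ≤ s₂) N f h ≤
        C * (s₁ * s₂ * S) ^ (1 - θ) * ((∑ q ∈ Icc 1 N, f q) * ∑ r ∈ Icc 1 N, h r) ^ θ := by
  obtain ⟨B₀, hB₀, C, hC, hB₀1, hSPs⟩ := SP_small hθ hθ1
  obtain ⟨K₀, hK₀, hprod⟩ := prod_cB (C := C) hθ hθ1 hB₀ hC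
  refine ⟨B₀, hB₀, K₀ * 64 ^ (1 - θ), by (clear * - hK₀; positivity), ?_⟩
  intro Ω S y hS0 hS1 hy0 hly hn1 hn2 hn3 hdens ψ₁ ψ₂ f h s₁ s₂ N hs₁ hs₂ hψ₁ hψ₂ hf hh hsf hsh
  have hy1 : 1 < y := by
    by_contra hne
    push Not at hne
    have := Real.log_nonpos hy0.le hne
    linarith only [hly, this]
  have hbase := kg_base Ω hθ hθ1 hS0 hS1 hy1 hdens
  have hl0 : 0 < 1 - θ := by linarith only [hθ1]
  set P : Finset ℕ := (Icc 1 N).filter Nat.Prime with hPdef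
  have hP : ∀ p ∈ P, p.Prime := fun p hp => (mem_filter.1 hp).2
  have hxlt : ∀ p : ℕ, p.Prime → xB S y p < 1 := by
    intro p hp
    obtain ⟨h1, h2⟩ := xB_le hS0 hly hp
    by_cases hpy : (p : ℝ) ≤ y
    · have h3 := (BqB_bounds (S := S) hly hp hpy).2.2.2
      have h4 : ((1 / 2 : ℝ)) ^ (1 / 2 : ℝ) < 1 :=
        Real.rpow_lt_one (by norm_num) (by norm_num) (by norm_num)
      linarith only [h2, h3, h4]
    · have h3 := (BqB_large hS0 hB₀ hy0 hn1 hpy).1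
      linarith only [hB₀1, h2, h3]
  have hB0 : ∀ p : ℕ, p.Prime → 0 ≤ (BqB S y p) ^ (1 - θ) := by
    intro p hp
    obtain ⟨h1, h2⟩ := xB_le hS0 hly hp
    exact Real.rpow_nonneg (by linarith only [h1, h2]) _
  have hg : ∀ p : ℕ, p.Prime → ∀ a b l : ℕ, 0 < a → 0 < b →
      KB θ S y (a * p ^ l) b ≤ ((BqB S y p) ^ (1 - θ)) ^ l * KB θ S y a b := by
    intro p hp a b l ha hb
    rw [KB_grow hp a b l ha hb, BqB_eq hS0 hp]
  have hF0 : 0 ≤ ∑ q ∈ Icc 1 N, f q := sum_nonneg fun q _ => (hf q).1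
  have hH0 : 0 ≤ ∑ q ∈ Icc 1 N, h q := sum_nonneg fun q _ => (hh q).1
  have hw : ∀ (ψ f : ℕ → ℝ), (∀ q, 0 ≤ ψ q) → (∀ q, 0 ≤ f q ∧ f q ≤ ψ q * (q.totient / q)) →
      (∀ q : ℕ, f q ≠ 0 → 0 < q ∧ LL y q ≤ S / 4) →
      ∀ q, 0 ≤ f q ∧ f q ≤ (2 * ψ q) * ∏ p ∈ P with p ∣ q, (1 - xB S y p) := by
    intro ψ f hψ hf hsupp q
    refine ⟨(hf q).1, ?_⟩
    have hprod0 : 0 ≤ ∏ p ∈ P with p ∣ q, (1 - xB S y p) := by
      refine prod_nonneg fun p hp => ?_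
      have := hxlt p (hP p (mem_filter.1 hp).1)
      linarith only [this]
    by_cases h0 : f q = 0
    · rw [h0]
      have := hψ q
      (clear * - this hprod0; positivity)
    · obtain ⟨hq, hq4⟩ := hsupp q h0
      have h1 := weightT hS0 hy0 hn2 hq hq4 P hP
      calc f q ≤ ψ q * (q.totient / q) := (hf q).2
        _ ≤ ψ q * (2 * ∏ p ∈ P with p ∣ q, (1 - xB S y p)) :=
            mul_le_mul_of_nonneg_left h1 (hψ q)
        _ = (2 * ψ q) * ∏ p ∈ P with p ∣ q, (1 - xB S y p) := by ring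
  have hL := theoremL Ω hθ hθ1 (KB θ S y)
    (fun a b => KB_nonneg hθ1 hS0 hS1 hy1 a b) hbase P hP
    (fun p => (BqB S y p) ^ (1 - θ)) (xB S y) (cMB θ B₀ C S y)
    (fun p hp => hB0 p (hP p hp))
    (fun p hp => ⟨(xB_le hS0 hly (hP p hp)).1.le, hxlt p (hP p hp)⟩)
    (fun p hp => cB_nonneg hθ1 hB₀ hC hS0 hy0 hly hn1 (hP p hp))
    (fun p hp a b l ha hb => hg p (hP p hp) a b l ha hb)
    (fun p hp a b l ha hb => by
      rw [KB_comm _ _ _ a, KB_comm _ _ _ a b]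
      exact hg p (hP p hp) b a l hb ha)
    (fun p hp => SP_cB hθ hθ1 hB₀ hSPs hS0 hy0 hly hn1 (hP p hp))
    1 1 one_pos one_pos (fun q => 2 * ψ₁ q) (fun q => 2 * ψ₂ q) f h (2 * s₁) (2 * s₂) N
    (by positivity) (by positivity) (fun q => by have := hψ₁ q; (clear * - this; positivity))
    (fun q => by have := hψ₂ q; (clear * - this; positivity)) (hw ψ₁ f hψ₁ hf hsf) (hw ψ₂ h hψ₂ hh hsh)
  have hmono : psum (fun q r => Ω (cofac q r) (cofac r q) ∧ (cofac r q : ℝ) * ψ₁ q ≤ s₁ ∧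
          (cofac q r : ℝ) * ψ₂ r ≤ s₂) N f h ≤
      Lam Ω P 1 1 (fun q => 2 * ψ₁ q) (fun q => 2 * ψ₂ q) (2 * s₁) (2 * s₂) N f h := by
    unfold Lam
    refine psum_mono _ _ N f h f h (fun q => (hf q).1) (fun q => (hh q).1) ?_
    intro q hq r hr hqr hne
    obtain ⟨hr1, hr2, hr3⟩ := hqr
    refine ⟨⟨?_, ?_, ?_, ?_⟩, le_rfl⟩
    · intro p hp hpd
      rw [mem_Icc] at hq
      have h1 : p ∣ q := hpd.trans (Nat.gcd_dvd_left q r)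
      have h2 : p ≤ q := Nat.le_of_dvd (by omega) h1
      simp only [hPdef, mem_filter, mem_Icc]
      exact ⟨⟨hp.one_lt.le, by omega⟩, hp⟩
    · rw [one_mul, one_mul]
      exact hr1
    · push_cast
      linarith only [hr2]
    · push_cast
      linarith only [hr3]
  refine hmono.trans (hL.trans ?_)
  have hK11 : KB θ S y 1 1 = (16 : ℝ) ^ (1 - θ) * S ^ (1 - θ) := by
    unfold KB
    rw [mm_one]
    norm_num
  rw [hK11]
  have hpr := hprod S y hS0 hS1 hy0 hly hn1 hn3 P hP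
  have hall : (2 * s₁ * (2 * s₂)) ^ (1 - θ) * ((16 : ℝ) ^ (1 - θ) * S ^ (1 - θ)) =
      64 ^ (1 - θ) * (s₁ * s₂ * S) ^ (1 - θ) := by
    rw [← Real.mul_rpow (by positivity) (by positivity),
      ← Real.mul_rpow (by (clear * - hs₁ hs₂; positivity)) (by positivity),
      ← Real.mul_rpow (by positivity) (by (clear * - hs₁ hs₂ hS0; positivity))]
    congr 1
    ring
  have hX0 : 0 ≤ (2 * s₁ * (2 * s₂)) ^ (1 - θ) * ((16 : ℝ) ^ (1 - θ) * S ^ (1 - θ)) *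
      ((∑ q ∈ Icc 1 N, f q) * ∑ r ∈ Icc 1 N, h r) ^ θ := by (clear * - hs₁ hs₂ hS0 hF0 hH0; positivity)
  calc (∏ p ∈ P, cMB θ B₀ C S y p) * (2 * s₁ * (2 * s₂)) ^ (1 - θ) *
        ((16 : ℝ) ^ (1 - θ) * S ^ (1 - θ)) *
        ((∑ q ∈ Icc 1 N, f q) * ∑ r ∈ Icc 1 N, h r) ^ θ
      = (∏ p ∈ P, cMB θ B₀ C S y p) * ((2 * s₁ * (2 * s₂)) ^ (1 - θ) *
        ((16 : ℝ) ^ (1 - θ) * S ^ (1 - θ)) *
        ((∑ q ∈ Icc 1 N, f q) * ∑ r ∈ Icc 1 N, h r) ^ θ) := by ring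
    _ ≤ K₀ * ((2 * s₁ * (2 * s₂)) ^ (1 - θ) *
        ((16 : ℝ) ^ (1 - θ) * S ^ (1 - θ)) *
        ((∑ q ∈ Icc 1 N, f q) * ∑ r ∈ Icc 1 N, h r) ^ θ) :=
        mul_le_mul_of_nonneg_right hpr hX0
    _ = K₀ * 64 ^ (1 - θ) * (s₁ * s₂ * S) ^ (1 - θ) *
        ((∑ q ∈ Icc 1 N, f q) * ∑ r ∈ Icc 1 N, h r) ^ θ := by
        rw [hall]
        ring

end Vale.P028
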