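import Vale.Agent.P028.MathlibUsed
import Vale.Agent.P028.RGen
import Vale.Agent.P028.KCore
import Vale.Agent.P028.QDefs
import Vale.Agent.P028.RCoreNum

/-!
# Core estimate for far pairs with `∑_{p ∣ q} p^{-σ} ≤ T`

Copy of `kcore_num` and `coreG` (KCore.lean) with `T1genT` instead of `T1gen`.
Numerics: `θ = 501/1000`, `y = (e^2 (4/B₀ + 4) T / s)^K`, `K = max 1002 (1/(1-σ))`; for
`s ≤ S ≤ 1`: `LL y q ≤ y^(-(1-σ)) sg σ q ≤ T y^(-(1-σ)) ≤ s/4 ≤ S/4`;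
`(S^(-log y)/s)^16 ≤ exp (16 log y log(1/s) + 16 log(1/s)) ≤ exp (A (1+log T+log(1/s)) log(1/s))`.
-/

namespace Vale.P028

open Finset

open Classical in
theorem coreT {σ : ℝ} (hσ : σ < 1) :
    ∃ θ c A C : ℝ, 1 / 2 < θ ∧ θ < 1 ∧ 0 < c ∧ 0 < A ∧ 0 < C ∧
      ∀ γ T s V₀ : ℝ, 1 ≤ T → 0 < s → s ≤ 1 / 1000 →
        Real.exp (A * (1 + Real.log T + Real.log (1 / s)) * Real.log (1 / s)) ≤ V₀ →
      ∀ (N : ℕ) (ψ f : ℕ → ℝ), (∀ q, 0 ≤ ψ q) →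
        (∀ q, 0 ≤ f q ∧ f q ≤ ψ q * (q.totient / q)) →
        (∀ q, f q ≠ 0 → 0 < q ∧ sg σ q ≤ T) →
        psum (fun q r => Rel γ ψ s q r ∧ Far γ s (cofac q r) (cofac r q) ∧
          V₀ ≤ max (cofac q r : ℝ) (cofac r q : ℝ)) N f f ≤
        C * s ^ (1 + c) * (∑ q ∈ Icc 1 N, f q) ^ (2 * θ) := by
  classical
  have hθ : (1 / 2 : ℝ) < 501 / 1000 := by norm_num
  have hθ1 : (501 / 1000 : ℝ) < 1 := by norm_num
  obtain ⟨B₀, hB₀, C₁, hC₁, hT1⟩ := T1genT hθ hθ1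
  obtain ⟨C₂, hC₂, hT2⟩ := T1_dvd hθ hθ1
  obtain ⟨A, hA, hnum⟩ := rcore_num hB₀ hσ
  refine ⟨501 / 1000, 1 / 64, A, C₁ * 70 + 2 * C₂, hθ, hθ1, by norm_num, hA, by (clear * - hC₁ hC₂; positivity), ?_⟩
  intro γ T s V₀ hT hs hs' hV₀ N ψ f hψ hf hsupp
  obtain ⟨y, hy0, hly, hnum'⟩ := hnum T s hT hs hs'
  set t : ℝ := s ^ (1 / 16 : ℝ) with ht
  have ht0 : 0 < t := by (clear * - hs; positivity)
  have hst : t ^ 16 = s := by
    rw [ht, ← Real.rpow_natCast, ← Real.rpow_mul hs.le]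
    norm_num
  have ht1 : t < 1 := Real.rpow_lt_one hs.le (by linarith only [hs']) (by norm_num)
  have hst' : s ≤ t := by
    rw [← hst]
    calc t ^ 16 ≤ t ^ 1 := pow_le_pow_of_le_one ht0.le ht1.le (by norm_num)
      _ = t := pow_one t
  set S : ℝ := min 1 (70 * t) with hS
  have hsS : s ≤ S := le_min (by linarith only [hs']) (by linarith only [ht0, hst'])
  have hS1 : S ≤ 1 := min_le_left _ _
  have hS0 : 0 < S := lt_of_lt_of_le hs hsS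
  obtain ⟨hn1, hn2, hn3, hn4, hn5, hn6⟩ := hnum' S hsS hS1
  have hn7 := hn6 V₀ hV₀
  set Z : ℝ := S ^ (-Real.log y) with hZ
  have hV0 : 0 < V₀ := lt_of_lt_of_le (Real.exp_pos _) hV₀
  set W : ℝ := V₀ ^ (1 / 4 : ℝ) with hW
  have hW4 : W ^ 4 = V₀ := by
    rw [hW, ← Real.rpow_natCast, ← Real.rpow_mul hV0.le]
    norm_num
  have hWZ : (Z / s) ^ 4 ≤ W := by
    have h1 : ((Z / s) ^ 16) ^ (1 / 4 : ℝ) ≤ V₀ ^ (1 / 4 : ℝ) :=
      Real.rpow_le_rpow (by (clear * - hs; positivity)) hn7 (by norm_num)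
    have h2 : ((Z / s) ^ 16) ^ (1 / 4 : ℝ) = (Z / s) ^ 4 := by
      have h3 : 0 ≤ Z / s := by (clear * - hs; positivity)
      rw [← Real.rpow_natCast (Z / s) 16, ← Real.rpow_mul h3,
        show ((16 : ℕ) : ℝ) * (1 / 4) = ((4 : ℕ) : ℝ) by norm_num, Real.rpow_natCast]
    rwa [h2] at h1
  have hF0 : 0 ≤ ∑ q ∈ Icc 1 N, f q := sum_nonneg fun q _ => (hf q).1
  have hsupp' : ∀ q : ℕ, f q ≠ 0 → 0 < q ∧ LL y q ≤ S / 4 := fun q hq =>
    ⟨(hsupp q hq).1, hn4 q (hsupp q hq).1 (hsupp q hq).2⟩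
  -- the main part
  have hmain := hT1 (OmG γ V₀ W t s) S y hS0 hS1 hy0 hly hn1 hn2 hn3 (by
    intro a b ha hb haZ hbZ q₀ r₀ hq₀ hr₀ hΩ
    rcases le_total (b * r₀) (a * q₀) with h | h
    · have h1 := kc_row ht0 hst hs' hn5 hWZ hW4 ha haZ hq₀ h hΩ
      have h2 : (((Icc 1 r₀).filter (fun n => OmG γ V₀ W t s (a * q₀) (b * n))).card : ℝ) ≤
          r₀ := card_filter_cl _ _
      calc _ ≤ (S * q₀) * r₀ := mul_le_mul h1 h2 (by (clear * -; positivity)) (by (clear * - hs hq₀; positivity))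
        _ = S * q₀ * r₀ := by ring
    · have h1 := kc_row ht0 hst hs' hn5 hWZ hW4 hb hbZ hr₀ h (OmG_comm hΩ)
      have h2 : (((Icc 1 q₀).filter (fun m => OmG γ V₀ W t s (a * m) (b * r₀))).card : ℝ) ≤
          q₀ := card_filter_cl _ _
      have h3 : ((Icc 1 r₀).filter (fun n => OmG γ V₀ W t s (a * q₀) (b * n))) =
          (Icc 1 r₀).filter (fun n => OmG γ V₀ W t s (b * n) (a * q₀)) := by
        refine filter_congr fun n _ => ⟨fun h => OmG_comm h, fun h => OmG_comm h⟩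
      rw [h3]
      calc _ ≤ (q₀ : ℝ) * (S * r₀) := mul_le_mul h2 h1 (by (clear * -; positivity)) (by (clear * - hq₀; positivity))
        _ = S * q₀ * r₀ := by ring) ψ ψ f f s s N hs hs hψ hψ hf hf hsupp' hsupp'
  have hbad := kc_bad_pairs (γ := γ) (W := W) hθ hθ1 hC₂ hT2 ht0 ht1 hs N ψ f hψ hf
  -- the second bad part, by symmetry
  have hbad' : psum (fun q r => KBadn γ W t (cofac r q) ∧ (cofac r q : ℝ) * ψ q ≤ s ∧
        (cofac q r : ℝ) * ψ r ≤ s) N f f =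
      psum (fun q r => KBadn γ W t (cofac q r) ∧ (cofac r q : ℝ) * ψ q ≤ s ∧
        (cofac q r : ℝ) * ψ r ≤ s) N f f := by
    rw [kc_psum_symm]
    congr 1
    funext q r
    rw [eq_iff_iff]
    constructor
    · rintro ⟨h1, h2, h3⟩
      exact ⟨h1, h3, h2⟩
    · rintro ⟨h1, h2, h3⟩
      exact ⟨h1, h3, h2⟩
  have hsplit : psum (fun q r => Rel γ ψ s q r ∧ Far γ s (cofac q r) (cofac r q) ∧
          V₀ ≤ max (cofac q r : ℝ) (cofac r q : ℝ)) N f f ≤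
      psum (fun q r => OmG γ V₀ W t s (cofac q r) (cofac r q) ∧
          (cofac r q : ℝ) * ψ q ≤ s ∧ (cofac q r : ℝ) * ψ r ≤ s) N f f +
      psum (fun q r => KBadn γ W t (cofac q r) ∧ (cofac r q : ℝ) * ψ q ≤ s ∧
        (cofac q r : ℝ) * ψ r ≤ s) N f f +
      psum (fun q r => KBadn γ W t (cofac r q) ∧ (cofac r q : ℝ) * ψ q ≤ s ∧
        (cofac q r : ℝ) * ψ r ≤ s) N f f := by
    refine kc_psum_cover _ _ _ _ N f (fun q => (hf q).1) ?_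
    rintro q r ⟨⟨hr1, hr2, hr3, hr4⟩, hfar, hmax⟩
    by_cases hb1 : KBadn γ W t (cofac q r)
    · exact Or.inr (Or.inl ⟨hb1, hr2, hr3⟩)
    · by_cases hb2 : KBadn γ W t (cofac r q)
      · exact Or.inr (Or.inr ⟨hb2, hr2, hr3⟩)
      · exact Or.inl ⟨⟨hmax, hr4, hfar, hb1, hb2⟩, hr2, hr3⟩
  refine hsplit.trans ?_
  rw [hbad']
  have hFF : ((∑ q ∈ Icc 1 N, f q) * ∑ r ∈ Icc 1 N, f r) ^ (501 / 1000 : ℝ) =
      (∑ q ∈ Icc 1 N, f q) ^ (2 * (501 / 1000 : ℝ)) := by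
    rw [← sq, ← Real.rpow_natCast, ← Real.rpow_mul hF0]
    norm_num
  rw [hFF] at hmain hbad
  set F : ℝ := (∑ q ∈ Icc 1 N, f q) ^ (2 * (501 / 1000 : ℝ)) with hF
  have hFnn : 0 ≤ F := by (clear * - hF0; positivity)
  -- numerics
  have e1 : (s * s * S) ^ (1 - (501 / 1000 : ℝ)) ≤ 70 * s ^ (1 + 1 / 64 : ℝ) := by
    have h1 : s * s * S ≤ 70 * (s ^ (2 + 1 / 16 : ℝ)) := by
      calc s * s * S ≤ s * s * (70 * t) := by
            have : S ≤ 70 * t := min_le_right _ _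
            (clear * - this hs; gcongr)
        _ = 70 * (s ^ (2 + 1 / 16 : ℝ)) := by
            rw [Real.rpow_add hs, ht]
            have : s ^ (2 : ℝ) = s * s := by
              rw [show (2 : ℝ) = ((2 : ℕ) : ℝ) by norm_num, Real.rpow_natCast]
              ring
            rw [this]
            ring
    calc (s * s * S) ^ (1 - (501 / 1000 : ℝ)) ≤ (70 * (s ^ (2 + 1 / 16 : ℝ))) ^ (1 - (501 / 1000 : ℝ)) :=
          Real.rpow_le_rpow (by (clear * - hs; positivity)) h1 (by norm_num)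
      _ = 70 ^ (1 - (501 / 1000 : ℝ)) * (s ^ (2 + 1 / 16 : ℝ)) ^ (1 - (501 / 1000 : ℝ)) :=
          Real.mul_rpow (by norm_num) (by positivity)
      _ ≤ 70 ^ (1 : ℝ) * s ^ (1 + 1 / 64 : ℝ) := by
          refine mul_le_mul ?_ ?_ (by positivity) (by positivity)
          · exact Real.rpow_le_rpow_of_exponent_le (by norm_num) (by norm_num)
          · rw [← Real.rpow_mul hs.le]
            exact Real.rpow_le_rpow_of_exponent_ge hs (by linarith only [hs']) (by norm_num)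
      _ = 70 * s ^ (1 + 1 / 64 : ℝ) := by rw [Real.rpow_one]
  have e2 : (s * s) ^ (1 - (501 / 1000 : ℝ)) * ((1 / t) * (t ^ 3) ^ (1 - (501 / 1000 : ℝ))) ≤
      s ^ (1 + 1 / 64 : ℝ) := by
    have h1 : (s * s) ^ (1 - (501 / 1000 : ℝ)) = s ^ (998 / 1000 : ℝ) := by
      rw [← sq, ← Real.rpow_natCast, ← Real.rpow_mul hs.le]
      norm_num
    have h2 : (1 / t) * (t ^ 3) ^ (1 - (501 / 1000 : ℝ)) = s ^ (497 / 16000 : ℝ) := by
      rw [← Real.rpow_natCast t 3, ← Real.rpow_mul ht0.le, one_div, ← Real.rpow_neg_one t,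
        ← Real.rpow_add ht0, ht, ← Real.rpow_mul hs.le]
      norm_num
    rw [h1, h2, ← Real.rpow_add hs]
    exact Real.rpow_le_rpow_of_exponent_ge hs (by linarith only [hs']) (by norm_num)
  have e3 : C₁ * (s * s * S) ^ (1 - (501 / 1000 : ℝ)) * F ≤ C₁ * (70 * s ^ (1 + 1 / 64 : ℝ)) * F := by
    (clear * - e1 hC₁ hF0; gcongr)
  have e4 : C₂ * (s * s) ^ (1 - (501 / 1000 : ℝ)) * F *
      ((1 / t) * (t ^ 3) ^ (1 - (501 / 1000 : ℝ))) ≤ C₂ * s ^ (1 + 1 / 64 : ℝ) * F := by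
    calc C₂ * (s * s) ^ (1 - (501 / 1000 : ℝ)) * F *
        ((1 / t) * (t ^ 3) ^ (1 - (501 / 1000 : ℝ)))
        = C₂ * ((s * s) ^ (1 - (501 / 1000 : ℝ)) *
          ((1 / t) * (t ^ 3) ^ (1 - (501 / 1000 : ℝ)))) * F := by ring
      _ ≤ C₂ * s ^ (1 + 1 / 64 : ℝ) * F := by (clear * - e2 hC₂ hF0; gcongr)
  calc _ ≤ C₁ * (70 * s ^ (1 + 1 / 64 : ℝ)) * F + C₂ * s ^ (1 + 1 / 64 : ℝ) * F +
        C₂ * s ^ (1 + 1 / 64 : ℝ) * F := by
        have h1 := hmain.trans e3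
        have h2 := hbad.trans e4
        linarith only [hmain, hbad, e3, e4]
    _ = (C₁ * 70 + 2 * C₂) * s ^ (1 + 1 / 64 : ℝ) * F := by ring

end Vale.P028
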