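import Vale.Agent.P028.MathlibUsed
import Vale.Agent.P028.KNearA

/-!
# Numerics of the hard range for `coreT`
-/

namespace Vale.P028

/-- `K t ^ 2 ≤ exp (ε t)` for large `t`. -/
theorem rnum_sq {K ε : ℝ} (_hK : 0 ≤ K) (hε : 0 < ε) :
    ∃ t₀ : ℝ, 1 ≤ t₀ ∧ ∀ t : ℝ, t₀ ≤ t → K * t ^ 2 ≤ Real.exp (ε * t) := by
  refine ⟨max 1 (6 * K / ε ^ 3), le_max_left _ _, fun t ht => ?_⟩
  have ht1 : 1 ≤ t := (le_max_left _ _).trans ht
  have ht2 : 6 * K / ε ^ 3 ≤ t := (le_max_right _ _).trans ht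
  have ht0 : 0 ≤ t := by linarith
  have h1 := Real.pow_div_factorial_le_exp (x := ε * t) (by positivity) 3
  refine le_trans ?_ h1
  have h2 : 6 * K ≤ t * ε ^ 3 := (div_le_iff₀ (by positivity)).1 ht2
  have h3 : ((Nat.factorial 3 : ℕ) : ℝ) = 6 := by norm_num [Nat.factorial]
  rw [h3, le_div_iff₀ (by norm_num)]
  have h4 : 0 ≤ t ^ 2 := by positivity
  nlinarith [mul_le_mul_of_nonneg_right h2 h4]

/-- `t = log (1/s)`, `l = 1 + log T`. Proof: `l + t ≤ 2 l t`, `t^2 ≤ C e^(ε₁ t / 2)`, so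
`e^(ε₁ t/2) < 2 A C l ≤ 2 A C l t`; `hard_num` (KNearA) with `δ/2` and `ε₁/2` gives
`A' l t + t + 1 ≤ l^(1+δ/2)` and `t ≤ l^(δ/2)`; multiply. -/
theorem hard_num2 {A δ ε₁ : ℝ} (hA : 0 < A) (hδ : 0 < δ) (hε₁ : 0 < ε₁) :
    ∃ l₀ : ℝ, 1 ≤ l₀ ∧ ∀ l t : ℝ, l₀ ≤ l → 1 ≤ t → Real.exp (ε₁ * t) < A * (l + t) * t →
      A * (l + t) * t + t + 1 ≤ l ^ (1 + δ) := by
  obtain ⟨C, hCdef⟩ : ∃ C : ℝ, C = 8 / ε₁ ^ 2 := ⟨_, rfl⟩
  have hC : 0 < C := by rw [hCdef]; positivity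
  obtain ⟨A', hA'def⟩ : ∃ A' : ℝ, A' = 2 * A * C + 2 * A + 1 := ⟨_, rfl⟩
  have hAC : 0 < A * C := mul_pos hA hC
  have hA'1 : 1 ≤ A' := by rw [hA'def]; nlinarith
  obtain ⟨l₀, hl₀, h⟩ := hard_num (A := A') (δ := δ / 2) (ε₁ := ε₁ / 2) (by linarith)
    (by positivity) (by positivity)
  refine ⟨l₀, hl₀, fun l t hl ht he => ?_⟩
  have hl1 : 1 ≤ l := hl₀.trans hl
  have hl0 : 0 < l := by linarith
  have ht0 : 0 < t := by linarith
  have hlt : 1 ≤ l * t := by nlinarith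
  have h1 : l + t ≤ 2 * (l * t) := by nlinarith
  have hsq : t ^ 2 ≤ C * Real.exp (ε₁ / 2 * t) := by
    have h2 := Real.quadratic_le_exp_of_nonneg (x := ε₁ / 2 * t) (by positivity)
    have h3 : (ε₁ / 2 * t) ^ 2 / 2 ≤ Real.exp (ε₁ / 2 * t) := by nlinarith [mul_pos hε₁ ht0]
    have h4 : C * ((ε₁ / 2 * t) ^ 2 / 2) = t ^ 2 := by
      rw [hCdef]
      field_simp
      norm_num
    rw [← h4]
    exact mul_le_mul_of_nonneg_left h3 hC.le
  obtain ⟨x, hx⟩ : ∃ x, x = Real.exp (ε₁ / 2 * t) := ⟨_, rfl⟩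
  have hx0 : 0 < x := by rw [hx]; exact Real.exp_pos _
  have hxx : Real.exp (ε₁ * t) = x * x := by
    rw [hx, ← Real.exp_add]
    congr 1
    ring
  rw [← hx] at hsq
  have h5 : x * x < 2 * A * C * l * x := by
    rw [← hxx]
    refine he.trans_le ?_
    calc A * (l + t) * t ≤ A * (2 * (l * t)) * t := by gcongr
      _ = 2 * A * l * t ^ 2 := by ring
      _ ≤ 2 * A * l * (C * x) := by gcongr
      _ = _ := by ring
  have h6 : x < 2 * A * C * l := lt_of_mul_lt_mul_right h5 hx0.le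
  have h7 : x < A' * l * t := by
    have h8 : 2 * A * C * l ≤ A' * l * t := by
      have h9 : 2 * A * C * l ≤ A' * l := by
        refine mul_le_mul_of_nonneg_right ?_ hl0.le
        rw [hA'def]
        linarith
      have h10 : A' * l ≤ A' * l * t := by
        have : 0 < A' * l := by positivity
        nlinarith
      exact h9.trans h10
    exact h6.trans_le h8
  have h11 := h l t hl ht (by rw [← hx]; exact h7)
  have hpow : l ^ (1 + δ / 2) = l * l ^ (δ / 2) := by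
    rw [Real.rpow_add hl0, Real.rpow_one]
  have hpow2 : l ^ (1 + δ) = l ^ (1 + δ / 2) * l ^ (δ / 2) := by
    rw [← Real.rpow_add hl0]
    congr 1
    ring
  have hy0 : 0 < l ^ (δ / 2) := Real.rpow_pos_of_pos hl0 _
  have h12 : t ≤ l ^ (δ / 2) := by
    have h13 : l * t ≤ l * l ^ (δ / 2) := by
      rw [← hpow]
      refine le_trans ?_ h11
      have : l * t ≤ A' * l * t := by
        have h14 : 0 < l * t := by positivity
        nlinarith
      linarith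
    exact le_of_mul_le_mul_left h13 hl0
  rw [hpow2]
  calc A * (l + t) * t + t + 1 ≤ A * (2 * (l * t)) * t + t + 1 := by gcongr
    _ ≤ (A' * l * t + t + 1) * t := by
        have h15 : 2 * A ≤ A' := by rw [hA'def]; linarith
        have h16 : 2 * A * (l * t * t) ≤ A' * (l * t * t) :=
          mul_le_mul_of_nonneg_right h15 (by positivity)
        nlinarith
    _ ≤ l ^ (1 + δ / 2) * l ^ (δ / 2) := by
        have h17 : 0 ≤ A' * l * t + t + 1 := by positivity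
        exact mul_le_mul h11 h12 ht0.le (h17.trans h11)

/-- For bounded `l` the condition fails when `t` is large. -/
theorem hard_num3 {A ε₁ l₀ : ℝ} (hA : 0 < A) (hε₁ : 0 < ε₁) :
    ∃ t₀ : ℝ, 1 ≤ t₀ ∧ ∀ l t : ℝ, 1 ≤ l → l ≤ l₀ → t₀ ≤ t →
      A * (l + t) * t ≤ Real.exp (ε₁ * t) := by
  obtain ⟨t₀, ht₀, h⟩ := rnum_sq (K := A * (|l₀| + 1)) (ε := ε₁) (by positivity) hε₁
  refine ⟨t₀, ht₀, fun l t hl hl0 ht => (le_trans ?_ (h t ht))⟩
  have ht1 : 1 ≤ t := ht₀.trans ht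
  have h1 : l ≤ |l₀| := hl0.trans (le_abs_self _)
  have h2 : l + t ≤ (|l₀| + 1) * t := by nlinarith [abs_nonneg l₀]
  calc A * (l + t) * t ≤ A * ((|l₀| + 1) * t) * t := by gcongr
    _ = _ := by ring

/-- The scale `s` is good for all the classes up to `log T = 2 ^ k`, where `2 ^ k ≤ s^(-ε₁/2)`. -/
theorem hard_num4 {A ε₁ : ℝ} (hA : 0 < A) (hε₁ : 0 < ε₁) :
    ∃ t₀ : ℝ, 1 ≤ t₀ ∧ ∀ l t : ℝ, t₀ ≤ t → 1 ≤ l → l ≤ 1 + Real.exp (ε₁ / 2 * t) →
      A * (l + t) * t ≤ Real.exp (ε₁ * t) := by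
  obtain ⟨t₀, ht₀, h⟩ := rnum_sq (K := 3 * A) (ε := ε₁ / 2) (by positivity) (by positivity)
  refine ⟨t₀, ht₀, fun l t ht hl hl0 => ?_⟩
  have ht1 : 1 ≤ t := ht₀.trans ht
  have ht0 : 0 < t := by linarith
  have h1 := h t ht
  obtain ⟨x, hx⟩ : ∃ x, x = Real.exp (ε₁ / 2 * t) := ⟨_, rfl⟩
  have hx1 : 1 ≤ x := by rw [hx]; exact Real.one_le_exp (by positivity)
  have hxx : Real.exp (ε₁ * t) = x * x := by
    rw [hx, ← Real.exp_add]
    congr 1
    ring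
  rw [← hx] at h1 hl0
  rw [hxx]
  have h2 : l + t ≤ 3 * (x * t) := by nlinarith
  calc A * (l + t) * t ≤ A * (3 * (x * t)) * t := by gcongr
    _ = x * (3 * A * t ^ 2) := by ring
    _ ≤ x * x := mul_le_mul_of_nonneg_left h1 (by linarith)

end Vale.P028
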