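import Vale.Agent.P028.MathlibUsed
import Vale.Agent.P028.RCore
import Vale.Agent.P028.RNum
import Vale.Agent.P028.KNearA

/-!
# Far pairs of moduli with `∑_{p ∣ q} p^{-σ} ≤ T`, one class
-/

namespace Vale.P028

open Finset

/-- trivial bound -/
theorem rt_psum_le_sq (R : ℕ → ℕ → Prop) (N : ℕ) (f : ℕ → ℝ) (hf : ∀ q, 0 ≤ f q) :
    psum R N f f ≤ (∑ q ∈ Icc 1 N, f q) ^ 2 := by
  classical
  unfold psum
  rw [pow_two, Finset.sum_mul_sum]
  refine sum_le_sum fun q _ => sum_le_sum fun r _ => ?_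
  split_ifs
  · exact le_rfl
  · exact mul_nonneg (hf q) (hf r)

/-- near part and core, with a free lower bound `V₀` for the far cofactors -/
theorem rt_common {σ : ℝ} (hσ : σ < 1) :
    ∃ C c A ε₁ : ℝ, 0 < C ∧ 0 < c ∧ 0 < A ∧ 0 < ε₁ ∧
      ∀ γ s T V₀ : ℝ, 0 < s → s ≤ 1 / 1000 → 1 ≤ T →
      Real.exp (A * (1 + Real.log T + Real.log (1 / s)) * Real.log (1 / s)) ≤ V₀ →
      ∀ (N : ℕ) (ψ f : ℕ → ℝ), (∀ q, 0 ≤ ψ q) →
        (∀ q, 0 ≤ f q ∧ f q ≤ ψ q * (q.totient / q)) →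
        (∀ q, f q ≠ 0 → 0 < q ∧ sg σ q ≤ T) →
        (∀ q r : ℕ, f q ≠ 0 → f r ≠ 0 → TA γ ψ s q r →
          Real.exp (s ^ (-ε₁)) ≤ max (cofac q r : ℝ) (cofac r q : ℝ) →
          V₀ ≤ max (cofac q r : ℝ) (cofac r q : ℝ)) →
        psum (TA γ ψ s) N f f ≤
          C * s ^ (1 + c) * ((∑ q ∈ Icc 1 N, f q) + (∑ q ∈ Icc 1 N, f q) ^ 2) := by
  classical
  obtain ⟨C₁, ε₁, hC₁, hε₁, hnear⟩ := near_part
  obtain ⟨θ, c₂, A, C₂, hθ, hθ1, hc₂, hA, hC₂, hB⟩ := coreT hσ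
  refine ⟨C₁ + C₂, min (1 / 64) c₂, A, ε₁, by positivity, lt_min (by norm_num) hc₂, hA, hε₁, ?_⟩
  intro γ s T V₀ hs hs3 hT hV₀ N ψ f hψ hf hsupp hcof
  set F : ℝ := ∑ q ∈ Icc 1 N, f q with hFdef
  have hf0 : ∀ q, 0 ≤ f q := fun q => (hf q).1
  have hF0 : 0 ≤ F := sum_nonneg fun q _ => hf0 q
  have hFF : 0 ≤ F + F ^ 2 := by (clear * - hF0; positivity)
  have hfψ : ∀ q, f q ≤ ψ q := by
    intro q
    refine (hf q).2.trans ?_
    calc ψ q * (q.totient / q) ≤ ψ q * 1 := mul_le_mul_of_nonneg_left (tot_le_one q) (hψ q)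
      _ = ψ q := mul_one _
  have hs1 : s ≤ 1 := by linarith only [hs3]
  obtain ⟨c, hc⟩ : ∃ c, c = min (1 / 64) c₂ := ⟨_, rfl⟩
  rw [← hc]
  have hcc1 : c ≤ 1 / 64 := by rw [hc]; exact min_le_left _ _
  have hcc2 : c ≤ c₂ := by rw [hc]; exact min_le_right _ _
  have hp0 : 0 ≤ s ^ (1 + c) := (Real.rpow_pos_of_pos hs _).le
  have hp1 : s ^ (1 + 1 / 64 : ℝ) ≤ s ^ (1 + c) :=
    Real.rpow_le_rpow_of_exponent_ge hs hs1 (by linarith only [hcc1])
  have hp2 : s ^ (1 + c₂) ≤ s ^ (1 + c) :=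
    Real.rpow_le_rpow_of_exponent_ge hs hs1 (by linarith only [hcc2])
  obtain ⟨V, hV⟩ : ∃ V : ℕ, V = ⌊Real.exp (s ^ (-ε₁))⌋₊ := ⟨_, rfl⟩
  have hVlt : ∀ n : ℕ, ¬ n ≤ V → Real.exp (s ^ (-ε₁)) ≤ n := by
    intro n hn
    rw [not_le, hV] at hn
    exact (Nat.lt_of_floor_lt hn).le
  have hnearpart : psum (fun q r => Rel γ ψ s q r ∧ Far γ s (cofac q r) (cofac r q) ∧
          cofac q r ≤ V ∧ cofac r q ≤ V) N f f ≤ C₁ * s ^ (1 + c) * (F + F ^ 2) := by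
    rw [hV]
    refine (hnear γ s hs hs3 N ψ f (fun q => ⟨hf0 q, hfψ q⟩)).trans ?_
    exact mul_le_mul_of_nonneg_right (mul_le_mul_of_nonneg_left hp1 hC₁.le) hFF
  have hcore : psum (fun q r => Rel γ ψ s q r ∧ Far γ s (cofac q r) (cofac r q) ∧
          V₀ ≤ max (cofac q r : ℝ) (cofac r q : ℝ)) N f f ≤ C₂ * s ^ (1 + c) * (F + F ^ 2) := by
    have h4 : F ^ (2 * θ) ≤ F + F ^ 2 :=
      rpow_le_add_sq hF0 (by linarith only [hθ]) (by linarith only [hθ1])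
    have h5 : 0 ≤ F ^ (2 * θ) := Real.rpow_nonneg hF0 _
    refine (hB γ T s V₀ hT hs hs3 hV₀ N ψ f hψ hf hsupp).trans ?_
    exact mul_le_mul (mul_le_mul_of_nonneg_left hp2 hC₂.le) h4 h5 (mul_nonneg hC₂.le hp0)
  have hsplit : psum (TA γ ψ s) N f f ≤
      psum (fun q r => Rel γ ψ s q r ∧ Far γ s (cofac q r) (cofac r q) ∧
          cofac q r ≤ V ∧ cofac r q ≤ V) N f f +
      psum (fun q r => Rel γ ψ s q r ∧ Far γ s (cofac q r) (cofac r q) ∧
          V₀ ≤ max (cofac q r : ℝ) (cofac r q : ℝ)) N f f := by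
    have h1 : psum (TA γ ψ s) N f f ≤ psum (fun q r => TA γ ψ s q r ∧ f q ≠ 0 ∧ f r ≠ 0) N f f := by
      apply psum_mono _ _ _ _ _ _ _ hf0 hf0
      rintro q _ r _ hR hne
      exact ⟨⟨hR, left_ne_zero_of_mul hne, right_ne_zero_of_mul hne⟩, le_rfl⟩
    refine h1.trans ?_
    apply psum_or_le _ _ _ _ _ _ hf0 hf0
    rintro q r ⟨hR, hq, hr⟩
    by_cases h : cofac q r ≤ V ∧ cofac r q ≤ V
    · exact Or.inl ⟨hR.1, hR.2.1, h⟩
    · refine Or.inr ⟨hR.1, hR.2.1, hcof q r hq hr hR ?_⟩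
      rw [not_and_or] at h
      rcases h with h' | h'
      · exact (hVlt _ h').trans (le_max_left _ _)
      · exact (hVlt _ h').trans (le_max_right _ _)
  calc psum (TA γ ψ s) N f f
      ≤ C₁ * s ^ (1 + c) * (F + F ^ 2) + C₂ * s ^ (1 + c) * (F + F ^ 2) :=
        hsplit.trans (add_le_add hnearpart hcore)
    _ = (C₁ + C₂) * s ^ (1 + c) * (F + F ^ 2) := by ring

/-- Good levels: no condition on `ψ`. Proof: `near_part` (constants `C₁, ε₁`) for the pairs with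
both cofactors `≤ exp (s^(-ε₁))`; the other pairs have `max > exp (s^(-ε₁)) ≥ V₀` with
`V₀ = exp (A (1 + log T + log (1/s)) log (1/s))` by the hypothesis (`s^(-ε₁) = exp (ε₁ log (1/s))`):
`coreT`. -/
theorem typeR_good {σ : ℝ} (hσ : σ < 1) :
    ∃ C c A ε₁ : ℝ, 0 < C ∧ 0 < c ∧ 0 < A ∧ 0 < ε₁ ∧
      ∀ γ s T : ℝ, 0 < s → s ≤ 1 / 1000 → 1 ≤ T →
      A * (1 + Real.log T + Real.log (1 / s)) * Real.log (1 / s) ≤
        Real.exp (ε₁ * Real.log (1 / s)) →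
      ∀ (N : ℕ) (ψ f : ℕ → ℝ), (∀ q, 0 ≤ ψ q) →
        (∀ q, 0 ≤ f q ∧ f q ≤ ψ q * (q.totient / q)) →
        (∀ q, f q ≠ 0 → 0 < q ∧ sg σ q ≤ T) →
        psum (TA γ ψ s) N f f ≤
          C * s ^ (1 + c) * ((∑ q ∈ Icc 1 N, f q) + (∑ q ∈ Icc 1 N, f q) ^ 2) := by
  obtain ⟨C, c, A, ε₁, hC, hc, hA, hε₁, h⟩ := rt_common hσ
  refine ⟨C, c, A, ε₁, hC, hc, hA, hε₁, ?_⟩
  intro γ s T hs hs3 hT hgood N ψ f hψ hf hsupp
  refine h γ s T (Real.exp (s ^ (-ε₁))) hs hs3 hT ?_ N ψ f hψ hf hsupp (fun q r _ _ _ h => h)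
  rw [rpow_neg_eq_exp hs]
  exact Real.exp_le_exp.2 hgood

/-- One class, small arcs: `ψ ≤ exp (-(1 + log T)^(1+δ))`. Proof: if the condition of
`typeR_good` holds use it; otherwise, for `1 + log T ≥ l₀` (`hard_num2`), `classI_size` shows that
all the pairs have `max ≥ (s/2) exp (l^(1+δ)) ≥ V₀`, and `coreT`; for `1 + log T ≤ l₀` the level
`s` is bounded below by `hard_num3`, and `psum ≤ F^2`. (It is best to prove both theorems together,
from `near_part` and `coreT`.) -/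
theorem typeR_class {σ : ℝ} (hσ : σ < 1) {δ : ℝ} (hδ : 0 < δ) :
    ∃ C c : ℝ, 0 < C ∧ 0 < c ∧
      ∀ γ s T : ℝ, 0 < s → s ≤ 1 / 1000 → 1 ≤ T →
      ∀ (N : ℕ) (ψ f : ℕ → ℝ), (∀ q, 0 ≤ ψ q) →
        (∀ q, 0 ≤ f q ∧ f q ≤ ψ q * (q.totient / q)) →
        (∀ q, f q ≠ 0 → 0 < q ∧ sg σ q ≤ T ∧
          ψ q ≤ Real.exp (-(1 + Real.log T) ^ (1 + δ))) →
        psum (TA γ ψ s) N f f ≤
          C * s ^ (1 + c) * ((∑ q ∈ Icc 1 N, f q) + (∑ q ∈ Icc 1 N, f q) ^ 2) := by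
  obtain ⟨C, c, A, ε₁, hC, hc, hA, hε₁, h⟩ := rt_common hσ
  obtain ⟨l₀, hl₀1, hl₀⟩ := hard_num2 hA hδ hε₁
  obtain ⟨t₀, ht₀1, ht₀⟩ := hard_num3 (l₀ := l₀) hA hε₁
  refine ⟨C + Real.exp (t₀ * (1 + c)), c, by positivity, hc, ?_⟩
  intro γ s T hs hs3 hT N ψ f hψ hf hsupp
  have hsupp' : ∀ q, f q ≠ 0 → 0 < q ∧ sg σ q ≤ T := fun q hq =>
    ⟨(hsupp q hq).1, (hsupp q hq).2.1⟩
  have hf0 : ∀ q, 0 ≤ f q := fun q => (hf q).1
  set F : ℝ := ∑ q ∈ Icc 1 N, f q with hFdef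
  have hF0 : 0 ≤ F := sum_nonneg fun q _ => hf0 q
  have hp0 : 0 ≤ s ^ (1 + c) := (Real.rpow_pos_of_pos hs _).le
  have hFF : 0 ≤ F + F ^ 2 := by (clear * - hF0; positivity)
  have hE0 : 0 < Real.exp (t₀ * (1 + c)) := Real.exp_pos _
  have hup : C * s ^ (1 + c) * (F + F ^ 2) ≤
      (C + Real.exp (t₀ * (1 + c))) * s ^ (1 + c) * (F + F ^ 2) := by
    apply mul_le_mul_of_nonneg_right _ hFF
    apply mul_le_mul_of_nonneg_right _ hp0
    linarith only [hE0]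
  have hs4 : s ≤ 1 / 4 := by linarith only [hs3]
  have ht1 := log_inv_ge_one hs hs4
  have hl1 : 1 ≤ 1 + Real.log T := by
    have := Real.log_nonneg hT
    linarith only [this]
  rcases le_or_gt (A * (1 + Real.log T + Real.log (1 / s)) * Real.log (1 / s))
      (Real.exp (ε₁ * Real.log (1 / s))) with hcase | hcase
  · refine le_trans (h γ s T (Real.exp (s ^ (-ε₁))) hs hs3 hT ?_ N ψ f hψ hf hsupp'
      (fun q r _ _ _ h => h)) hup
    rw [rpow_neg_eq_exp hs]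
    exact Real.exp_le_exp.2 hcase
  · rcases le_or_gt l₀ (1 + Real.log T) with hl | hl
    · -- the hard range
      have hmain := hl₀ _ _ hl ht1 hcase
      have hV0 : Real.exp (A * (1 + Real.log T + Real.log (1 / s)) * Real.log (1 / s)) ≤
          s / 2 * Real.exp ((1 + Real.log T) ^ (1 + δ)) := by
        have h4 : s / 2 * Real.exp ((1 + Real.log T) ^ (1 + δ)) =
            Real.exp (Real.log s - Real.log 2 + (1 + Real.log T) ^ (1 + δ)) := by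
          rw [Real.exp_add, Real.exp_sub, Real.exp_log hs, Real.exp_log (by norm_num)]
        rw [h4]
        apply Real.exp_le_exp.2
        have h5 : Real.log s = -Real.log (1 / s) := by
          rw [one_div, Real.log_inv, neg_neg]
        have hlog2 : Real.log 2 ≤ 1 := by
          have := Real.log_two_lt_d9
          linarith only [this]
        linarith only [hmain, h5, hlog2]
      refine le_trans (h γ s T _ hs hs3 hT hV0 N ψ f hψ hf hsupp' ?_) hup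
      intro q r hq hr hTA _
      exact classI_size hψ (hsupp q hq).2.2 (hsupp r hr).2.2 hTA.2.2
    · -- bounded `T`: the level is bounded below
      have htt : Real.log (1 / s) < t₀ := by
        by_contra hcon
        rw [not_lt] at hcon
        have := ht₀ (1 + Real.log T) (Real.log (1 / s)) hl1 hl.le hcon
        linarith only [this, hcase]
      have h1 : 1 ≤ Real.exp (t₀ * (1 + c)) * s ^ (1 + c) := by
        rw [Real.rpow_def_of_pos hs, ← Real.exp_add]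
        apply Real.one_le_exp
        have h5 : Real.log s = -Real.log (1 / s) := by
          rw [one_div, Real.log_inv, neg_neg]
        have h6 : 0 ≤ (t₀ - Real.log (1 / s)) * (1 + c) :=
          mul_nonneg (by linarith only [htt]) (by linarith only [hc])
        rw [h5]
        linarith only [h6]
      calc psum (TA γ ψ s) N f f ≤ F ^ 2 := rt_psum_le_sq _ N f hf0
        _ ≤ 1 * (F + F ^ 2) := by linarith only [hF0]
        _ ≤ (Real.exp (t₀ * (1 + c)) * s ^ (1 + c)) * (F + F ^ 2) :=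
            mul_le_mul_of_nonneg_right h1 hFF
        _ ≤ (C + Real.exp (t₀ * (1 + c))) * s ^ (1 + c) * (F + F ^ 2) := by
            apply mul_le_mul_of_nonneg_right _ hFF
            apply mul_le_mul_of_nonneg_right _ hp0
            linarith only [hC]

end Vale.P028
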