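import Vale.Agent.P028.MathlibUsed
import Vale.Agent.P028.MDyadic

/-!
# Splitting the pairs according to classes
-/

namespace Vale.P028

open Finset

theorem rs_pt {R : Prop} {a b k₀ K : ℕ} {x L A B D : ℝ} {G : ℕ → ℝ}
    (hK : x ≠ 0 → a ≤ K ∧ b ≤ K) (hL0 : ¬ R → L ≤ 0) (hL : R → L ≤ x)
    (hA : 0 ≤ A) (hA' : R → a ≤ k₀ → b ≤ k₀ → x ≤ A) (hG : ∀ k, 0 ≤ G k)
    (hG' : R → ∀ k, (a = k ∨ a + 1 = k) → (b = k ∨ b + 1 = k) → x ≤ G k)
    (hB : 0 ≤ B) (hB' : R → k₀ < b → a + 2 ≤ b → x ≤ B)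
    (hD : 0 ≤ D) (hD' : R → k₀ < a → b + 2 ≤ a → x ≤ D) :
    L ≤ A + ∑ k ∈ Ioc k₀ K, G k + B + D := by
  have n2 : 0 ≤ ∑ k ∈ Ioc k₀ K, G k := sum_nonneg fun k _ => hG k
  by_cases hR : R
  swap
  · linarith [hL0 hR]
  have hL' := hL hR
  by_cases hz : x = 0
  · linarith
  obtain ⟨hKa, hKb⟩ := hK hz
  by_cases h1 : a ≤ k₀ ∧ b ≤ k₀
  · linarith [hA' hR h1.1 h1.2]
  by_cases h3 : k₀ < b ∧ a + 2 ≤ b
  · linarith [hB' hR h3.1 h3.2]
  by_cases h4 : k₀ < a ∧ b + 2 ≤ a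
  · linarith [hD' hR h4.1 h4.2]
  have hk : max a b ∈ Ioc k₀ K := by
    rw [mem_Ioc]
    omega
  have h5 := single_le_sum (fun k _ => hG k) hk
  have h6 := hG' hR (max a b) (by omega) (by omega)
  linarith

open Classical in
/-- the pairs are split into those with both classes `≤ k₀`, those in neighbouring classes, and
those in distant classes -/
theorem rs_split (R : ℕ → ℕ → Prop) (N : ℕ) (f : ℕ → ℝ) (hf : ∀ q, 0 ≤ f q) (kk : ℕ → ℕ)
    (k₀ K : ℕ) (hK : ∀ q ∈ Icc 1 N, f q ≠ 0 → kk q ≤ K) :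
    psum R N f f ≤
      psum R N (fun q => if kk q ≤ k₀ then f q else 0) (fun q => if kk q ≤ k₀ then f q else 0) +
      ∑ k ∈ Ioc k₀ K, psum R N (fun q => if kk q = k ∨ kk q + 1 = k then f q else 0)
        (fun q => if kk q = k ∨ kk q + 1 = k then f q else 0) +
      psum (fun q r => R q r ∧ k₀ < kk r ∧ kk q + 2 ≤ kk r) N f f +
      psum (fun q r => R q r ∧ k₀ < kk q ∧ kk r + 2 ≤ kk q) N f f := by
  unfold psum
  rw [sum_comm (s := Ioc k₀ K), ← sum_add_distrib, ← sum_add_distrib, ← sum_add_distrib]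
  refine sum_le_sum fun q hq => ?_
  rw [sum_comm (s := Ioc k₀ K), ← sum_add_distrib, ← sum_add_distrib, ← sum_add_distrib]
  refine sum_le_sum fun r hr => ?_
  beta_reduce
  have hff : 0 ≤ f q * f r := mul_nonneg (hf q) (hf r)
  refine rs_pt (R := R q r) (a := kk q) (b := kk r) (x := f q * f r) ?_ ?_ ?_ ?_ ?_ ?_ ?_ ?_ ?_
    ?_ ?_
  · intro h
    exact ⟨hK q hq (left_ne_zero_of_mul h), hK r hr (right_ne_zero_of_mul h)⟩
  · intro h
    rw [if_neg h]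
  · intro h
    rw [if_pos h]
  · split_ifs <;> simp [hff]
  · intro h h1 h2
    rw [if_pos h, if_pos h1, if_pos h2]
  · intro k
    split_ifs <;> simp [hff]
  · intro h k h1 h2
    rw [if_pos h, if_pos h1, if_pos h2]
  · split_ifs <;> simp [hff]
  · intro h h1 h2
    rw [if_pos ⟨h, h1, h2⟩]
  · split_ifs <;> simp [hff]
  · intro h h1 h2
    rw [if_pos ⟨h, h1, h2⟩]

open Classical in
/-- the masses of the neighbouring classes -/
theorem rs_sum (N : ℕ) (f : ℕ → ℝ) (hf : ∀ q, 0 ≤ f q) (kk : ℕ → ℕ) (k₀ K : ℕ) :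
    ∑ k ∈ Ioc k₀ K, ((∑ q ∈ Icc 1 N, if kk q = k ∨ kk q + 1 = k then f q else 0) +
      (∑ q ∈ Icc 1 N, if kk q = k ∨ kk q + 1 = k then f q else 0) ^ 2) ≤
      2 * (∑ q ∈ Icc 1 N, f q) + 4 * (∑ q ∈ Icc 1 N, f q) ^ 2 := by
  set F : ℝ := ∑ q ∈ Icc 1 N, f q with hF
  set G : ℕ → ℝ := fun k => ∑ q ∈ Icc 1 N, if kk q = k ∨ kk q + 1 = k then f q else 0 with hG
  have hF0 : 0 ≤ F := sum_nonneg fun q _ => hf q
  have hG0 : ∀ k, 0 ≤ G k := by
    intro k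
    refine sum_nonneg fun q _ => ?_
    split_ifs
    · exact hf q
    · exact le_rfl
  have h1 : ∑ k ∈ Ioc k₀ K, G k ≤ 2 * F := by
    simp only [hG]
    rw [sum_comm, hF, mul_sum]
    refine sum_le_sum fun q _ => ?_
    calc ∑ k ∈ Ioc k₀ K, (if kk q = k ∨ kk q + 1 = k then f q else 0)
        ≤ ∑ k ∈ Ioc k₀ K, ((if kk q = k then f q else 0) + (if kk q + 1 = k then f q else 0)) := by
          refine sum_le_sum fun k _ => ?_
          have := hf q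
          by_cases a : kk q = k <;> by_cases b : kk q + 1 = k <;> simp [a, b, this]
      _ ≤ 2 * f q := by
          rw [sum_add_distrib, sum_ite_eq, sum_ite_eq]
          have := hf q
          split_ifs <;> linarith
  have hGF : ∀ k ∈ Ioc k₀ K, G k ≤ 2 * F := fun k hk =>
    (single_le_sum (fun i _ => hG0 i) hk).trans h1
  have h2 : ∑ k ∈ Ioc k₀ K, G k ^ 2 ≤ 4 * F ^ 2 := by
    calc ∑ k ∈ Ioc k₀ K, G k ^ 2 ≤ ∑ k ∈ Ioc k₀ K, G k * (2 * F) := by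
          refine sum_le_sum fun k hk => ?_
          rw [pow_two]
          exact mul_le_mul_of_nonneg_left (hGF k hk) (hG0 k)
      _ = (∑ k ∈ Ioc k₀ K, G k) * (2 * F) := by rw [sum_mul]
      _ ≤ (2 * F) * (2 * F) := mul_le_mul_of_nonneg_right h1 (by linarith)
      _ = 4 * F ^ 2 := by ring
  rw [sum_add_distrib]
  exact add_le_add h1 h2

end Vale.P028
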