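import Vale.Agent.P028.MathlibUsed
import Vale.Agent.P028.RAnat
import Vale.Agent.P028.KDefs
import Vale.Agent.P028.RSplit
import Vale.Agent.P028.MClassII

/-!
# The classes of the moduli and the pairs in distant classes
-/

namespace Vale.P028

open Finset

theorem kcl_exists (σ : ℝ) (q : ℕ) : ∃ k : ℕ, sg σ q ≤ Real.exp (2 ^ k) := by
  obtain ⟨k, hk⟩ := exists_nat_ge (sg σ q)
  refine ⟨k, hk.trans ?_⟩
  have h1 : (k : ℝ) ≤ 2 ^ k := by exact_mod_cast (Nat.lt_two_pow_self).le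
  have h2 := Real.add_one_le_exp ((2 : ℝ) ^ k)
  linarith

open Classical in
/-- the class of `q`: the least `k` with `∑_{p ∣ q} p^(-σ) ≤ exp (2^k)` -/
noncomputable def kcl (σ : ℝ) (q : ℕ) : ℕ := Nat.find (kcl_exists σ q)

theorem kcl_le (σ : ℝ) (q : ℕ) : sg σ q ≤ Real.exp (2 ^ kcl σ q) := by
  classical
  exact Nat.find_spec (kcl_exists σ q)

theorem lt_of_kcl {σ : ℝ} {q k : ℕ} (h : k < kcl σ q) : Real.exp (2 ^ k) < sg σ q := by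
  classical
  exact not_le.1 (Nat.find_min (kcl_exists σ q) h)

/-- distant classes: the cofactor has a large sum -/
theorem rc_sg {σ : ℝ} {q r k₀ : ℕ} (hq : 0 < q) (hr : 0 < r) (h1 : k₀ < kcl σ r)
    (h2 : kcl σ q + 2 ≤ kcl σ r) : Real.exp (2 ^ k₀) / 2 ≤ sg σ (cofac r q) := by
  obtain ⟨m, hm⟩ : ∃ m, kcl σ r = m + 2 := ⟨kcl σ r - 2, by omega⟩
  have a1 : Real.exp (2 ^ (m + 1)) < sg σ r := lt_of_kcl (by omega)
  have a2 : sg σ q ≤ Real.exp (2 ^ m) := by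
    refine (kcl_le σ q).trans (Real.exp_le_exp.2 ?_)
    exact pow_le_pow_right₀ (by norm_num) (by omega)
  have a3 := sg_cofac (σ := σ) hq hr
  have a4 : Real.exp (2 ^ k₀) ≤ Real.exp (2 ^ (m + 1)) :=
    Real.exp_le_exp.2 (pow_le_pow_right₀ (by norm_num) (by omega))
  have a5 : (1 : ℝ) ≤ 2 ^ m := one_le_pow₀ (by norm_num)
  have a6 : Real.exp ((2 : ℝ) ^ (m + 1)) = Real.exp (2 ^ m) * Real.exp (2 ^ m) := by
    rw [← Real.exp_add]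
    congr 1
    ring
  have a7 : (2 : ℝ) ≤ Real.exp (2 ^ m) := by
    have := Real.add_one_le_exp ((2 : ℝ) ^ m)
    linarith
  have a8 : 2 * Real.exp ((2 : ℝ) ^ m) ≤ Real.exp (2 ^ m) * Real.exp (2 ^ m) :=
    mul_le_mul_of_nonneg_right a7 (Real.exp_pos _).le
  linarith

/-- pairs in distant classes -/
theorem rc_far {σ : ℝ} (hσ : 3 / 4 ≤ σ) :
    ∃ C > 0, ∀ (γ s : ℝ) (k₀ N : ℕ) (ψ f : ℕ → ℝ), 0 < s → (∀ q, 0 ≤ ψ q) →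
      (∀ q, 0 ≤ f q ∧ f q ≤ ψ q * (q.totient / q)) →
      psum (fun q r => TA γ ψ s q r ∧ k₀ < kcl σ r ∧ kcl σ q + 2 ≤ kcl σ r) N f f +
        psum (fun q r => TA γ ψ s q r ∧ k₀ < kcl σ q ∧ kcl σ r + 2 ≤ kcl σ q) N f f ≤
      C * Real.exp (-(2 ^ k₀)) * (s * s) ^ (1 - 501 / 1000 : ℝ) *
        (∑ q ∈ Icc 1 N, f q) ^ (2 * (501 / 1000) : ℝ) := by
  obtain ⟨C, hC, h⟩ := anat_sg hσ
  refine ⟨4 * C, by positivity, ?_⟩
  intro γ s k₀ N ψ f hs hψ hf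
  have hf0 : ∀ q, 0 ≤ f q := fun q => (hf q).1
  have hY : 0 < Real.exp ((2 : ℝ) ^ k₀) / 2 := by positivity
  have h1 := h _ s N ψ f hY hs hψ hf
  have g1 : psum (fun q r => TA γ ψ s q r ∧ k₀ < kcl σ q ∧ kcl σ r + 2 ≤ kcl σ q) N f f ≤
      psum (fun q r => Real.exp ((2 : ℝ) ^ k₀) / 2 ≤ sg σ (cofac q r) ∧
        (cofac r q : ℝ) * ψ q ≤ s ∧ (cofac q r : ℝ) * ψ r ≤ s) N f f := by
    apply psum_mono _ _ _ _ _ _ _ hf0 hf0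
    rintro q hq r hr ⟨⟨⟨_, b2, b3, _⟩, _, _⟩, c1, c2⟩ _
    exact ⟨⟨rc_sg (mem_Icc.1 hr).1 (mem_Icc.1 hq).1 c1 c2, b2, b3⟩, le_rfl⟩
  have g2 : psum (fun q r => TA γ ψ s q r ∧ k₀ < kcl σ r ∧ kcl σ q + 2 ≤ kcl σ r) N f f ≤
      psum (fun q r => Real.exp ((2 : ℝ) ^ k₀) / 2 ≤ sg σ (cofac q r) ∧
        (cofac r q : ℝ) * ψ q ≤ s ∧ (cofac q r : ℝ) * ψ r ≤ s) N f f := by
    rw [psum_swap]
    apply psum_mono _ _ _ _ _ _ _ hf0 hf0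
    rintro q hq r hr ⟨⟨⟨_, b2, b3, _⟩, _, _⟩, c1, c2⟩ _
    exact ⟨⟨rc_sg (mem_Icc.1 hr).1 (mem_Icc.1 hq).1 c1 c2, b3, b2⟩, le_rfl⟩
  have e : C / (Real.exp ((2 : ℝ) ^ k₀) / 2) = 2 * C * Real.exp (-(2 ^ k₀)) := by
    rw [Real.exp_neg]
    field_simp
  rw [e] at h1
  calc _ ≤ 2 * C * Real.exp (-(2 ^ k₀)) * (s * s) ^ (1 - 501 / 1000 : ℝ) *
          (∑ q ∈ Icc 1 N, f q) ^ (2 * (501 / 1000) : ℝ) +
        2 * C * Real.exp (-(2 ^ k₀)) * (s * s) ^ (1 - 501 / 1000 : ℝ) *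
          (∑ q ∈ Icc 1 N, f q) ^ (2 * (501 / 1000) : ℝ) := add_le_add (g2.trans h1) (g1.trans h1)
    _ = _ := by ring

/-- comparison of the exponents in one class -/
theorem rn_b {δ : ℝ} (hδ : 0 < δ) : ∃ k₁ : ℕ, ∀ m : ℕ, k₁ ≤ m →
    (1 + (2 : ℝ) ^ (m + 2)) ^ (1 + δ / 2) ≤ ((2 : ℝ) ^ m) ^ (1 + δ) := by
  obtain ⟨k₁, hk₁⟩ := exists_nat_ge ((8 : ℝ) ^ ((1 + δ / 2) / (δ / 2)))
  refine ⟨k₁, fun m hm => ?_⟩
  have ha : (1 : ℝ) ≤ 2 ^ m := one_le_pow₀ (by norm_num)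
  have ha0 : (0 : ℝ) < 2 ^ m := by positivity
  have hle : (8 : ℝ) ^ ((1 + δ / 2) / (δ / 2)) ≤ 2 ^ m := by
    have h1 : (m : ℝ) ≤ 2 ^ m := by exact_mod_cast (Nat.lt_two_pow_self).le
    have h2 : (k₁ : ℝ) ≤ m := by exact_mod_cast hm
    linarith
  have h8 : (8 : ℝ) ^ (1 + δ / 2) ≤ ((2 : ℝ) ^ m) ^ (δ / 2) := by
    have h1 := Real.rpow_le_rpow (by positivity) hle (by positivity : 0 ≤ δ / 2)
    rw [← Real.rpow_mul (by norm_num), div_mul_cancel₀ _ (by positivity)] at h1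
    exact h1
  calc (1 + (2 : ℝ) ^ (m + 2)) ^ (1 + δ / 2) ≤ (8 * 2 ^ m) ^ (1 + δ / 2) := by
        apply Real.rpow_le_rpow (by positivity) _ (by positivity)
        have : (2 : ℝ) ^ (m + 2) = 4 * 2 ^ m := by ring
        rw [this]
        linarith
    _ = 8 ^ (1 + δ / 2) * ((2 : ℝ) ^ m) ^ (1 + δ / 2) :=
        Real.mul_rpow (by norm_num) ha0.le
    _ ≤ ((2 : ℝ) ^ m) ^ (δ / 2) * ((2 : ℝ) ^ m) ^ (1 + δ / 2) :=
        mul_le_mul_of_nonneg_right h8 (by positivity)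
    _ = ((2 : ℝ) ^ m) ^ (1 + δ) := by
        rw [← Real.rpow_add ha0]
        congr 1
        ring

theorem rn_c {e : ℝ} (he : 0 < e) :
    ∃ C > 0, ∀ t : ℝ, 0 ≤ t → Real.exp (-(Real.exp (e * t) / 2)) ≤ C * Real.exp (-(2 * t)) := by
  refine ⟨Real.exp (4 / e ^ 2), Real.exp_pos _, fun t ht => ?_⟩
  rw [← Real.exp_add]
  apply Real.exp_le_exp.2
  have h1 := Real.quadratic_le_exp_of_nonneg (mul_nonneg he.le ht)
  have h2 : 0 ≤ (e * t / 2 - 2 / e) ^ 2 := sq_nonneg _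
  have h3 : (e * t / 2 - 2 / e) ^ 2 = (e * t) ^ 2 / 4 - 2 * t + 4 / e ^ 2 := by
    field_simp
    ring
  have h4 : 0 ≤ e * t := mul_nonneg he.le ht
  nlinarith

end Vale.P028
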