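import Vale.Agent.P028.MathlibUsed
import Vale.Agent.P028.RClass
import Vale.Agent.P028.QSize
import Vale.Agent.P028.QSelect

/-!
# Theorem R: every real `γ`
-/

namespace Vale.P028

open Finset MeasureTheory Filter

/-- **Theorem S**: loss `(log (2 + 1/ψ))^ε`. -/
theorem theoremS (γ : ℝ) (ψ : ℕ → ℝ) (hψ : ∀ q, 0 ≤ ψ q) {ε : ℝ} (hε : 0 < ε)
    (hdiv : ¬ Summable (fun q : ℕ => ((q.totient : ℝ) / q) * ψ q /
      (Real.log (2 + 1 / ψ q)) ^ ε)) :
    volume (W γ ψ)ᶜ = 0 := by
  classical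
  have hε2 : 0 < ε / 2 := by linarith
  refine full_P (typeA_size hε2) γ ψ hψ ?_
  intro N
  obtain ⟨T, S, hT, hS, hF⟩ := ql_select (g := fun q : ℕ => ((q.totient : ℝ) / q) * ψ q)
    (t := fun q : ℕ => 1 / ψ q)
    (fun q => mul_nonneg (by (clear * -; positivity)) (hψ q))
    (fun q => one_div_nonneg.mpr (hψ q)) hε hdiv (N + 1)
  have hlogT : 0 ≤ Real.log T := Real.log_nonneg hT
  have hpos : ∀ q ∈ S, 0 < ψ q := by
    intro q hq
    refine lt_of_le_of_ne (hψ q) ?_
    intro h0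
    have h1 := (hS q hq).2.1
    simp only [← h0, mul_zero] at h1
    exact h1 rfl
  refine ⟨S, fun q hq => ⟨by have := (hS q hq).1; omega, hpos q hq⟩,
    (Real.one_le_rpow (by linarith) hε2.le).trans hF, Real.log T, hlogT, ?_, ?_⟩
  · intro q hq
    by_cases h : q ∈ S
    · beta_reduce
      rw [if_pos h, Real.exp_neg, Real.exp_log (by linarith)]
      have h1 := (hS q h).2.2
      rw [inv_le_comm₀ (by linarith) (hpos q h), ← one_div]
      exact h1
    · simp only [if_neg h, ne_eq, not_true_eq_false] at hq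
  · refine hF.trans (le_of_eq ?_)
    have hSN : S ⊆ Icc 1 (S.sup id) := by
      intro q hq
      rw [mem_Icc]
      exact ⟨by have := (hS q hq).1; omega, Finset.le_sup (f := id) hq⟩
    rw [← sum_subset hSN]
    · exact sum_congr rfl fun q hq => by rw [if_pos hq]
    · intro q _ hq
      rw [if_neg hq]

/-- no loss for small arcs -/
theorem theoremR_small (γ : ℝ) (ψ : ℕ → ℝ) (hψ : ∀ q, 0 ≤ ψ q) {σ δ : ℝ} (hσ : σ < 1)
    (hσ' : 3 / 4 ≤ σ) (hδ : 0 < δ) (A : Set ℕ)
    (hA : ∀ q ∈ A, ψ q ≤ Real.exp (-(Real.log (2 + sg σ q)) ^ (1 + δ)))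
    (hdiv : ¬ Summable (A.indicator (fun q : ℕ => ((q.totient : ℝ) / q) * ψ q))) :
    volume (W γ ψ)ᶜ = 0 := by
  classical
  refine full_P (typeA_R hσ hσ' hδ) γ ψ hψ ?_
  intro N
  have hg0 : ∀ q : ℕ, 0 ≤ ((q.totient : ℝ) / q) * ψ q := fun q =>
    mul_nonneg (by (clear * -; positivity)) (hψ q)
  obtain ⟨S, hS, hF1⟩ := exists_finset_sum_ge
    (g := A.indicator (fun q : ℕ => ((q.totient : ℝ) / q) * ψ q))
    (fun q => Set.indicator_nonneg (fun q _ => hg0 q) q) hdiv (N + 1)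
  have hSA : ∀ q ∈ S, q ∈ A := fun q hq => Set.mem_of_indicator_ne_zero (hS q hq).2
  have hsum : ∑ q ∈ S, A.indicator (fun q : ℕ => ((q.totient : ℝ) / q) * ψ q) q =
      ∑ q ∈ S, ((q.totient : ℝ) / q) * ψ q :=
    sum_congr rfl fun q hq => Set.indicator_of_mem (hSA q hq) _
  rw [hsum] at hF1
  have hpos : ∀ q ∈ S, 0 < ψ q := by
    intro q hq
    refine lt_of_le_of_ne (hψ q) ?_
    intro h0
    have h1 := (hS q hq).2
    rw [Set.indicator_of_mem (hSA q hq), ← h0, mul_zero] at h1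
    exact h1 rfl
  refine ⟨S, fun q hq => ⟨by have := (hS q hq).1; omega, hpos q hq⟩, hF1, ?_⟩
  intro q hq
  by_cases h : q ∈ S
  · beta_reduce
    rw [if_pos h]
    exact ⟨by have := (hS q h).1; omega, hA q (hSA q h)⟩
  · simp only [if_neg h, ne_eq, not_true_eq_false] at hq

theorem sg_anti {σ σ' : ℝ} (h : σ ≤ σ') (q : ℕ) : sg σ' q ≤ sg σ q := by
  unfold sg
  refine sum_le_sum fun p hp => ?_
  have h1 : (1 : ℝ) ≤ p := by exact_mod_cast (Nat.prime_of_mem_primeFactors hp).one_lt.le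
  exact Real.rpow_le_rpow_of_exponent_le h1 (by linarith)

theorem sg_nn (σ : ℝ) (q : ℕ) : 0 ≤ sg σ q := by
  unfold sg
  exact sum_nonneg fun p _ => Real.rpow_nonneg (Nat.cast_nonneg _) _

open Classical in
/-- **Theorem R.** -/
theorem theoremR (γ : ℝ) (ψ : ℕ → ℝ) (hψ : ∀ q, 0 ≤ ψ q) {σ δ : ℝ} (hσ : σ < 1) (hδ : 0 < δ)
    (hdiv : ¬ Summable (fun q : ℕ => ((q.totient : ℝ) / q) * ψ q /
      (if ψ q ≤ Real.exp (-(Real.log (2 + ∑ p ∈ q.primeFactors, (p : ℝ) ^ (-σ))) ^ (1 + δ))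
        then 1 else (Real.log (2 + 1 / ψ q)) ^ δ))) :
    volume (W γ ψ)ᶜ = 0 := by
  set A : Set ℕ := {q | ψ q ≤ Real.exp
    (-(Real.log (2 + ∑ p ∈ q.primeFactors, (p : ℝ) ^ (-σ))) ^ (1 + δ))} with hAdef
  have hg0 : ∀ q : ℕ, 0 ≤ ((q.totient : ℝ) / q) * ψ q := fun q =>
    mul_nonneg (by (clear * -; positivity)) (hψ q)
  by_cases h1 : Summable (A.indicator (fun q : ℕ => ((q.totient : ℝ) / q) * ψ q))
  · by_cases h2 : Summable (fun q : ℕ => ((q.totient : ℝ) / q) * ψ q /
      (Real.log (2 + 1 / ψ q)) ^ δ)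
    · exfalso
      apply hdiv
      refine Summable.of_nonneg_of_le ?_ ?_ (h1.add h2)
      · intro q
        apply div_nonneg (hg0 q)
        split_ifs
        · exact zero_le_one
        · apply Real.rpow_nonneg
          apply Real.log_nonneg
          have := one_div_nonneg.mpr (hψ q)
          linarith
      · intro q
        have hl : 0 ≤ (Real.log (2 + 1 / ψ q)) ^ δ := by
          apply Real.rpow_nonneg
          apply Real.log_nonneg
          have := one_div_nonneg.mpr (hψ q)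
          linarith
        split_ifs with h
        · rw [div_one, Set.indicator_of_mem (show q ∈ A from h)]
          have := div_nonneg (hg0 q) hl
          linarith
        · rw [Set.indicator_of_notMem (show q ∉ A from h), zero_add]
    · exact theoremS γ ψ hψ hδ h2
  · refine theoremR_small γ ψ hψ (σ := max σ (3 / 4)) (max_lt hσ (by norm_num))
      (le_max_right _ _) hδ A ?_ h1
    intro q hq
    have hq' : ψ q ≤ Real.exp
      (-(Real.log (2 + ∑ p ∈ q.primeFactors, (p : ℝ) ^ (-σ))) ^ (1 + δ)) := hq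
    refine hq'.trans (Real.exp_le_exp.mpr (neg_le_neg ?_))
    have h3 := sg_anti (le_max_left σ (3 / 4)) q
    have h4 := sg_nn (max σ (3 / 4)) q
    apply Real.rpow_le_rpow (Real.log_nonneg (by linarith)) _ (by linarith)
    apply Real.log_le_log (by linarith)
    unfold sg at h3 ⊢
    linarith

open Classical in
/-- no loss for the moduli with `∑_{p ∣ q} p^(-σ) ≤ C` -/
theorem theoremR_class (γ : ℝ) (ψ : ℕ → ℝ) (hψ : ∀ q, 0 ≤ ψ q) {σ C : ℝ} (hσ : σ < 1)
    (hdiv : ¬ Summable (fun q : ℕ => if ∑ p ∈ q.primeFactors, (p : ℝ) ^ (-σ) ≤ C then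
      ((q.totient : ℝ) / q) * ψ q else 0)) :
    volume (W γ ψ)ᶜ = 0 := by
  have hg0 : ∀ q : ℕ, 0 ≤ ((q.totient : ℝ) / q) * ψ q := fun q =>
    mul_nonneg (by (clear * -; positivity)) (hψ q)
  refine theoremR γ ψ hψ (σ := σ) (δ := 1) hσ one_pos ?_
  intro hs
  apply hdiv
  set B : ℝ := Real.log (2 + Real.exp ((Real.log (2 + max C 0)) ^ (1 + 1 : ℝ))) with hB
  have hB1 : 1 ≤ B + 1 := by
    have : 0 ≤ B := Real.log_nonneg (by
      have := Real.exp_pos ((Real.log (2 + max C 0)) ^ (1 + 1 : ℝ))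
      linarith)
    linarith
  refine Summable.of_nonneg_of_le ?_ ?_ (hs.mul_left (B + 1))
  · intro q
    split_ifs
    · exact hg0 q
    · exact le_rfl
  · intro q
    have hsg := sg_nn σ q
    unfold sg at hsg
    have hl0 : 0 < Real.log (2 + 1 / ψ q) := Real.log_pos (by
      have := one_div_nonneg.mpr (hψ q)
      linarith)
    have hw0 : 0 ≤ ((q.totient : ℝ) / q) * ψ q /
      (if ψ q ≤ Real.exp (-(Real.log (2 + ∑ p ∈ q.primeFactors, (p : ℝ) ^ (-σ))) ^ (1 + 1 : ℝ))
        then 1 else (Real.log (2 + 1 / ψ q)) ^ (1 : ℝ)) := by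
      apply div_nonneg (hg0 q)
      split_ifs
      · exact zero_le_one
      · exact Real.rpow_nonneg hl0.le _
    by_cases hC : ∑ p ∈ q.primeFactors, (p : ℝ) ^ (-σ) ≤ C
    · rw [if_pos hC]
      by_cases hψ' : ψ q ≤ Real.exp
          (-(Real.log (2 + ∑ p ∈ q.primeFactors, (p : ℝ) ^ (-σ))) ^ (1 + 1 : ℝ))
      · rw [if_pos hψ', div_one]
        have := hg0 q
        nlinarith
      · rw [if_neg hψ', Real.rpow_one, ← mul_div_assoc, le_div_iff₀ hl0]
        rw [mul_comm (B + 1)]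
        apply mul_le_mul_of_nonneg_left _ (hg0 q)
        push Not at hψ'
        have h1 : 1 / ψ q ≤ Real.exp ((Real.log (2 + max C 0)) ^ (1 + 1 : ℝ)) := by
          have h2 : Real.exp (-(Real.log (2 + max C 0)) ^ (1 + 1 : ℝ)) ≤ ψ q := by
            refine le_trans (Real.exp_le_exp.mpr (neg_le_neg ?_)) hψ'.le
            apply Real.rpow_le_rpow (Real.log_nonneg (by linarith)) _ (by norm_num)
            apply Real.log_le_log (by linarith)
            have := le_max_left C 0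
            linarith
          rw [one_div]
          rw [Real.exp_neg] at h2
          exact inv_le_of_inv_le₀ (Real.exp_pos _) h2
        have h3 : Real.log (2 + 1 / ψ q) ≤ B := by
          apply Real.log_le_log _ (by linarith)
          have := one_div_nonneg.mpr (hψ q)
          linarith
        linarith
    · rw [if_neg hC]
      exact mul_nonneg (by linarith) hw0

end Vale.P028
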