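import Vale.Agent.P028.MathlibUsed
import Vale.Agent.P028.KDefs
import Mathlib.Analysis.SpecialFunctions.Pow.Real

/-!
# The anatomical function `∑_{p ∣ q} (log p)^A / p`
-/

namespace Vale.P028

open Finset

/-- `∑_{p ∣ q} (log p)^A / p` -/
noncomputable def hg (A : ℝ) (q : ℕ) : ℝ := ∑ p ∈ q.primeFactors, (Real.log p) ^ A / p

theorem hg_nonneg (A : ℝ) (q : ℕ) : 0 ≤ hg A q := by
  unfold hg
  refine sum_nonneg fun p hp => ?_
  have h1 : (1 : ℝ) ≤ p := by exact_mod_cast (Nat.prime_of_mem_primeFactors hp).one_lt.le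
  exact div_nonneg (Real.rpow_nonneg (Real.log_nonneg h1) _) (by linarith)

/-- the tail of `∑ 1/p` -/
theorem LL_le_hg {A y : ℝ} (hA : 0 ≤ A) (hy : 1 < y) (q : ℕ) :
    LL y q ≤ (Real.log y) ^ (-A) * hg A q := by
  unfold LL hg
  rw [mul_sum]
  have hly : 0 < Real.log y := Real.log_pos hy
  have h0 : ∀ p ∈ q.primeFactors, 0 ≤ (Real.log y) ^ (-A) * ((Real.log p) ^ A / p) := by
    intro p hp
    have h1 : (1 : ℝ) ≤ p := by exact_mod_cast (Nat.prime_of_mem_primeFactors hp).one_lt.le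
    exact mul_nonneg (Real.rpow_nonneg hly.le _)
      (div_nonneg (Real.rpow_nonneg (Real.log_nonneg h1) _) (by linarith))
  refine le_trans (sum_le_sum (f := fun p : ℕ => 1 / (p : ℝ))
    (g := fun p : ℕ => (Real.log y) ^ (-A) * ((Real.log p) ^ A / p)) ?_)
    (sum_le_sum_of_subset_of_nonneg (filter_subset _ _) fun p hp _ => h0 p hp)
  intro p hp
  rw [mem_filter] at hp
  have hp0 : (0 : ℝ) < p := by linarith [hp.2]
  have h1 : Real.log y ≤ Real.log p := Real.log_le_log (by linarith) hp.2.le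
  have h2 : (Real.log y) ^ A ≤ (Real.log p) ^ A := Real.rpow_le_rpow hly.le h1 hA
  have h3 : 1 ≤ (Real.log y) ^ (-A) * (Real.log p) ^ A := by
    rw [Real.rpow_neg hly.le, inv_mul_eq_div, one_le_div (Real.rpow_pos_of_pos hly _)]
    exact h2
  rw [mul_div_assoc', div_le_div_iff_of_pos_right hp0]
  exact h3

end Vale.P028
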