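import Vale.Agent.P028.MathlibUsed
import Vale.Agent.P028.SDefs

/-!
# Numerics for the core estimate with `∑_{p ∣ q} (log p)^A / p ≤ H`

`y = exp (K (4H/s)^(1/A))`, `K = 1002 A + |log B₀| + 2`: `log y ≥ 2`;
`LL y q ≤ (log y)^(-A) hg A q ≤ (s/(4H)) H = s/4` (`LL_le_hg`); `log (1/s) ≤ A s^(-1/A)`
(`t/A ≤ e^(t/A)`), so `log y ≥ 1002 log (1/s)` and `log y ≥ log (1/s) + |log B₀|`;
`(S^(-log y)/s)^16 ≤ exp (16 (log y + 1) log (1/s)) ≤ exp (A₂ (H/s)^(1/A) log (1/s))` with
`A₂ = 16 (4 K + 1)`.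
-/

namespace Vale.P028

open Finset

theorem score_num {B₀ A : ℝ} (hB₀ : 0 < B₀) (hA : 1 ≤ A) :
    ∃ A₂ : ℝ, 0 < A₂ ∧ ∀ H s : ℝ, 1 ≤ H → 0 < s → s ≤ 1 / 1000 →
      ∃ y : ℝ, 0 < y ∧ 2 ≤ Real.log y ∧ ∀ S : ℝ, s ≤ S → S ≤ 1 →
        1 ≤ S * y * B₀ ∧ 1 ≤ S * y ∧
        S ^ (-(2 * (501 / 1000 : ℝ))) ≤ y ^ ((501 / 1000 : ℝ) - 1 / 2) ∧
        (∀ q : ℕ, hg A q ≤ H → LL y q ≤ S / 4) ∧
        1 ≤ S ^ (-Real.log y) ∧
        ∀ V₀ : ℝ, Real.exp (A₂ * (H / s) ^ (1 / A) * Real.log (1 / s)) ≤ V₀ →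
        (S ^ (-Real.log y) / s) ^ 16 ≤ V₀ := by
  have hA0 : 0 < A := by linarith
  obtain ⟨K, hK⟩ : ∃ K, K = 1002 * A + |Real.log B₀| + 2 := ⟨_, rfl⟩
  have hB : 0 ≤ |Real.log B₀| := abs_nonneg _
  have hK2 : 2 ≤ K := by rw [hK]; linarith
  refine ⟨64 * (K + 1), by linarith, fun H s hH hs hs' => ?_⟩
  have hH0 : 0 < H := by linarith
  obtain ⟨t, ht⟩ : ∃ t, t = Real.log (1 / s) := ⟨_, rfl⟩
  have hts : Real.log s = -t := by rw [ht, one_div, Real.log_inv, neg_neg]
  have ht0 : 0 ≤ t := by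
    have : Real.log s ≤ 0 := Real.log_nonpos hs.le (by linarith)
    linarith
  obtain ⟨m, hm⟩ : ∃ m, m = (4 * H / s) ^ (1 / A) := ⟨_, rfl⟩
  have hA1 : 0 < 1 / A := by positivity
  have h4 : 1 ≤ 4 * H / s := by
    rw [le_div_iff₀ hs]
    linarith
  have hm1 : 1 ≤ m := by rw [hm]; exact Real.one_le_rpow h4 hA1.le
  have hmA : m ^ A = 4 * H / s := by
    rw [hm, ← Real.rpow_mul (by linarith), one_div_mul_cancel hA0.ne', Real.rpow_one]
  have htm : t ≤ A * m := by
    have h1 : t / A ≤ Real.exp (t / A) := by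
      have := Real.add_one_le_exp (t / A)
      linarith
    have h2 : Real.exp (t / A) = (1 / s) ^ (1 / A) := by
      rw [Real.rpow_def_of_pos (by positivity), ← ht]
      congr 1
      ring
    have h3 : (1 / s) ^ (1 / A) ≤ m := by
      rw [hm]
      refine Real.rpow_le_rpow (by positivity) ?_ hA1.le
      refine div_le_div_of_nonneg_right (by linarith) hs.le
    have h5 : t / A ≤ m := h1.trans (by rw [h2]; exact h3)
    rw [div_le_iff₀ hA0] at h5
    linarith
  obtain ⟨w, hw⟩ : ∃ w, w = K * m := ⟨_, rfl⟩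
  have hBm : |Real.log B₀| ≤ |Real.log B₀| * m := le_mul_of_one_le_right hB hm1
  have hwe : w = 1002 * (A * m) + |Real.log B₀| * m + 2 * m := by rw [hw, hK]; ring
  have hly : Real.log (Real.exp w) = w := Real.log_exp _
  have hAm : 0 ≤ A * m := by positivity
  have hw2 : 2 ≤ w := by rw [hwe]; linarith
  refine ⟨Real.exp w, Real.exp_pos _, by rw [hly]; exact hw2, fun S hSs hS1 => ?_⟩
  have hS0 : 0 < S := lt_of_lt_of_le hs hSs
  have hlogS : -t ≤ Real.log S := by
    rw [← hts]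
    exact Real.log_le_log hs hSs
  have hlogS0 : Real.log S ≤ 0 := Real.log_nonpos hS0.le hS1
  have hZ : S ^ (-Real.log (Real.exp w)) = Real.exp (-Real.log S * w) := by
    rw [Real.rpow_def_of_pos hS0, hly]
    congr 1
    ring
  refine ⟨?_, ?_, ?_, ?_, ?_, ?_⟩
  · calc (1 : ℝ) ≤ Real.exp (Real.log S + w + Real.log B₀) := by
          apply Real.one_le_exp
          have := neg_abs_le (Real.log B₀)
          linarith
      _ = S * Real.exp w * B₀ := by
          rw [Real.exp_add, Real.exp_add, Real.exp_log hS0, Real.exp_log hB₀]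
  · calc (1 : ℝ) ≤ Real.exp (Real.log S + w) := by
          apply Real.one_le_exp
          linarith
      _ = S * Real.exp w := by rw [Real.exp_add, Real.exp_log hS0]
  · rw [Real.rpow_def_of_pos hS0, Real.rpow_def_of_pos (Real.exp_pos _), hly]
    apply Real.exp_le_exp.2
    linarith
  · intro q hq
    have hy1 : 1 < Real.exp w := Real.one_lt_exp_iff.2 (by linarith)
    refine (LL_le_hg hA0.le hy1 q).trans ?_
    rw [hly]
    have hw0 : 0 < w := by linarith
    refine (mul_le_mul_of_nonneg_left hq (Real.rpow_nonneg hw0.le _)).trans ?_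
    have h1 : 4 * H / s ≤ w ^ A := by
      rw [← hmA]
      refine Real.rpow_le_rpow (by linarith) ?_ hA0.le
      rw [hw]
      nlinarith
    have h2 : w ^ (-A) * H ≤ s / 4 := by
      rw [Real.rpow_neg hw0.le, inv_mul_eq_div, div_le_iff₀ (Real.rpow_pos_of_pos hw0 _)]
      have h3 : s / 4 * (4 * H / s) = H := by
        field_simp
      calc H = s / 4 * (4 * H / s) := h3.symm
        _ ≤ s / 4 * w ^ A := mul_le_mul_of_nonneg_left h1 (by positivity)
    linarith
  · rw [hZ]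
    apply Real.one_le_exp
    nlinarith
  · intro V₀ hV₀
    refine le_trans ?_ hV₀
    have hZs : Real.exp (-Real.log S * w) / s = Real.exp (-Real.log S * w + t) := by
      rw [← sub_neg_eq_add, ← hts, Real.exp_sub, Real.exp_log hs]
    rw [hZ, hZs, ← Real.exp_nat_mul, ← ht]
    apply Real.exp_le_exp.2
    have hw0 : 0 ≤ w := by linarith
    have h1 : -Real.log S * w ≤ t * w := mul_le_mul_of_nonneg_right (by linarith) hw0
    have h2 : m ≤ 4 * (H / s) ^ (1 / A) := by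
      have h3 : (4 : ℝ) ^ (1 / A) ≤ 4 := by
        have h5 : 1 / A ≤ 1 := by
          rw [div_le_one hA0]
          exact hA
        calc (4 : ℝ) ^ (1 / A) ≤ (4 : ℝ) ^ (1 : ℝ) :=
              Real.rpow_le_rpow_of_exponent_le (by norm_num) h5
          _ = 4 := Real.rpow_one _
      have h6 : m = (4 : ℝ) ^ (1 / A) * (H / s) ^ (1 / A) := by
        rw [hm, mul_div_assoc, Real.mul_rpow (by norm_num) (by positivity)]
      rw [h6]
      exact mul_le_mul_of_nonneg_right h3 (Real.rpow_nonneg (by positivity) _)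
    have h7 : w + 1 ≤ (K + 1) * m := by rw [hw]; linarith
    have h8 : (K + 1) * m ≤ (K + 1) * (4 * (H / s) ^ (1 / A)) :=
      mul_le_mul_of_nonneg_left h2 (by linarith)
    have h9 : t * (w + 1) ≤ t * ((K + 1) * (4 * (H / s) ^ (1 / A))) :=
      mul_le_mul_of_nonneg_left (h7.trans h8) ht0
    push_cast
    linarith

end Vale.P028
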