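import Vale.Agent.P028.MathlibUsed
import Vale.Agent.P028.SCore
import Vale.Agent.P028.QSize

/-!
# Far pairs with `∑_{p ∣ q} (log p)^A / p ≤ H`, for an absolute constant `A`

Proof. `C₁, ε₁` from `near_part`, `A = 2/ε₁ + 1` (so `1/A ≤ ε₁/2`), `A₂, C₂, c₂, θ` from `coreS`;
`log (1/s) ≤ (4/ε₁) s^(-ε₁/4)`, `(H/s)^(1/A) ≤ H s^(-ε₁/2)`, so with `C₅ = A₂ (4/ε₁) + 1`:
`A₂ (H/s)^(1/A) log (1/s) ≤ C₅ H s^(-3ε₁/4)`.
Case 1: `C₅ H ≤ s^(-ε₁/4)`: then `V₀ := exp (A₂ (H/s)^(1/A) log (1/s)) ≤ exp (s^(-ε₁))`: the pairs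
with both cofactors `≤ ⌊exp (s^(-ε₁))⌋₊` by `near_part`, the other ones by `coreS`
(as in RTypeA.typeR_good; `F^(2θ) ≤ F + F^2`: `rpow_le_add_sq`).
Case 2: `s^(-ε₁/4) < C₅ H`: `s^(-1/512) < (C₅ H)^k` with `k = 4/(512 ε₁)`: `qs_case2` with
`x = C₅ H` and `ε' = ε / (M + 1)`, `C₅ ≤ 2^M`: `C₅ H ≤ (1 + H)^(M+1)`, so
`(C₅ H)^ε' ≤ (1+H)^ε ≤ F`.
-/

namespace Vale.P028

open Finset

/-- `∑_{p ∣ q} (log p)^A / p ≤ H` on the support and mass at least `(1 + H)^ε` -/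
def PLog (A ε : ℝ) (N : ℕ) (_ψ f : ℕ → ℝ) : Prop :=
  ∃ H : ℝ, 1 ≤ H ∧ (∀ q, f q ≠ 0 → 0 < q ∧ hg A q ≤ H) ∧
    (1 + H) ^ ε ≤ ∑ q ∈ Icc 1 N, f q

/-- the exponent of the core estimate -/
theorem st_num {s H A A₂ ε₁ : ℝ} (hs : 0 < s) (hs1 : s ≤ 1) (hH : 1 ≤ H) (hε₁ : 0 < ε₁)
    (hA1 : 1 ≤ A) (hA : 2 / ε₁ ≤ A) (hA₂ : 0 < A₂)
    (hcase : (A₂ * (4 / ε₁) + 1) * H ≤ s ^ (-(ε₁ / 4))) :
    A₂ * (H / s) ^ (1 / A) * Real.log (1 / s) ≤ s ^ (-ε₁) := by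
  have hH0 : 0 < H := by linarith
  have hA0 : 0 < A := by linarith
  have h1 : Real.log (1 / s) ≤ 4 / ε₁ * s ^ (-(ε₁ / 4)) := by
    have h2 := Real.log_le_rpow_div (x := 1 / s) (ε := ε₁ / 4) (by positivity) (by positivity)
    refine h2.trans (le_of_eq ?_)
    rw [one_div, Real.inv_rpow hs.le, ← Real.rpow_neg hs.le]
    field_simp
  have hl0 : 0 ≤ Real.log (1 / s) := Real.log_nonneg (by rw [le_div_iff₀ hs]; linarith)
  have h3 : (H / s) ^ (1 / A) ≤ H * s ^ (-(ε₁ / 2)) := by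
    have h4 : (H / s) ^ (1 / A) = H ^ (1 / A) * s ^ (-(1 / A)) := by
      rw [Real.div_rpow hH0.le hs.le, Real.rpow_neg hs.le, div_eq_mul_inv]
    have h5 : H ^ (1 / A) ≤ H := by
      calc H ^ (1 / A) ≤ H ^ (1 : ℝ) := by
            apply Real.rpow_le_rpow_of_exponent_le hH
            rw [div_le_one hA0]
            exact hA1
        _ = H := Real.rpow_one H
    have h6 : s ^ (-(1 / A)) ≤ s ^ (-(ε₁ / 2)) := by
      apply Real.rpow_le_rpow_of_exponent_ge hs hs1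
      have h7 : 1 / A ≤ ε₁ / 2 := by
        rw [div_le_iff₀ hA0]
        rw [div_le_iff₀ hε₁] at hA
        linarith
      linarith
    rw [h4]
    exact mul_le_mul h5 h6 (Real.rpow_nonneg hs.le _) hH0.le
  have h8 : 0 ≤ s ^ (-(ε₁ / 2)) := Real.rpow_nonneg hs.le _
  have h9 : 0 ≤ s ^ (-(ε₁ / 4)) := Real.rpow_nonneg hs.le _
  calc A₂ * (H / s) ^ (1 / A) * Real.log (1 / s)
      ≤ A₂ * (H * s ^ (-(ε₁ / 2))) * (4 / ε₁ * s ^ (-(ε₁ / 4))) := by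
        apply mul_le_mul (mul_le_mul_of_nonneg_left h3 hA₂.le) h1 hl0
        positivity
    _ = (A₂ * (4 / ε₁) * H) * (s ^ (-(ε₁ / 2)) * s ^ (-(ε₁ / 4))) := by ring
    _ ≤ ((A₂ * (4 / ε₁) + 1) * H) * (s ^ (-(ε₁ / 2)) * s ^ (-(ε₁ / 4))) := by
        apply mul_le_mul_of_nonneg_right _ (mul_nonneg h8 h9)
        nlinarith
    _ ≤ s ^ (-(ε₁ / 4)) * (s ^ (-(ε₁ / 2)) * s ^ (-(ε₁ / 4))) :=
        mul_le_mul_of_nonneg_right hcase (mul_nonneg h8 h9)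
    _ = s ^ (-ε₁) := by
        rw [← Real.rpow_add hs, ← Real.rpow_add hs]
        congr 1
        ring

theorem typeA_S : ∃ A : ℝ, 1 ≤ A ∧ ∀ ε : ℝ, 0 < ε → TypeAP (PLog A ε) := by
  classical
  obtain ⟨C₁, ε₁, hC₁, hε₁, hnear⟩ := near_part
  obtain ⟨A, hAdef⟩ : ∃ A : ℝ, A = 2 / ε₁ + 1 := ⟨_, rfl⟩
  have hA1 : 1 ≤ A := by
    have : 0 < 2 / ε₁ := by positivity
    linarith
  have hA2 : 2 / ε₁ ≤ A := by linarith
  refine ⟨A, hA1, ?_⟩
  intro ε hε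
  obtain ⟨θ, c₂, A₂, C₂, hθ, hθ1, hc₂, hA₂, hC₂, hB⟩ := coreS hA1
  obtain ⟨C₅, hC₅⟩ : ∃ C₅ : ℝ, C₅ = A₂ * (4 / ε₁) + 1 := ⟨_, rfl⟩
  have hC₅1 : 1 ≤ C₅ := by
    have : 0 < A₂ * (4 / ε₁) := by positivity
    linarith
  obtain ⟨M, hM⟩ := pow_unbounded_of_one_lt C₅ (by norm_num : (1 : ℝ) < 2)
  obtain ⟨k, hk⟩ : ∃ k : ℝ, k = 4 / (512 * ε₁) := ⟨_, rfl⟩
  have hk0 : 0 ≤ k := by rw [hk]; positivity
  have hε' : 0 < ε / (M + 1) := by positivity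
  obtain ⟨C₃, δ, hC₃, hδ, hδ1, hbig⟩ := qs_case2 hk0 hε'
  obtain ⟨c, hcdef⟩ : ∃ c : ℝ, c = min (min (1 / 64) c₂) δ := ⟨_, rfl⟩
  have hc : 0 < c := by rw [hcdef]; exact lt_min (lt_min (by norm_num) hc₂) hδ
  have hcc1 : c ≤ 1 / 64 := by rw [hcdef]; exact (min_le_left _ _).trans (min_le_left _ _)
  have hcc2 : c ≤ c₂ := by rw [hcdef]; exact (min_le_left _ _).trans (min_le_right _ _)
  have hcc3 : c ≤ δ := by rw [hcdef]; exact min_le_right _ _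
  clear hcdef
  refine ⟨C₁ + C₂ + C₃, c, by positivity, hc, ?_⟩
  intro γ s hs hs3 N ψ f hψ hf hP
  obtain ⟨H, hH, hsupp, hFH⟩ := hP
  set F : ℝ := ∑ q ∈ Icc 1 N, f q with hFdef
  have hf0 : ∀ q, 0 ≤ f q := fun q => (hf q).1
  have hF0 : 0 ≤ F := sum_nonneg fun q _ => hf0 q
  have hFF : 0 ≤ F + F ^ 2 := by (clear * - hF0; positivity)
  have hfψ : ∀ q, f q ≤ ψ q := by
    intro q
    refine (hf q).2.trans ?_
    calc ψ q * (q.totient / q) ≤ ψ q * 1 := mul_le_mul_of_nonneg_left (tot_le_one q) (hψ q)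
      _ = ψ q := mul_one _
  have hs1 : s ≤ 1 := by linarith only [hs3]
  have hp0 : 0 ≤ s ^ (1 + c) := (Real.rpow_pos_of_pos hs _).le
  have hpow : ∀ a : ℝ, c ≤ a → s ^ (1 + a) ≤ s ^ (1 + c) := fun a ha =>
    Real.rpow_le_rpow_of_exponent_ge hs hs1 (by linarith only [ha])
  rcases le_or_gt (C₅ * H) (s ^ (-(ε₁ / 4))) with hcase | hcase
  · -- small levels
    have hV₀ : Real.exp (A₂ * (H / s) ^ (1 / A) * Real.log (1 / s)) ≤ Real.exp (s ^ (-ε₁)) :=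
      Real.exp_le_exp.2 (st_num hs hs1 hH hε₁ hA1 hA2 hA₂ (by rw [← hC₅]; exact hcase))
    obtain ⟨V, hV⟩ : ∃ V : ℕ, V = ⌊Real.exp (s ^ (-ε₁))⌋₊ := ⟨_, rfl⟩
    have hVlt : ∀ n : ℕ, ¬ n ≤ V → Real.exp (s ^ (-ε₁)) ≤ n := by
      intro n hn
      rw [not_le, hV] at hn
      exact (Nat.lt_of_floor_lt hn).le
    have hnearpart : psum (fun q r => Rel γ ψ s q r ∧ Far γ s (cofac q r) (cofac r q) ∧
            cofac q r ≤ V ∧ cofac r q ≤ V) N f f ≤ C₁ * s ^ (1 + c) * (F + F ^ 2) := by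
      rw [hV]
      refine (hnear γ s hs hs3 N ψ f (fun q => ⟨hf0 q, hfψ q⟩)).trans ?_
      exact mul_le_mul_of_nonneg_right (mul_le_mul_of_nonneg_left (hpow _ hcc1) hC₁.le) hFF
    have hcore : psum (fun q r => Rel γ ψ s q r ∧ Far γ s (cofac q r) (cofac r q) ∧
            Real.exp (s ^ (-ε₁)) ≤ max (cofac q r : ℝ) (cofac r q : ℝ)) N f f ≤
            C₂ * s ^ (1 + c) * (F + F ^ 2) := by
      have h4 : F ^ (2 * θ) ≤ F + F ^ 2 :=
        rpow_le_add_sq hF0 (by linarith only [hθ]) (by linarith only [hθ1])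
      have h5 : 0 ≤ F ^ (2 * θ) := Real.rpow_nonneg hF0 _
      refine (hB γ H s _ hH hs hs3 hV₀ N ψ f hψ hf hsupp).trans ?_
      exact mul_le_mul (mul_le_mul_of_nonneg_left (hpow _ hcc2) hC₂.le) h4 h5
        (mul_nonneg hC₂.le hp0)
    have hsplit : psum (TA γ ψ s) N f f ≤
        psum (fun q r => Rel γ ψ s q r ∧ Far γ s (cofac q r) (cofac r q) ∧
            cofac q r ≤ V ∧ cofac r q ≤ V) N f f +
        psum (fun q r => Rel γ ψ s q r ∧ Far γ s (cofac q r) (cofac r q) ∧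
            Real.exp (s ^ (-ε₁)) ≤ max (cofac q r : ℝ) (cofac r q : ℝ)) N f f := by
      apply psum_or_le _ _ _ _ _ _ hf0 hf0
      intro q r hR
      by_cases h : cofac q r ≤ V ∧ cofac r q ≤ V
      · exact Or.inl ⟨hR.1, hR.2.1, h⟩
      · refine Or.inr ⟨hR.1, hR.2.1, ?_⟩
        rw [not_and_or] at h
        rcases h with h' | h'
        · exact (hVlt _ h').trans (le_max_left _ _)
        · exact (hVlt _ h').trans (le_max_right _ _)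
    calc psum (TA γ ψ s) N f f
        ≤ C₁ * s ^ (1 + c) * (F + F ^ 2) + C₂ * s ^ (1 + c) * (F + F ^ 2) :=
          hsplit.trans (add_le_add hnearpart hcore)
      _ = (C₁ + C₂) * s ^ (1 + c) * (F + F ^ 2) := by ring
      _ ≤ (C₁ + C₂ + C₃) * s ^ (1 + c) * (F + F ^ 2) := by
          apply mul_le_mul_of_nonneg_right _ hFF
          apply mul_le_mul_of_nonneg_right _ hp0
          linarith only [hC₃]
  · -- large levels
    have hx1 : 1 ≤ C₅ * H := by nlinarith only [hC₅1, hH]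
    have hH2 : 1 ≤ 1 + H := by linarith only [hH]
    have hxM : C₅ * H ≤ (1 + H) ^ (M + 1) := by
      have h1 : (2 : ℝ) ^ M ≤ (1 + H) ^ M :=
        pow_le_pow_left₀ (by norm_num) (by linarith only [hH]) M
      calc C₅ * H ≤ (1 + H) ^ M * (1 + H) :=
            mul_le_mul (hM.le.trans h1) (by linarith only []) (by linarith only [hH])
              (by positivity)
        _ = (1 + H) ^ (M + 1) := (pow_succ _ _).symm
    have hxF : (C₅ * H) ^ (ε / (M + 1)) ≤ F := by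
      refine le_trans ?_ hFH
      calc (C₅ * H) ^ (ε / (M + 1)) ≤ ((1 + H) ^ (M + 1)) ^ (ε / (M + 1)) :=
            Real.rpow_le_rpow (by linarith only [hx1]) hxM hε'.le
        _ = (1 + H) ^ ε := by
            rw [← Real.rpow_natCast, ← Real.rpow_mul (by linarith only [hH])]
            congr 1
            push_cast
            field_simp
    have hsk : s ^ (-(1 / 512) : ℝ) < (C₅ * H) ^ k := by
      have h1 : s ^ (-(1 / 512) : ℝ) = (s ^ (-(ε₁ / 4))) ^ k := by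
        rw [← Real.rpow_mul hs.le, hk]
        congr 1
        field_simp
      rw [h1]
      exact Real.rpow_lt_rpow (Real.rpow_nonneg hs.le _) hcase (by rw [hk]; positivity)
    have h1 := hbig γ s (C₅ * H) N ψ f hs hs1 hx1 hψ hf hxF hsk
    calc psum (TA γ ψ s) N f f ≤ C₃ * s ^ (1 + δ) * (F + F ^ 2) := h1
      _ ≤ C₃ * s ^ (1 + c) * (F + F ^ 2) :=
          mul_le_mul_of_nonneg_right (mul_le_mul_of_nonneg_left (hpow _ hcc3) hC₃.le) hFF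
      _ ≤ (C₁ + C₂ + C₃) * s ^ (1 + c) * (F + F ^ 2) := by
          apply mul_le_mul_of_nonneg_right _ hFF
          apply mul_le_mul_of_nonneg_right _ hp0
          linarith only [hC₁, hC₂]

end Vale.P028
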