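import Vale.Agent.P028.MathlibUsed
import Vale.Agent.P028.RMain
import Vale.Agent.P028.STypeA

/-!
# The combined theorem
-/

namespace Vale.P028

open Finset MeasureTheory Filter

/-- loss `(1 + ∑_{p ∣ q} (log p)^A / p)^ε` for an absolute constant `A` -/
theorem theoremH : ∃ A : ℝ, 1 ≤ A ∧ ∀ (γ : ℝ) (ψ : ℕ → ℝ), (∀ q, 0 ≤ ψ q) → ∀ ε : ℝ, 0 < ε →
    ¬ Summable (fun q : ℕ => ((q.totient : ℝ) / q) * ψ q / (1 + hg A q) ^ ε) →
    volume (W γ ψ)ᶜ = 0 := by
  classical
  obtain ⟨A, hA, hTA⟩ := typeA_S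
  refine ⟨A, hA, ?_⟩
  intro γ ψ hψ ε hε hdiv
  have hε2 : 0 < ε / 2 := by linarith
  have hg0 : ∀ q : ℕ, 0 ≤ ((q.totient : ℝ) / q) * ψ q := fun q =>
    mul_nonneg (by (clear * -; positivity)) (hψ q)
  refine full_P (hTA (ε / 2) hε2) γ ψ hψ ?_
  intro N
  have hdiv' : ¬ Summable (fun q : ℕ => ((q.totient : ℝ) / q) * ψ q /
      (Real.log (2 + Real.exp (1 + hg A q))) ^ ε) := by
    intro hs
    apply hdiv
    refine Summable.of_nonneg_of_le ?_ ?_ (hs.mul_left ((3 : ℝ) ^ ε))
    · intro q
      exact div_nonneg (hg0 q) (Real.rpow_nonneg (by have := hg_nonneg A q; linarith) _)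
    · intro q
      have h0 := hg_nonneg A q
      have h1 : Real.log (2 + Real.exp (1 + hg A q)) ≤ 3 * (1 + hg A q) := by
        have h2 : 2 + Real.exp (1 + hg A q) ≤ Real.exp (1 + (1 + hg A q)) := by
          have h3 : (1 : ℝ) + 1 ≤ Real.exp 1 := Real.add_one_le_exp 1
          have h4 : (1 : ℝ) ≤ Real.exp (hg A q) := Real.one_le_exp h0
          have h5 : 2 + 2 / 5 ≤ Real.exp 1 := by
            have := Real.exp_one_gt_d9
            linarith
          have h6 : (2 : ℝ) ≤ Real.exp (1 + hg A q) := by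
            rw [Real.exp_add]
            nlinarith
          rw [Real.exp_add 1 (1 + hg A q)]
          nlinarith
        calc Real.log (2 + Real.exp (1 + hg A q)) ≤ Real.log (Real.exp (1 + (1 + hg A q))) :=
              Real.log_le_log (by positivity) h2
          _ = 1 + (1 + hg A q) := Real.log_exp _
          _ ≤ 3 * (1 + hg A q) := by linarith
      have hl : 0 < Real.log (2 + Real.exp (1 + hg A q)) := Real.log_pos (by
        have := Real.exp_pos (1 + hg A q)
        linarith)
      have h7 : (Real.log (2 + Real.exp (1 + hg A q))) ^ ε ≤ 3 ^ ε * (1 + hg A q) ^ ε := by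
        rw [← Real.mul_rpow (by norm_num) (by linarith)]
        exact Real.rpow_le_rpow hl.le h1 hε.le
      have h8 : 0 < (1 + hg A q) ^ ε := Real.rpow_pos_of_pos (by linarith) _
      have h9 : 0 < (Real.log (2 + Real.exp (1 + hg A q))) ^ ε := Real.rpow_pos_of_pos hl _
      rw [← mul_div_assoc, div_le_div_iff₀ h8 h9]
      calc ((q.totient : ℝ) / q) * ψ q * (Real.log (2 + Real.exp (1 + hg A q))) ^ ε
          ≤ ((q.totient : ℝ) / q) * ψ q * (3 ^ ε * (1 + hg A q) ^ ε) :=
            mul_le_mul_of_nonneg_left h7 (hg0 q)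
        _ = _ := by ring
  obtain ⟨T, S, hT, hS, hF⟩ := ql_select (g := fun q : ℕ => ((q.totient : ℝ) / q) * ψ q)
    (t := fun q : ℕ => Real.exp (1 + hg A q)) hg0 (fun q => (Real.exp_pos _).le) hε hdiv' (N + 1)
  have hlogT : 0 ≤ Real.log T := Real.log_nonneg hT
  have hpos : ∀ q ∈ S, 0 < ψ q := by
    intro q hq
    refine lt_of_le_of_ne (hψ q) ?_
    intro h0
    have h1 := (hS q hq).2.1
    simp only [← h0, mul_zero] at h1
    exact h1 rfl
  have hF1 : 1 ≤ ∑ q ∈ S, ((q.totient : ℝ) / q) * ψ q :=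
    (Real.one_le_rpow (by linarith) hε2.le).trans hF
  have hlog : ∀ q ∈ S, 1 + hg A q ≤ Real.log T := by
    intro q hq
    rw [Real.le_log_iff_exp_le (by linarith)]
    exact (hS q hq).2.2
  have hne : S.Nonempty := by
    rw [nonempty_iff_ne_empty]
    rintro rfl
    rw [sum_empty] at hF1
    linarith
  have hT1 : 1 ≤ Real.log T := by
    obtain ⟨q, hq⟩ := hne
    have := hlog q hq
    have := hg_nonneg A q
    linarith
  refine ⟨S, fun q hq => ⟨by have := (hS q hq).1; omega, hpos q hq⟩, hF1, Real.log T, hT1, ?_, ?_⟩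
  · intro q hq
    by_cases h : q ∈ S
    · exact ⟨by have := (hS q h).1; omega, by have := hlog q h; linarith⟩
    · simp only [if_neg h, ne_eq, not_true_eq_false] at hq
  · refine hF.trans (le_of_eq ?_)
    have hSN : S ⊆ Icc 1 (S.sup id) := by
      intro q hq
      rw [mem_Icc]
      exact ⟨by have := (hS q hq).1; omega, Finset.le_sup (f := id) hq⟩
    rw [← sum_subset hSN]
    · exact sum_congr rfl fun q hq => by rw [if_pos hq]
    · intro q _ hq
      rw [if_neg hq]

open Classical in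
/-- **The combined theorem.** -/
theorem theoremRS : ∃ A : ℝ, 1 ≤ A ∧ ∀ (γ : ℝ) (ψ : ℕ → ℝ), (∀ q, 0 ≤ ψ q) →
    ((∃ C : ℝ, ¬ Summable (fun q : ℕ => if ∑ p ∈ q.primeFactors, (Real.log p) ^ A / p ≤ C then
        ((q.totient : ℝ) / q) * ψ q else 0)) ∨
      (∃ σ δ : ℝ, σ < 1 ∧ 0 < δ ∧
        ¬ Summable (fun q : ℕ => ((q.totient : ℝ) / q) * ψ q /
          (if ψ q ≤ Real.exp (-(Real.log (2 + ∑ p ∈ q.primeFactors, (p : ℝ) ^ (-σ))) ^ (1 + δ))
            then 1 else (min (1 + ∑ p ∈ q.primeFactors, (Real.log p) ^ A / p)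
              (Real.log (2 + 1 / ψ q))) ^ δ)))) →
    volume (W γ ψ)ᶜ = 0 := by
  obtain ⟨A, hA, hH⟩ := theoremH
  refine ⟨A, hA, ?_⟩
  intro γ ψ hψ h
  have hg0 : ∀ q : ℕ, 0 ≤ ((q.totient : ℝ) / q) * ψ q := fun q =>
    mul_nonneg (by (clear * -; positivity)) (hψ q)
  rcases h with ⟨C, hdiv⟩ | ⟨σ, δ, hσ, hδ, hdiv⟩
  · refine hH γ ψ hψ 1 one_pos ?_
    intro hs
    apply hdiv
    refine Summable.of_nonneg_of_le ?_ ?_ (hs.mul_left (1 + max C 0))
    · intro q
      split_ifs
      · exact hg0 q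
      · exact le_rfl
    · intro q
      have h0 := hg_nonneg A q
      have h1 : 0 < 1 + hg A q := by linarith
      have h2 : (0 : ℝ) ≤ max C 0 := le_max_right _ _
      rw [Real.rpow_one]
      split_ifs with hc
      · have h3 : hg A q ≤ C := hc
        rw [← mul_div_assoc, le_div_iff₀ h1, mul_comm (1 + max C 0)]
        apply mul_le_mul_of_nonneg_left _ (hg0 q)
        have := le_max_left C 0
        linarith
      · exact mul_nonneg (by linarith) (div_nonneg (hg0 q) h1.le)
  · have hl : ∀ q, 0 < Real.log (2 + 1 / ψ q) := fun q => Real.log_pos (by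
      have := one_div_nonneg.mpr (hψ q)
      linarith)
    by_cases h1 : Summable (fun q : ℕ => ((q.totient : ℝ) / q) * ψ q / (1 + hg A q) ^ δ)
    · refine theoremR γ ψ hψ hσ hδ ?_
      intro h2
      apply hdiv
      refine Summable.of_nonneg_of_le ?_ ?_ (h1.add h2)
      · intro q
        apply div_nonneg (hg0 q)
        split_ifs
        · exact zero_le_one
        · apply Real.rpow_nonneg
          exact le_min (by have := hg_nonneg A q; unfold hg at this; linarith) (hl q).le
      · intro q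
        have h0 := hg_nonneg A q
        have hA0 : 0 ≤ ((q.totient : ℝ) / q) * ψ q / (1 + hg A q) ^ δ :=
          div_nonneg (hg0 q) (Real.rpow_nonneg (by linarith) _)
        have hB0 : 0 ≤ ((q.totient : ℝ) / q) * ψ q / (Real.log (2 + 1 / ψ q)) ^ δ :=
          div_nonneg (hg0 q) (Real.rpow_nonneg (hl q).le _)
        split_ifs with hc
        · have := hA0
          simp only [div_one] at *
          linarith
        · have e : ∑ p ∈ q.primeFactors, (Real.log p) ^ A / p = hg A q := rfl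
          rw [e]
          rcases min_choice (1 + hg A q) (Real.log (2 + 1 / ψ q)) with hm | hm
          · rw [hm]
            linarith
          · rw [hm]
            linarith
    · exact hH γ ψ hψ δ hδ h1

end Vale.P028
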