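import Vale.Agent.P028.MathlibUsed
import Vale.Agent.P028.SDefs
import Vale.Agent.P028.RAnat
import Vale.Agent.P028.MDyadic

/-!
# Pairs whose cofactor has a large `∑ (log p)^A / p`
-/

namespace Vale.P028

open Finset

/-- `∑_{p ∣ q} (log p)^A / p ≤ (4 A)^A ∑_{p ∣ q} p^(-3/4)` -/
theorem hg_le_sg {A : ℝ} (hA : 1 ≤ A) (q : ℕ) : hg A q ≤ (4 * A) ^ A * sg (3 / 4) q := by
  unfold hg sg
  rw [mul_sum]
  refine sum_le_sum fun p hp => ?_
  have hp1 : (1 : ℝ) ≤ p := by exact_mod_cast (Nat.prime_of_mem_primeFactors hp).one_lt.le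
  have hp0 : (0 : ℝ) < p := by linarith
  have hA0 : 0 < A := by linarith
  have h1 : Real.log p ≤ 4 * A * (p : ℝ) ^ (1 / (4 * A)) := by
    have h2 := Real.log_le_rpow_div hp0.le (by positivity : 0 < 1 / (4 * A))
    refine h2.trans (le_of_eq ?_)
    field_simp
  have h3 : (Real.log p) ^ A ≤ (4 * A) ^ A * (p : ℝ) ^ (1 / 4 : ℝ) := by
    calc (Real.log p) ^ A ≤ (4 * A * (p : ℝ) ^ (1 / (4 * A))) ^ A :=
          Real.rpow_le_rpow (Real.log_nonneg hp1) h1 hA0.le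
      _ = (4 * A) ^ A * ((p : ℝ) ^ (1 / (4 * A))) ^ A :=
          Real.mul_rpow (by positivity) (by positivity)
      _ = (4 * A) ^ A * (p : ℝ) ^ (1 / 4 : ℝ) := by
          rw [← Real.rpow_mul hp0.le]
          congr 2
          field_simp
  calc (Real.log p) ^ A / p ≤ (4 * A) ^ A * (p : ℝ) ^ (1 / 4 : ℝ) / p :=
        div_le_div_of_nonneg_right h3 hp0.le
    _ = (4 * A) ^ A * (p : ℝ) ^ (-(3 / 4) : ℝ) := by
        rw [mul_div_assoc]
        congr 1
        rw [div_eq_iff hp0.ne']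
        nth_rewrite 3 [← Real.rpow_one (p : ℝ)]
        rw [← Real.rpow_add hp0]
        norm_num

/-- from `anat_sg` with `σ = 3/4`: `(log p)^A / p ≤ C p^(-3/4)`, so `Y ≤ hg A u` implies
`Y / C ≤ sg (3/4) u`. -/
theorem anat_hg {A : ℝ} (hA : 1 ≤ A) :
    ∃ C > 0, ∀ (Y s : ℝ) (N : ℕ) (ψ f : ℕ → ℝ), 0 < Y → 0 < s → (∀ q, 0 ≤ ψ q) →
      (∀ q, 0 ≤ f q ∧ f q ≤ ψ q * (q.totient / q)) →
      psum (fun q r => Y ≤ hg A (cofac q r) ∧ (cofac r q : ℝ) * ψ q ≤ s ∧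
        (cofac q r : ℝ) * ψ r ≤ s) N f f ≤
        C / Y * (s * s) ^ (1 - 501 / 1000 : ℝ) *
          (∑ q ∈ Icc 1 N, f q) ^ (2 * (501 / 1000) : ℝ) := by
  obtain ⟨C, hC, h⟩ := anat_sg (σ := 3 / 4) le_rfl
  have hA0 : 0 < A := by linarith
  have hC0 : 0 < (4 * A) ^ A := by positivity
  refine ⟨C * (4 * A) ^ A, by positivity, ?_⟩
  intro Y s N ψ f hY hs hψ hf
  have hf0 : ∀ q, 0 ≤ f q := fun q => (hf q).1
  have h1 := h (Y / (4 * A) ^ A) s N ψ f (div_pos hY hC0) hs hψ hf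
  refine le_trans ?_ (h1.trans (le_of_eq ?_))
  · apply psum_mono _ _ _ _ _ _ _ hf0 hf0
    rintro q _ r _ ⟨a1, a2, a3⟩ _
    refine ⟨⟨?_, a2, a3⟩, le_rfl⟩
    rw [div_le_iff₀ hC0, mul_comm]
    exact a1.trans (hg_le_sg hA _)
  · rw [div_div_eq_mul_div]

/-- as `sg_cofac` -/
theorem hg_cofac {A : ℝ} {q r : ℕ} (hq : 0 < q) (hr : 0 < r) :
    hg A r ≤ hg A q + hg A (cofac r q) := by
  unfold hg
  have hg0 : 0 < Nat.gcd r q := Nat.gcd_pos_of_pos_left _ hr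
  have hc : cofac r q ≠ 0 := by
    unfold cofac
    exact (Nat.div_pos (Nat.le_of_dvd hr (Nat.gcd_dvd_left r q)) hg0).ne'
  have hsub : r.primeFactors ⊆ q.primeFactors ∪ (cofac r q).primeFactors := by
    intro p hp
    rw [Nat.mem_primeFactors] at hp
    rw [mem_union, Nat.mem_primeFactors, Nat.mem_primeFactors]
    by_cases h : p ∣ q
    · exact Or.inl ⟨hp.1, h, hq.ne'⟩
    · refine Or.inr ⟨hp.1, ?_, hc⟩
      have h1 : p ∣ cofac r q * Nat.gcd r q := by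
        unfold cofac
        rw [Nat.div_mul_cancel (Nat.gcd_dvd_left r q)]
        exact hp.2.1
      rcases hp.1.dvd_mul.1 h1 with h2 | h2
      · exact h2
      · exact absurd (h2.trans (Nat.gcd_dvd_right r q)) h
  have hnn : ∀ p : ℕ, p.Prime → 0 ≤ (Real.log p) ^ A / (p : ℝ) := fun p hp => by
    have h1 : (1 : ℝ) ≤ p := by exact_mod_cast hp.one_lt.le
    exact div_nonneg (Real.rpow_nonneg (Real.log_nonneg h1) _) (by linarith)
  have hpr : ∀ p ∈ q.primeFactors ∪ (cofac r q).primeFactors, p.Prime := by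
    intro p hp
    rcases mem_union.1 hp with h | h
    · exact Nat.prime_of_mem_primeFactors h
    · exact Nat.prime_of_mem_primeFactors h
  calc ∑ p ∈ r.primeFactors, (Real.log p) ^ A / (p : ℝ)
      ≤ ∑ p ∈ q.primeFactors ∪ (cofac r q).primeFactors, (Real.log p) ^ A / (p : ℝ) :=
        sum_le_sum_of_subset_of_nonneg hsub fun p hp _ => hnn p (hpr p hp)
    _ ≤ _ := by
        rw [← sum_union_inter]
        have : 0 ≤ ∑ p ∈ q.primeFactors ∩ (cofac r q).primeFactors,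
            (Real.log p) ^ A / (p : ℝ) :=
          sum_nonneg fun p hp => hnn p (Nat.prime_of_mem_primeFactors (mem_inter.1 hp).1)
        linarith

end Vale.P028
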