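import Vale.Agent.P028.MathlibUsed
import Vale.Agent.P028.KNearA
import Vale.Agent.P028.RNum

/-!
# Numerics for `coreS` (`t = log (1/s)`, `h = H^(1/A)`, `a = 1/A`)
-/

namespace Vale.P028

/-- Good scales. `A₂ h e^(at) t ≤ A₂ t e^(ε₁t/2 + ε₁t/4) ≤ e^(ε₁ t)` for large `t`. -/
theorem unum_good {A₂ ε₁ : ℝ} (hA : 0 < A₂) (hε₁ : 0 < ε₁) :
    ∃ t₀ : ℝ, 1 ≤ t₀ ∧ ∀ a h t : ℝ, t₀ ≤ t → 0 ≤ h → a ≤ ε₁ / 8 →
      h ≤ Real.exp (ε₁ / 2 * t) →
      A₂ * h * Real.exp (a * t) * t ≤ Real.exp (ε₁ * t) := by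
  obtain ⟨t₀, ht₀, hq⟩ := rnum_sq (K := A₂) (ε := 3 * ε₁ / 8) hA.le (by positivity)
  refine ⟨t₀, ht₀, fun a h t ht hh ha hhe => ?_⟩
  have ht1 : 1 ≤ t := ht₀.trans ht
  have ht0 : 0 < t := by linarith
  have h1 : A₂ * t ≤ Real.exp (3 * ε₁ / 8 * t) := by
    refine le_trans ?_ (hq t ht)
    have : t ≤ t ^ 2 := by nlinarith
    exact mul_le_mul_of_nonneg_left this hA.le
  have h2 : Real.exp (a * t) ≤ Real.exp (ε₁ / 8 * t) :=
    Real.exp_le_exp.2 (mul_le_mul_of_nonneg_right ha ht0.le)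
  calc A₂ * h * Real.exp (a * t) * t ≤
        A₂ * Real.exp (ε₁ / 2 * t) * Real.exp (ε₁ / 8 * t) * t := by gcongr
    _ = (A₂ * t) * (Real.exp (ε₁ / 2 * t) * Real.exp (ε₁ / 8 * t)) := by ring
    _ ≤ Real.exp (3 * ε₁ / 8 * t) * (Real.exp (ε₁ / 2 * t) * Real.exp (ε₁ / 8 * t)) := by
        gcongr
    _ = Real.exp (ε₁ * t) := by
        rw [← Real.exp_add, ← Real.exp_add]
        congr 1
        ring

/-- Bad scales, large classes. From `e^(ε₁ t) < A₂ h e^(at) t` and `a ≤ ε₁ δ / 8`, `δ ≤ 1`,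
`t ≤ C e^(ε₁ t/8)`: `e^(3 ε₁ t/4) < A₂ C h`, so `e^(at) ≤ e^(ε₁ δ t/8) < (A₂ C h)^(δ/6)`,
and `t ≤ C' e^(ε₁ δ t/8)`; `A₂ h C' (A₂ C h)^(δ/3) + ... ≤ h^(1+δ)` for large `h`. -/
theorem unum_bad {A₂ ε₁ δ : ℝ} (hA : 0 < A₂) (hε₁ : 0 < ε₁) (hδ : 0 < δ) (hδ1 : δ ≤ 1) :
    ∃ h₀ : ℝ, 1 ≤ h₀ ∧ ∀ a h t : ℝ, h₀ ≤ h → 1 ≤ t → 0 ≤ a → a ≤ ε₁ * δ / 8 →
      Real.exp (ε₁ * t) < A₂ * h * Real.exp (a * t) * t →
      A₂ * h * Real.exp (a * t) * t + t + 1 ≤ h ^ (1 + δ) := by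
  obtain ⟨C, hC⟩ : ∃ C : ℝ, C = 8 / ε₁ := ⟨_, rfl⟩
  obtain ⟨C', hC'⟩ : ∃ C' : ℝ, C' = 8 / (ε₁ * δ) := ⟨_, rfl⟩
  have hC0 : 0 < C := by rw [hC]; positivity
  have hC'0 : 0 < C' := by rw [hC']; positivity
  obtain ⟨D, hD⟩ : ∃ D : ℝ, D = (A₂ * C) ^ (δ / 6) := ⟨_, rfl⟩
  have hAC : 0 < A₂ * C := mul_pos hA hC0
  have hD0 : 0 < D := by rw [hD]; exact Real.rpow_pos_of_pos hAC _
  obtain ⟨M, hM⟩ : ∃ M : ℝ, M = A₂ * C' * D ^ 2 + C' * D + 1 := ⟨_, rfl⟩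
  have hM1 : 1 ≤ M := by
    rw [hM]
    have h1 : 0 ≤ A₂ * C' * D ^ 2 := by positivity
    have h2 : 0 ≤ C' * D := by positivity
    linarith
  refine ⟨max 1 (M ^ (6 / δ)), le_max_left _ _, fun a h t hh ht ha ha' hlt => ?_⟩
  have hh1 : 1 ≤ h := (le_max_left _ _).trans hh
  have hh0 : 0 < h := by linarith
  have ht0 : 0 < t := by linarith
  obtain ⟨z, hz⟩ : ∃ z : ℝ, z = h ^ (δ / 6) := ⟨_, rfl⟩
  have hz1 : 1 ≤ z := by rw [hz]; exact Real.one_le_rpow hh1 (by positivity)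
  have hzM : M ≤ z := by
    have h1 : M ^ (6 / δ) ≤ h := (le_max_right _ _).trans hh
    have h2 : (M ^ (6 / δ)) ^ (δ / 6) ≤ h ^ (δ / 6) :=
      Real.rpow_le_rpow (by positivity) h1 (by positivity)
    rw [← Real.rpow_mul (by linarith), show 6 / δ * (δ / 6) = 1 by field_simp,
      Real.rpow_one] at h2
    rw [hz]
    exact h2
  have hexp : ∀ c : ℝ, 0 < c → t ≤ 1 / c * Real.exp (c * t) := by
    intro c hc
    have h1 : c * t ≤ Real.exp (c * t) := by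
      have := Real.add_one_le_exp (c * t)
      linarith
    rw [one_div, inv_mul_eq_div, le_div_iff₀ hc]
    linarith
  have ht1 : t ≤ C * Real.exp (ε₁ / 8 * t) := by
    have := hexp (ε₁ / 8) (by positivity)
    rwa [one_div_div, ← hC] at this
  have ht2 : t ≤ C' * Real.exp (ε₁ * δ / 8 * t) := by
    have := hexp (ε₁ * δ / 8) (by positivity)
    rwa [one_div_div, ← hC'] at this
  have ha1 : Real.exp (a * t) ≤ Real.exp (ε₁ * δ / 8 * t) :=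
    Real.exp_le_exp.2 (mul_le_mul_of_nonneg_right ha' ht0.le)
  have ha2 : Real.exp (a * t) ≤ Real.exp (ε₁ / 8 * t) := by
    refine Real.exp_le_exp.2 (mul_le_mul_of_nonneg_right (ha'.trans ?_) ht0.le)
    nlinarith
  -- the size of `exp (3 ε₁ t / 4)`
  have h34 : Real.exp (3 * ε₁ / 4 * t) < A₂ * C * h := by
    have h1 : Real.exp (ε₁ * t) < A₂ * C * h * Real.exp (ε₁ / 4 * t) := by
      refine hlt.trans_le ?_
      calc A₂ * h * Real.exp (a * t) * t ≤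
            A₂ * h * Real.exp (ε₁ / 8 * t) * (C * Real.exp (ε₁ / 8 * t)) := by gcongr
        _ = A₂ * C * h * (Real.exp (ε₁ / 8 * t) * Real.exp (ε₁ / 8 * t)) := by ring
        _ = _ := by
            rw [← Real.exp_add]
            congr 2
            ring
    have h2 : Real.exp (ε₁ * t) = Real.exp (3 * ε₁ / 4 * t) * Real.exp (ε₁ / 4 * t) := by
      rw [← Real.exp_add]
      congr 1
      ring
    rw [h2] at h1
    exact lt_of_mul_lt_mul_right h1 (Real.exp_pos _).le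
  have hy : Real.exp (ε₁ * δ / 8 * t) ≤ D * z := by
    have h1 : Real.exp (ε₁ * δ / 8 * t) = (Real.exp (3 * ε₁ / 4 * t)) ^ (δ / 6) := by
      rw [← Real.exp_mul]
      congr 1
      ring
    rw [h1, hD, hz, ← Real.mul_rpow hAC.le hh0.le]
    exact Real.rpow_le_rpow (Real.exp_pos _).le h34.le (by positivity)
  have hpow : h ^ (1 + δ) = h * z ^ 6 := by
    rw [Real.rpow_add hh0, Real.rpow_one, hz, ← Real.rpow_natCast (h ^ (δ / 6)) 6,
      ← Real.rpow_mul hh0.le]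
    congr 2
    push_cast
    ring
  have hz0 : 0 < z := by linarith
  rw [hpow]
  have e1 : A₂ * h * Real.exp (a * t) * t ≤ A₂ * C' * D ^ 2 * (h * z ^ 2) := by
    calc A₂ * h * Real.exp (a * t) * t ≤
          A₂ * h * (D * z) * (C' * (D * z)) := by
            have e2 : t ≤ C' * (D * z) := ht2.trans (mul_le_mul_of_nonneg_left hy hC'0.le)
            have e3 : Real.exp (a * t) ≤ D * z := ha1.trans hy
            gcongr
      _ = _ := by ring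
  have hhz : 1 ≤ h * z := by nlinarith
  have hzz : h * z ≤ h * z ^ 2 := by nlinarith [mul_pos hh0 hz0]
  have hzh : z ≤ h * z ^ 2 := by nlinarith [mul_pos hh0 hz0]
  have e4 : t ≤ C' * D * (h * z ^ 2) := by
    calc t ≤ C' * (D * z) := ht2.trans (mul_le_mul_of_nonneg_left hy hC'0.le)
      _ = C' * D * z := by ring
      _ ≤ C' * D * (h * z ^ 2) := by gcongr
  have e5 : (1 : ℝ) ≤ h * z ^ 2 := hhz.trans hzz
  have e6 : A₂ * h * Real.exp (a * t) * t + t + 1 ≤ M * (h * z ^ 2) := by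
    rw [hM]
    linarith
  refine e6.trans ?_
  have hz4 : M ≤ z ^ 4 := by
    have e7 : z ≤ z ^ 4 := by
      calc z = z ^ 1 := (pow_one z).symm
        _ ≤ z ^ 4 := pow_le_pow_right₀ hz1 (by norm_num)
    exact hzM.trans e7
  calc M * (h * z ^ 2) ≤ z ^ 4 * (h * z ^ 2) := by gcongr
    _ = h * z ^ 6 := by ring

end Vale.P028
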