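import Vale.Agent.P028.MathlibUsed
import Vale.Agent.P028.SCore
import Vale.Agent.P028.RTypeA
import Vale.Agent.P028.UNum

/-!
# Far pairs with `∑_{p ∣ q} (log p)^A / p ≤ H`: good scales, and one class with small arcs

Copy of `RTypeA.lean` (`rt_common`, `typeR_good`, `typeR_class`) with `coreS` in place of `coreT`,
`V₀ = exp (A₂ (H/s)^(1/A) log (1/s)) = exp (A₂ H^(1/A) e^(t/A) t)`, `t = log (1/s)`,
`A = 8/(ε₁ δ) + 1`, `unum_good` in place of the hypothesis of `typeR_good`, `unum_bad` in place of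
`hard_num2` (`l = H^(1/A)`, `classI_size` with `l`). For `H^(1/A) ≤ h₀` in the bad case: `unum_good`
says that `t < max t₀ ((2/ε₁) log h₀)`, so `s` is bounded below: `psum ≤ F^2`.
-/

namespace Vale.P028

open Finset

/-- near part and core, with a free lower bound `V₀` for the far cofactors -/
theorem uh_common {A C₁ ε₁ : ℝ} (hA : 1 ≤ A) (hC₁ : 0 < C₁)
    (hnear : ∀ (γ s : ℝ), 0 < s → s ≤ 1 / 1000 →
      ∀ (N : ℕ) (ψ f : ℕ → ℝ), (∀ q, 0 ≤ f q ∧ f q ≤ ψ q) →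
        psum (fun q r => Rel γ ψ s q r ∧ Far γ s (cofac q r) (cofac r q) ∧
            cofac q r ≤ ⌊Real.exp (s ^ (-ε₁))⌋₊ ∧ cofac r q ≤ ⌊Real.exp (s ^ (-ε₁))⌋₊) N f f ≤
          C₁ * s ^ (1 + 1 / 64 : ℝ) * ((∑ q ∈ Icc 1 N, f q) + (∑ q ∈ Icc 1 N, f q) ^ 2)) :
    ∃ C c A₂ : ℝ, 0 < C ∧ 0 < c ∧ 0 < A₂ ∧
      ∀ γ s H V₀ : ℝ, 0 < s → s ≤ 1 / 1000 → 1 ≤ H →
      Real.exp (A₂ * (H / s) ^ (1 / A) * Real.log (1 / s)) ≤ V₀ →
      ∀ (N : ℕ) (ψ f : ℕ → ℝ), (∀ q, 0 ≤ ψ q) →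
        (∀ q, 0 ≤ f q ∧ f q ≤ ψ q * (q.totient / q)) →
        (∀ q, f q ≠ 0 → 0 < q ∧ hg A q ≤ H) →
        (∀ q r : ℕ, f q ≠ 0 → f r ≠ 0 → TA γ ψ s q r →
          Real.exp (s ^ (-ε₁)) ≤ max (cofac q r : ℝ) (cofac r q : ℝ) →
          V₀ ≤ max (cofac q r : ℝ) (cofac r q : ℝ)) →
        psum (TA γ ψ s) N f f ≤
          C * s ^ (1 + c) * ((∑ q ∈ Icc 1 N, f q) + (∑ q ∈ Icc 1 N, f q) ^ 2) := by
  classical
  obtain ⟨θ, c₂, A₂, C₂, hθ, hθ1, hc₂, hA₂, hC₂, hB⟩ := coreS hA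
  refine ⟨C₁ + C₂, min (1 / 64) c₂, A₂, by positivity, lt_min (by norm_num) hc₂, hA₂, ?_⟩
  intro γ s H V₀ hs hs3 hH hV₀ N ψ f hψ hf hsupp hcof
  set F : ℝ := ∑ q ∈ Icc 1 N, f q with hFdef
  have hf0 : ∀ q, 0 ≤ f q := fun q => (hf q).1
  have hF0 : 0 ≤ F := sum_nonneg fun q _ => hf0 q
  have hFF : 0 ≤ F + F ^ 2 := by (clear * - hF0; positivity)
  have hfψ : ∀ q, f q ≤ ψ q := by
    intro q
    refine (hf q).2.trans ?_
    calc ψ q * (q.totient / q) ≤ ψ q * 1 := mul_le_mul_of_nonneg_left (tot_le_one q) (hψ q)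
      _ = ψ q := mul_one _
  have hs1 : s ≤ 1 := by linarith only [hs3]
  obtain ⟨c, hc⟩ : ∃ c, c = min (1 / 64) c₂ := ⟨_, rfl⟩
  rw [← hc]
  have hcc1 : c ≤ 1 / 64 := by rw [hc]; exact min_le_left _ _
  have hcc2 : c ≤ c₂ := by rw [hc]; exact min_le_right _ _
  have hp0 : 0 ≤ s ^ (1 + c) := (Real.rpow_pos_of_pos hs _).le
  have hp1 : s ^ (1 + 1 / 64 : ℝ) ≤ s ^ (1 + c) :=
    Real.rpow_le_rpow_of_exponent_ge hs hs1 (by linarith only [hcc1])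
  have hp2 : s ^ (1 + c₂) ≤ s ^ (1 + c) :=
    Real.rpow_le_rpow_of_exponent_ge hs hs1 (by linarith only [hcc2])
  obtain ⟨V, hV⟩ : ∃ V : ℕ, V = ⌊Real.exp (s ^ (-ε₁))⌋₊ := ⟨_, rfl⟩
  have hVlt : ∀ n : ℕ, ¬ n ≤ V → Real.exp (s ^ (-ε₁)) ≤ n := by
    intro n hn
    rw [not_le, hV] at hn
    exact (Nat.lt_of_floor_lt hn).le
  have hnearpart : psum (fun q r => Rel γ ψ s q r ∧ Far γ s (cofac q r) (cofac r q) ∧
          cofac q r ≤ V ∧ cofac r q ≤ V) N f f ≤ C₁ * s ^ (1 + c) * (F + F ^ 2) := by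
    rw [hV]
    refine (hnear γ s hs hs3 N ψ f (fun q => ⟨hf0 q, hfψ q⟩)).trans ?_
    exact mul_le_mul_of_nonneg_right (mul_le_mul_of_nonneg_left hp1 hC₁.le) hFF
  have hcore : psum (fun q r => Rel γ ψ s q r ∧ Far γ s (cofac q r) (cofac r q) ∧
          V₀ ≤ max (cofac q r : ℝ) (cofac r q : ℝ)) N f f ≤ C₂ * s ^ (1 + c) * (F + F ^ 2) := by
    have h4 : F ^ (2 * θ) ≤ F + F ^ 2 :=
      rpow_le_add_sq hF0 (by linarith only [hθ]) (by linarith only [hθ1])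
    have h5 : 0 ≤ F ^ (2 * θ) := Real.rpow_nonneg hF0 _
    refine (hB γ H s V₀ hH hs hs3 hV₀ N ψ f hψ hf hsupp).trans ?_
    exact mul_le_mul (mul_le_mul_of_nonneg_left hp2 hC₂.le) h4 h5 (mul_nonneg hC₂.le hp0)
  have hsplit : psum (TA γ ψ s) N f f ≤
      psum (fun q r => Rel γ ψ s q r ∧ Far γ s (cofac q r) (cofac r q) ∧
          cofac q r ≤ V ∧ cofac r q ≤ V) N f f +
      psum (fun q r => Rel γ ψ s q r ∧ Far γ s (cofac q r) (cofac r q) ∧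
          V₀ ≤ max (cofac q r : ℝ) (cofac r q : ℝ)) N f f := by
    have h1 : psum (TA γ ψ s) N f f ≤ psum (fun q r => TA γ ψ s q r ∧ f q ≠ 0 ∧ f r ≠ 0) N f f := by
      apply psum_mono _ _ _ _ _ _ _ hf0 hf0
      rintro q _ r _ hR hne
      exact ⟨⟨hR, left_ne_zero_of_mul hne, right_ne_zero_of_mul hne⟩, le_rfl⟩
    refine h1.trans ?_
    apply psum_or_le _ _ _ _ _ _ hf0 hf0
    rintro q r ⟨hR, hq, hr⟩
    by_cases h : cofac q r ≤ V ∧ cofac r q ≤ V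
    · exact Or.inl ⟨hR.1, hR.2.1, h⟩
    · refine Or.inr ⟨hR.1, hR.2.1, hcof q r hq hr hR ?_⟩
      rw [not_and_or] at h
      rcases h with h' | h'
      · exact (hVlt _ h').trans (le_max_left _ _)
      · exact (hVlt _ h').trans (le_max_right _ _)
  calc psum (TA γ ψ s) N f f
      ≤ C₁ * s ^ (1 + c) * (F + F ^ 2) + C₂ * s ^ (1 + c) * (F + F ^ 2) :=
        hsplit.trans (add_le_add hnearpart hcore)
    _ = (C₁ + C₂) * s ^ (1 + c) * (F + F ^ 2) := by ring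

/-- `(H/s)^(1/A) = H^(1/A) e^(t/A)` -/
theorem uh_pow {s H A : ℝ} (hs : 0 < s) (hH : 1 ≤ H) :
    (H / s) ^ (1 / A) = H ^ (1 / A) * Real.exp (1 / A * Real.log (1 / s)) := by
  rw [Real.div_rpow (by linarith) hs.le, div_eq_mul_inv, ← Real.rpow_neg hs.le,
    rpow_neg_eq_exp hs]

theorem typeUH {δ : ℝ} (hδ : 0 < δ) (hδ1 : δ ≤ 1) :
    ∃ A C c ε₁ t₀ : ℝ, 1 ≤ A ∧ 0 < C ∧ 0 < c ∧ 0 < ε₁ ∧ 1 ≤ t₀ ∧ 8 ≤ ε₁ * A ∧
      (∀ γ s H : ℝ, 0 < s → s ≤ 1 / 1000 → 1 ≤ H → t₀ ≤ Real.log (1 / s) →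
        H ^ (1 / A) ≤ Real.exp (ε₁ / 2 * Real.log (1 / s)) →
        ∀ (N : ℕ) (ψ f : ℕ → ℝ), (∀ q, 0 ≤ ψ q) →
          (∀ q, 0 ≤ f q ∧ f q ≤ ψ q * (q.totient / q)) →
          (∀ q, f q ≠ 0 → 0 < q ∧ hg A q ≤ H) →
          psum (TA γ ψ s) N f f ≤
            C * s ^ (1 + c) * ((∑ q ∈ Icc 1 N, f q) + (∑ q ∈ Icc 1 N, f q) ^ 2)) ∧
      (∀ γ s H : ℝ, 0 < s → s ≤ 1 / 1000 → 1 ≤ H →
        ∀ (N : ℕ) (ψ f : ℕ → ℝ), (∀ q, 0 ≤ ψ q) →
          (∀ q, 0 ≤ f q ∧ f q ≤ ψ q * (q.totient / q)) →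
          (∀ q, f q ≠ 0 → 0 < q ∧ hg A q ≤ H ∧ ψ q ≤ Real.exp (-(H ^ (1 / A)) ^ (1 + δ))) →
          psum (TA γ ψ s) N f f ≤
            C * s ^ (1 + c) * ((∑ q ∈ Icc 1 N, f q) + (∑ q ∈ Icc 1 N, f q) ^ 2)) := by
  obtain ⟨C₁, ε₁, hC₁, hε₁, hnear⟩ := near_part
  obtain ⟨A, hAdef⟩ : ∃ A : ℝ, A = 8 / (ε₁ * δ) + 1 := ⟨_, rfl⟩
  have hεδ : 0 < ε₁ * δ := mul_pos hε₁ hδ
  have hA8 : 0 < 8 / (ε₁ * δ) := by positivity
  have hA1 : 1 ≤ A := by linarith only [hAdef, hA8]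
  have hA0 : 0 < A := by linarith only [hA1]
  have hAe : 8 ≤ ε₁ * A := by
    have h1 : ε₁ * (8 / (ε₁ * δ)) = 8 / δ := by field_simp
    have h2 : 8 ≤ 8 / δ := by rw [le_div_iff₀ hδ]; linarith only [hδ1]
    rw [hAdef, mul_add, h1]
    linarith only [h2, hε₁]
  have ha0 : 0 ≤ 1 / A := by positivity
  have ha1 : 1 / A ≤ ε₁ * δ / 8 := by
    have h1 : 8 / (ε₁ * δ) ≤ A := by linarith only [hAdef]
    rw [div_le_iff₀ hεδ] at h1
    rw [div_le_iff₀ hA0]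
    linarith only [h1]
  have ha2 : 1 / A ≤ ε₁ / 8 := by
    have h1 : ε₁ * δ ≤ ε₁ * 1 := mul_le_mul_of_nonneg_left hδ1 hε₁.le
    linarith only [h1, ha1]
  obtain ⟨C, c, A₂, hC, hc, hA₂, h⟩ := uh_common (ε₁ := ε₁) hA1 hC₁ hnear
  obtain ⟨t₀, ht₀1, ht₀⟩ := unum_good hA₂ hε₁
  obtain ⟨h₀, hh₀1, hh₀⟩ := unum_bad hA₂ hε₁ hδ hδ1
  obtain ⟨t₂, ht₂⟩ : ∃ t₂ : ℝ, t₂ = max t₀ (2 / ε₁ * Real.log h₀) := ⟨_, rfl⟩
  have hE0 : 0 < Real.exp (t₂ * (1 + c)) := Real.exp_pos _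
  refine ⟨A, C + Real.exp (t₂ * (1 + c)), c, ε₁, t₀, hA1, by positivity, hc, hε₁, ht₀1, hAe,
    ?_, ?_⟩
  · intro γ s H hs hs3 hH ht hHt N ψ f hψ hf hsupp
    have hf0 : ∀ q, 0 ≤ f q := fun q => (hf q).1
    have hF0 : 0 ≤ ∑ q ∈ Icc 1 N, f q := sum_nonneg fun q _ => hf0 q
    have hp0 : 0 ≤ s ^ (1 + c) := (Real.rpow_pos_of_pos hs _).le
    have h1 := ht₀ (1 / A) (H ^ (1 / A)) (Real.log (1 / s)) ht
      (Real.rpow_nonneg (by linarith only [hH]) _) ha2 hHt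
    refine (h γ s H (Real.exp (s ^ (-ε₁))) hs hs3 hH ?_ N ψ f hψ hf hsupp
      (fun q r _ _ _ h => h)).trans ?_
    · rw [rpow_neg_eq_exp hs, uh_pow hs hH]
      apply Real.exp_le_exp.2
      rw [← mul_assoc]
      exact h1
    · apply mul_le_mul_of_nonneg_right _ (by positivity)
      apply mul_le_mul_of_nonneg_right _ hp0
      linarith only [hE0]
  · intro γ s H hs hs3 hH N ψ f hψ hf hsupp
    have hsupp' : ∀ q, f q ≠ 0 → 0 < q ∧ hg A q ≤ H := fun q hq =>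
      ⟨(hsupp q hq).1, (hsupp q hq).2.1⟩
    have hf0 : ∀ q, 0 ≤ f q := fun q => (hf q).1
    set F : ℝ := ∑ q ∈ Icc 1 N, f q with hFdef
    have hF0 : 0 ≤ F := sum_nonneg fun q _ => hf0 q
    have hp0 : 0 ≤ s ^ (1 + c) := (Real.rpow_pos_of_pos hs _).le
    have hFF : 0 ≤ F + F ^ 2 := by (clear * - hF0; positivity)
    have hup : C * s ^ (1 + c) * (F + F ^ 2) ≤
        (C + Real.exp (t₂ * (1 + c))) * s ^ (1 + c) * (F + F ^ 2) := by
      apply mul_le_mul_of_nonneg_right _ hFF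
      apply mul_le_mul_of_nonneg_right _ hp0
      linarith only [hE0]
    have hs4 : s ≤ 1 / 4 := by linarith only [hs3]
    have ht1 := log_inv_ge_one hs hs4
    have hls : Real.log s = -Real.log (1 / s) := by rw [one_div, Real.log_inv, neg_neg]
    have hh1 : 1 ≤ H ^ (1 / A) := Real.one_le_rpow hH ha0
    rcases le_or_gt (A₂ * H ^ (1 / A) * Real.exp (1 / A * Real.log (1 / s)) * Real.log (1 / s))
        (Real.exp (ε₁ * Real.log (1 / s))) with hcase | hcase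
    · refine le_trans (h γ s H (Real.exp (s ^ (-ε₁))) hs hs3 hH ?_ N ψ f hψ hf hsupp'
        (fun q r _ _ _ h => h)) hup
      rw [rpow_neg_eq_exp hs, uh_pow hs hH]
      apply Real.exp_le_exp.2
      rw [← mul_assoc]
      exact hcase
    · rcases le_or_gt h₀ (H ^ (1 / A)) with hl | hl
      · -- the hard range
        have hmain := hh₀ _ _ _ hl ht1 ha0 ha1 hcase
        have hV0 : Real.exp (A₂ * (H / s) ^ (1 / A) * Real.log (1 / s)) ≤
            s / 2 * Real.exp ((H ^ (1 / A)) ^ (1 + δ)) := by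
          have h4 : s / 2 * Real.exp ((H ^ (1 / A)) ^ (1 + δ)) =
              Real.exp (Real.log s - Real.log 2 + (H ^ (1 / A)) ^ (1 + δ)) := by
            rw [Real.exp_add, Real.exp_sub, Real.exp_log hs, Real.exp_log (by norm_num)]
          rw [h4]
          apply Real.exp_le_exp.2
          have hlog2 : Real.log 2 ≤ 1 := by
            have := Real.log_two_lt_d9
            linarith only [this]
          rw [uh_pow hs hH, ← mul_assoc]
          linarith only [hmain, hls, hlog2]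
        refine le_trans (h γ s H _ hs hs3 hH hV0 N ψ f hψ hf hsupp' ?_) hup
        intro q r hq hr hTA _
        exact classI_size hψ (hsupp q hq).2.2 (hsupp r hr).2.2 hTA.2.2
      · -- the level is bounded below
        have htt : Real.log (1 / s) ≤ t₂ := by
          by_contra hcon
          rw [not_le, ht₂, max_lt_iff] at hcon
          have h5 : H ^ (1 / A) ≤ Real.exp (ε₁ / 2 * Real.log (1 / s)) := by
            have h6 : Real.log h₀ ≤ ε₁ / 2 * Real.log (1 / s) := by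
              have h7 := hcon.2.le
              have h8 : ε₁ / 2 * (2 / ε₁ * Real.log h₀) = Real.log h₀ := by field_simp
              rw [← h8]
              exact mul_le_mul_of_nonneg_left h7 (by positivity)
            rw [Real.log_le_iff_le_exp (by linarith only [hh₀1])] at h6
            linarith only [h6, hl]
          have := ht₀ (1 / A) (H ^ (1 / A)) (Real.log (1 / s)) hcon.1.le
            (by linarith only [hh1]) ha2 h5
          linarith only [this, hcase]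
        have h1 : 1 ≤ Real.exp (t₂ * (1 + c)) * s ^ (1 + c) := by
          rw [Real.rpow_def_of_pos hs, ← Real.exp_add]
          apply Real.one_le_exp
          have h6 : 0 ≤ (t₂ - Real.log (1 / s)) * (1 + c) :=
            mul_nonneg (by linarith only [htt]) (by linarith only [hc])
          rw [hls]
          linarith only [h6]
        calc psum (TA γ ψ s) N f f ≤ F ^ 2 := rt_psum_le_sq _ N f hf0
          _ ≤ 1 * (F + F ^ 2) := by linarith only [hF0]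
          _ ≤ (Real.exp (t₂ * (1 + c)) * s ^ (1 + c)) * (F + F ^ 2) :=
              mul_le_mul_of_nonneg_right h1 hFF
          _ ≤ (C + Real.exp (t₂ * (1 + c))) * s ^ (1 + c) * (F + F ^ 2) := by
              apply mul_le_mul_of_nonneg_right _ hFF
              apply mul_le_mul_of_nonneg_right _ hp0
              linarith only [hC]

end Vale.P028
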