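import Vale.Agent.P028.MathlibUsed
import Vale.Agent.P028.UClass
import Vale.Agent.P028.RMain

/-!
# Theorem U
-/

namespace Vale.P028

open Finset MeasureTheory Filter

/-- no loss for small arcs -/
theorem theoremU_small {δ : ℝ} (hδ : 0 < δ) (hδ1 : δ ≤ 1) :
    ∃ A : ℝ, 1 ≤ A ∧ ∀ (γ : ℝ) (ψ : ℕ → ℝ), (∀ q, 0 ≤ ψ q) → ∀ B : Set ℕ,
      (∀ q ∈ B, ψ q ≤ Real.exp (-(1 + hg A q) ^ ((1 + δ) / A))) →
      ¬ Summable (B.indicator (fun q : ℕ => ((q.totient : ℝ) / q) * ψ q)) →
      volume (W γ ψ)ᶜ = 0 := by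
  classical
  obtain ⟨A, hA1, hTA⟩ := typeA_U hδ hδ1
  refine ⟨A, hA1, ?_⟩
  intro γ ψ hψ B hB hdiv
  refine full_P hTA γ ψ hψ ?_
  intro N
  have hg0 : ∀ q : ℕ, 0 ≤ ((q.totient : ℝ) / q) * ψ q := fun q =>
    mul_nonneg (by (clear * -; positivity)) (hψ q)
  obtain ⟨S, hS, hF1⟩ := exists_finset_sum_ge
    (g := B.indicator (fun q : ℕ => ((q.totient : ℝ) / q) * ψ q))
    (fun q => Set.indicator_nonneg (fun q _ => hg0 q) q) hdiv (N + 1)
  have hSA : ∀ q ∈ S, q ∈ B := fun q hq => Set.mem_of_indicator_ne_zero (hS q hq).2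
  have hsum : ∑ q ∈ S, B.indicator (fun q : ℕ => ((q.totient : ℝ) / q) * ψ q) q =
      ∑ q ∈ S, ((q.totient : ℝ) / q) * ψ q :=
    sum_congr rfl fun q hq => Set.indicator_of_mem (hSA q hq) _
  rw [hsum] at hF1
  have hpos : ∀ q ∈ S, 0 < ψ q := by
    intro q hq
    refine lt_of_le_of_ne (hψ q) ?_
    intro h0
    have h1 := (hS q hq).2
    rw [Set.indicator_of_mem (hSA q hq), ← h0, mul_zero] at h1
    exact h1 rfl
  refine ⟨S, fun q hq => ⟨by have := (hS q hq).1; omega, hpos q hq⟩, hF1, ?_⟩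
  intro q hq
  by_cases h : q ∈ S
  · beta_reduce
    rw [if_pos h]
    exact ⟨by have := (hS q h).1; omega, hB q (hSA q h)⟩
  · simp only [if_neg h, ne_eq, not_true_eq_false] at hq

open Classical in
/-- **Theorem U** -/
theorem theoremU {δ : ℝ} (hδ : 0 < δ) :
    ∃ A : ℝ, 1 ≤ A ∧ ∀ (γ : ℝ) (ψ : ℕ → ℝ), (∀ q, 0 ≤ ψ q) →
      ((∃ C : ℝ, ¬ Summable (fun q : ℕ => if ∑ p ∈ q.primeFactors, (Real.log p) ^ A / p ≤ C then
          ((q.totient : ℝ) / q) * ψ q else 0)) ∨
        ¬ Summable (fun q : ℕ => ((q.totient : ℝ) / q) * ψ q /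
          (if ψ q ≤ Real.exp (-(1 + ∑ p ∈ q.primeFactors, (Real.log p) ^ A / p) ^ ((1 + δ) / A))
            then 1 else (Real.log (2 + 1 / ψ q)) ^ δ))) →
      volume (W γ ψ)ᶜ = 0 := by
  obtain ⟨A, hA1, hsmall⟩ := theoremU_small (δ := min δ 1) (lt_min hδ one_pos) (min_le_right _ _)
  have hA0 : 0 < A := by linarith
  refine ⟨A, hA1, ?_⟩
  intro γ ψ hψ
  have hg0 : ∀ q : ℕ, 0 ≤ ((q.totient : ℝ) / q) * ψ q := fun q =>
    mul_nonneg (by (clear * -; positivity)) (hψ q)
  -- the weighted divergence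
  have hmain : ¬ Summable (fun q : ℕ => ((q.totient : ℝ) / q) * ψ q /
          (if ψ q ≤ Real.exp (-(1 + ∑ p ∈ q.primeFactors, (Real.log p) ^ A / p) ^ ((1 + δ) / A))
            then 1 else (Real.log (2 + 1 / ψ q)) ^ δ)) → volume (W γ ψ)ᶜ = 0 := by
    intro hdiv
    set B : Set ℕ := {q | ψ q ≤ Real.exp
      (-(1 + ∑ p ∈ q.primeFactors, (Real.log p) ^ A / p) ^ ((1 + δ) / A))} with hBdef
    by_cases h1 : Summable (B.indicator (fun q : ℕ => ((q.totient : ℝ) / q) * ψ q))
    · by_cases h2 : Summable (fun q : ℕ => ((q.totient : ℝ) / q) * ψ q /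
        (Real.log (2 + 1 / ψ q)) ^ δ)
      · exfalso
        apply hdiv
        refine Summable.of_nonneg_of_le ?_ ?_ (h1.add h2)
        · intro q
          apply div_nonneg (hg0 q)
          split_ifs
          · exact zero_le_one
          · apply Real.rpow_nonneg
            apply Real.log_nonneg
            have := one_div_nonneg.mpr (hψ q)
            linarith
        · intro q
          have hl : 0 ≤ (Real.log (2 + 1 / ψ q)) ^ δ := by
            apply Real.rpow_nonneg
            apply Real.log_nonneg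
            have := one_div_nonneg.mpr (hψ q)
            linarith
          split_ifs with h
          · rw [div_one, Set.indicator_of_mem (show q ∈ B from h)]
            have := div_nonneg (hg0 q) hl
            linarith
          · rw [Set.indicator_of_notMem (show q ∉ B from h), zero_add]
      · exact theoremS γ ψ hψ hδ h2
    · refine hsmall γ ψ hψ B ?_ h1
      intro q hq
      have hq' : ψ q ≤ Real.exp
        (-(1 + ∑ p ∈ q.primeFactors, (Real.log p) ^ A / p) ^ ((1 + δ) / A)) := hq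
      refine hq'.trans (Real.exp_le_exp.mpr (neg_le_neg ?_))
      have h4 := hg_nonneg A q
      have h5 : (1 + hg A q) ^ ((1 + min δ 1) / A) ≤ (1 + hg A q) ^ ((1 + δ) / A) := by
        apply Real.rpow_le_rpow_of_exponent_le (by linarith)
        apply div_le_div_of_nonneg_right _ hA0.le
        have := min_le_left δ 1
        linarith
      exact h5
  rintro (⟨C, hC⟩ | hdiv)
  · apply hmain
    intro hs
    apply hC
    obtain ⟨E, hE⟩ : ∃ E : ℝ, E = Real.log (2 + Real.exp ((1 + max C 0) ^ ((1 + δ) / A))) :=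
      ⟨_, rfl⟩
    have hE0 : 0 ≤ E := by
      rw [hE]
      apply Real.log_nonneg
      have := Real.exp_pos ((1 + max C 0) ^ ((1 + δ) / A))
      linarith
    have hEδ : 0 ≤ E ^ δ := Real.rpow_nonneg hE0 _
    refine Summable.of_nonneg_of_le ?_ ?_ (hs.mul_left (E ^ δ + 1))
    · intro q
      split_ifs
      · exact hg0 q
      · exact le_rfl
    · intro q
      have hsg := hg_nonneg A q
      unfold hg at hsg
      have hl0 : 0 < Real.log (2 + 1 / ψ q) := Real.log_pos (by
        have := one_div_nonneg.mpr (hψ q)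
        linarith)
      have hw0 : 0 ≤ ((q.totient : ℝ) / q) * ψ q /
        (if ψ q ≤ Real.exp (-(1 + ∑ p ∈ q.primeFactors, (Real.log p) ^ A / p) ^ ((1 + δ) / A))
          then 1 else (Real.log (2 + 1 / ψ q)) ^ δ) := by
        apply div_nonneg (hg0 q)
        split_ifs
        · exact zero_le_one
        · exact Real.rpow_nonneg hl0.le _
      by_cases hCq : ∑ p ∈ q.primeFactors, (Real.log p) ^ A / p ≤ C
      · rw [if_pos hCq]
        by_cases hψ' : ψ q ≤ Real.exp
            (-(1 + ∑ p ∈ q.primeFactors, (Real.log p) ^ A / p) ^ ((1 + δ) / A))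
        · rw [if_pos hψ', div_one]
          have := hg0 q
          nlinarith
        · have hlδ : 0 < (Real.log (2 + 1 / ψ q)) ^ δ := Real.rpow_pos_of_pos hl0 _
          rw [if_neg hψ', ← mul_div_assoc, le_div_iff₀ hlδ]
          rw [mul_comm (E ^ δ + 1)]
          apply mul_le_mul_of_nonneg_left _ (hg0 q)
          push Not at hψ'
          have h1 : 1 / ψ q ≤ Real.exp ((1 + max C 0) ^ ((1 + δ) / A)) := by
            have h2 : Real.exp (-(1 + max C 0) ^ ((1 + δ) / A)) ≤ ψ q := by
              refine le_trans (Real.exp_le_exp.mpr (neg_le_neg ?_)) hψ'.le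
              apply Real.rpow_le_rpow (by linarith) _ (div_nonneg (by linarith) hA0.le)
              have := le_max_left C 0
              linarith
            rw [one_div]
            rw [Real.exp_neg] at h2
            exact inv_le_of_inv_le₀ (Real.exp_pos _) h2
          have h3 : Real.log (2 + 1 / ψ q) ≤ E := by
            rw [hE]
            apply Real.log_le_log _ (by linarith)
            have := one_div_nonneg.mpr (hψ q)
            linarith
          have h4 : (Real.log (2 + 1 / ψ q)) ^ δ ≤ E ^ δ := Real.rpow_le_rpow hl0.le h3 hδ.le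
          linarith
      · rw [if_neg hCq]
        exact mul_nonneg (by linarith) hw0
  · exact hmain hdiv

end Vale.P028
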